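import Crest.Agent.R152.Base3

set_option autoImplicit false

/-! Row 152, ASM part 0: definitions shared by the deterministic end of the proof. -/

open Crest.FinProb Crest.ProbabilityR.SignMatrix Crest.Agent.R152.Base

namespace Crest.Agent.R152.Asm

/-- the sign vector of a coin vector -/
def sv {ι : Type*} (x : ι → Bool) : ι → ℤ := fun i => sg (x i)

/-- the lattice `A ℤⁿ` -/
def rng {n : ℕ} (A : Matrix (Fin n) (Fin n) ℤ) : AddSubgroup (Fin n → ℤ) :=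
  (Matrix.mulVecLin A).range.toAddSubgroup

theorem mem_rng {n : ℕ} {A : Matrix (Fin n) (Fin n) ℤ} {z : Fin n → ℤ} :
    z ∈ rng A ↔ ∃ w : Fin n → ℤ, A.mulVec w = z := by
  simp [rng]

/-- the order of `x` in `ℤⁿ / A ℤⁿ` -/
noncomputable def od {n : ℕ} (A : Matrix (Fin n) (Fin n) ℤ) (x : Fin n → ℤ) : ℕ :=
  addOrderOf (QuotientAddGroup.mk x : (Fin n → ℤ) ⧸ rng A)

theorem od_dvd_iff {n : ℕ} {A : Matrix (Fin n) (Fin n) ℤ} {x : Fin n → ℤ} {m : ℕ} :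
    od A x ∣ m ↔ (m : ℤ) • x ∈ rng A := by
  unfold od
  rw [addOrderOf_dvd_iff_nsmul_eq_zero, ← QuotientAddGroup.mk_nsmul, QuotientAddGroup.eq_zero_iff,
    natCast_zsmul]

/-- `A⁻¹ x` over `ℚ` -/
noncomputable def qinv {n : ℕ} (A : Matrix (Fin n) (Fin n) ℤ) (x : Fin n → ℤ) : Fin n → ℚ :=
  ((A.map (Int.cast : ℤ → ℚ))⁻¹).mulVec (fun i => (x i : ℚ))

/-- `xᵀ A⁻¹ y` -/
noncomputable def bil {n : ℕ} (A : Matrix (Fin n) (Fin n) ℤ) (x y : Fin n → ℤ) : ℚ :=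
  dotProduct (fun i => (x i : ℚ)) (qinv A y)

theorem bil_add_left {n : ℕ} (A : Matrix (Fin n) (Fin n) ℤ) (x x' y : Fin n → ℤ) :
    bil A (x + x') y = bil A x y + bil A x' y := by
  unfold bil
  rw [← add_dotProduct]
  congr 1
  funext i
  simp

theorem bil_neg_left {n : ℕ} (A : Matrix (Fin n) (Fin n) ℤ) (x y : Fin n → ℤ) :
    bil A (-x) y = - bil A x y := by
  unfold bil
  rw [← neg_dotProduct]
  congr 1

theorem bil_zero_left {n : ℕ} (A : Matrix (Fin n) (Fin n) ℤ) (y : Fin n → ℤ) :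
    bil A 0 y = 0 := by
  unfold bil
  simp [dotProduct]

/-- `{z | m • zᵀ A⁻¹ x ∈ ℤ}` -/
noncomputable def perp {n : ℕ} (A : Matrix (Fin n) (Fin n) ℤ) (x : Fin n → ℤ) (m : ℕ) :
    AddSubgroup (Fin n → ℤ) where
  carrier := {z | ∃ t : ℤ, (m : ℚ) * bil A z x = t}
  add_mem' := by
    rintro a b ⟨s, hs⟩ ⟨t, ht⟩
    exact ⟨s + t, by rw [bil_add_left, mul_add, hs, ht]; push_cast; ring⟩
  zero_mem' := ⟨0, by rw [bil_zero_left]; simp⟩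
  neg_mem' := by
    rintro a ⟨s, hs⟩
    exact ⟨-s, by rw [bil_neg_left, mul_neg, hs]; push_cast; ring⟩

theorem mem_perp {n : ℕ} {A : Matrix (Fin n) (Fin n) ℤ} {x z : Fin n → ℤ} {m : ℕ} :
    z ∈ perp A x m ↔ ∃ t : ℤ, (m : ℚ) * bil A z x = t := Iff.rfl

/-- `{z | m z ∈ A ℤⁿ}` -/
def kil {n : ℕ} (A : Matrix (Fin n) (Fin n) ℤ) (m : ℕ) : AddSubgroup (Fin n → ℤ) where
  carrier := {z | (m : ℤ) • z ∈ rng A}
  add_mem' := by
    intro a b ha hb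
    change (m : ℤ) • (a + b) ∈ rng A
    rw [smul_add]
    exact (rng A).add_mem ha hb
  zero_mem' := by
    change (m : ℤ) • (0 : Fin n → ℤ) ∈ rng A
    rw [smul_zero]
    exact (rng A).zero_mem
  neg_mem' := by
    intro a ha
    change (m : ℤ) • (-a) ∈ rng A
    rw [smul_neg]
    exact (rng A).neg_mem ha

theorem mem_kil {n : ℕ} {A : Matrix (Fin n) (Fin n) ℤ} {z : Fin n → ℤ} {m : ℕ} :
    z ∈ kil A m ↔ (m : ℤ) • z ∈ rng A := Iff.rfl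

/-- delete the index `i` -/
def del {n : ℕ} (M : Matrix (Fin (n + 1)) (Fin (n + 1)) ℤ) (i : Fin (n + 1)) :
    Matrix (Fin n) (Fin n) ℤ := M.submatrix i.succAbove i.succAbove

/-- the row `i` without its diagonal entry -/
def row {n : ℕ} (M : Matrix (Fin (n + 1)) (Fin (n + 1)) ℤ) (i : Fin (n + 1)) : Fin n → ℤ :=
  fun j => M i (i.succAbove j)

/-- no prime divides all entries -/
def Prim {ι : Type*} (k : ι → ℤ) : Prop := ∀ d : ℤ, (∀ i, d ∣ k i) → IsUnit d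

/-- (GLO): outside a `4^{-n}` event every lattice `A ℤⁿ ≤ Λ ≤ ℤⁿ` of giant index has few sign
vectors. -/
def GLO (p : ℝ) : Prop := ∀ d : ℝ, 0 < d → ∀ b : ℝ, 0 < b → ∃ n0 : ℕ, ∀ n : ℕ, n0 ≤ n →
  bernoulliProb p {w : Sym2 (Fin n) → Bool | (symMat w).det ≠ 0 ∧
    ∃ L : AddSubgroup (Fin n → ℤ), rng (symMat w) ≤ L ∧ (n : ℝ) ^ (d * n) ≤ (L.index : ℝ) ∧
      (2 : ℝ) ^ (b * n) < (Nat.card {x : Fin n → Bool // sv x ∈ L} : ℝ)} ≤ (1 / 4 : ℝ) ^ n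

/-- (T1'): if the determinant is tiny there are few relevant vectors. -/
def T1p (p : ℝ) : Prop := ∀ C : ℕ, ∀ b : ℝ, 0 < b → ∃ eta : ℝ, 0 < eta ∧ ∃ n0 : ℕ, ∀ n : ℕ,
  n0 ≤ n → bernoulliProb p {w : Sym2 (Fin n) → Bool | (symMat w).det ≠ 0 ∧
    ((symMat w).det.natAbs : ℝ) ≤ (n : ℝ) ^ (eta * n) ∧
    (2 : ℝ) ^ (b * n) < (Nat.card {x : Fin n → Bool // (∃ t : ℤ, bil (symMat w) (sv x) (sv x) = t) ∧
      ∀ i, |qinv (symMat w) (sv x) i| ≤ (n : ℚ) ^ C} : ℝ)} ≤ (1 / 4 : ℝ) ^ n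

/-! FROZEN STATEMENTS of the deterministic modules (proved in Adj.lean, PartI.lean, PartII.lean):

ADJ:
theorem adj_main {n : ℕ} (M : Matrix (Fin (n + 1)) (Fin (n + 1)) ℤ) (hM : M.transpose = M)
    (hdet : M.det = 0) (hex : ∃ i, (del M i).det ≠ 0) :
    ∃ (k : Fin (n + 1) → ℤ) (c : ℤ), M.mulVec k = 0 ∧ k ≠ 0 ∧ Prim k ∧ c ≠ 0 ∧
      (∀ i, (del M i).det = c * k i ^ 2) ∧
      (∀ i, k i ≠ 0 → od (del M i) (row M i) = (k i).natAbs ∧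
        bil (del M i) (row M i) (row M i) = M i i ∧
        ∀ j, qinv (del M i) (row M i) j = -((k (i.succAbove j) : ℚ) / k i))

PART I:
theorem kil_index {n : ℕ} (A : Matrix (Fin n) (Fin n) ℤ) (hA : A.det ≠ 0) {D E : ℕ}
    (hDE : D * E = A.det.natAbs) (hco : Nat.Coprime D E) :
    rng A ≤ kil A E ∧ (kil A E).index ≠ 0 ∧ D ≤ (kil A E).index
theorem mem_kil_of_coprime {n : ℕ} (A : Matrix (Fin n) (Fin n) ℤ) {D E : ℕ}
    (hDE : D * E = A.det.natAbs) {x : Fin n → ℤ} (hx : Nat.Coprime (od A x) D) : x ∈ kil A E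

PART II:
theorem two_base {n : ℕ} (A : Matrix (Fin n) (Fin n) ℤ) (hA : A.transpose = A) (hdet : A.det ≠ 0)
    {c o : ℕ} (hco : c * o ^ 2 = A.det.natAbs) :
    ∃ x0 y0 : Fin n → ℤ, ∀ z : Fin n → ℤ, (∃ t : ℤ, bil A z z = t) → od A z = o →
      od A x0 = o ∧ od A y0 = o ∧
      ∃ f : ℕ, f ∣ o ∧ o ≤ 2 * c * f ^ 3 ∧ (z ∈ perp A x0 (o / f) ∨ z ∈ perp A y0 (o / f))
theorem perp_index {n : ℕ} (A : Matrix (Fin n) (Fin n) ℤ) (hA : A.transpose = A) (hdet : A.det ≠ 0)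
    {x : Fin n → ℤ} {o f : ℕ} (ho : od A x = o) (hf : f ∣ o) :
    rng A ≤ perp A x (o / f) ∧ (perp A x (o / f)).index ≠ 0 ∧ f ≤ (perp A x (o / f)).index
-/

end Crest.Agent.R152.Asm
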