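import Crest.Agent.R152.Adj1
import Crest.Agent.R152.AsmDefs

set_option autoImplicit false

/-! Row 152, module ADJ (helper847): frozen statement `adj_main` of AsmDefs. -/

namespace Crest.Agent.R152.Asm

open Matrix

theorem adj_main {n : ℕ} (M : Matrix (Fin (n + 1)) (Fin (n + 1)) ℤ) (hM : M.transpose = M)
    (hdet : M.det = 0) (hex : ∃ i, (del M i).det ≠ 0) :
    ∃ (k : Fin (n + 1) → ℤ) (c : ℤ), M.mulVec k = 0 ∧ k ≠ 0 ∧ Prim k ∧ c ≠ 0 ∧
      (∀ i, (del M i).det = c * k i ^ 2) ∧
      (∀ i, k i ≠ 0 → od (del M i) (row M i) = (k i).natAbs ∧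
        bil (del M i) (row M i) (row M i) = M i i ∧
        ∀ j, qinv (del M i) (row M i) j = -((k (i.succAbove j) : ℚ) / k i)) := by
  obtain ⟨i₀, h0⟩ := hex
  obtain ⟨k, hk, hp, hkne, -, c, hc, -, hdets⟩ := Adj.exists_adj M hM hdet i₀ h0
  refine ⟨k, c, hk, hkne, hp, hc, hdets, ?_⟩
  intro i hi
  have hdi : (del M i).det ≠ 0 := by
    rw [show (del M i).det = c * k i ^ 2 from hdets i]
    exact mul_ne_zero hc (pow_ne_zero 2 hi)
  have hkd : (del M i).mulVec (fun j => k (i.succAbove j)) = -(k i) • row M i :=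
    Adj.ker_del M hM hk i
  have hq : ∀ j, qinv (del M i) (row M i) j = -((k (i.succAbove j) : ℚ) / k i) := by
    have hiq : (k i : ℚ) ≠ 0 := by exact_mod_cast hi
    set B : Matrix (Fin n) (Fin n) ℚ := (del M i).map (Int.cast : ℤ → ℚ) with hB
    have hBdet : IsUnit B.det := by
      rw [isUnit_iff_ne_zero]
      have : B.det = ((del M i).det : ℚ) := by
        rw [hB]
        exact (RingHom.map_det (Int.castRingHom ℚ) (del M i)).symm
      rw [this]
      exact_mod_cast hdi
    have h1 : B.mulVec (fun j => -((k (i.succAbove j) : ℚ) / k i)) =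
        fun j => ((row M i j : ℤ) : ℚ) := by
      funext j
      have h2 := congrFun hkd j
      simp only [Matrix.mulVec, dotProduct, Pi.smul_apply, smul_eq_mul] at h2
      have h3 : ∑ x, ((del M i j x : ℤ) : ℚ) * (k (i.succAbove x) : ℚ) =
          -(k i : ℚ) * (row M i j : ℚ) := by exact_mod_cast h2
      simp only [Matrix.mulVec, dotProduct, hB, Matrix.map_apply]
      have h4 : ∑ x, ((del M i j x : ℤ) : ℚ) * -((k (i.succAbove x) : ℚ) / k i) =
          (∑ x, ((del M i j x : ℤ) : ℚ) * (k (i.succAbove x) : ℚ)) * (-(k i : ℚ)⁻¹) := by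
        rw [Finset.sum_mul]
        exact Finset.sum_congr rfl fun x _ => by ring
      rw [h4, h3]
      field_simp
    have h5 : B⁻¹.mulVec (fun j => ((row M i j : ℤ) : ℚ)) =
        fun j => -((k (i.succAbove j) : ℚ) / k i) := by
      rw [← h1, Matrix.mulVec_mulVec, Matrix.nonsing_inv_mul _ hBdet, Matrix.one_mulVec]
    intro j
    exact congrFun h5 j
  refine ⟨?_, ?_, hq⟩
  · have key : ∀ m : ℕ, od (del M i) (row M i) ∣ m ↔ (k i).natAbs ∣ m := by
      intro m
      rw [od_dvd_iff, mem_rng]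
      have := Adj.smul_mem_iff M hM hk hp (i := i) hdi (m : ℤ)
      rw [Int.natAbs_dvd_natAbs.symm, Int.natAbs_natCast] at this
      exact this
    exact Nat.dvd_antisymm ((key _).2 dvd_rfl) ((key _).1 dvd_rfl)
  · have hiq : (k i : ℚ) ≠ 0 := by exact_mod_cast hi
    have h6 := Adj.ker_row M hk i
    unfold bil
    have h7 : qinv (del M i) (row M i) = fun j => -((k (i.succAbove j) : ℚ) / k i) := funext hq
    rw [h7]
    simp only [dotProduct]
    have h8 : ∑ x, ((row M i x : ℤ) : ℚ) * (k (i.succAbove x) : ℚ) =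
        -((M i i : ℚ) * (k i : ℚ)) := by
      have : dotProduct (row M i) (fun j => k (i.succAbove j)) = -(M i i * k i) := h6
      simp only [dotProduct] at this
      exact_mod_cast this
    have h9 : ∑ x, ((row M i x : ℤ) : ℚ) * -((k (i.succAbove x) : ℚ) / k i) =
        (∑ x, ((row M i x : ℤ) : ℚ) * (k (i.succAbove x) : ℚ)) * (-(k i : ℚ)⁻¹) := by
      rw [Finset.sum_mul]
      exact Finset.sum_congr rfl fun x _ => by ring
    rw [h9, h8]
    field_simp

end Crest.Agent.R152.Asm
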