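import Mathlib

set_option autoImplicit false
set_option linter.unusedSectionVars false

/-! Row 152, module ADJ (helper847): corank one symmetric integer matrices, adjugate = c k kᵀ. -/

namespace Crest.Agent.R152.Adj

open Matrix

/-- deleted minor -/
def dl {n : ℕ} (M : Matrix (Fin (n + 1)) (Fin (n + 1)) ℤ) (i : Fin (n + 1)) :
    Matrix (Fin n) (Fin n) ℤ := M.submatrix i.succAbove i.succAbove

/-- deleted row -/
def rw' {n : ℕ} (M : Matrix (Fin (n + 1)) (Fin (n + 1)) ℤ) (i : Fin (n + 1)) : Fin n → ℤ :=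
  fun j => M i (i.succAbove j)

theorem adj_diag {n : ℕ} (M : Matrix (Fin (n + 1)) (Fin (n + 1)) ℤ) (i : Fin (n + 1)) :
    M.adjugate i i = (dl M i).det := by
  rw [Matrix.adjugate_fin_succ_eq_det_submatrix]
  have : (-1 : ℤ) ^ ((i : ℕ) + (i : ℕ)) = 1 := by
    rw [← two_mul, pow_mul]; norm_num
  rw [this, one_mul]
  rfl

/-- a vector in the kernel: rows different from `i` -/
theorem ker_del {n : ℕ} (M : Matrix (Fin (n + 1)) (Fin (n + 1)) ℤ) (hs : M.IsSymm)
    {k : Fin (n + 1) → ℤ} (hk : M.mulVec k = 0) (i : Fin (n + 1)) :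
    (dl M i).mulVec (fun j => k (i.succAbove j)) = -(k i) • rw' M i := by
  funext j
  have h := congrFun hk (i.succAbove j)
  simp only [Matrix.mulVec, dotProduct, Pi.zero_apply] at h
  rw [Fin.sum_univ_succAbove _ i] at h
  simp only [Matrix.mulVec, dotProduct, dl, rw', Matrix.submatrix_apply, Pi.smul_apply,
    smul_eq_mul]
  have h2 : M (i.succAbove j) i = M i (i.succAbove j) := by
    have := congrFun (congrFun hs i) (i.succAbove j)
    simpa [Matrix.transpose_apply] using this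
  rw [h2] at h
  linarith

/-- a vector in the kernel: row `i` -/
theorem ker_row {n : ℕ} (M : Matrix (Fin (n + 1)) (Fin (n + 1)) ℤ)
    {k : Fin (n + 1) → ℤ} (hk : M.mulVec k = 0) (i : Fin (n + 1)) :
    dotProduct (rw' M i) (fun j => k (i.succAbove j)) = -(M i i * k i) := by
  have h := congrFun hk i
  simp only [Matrix.mulVec, dotProduct, Pi.zero_apply] at h
  rw [Fin.sum_univ_succAbove _ i] at h
  simp only [dotProduct, rw']
  linarith

/-- kernel vectors vanishing at `i` vanish if the minor is nonsingular -/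
theorem ker_zero {n : ℕ} (M : Matrix (Fin (n + 1)) (Fin (n + 1)) ℤ) (hs : M.IsSymm)
    {v : Fin (n + 1) → ℤ} (hv : M.mulVec v = 0) {i : Fin (n + 1)} (h0 : (dl M i).det ≠ 0)
    (hi : v i = 0) : v = 0 := by
  have h := ker_del M hs hv i
  rw [hi, neg_zero, zero_smul] at h
  have h2 : (fun j => v (i.succAbove j)) = 0 := by
    by_contra hne
    exact h0 (Matrix.exists_mulVec_eq_zero_iff.1 ⟨_, hne, h⟩)
  funext j
  rcases Fin.eq_self_or_eq_succAbove i j with rfl | ⟨j', rfl⟩
  · exact hi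
  · exact congrFun h2 j'

/-- proportionality in the kernel -/
theorem ker_prop {n : ℕ} (M : Matrix (Fin (n + 1)) (Fin (n + 1)) ℤ) (hs : M.IsSymm)
    {v w : Fin (n + 1) → ℤ} (hv : M.mulVec v = 0) (hw : M.mulVec w = 0) {i : Fin (n + 1)}
    (h0 : (dl M i).det ≠ 0) : v i • w = w i • v := by
  have h : M.mulVec (v i • w - w i • v) = 0 := by
    rw [Matrix.mulVec_sub, Matrix.mulVec_smul, Matrix.mulVec_smul, hv, hw, smul_zero, smul_zero,
      sub_zero]
  have := ker_zero M hs h h0 (by simp [mul_comm])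
  exact sub_eq_zero.1 this

/-- primitive integer vectors -/
def Prim {ι : Type*} (k : ι → ℤ) : Prop := ∀ d : ℤ, (∀ i, d ∣ k i) → IsUnit d

/-- divide by the gcd -/
theorem exists_prim {ι : Type*} [Fintype ι] (v : ι → ℤ) (hv : v ≠ 0) :
    ∃ (g : ℤ) (k : ι → ℤ), g ≠ 0 ∧ Prim k ∧ v = g • k := by
  classical
  obtain ⟨i, hi⟩ := Function.ne_iff.1 hv
  obtain ⟨k, hk, hg⟩ := Finset.extract_gcd v (s := Finset.univ) ⟨i, Finset.mem_univ i⟩
  refine ⟨Finset.univ.gcd v, k, ?_, ?_, ?_⟩
  · intro h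
    rw [Finset.gcd_eq_zero_iff] at h
    exact hi (h i (Finset.mem_univ i))
  · intro d hd
    have : d ∣ Finset.univ.gcd k := Finset.dvd_gcd fun j _ => hd j
    rw [hg] at this
    exact isUnit_of_dvd_one this
  · funext j
    simpa using hk j (Finset.mem_univ j)

theorem Prim.dvd {ι : Type*} [Fintype ι] {k : ι → ℤ} (hk : Prim k) {a b : ℤ}
    (h : ∀ j, a ∣ b * k j) : a ∣ b := by
  classical
  have h1 : a ∣ Finset.univ.gcd (fun j => b * k j) := Finset.dvd_gcd fun j _ => h j
  rw [Finset.gcd_mul_left] at h1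
  have h2 : IsUnit (Finset.univ.gcd k) := hk _ fun i => Finset.gcd_dvd (Finset.mem_univ i)
  have h3 : Associated (normalize b * Finset.univ.gcd k) b :=
    ((associated_mul_unit_left _ _ h2)).trans (normalize_associated b)
  exact (h3.dvd_iff_dvd_right).1 h1

theorem ker_prim {n : ℕ} (M : Matrix (Fin (n + 1)) (Fin (n + 1)) ℤ) (hs : M.IsSymm)
    {k : Fin (n + 1) → ℤ} (hk : M.mulVec k = 0) (hp : Prim k) {i : Fin (n + 1)}
    (h0 : (dl M i).det ≠ 0) {w : Fin (n + 1) → ℤ} (hw : M.mulVec w = 0) :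
    ∃ c : ℤ, w = c • k := by
  have h1 := ker_prop M hs hk hw h0
  have hk0 : k i ≠ 0 := by
    intro h
    have hz := ker_zero M hs hk h0 h
    have h2 := hp 0 (fun j => by rw [hz]; simp)
    simp at h2
  have h2 : k i ∣ w i := by
    refine hp.dvd fun j => ?_
    have := congrFun h1 j
    simp only [Pi.smul_apply, smul_eq_mul] at this
    exact ⟨w j, this.symm⟩
  obtain ⟨c, hc⟩ := h2
  refine ⟨c, ?_⟩
  funext j
  have := congrFun h1 j
  simp only [Pi.smul_apply, smul_eq_mul] at this ⊢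
  rw [hc] at this
  exact mul_left_cancel₀ hk0 (by rw [this]; ring)

/-- **adjugate = c k kᵀ.** -/
theorem exists_adj {n : ℕ} (M : Matrix (Fin (n + 1)) (Fin (n + 1)) ℤ) (hs : M.IsSymm)
    (hd : M.det = 0) (i₀ : Fin (n + 1)) (h0 : (dl M i₀).det ≠ 0) :
    ∃ k : Fin (n + 1) → ℤ, M.mulVec k = 0 ∧ Prim k ∧ k ≠ 0 ∧
      (∀ w : Fin (n + 1) → ℤ, M.mulVec w = 0 → ∃ c : ℤ, w = c • k) ∧
      ∃ c : ℤ, c ≠ 0 ∧ (∀ i j, M.adjugate i j = c * (k i * k j)) ∧
        ∀ i, (dl M i).det = c * k i ^ 2 := by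
  have hMa : M * M.adjugate = 0 := by rw [Matrix.mul_adjugate, hd, zero_smul]
  have hcol : ∀ j, M.mulVec (fun i => M.adjugate i j) = 0 := by
    intro j
    funext i
    have := congrFun (congrFun hMa i) j
    simpa [Matrix.mul_apply, Matrix.mulVec, dotProduct] using this
  have hsa : ∀ i j, M.adjugate i j = M.adjugate j i := by
    intro i j
    have h : M.adjugateᵀ = M.adjugate := by rw [Matrix.adjugate_transpose, hs.eq]
    exact (congrFun (congrFun h j) i)
  set v : Fin (n + 1) → ℤ := fun i => M.adjugate i i₀ with hv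
  have hv0 : v i₀ ≠ 0 := by rw [hv]; simpa [adj_diag] using h0
  have hvne : v ≠ 0 := fun h => hv0 (by rw [h]; rfl)
  obtain ⟨g, k, hg, hp, hvk⟩ := exists_prim v hvne
  have hk : M.mulVec k = 0 := by
    have h1 := hcol i₀
    rw [← hv, hvk, Matrix.mulVec_smul] at h1
    exact (smul_eq_zero.1 h1).resolve_left hg
  have hun := fun w (hw : M.mulVec w = 0) => ker_prim M hs hk hp h0 hw
  have hk0 : k i₀ ≠ 0 := by
    intro h
    apply hv0
    rw [hvk]; simp [h]
  choose c hc using fun j => hun _ (hcol j)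
  have hc' : ∀ i j, M.adjugate i j = c j * k i := fun i j => by
    have := congrFun (hc j) i
    simpa using this
  have h2 : k i₀ ∣ c i₀ := by
    refine hp.dvd fun j => ⟨c j, ?_⟩
    rw [← hc' j i₀, hsa j i₀, hc' i₀ j, mul_comm]
  obtain ⟨e, he⟩ := h2
  have hce : ∀ j, c j = e * k j := by
    intro j
    have h3 : c j * k i₀ = c i₀ * k j := by rw [← hc' i₀ j, hsa, hc']
    rw [he] at h3
    exact mul_right_cancel₀ hk0 (by rw [h3]; ring)
  have hadj : ∀ i j, M.adjugate i j = e * (k i * k j) := fun i j => by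
    rw [hc' i j, hce j]; ring
  refine ⟨k, hk, hp, fun h => hk0 (by rw [h]; rfl), hun, e, ?_, hadj, ?_⟩
  · rintro rfl
    apply hv0
    rw [hv]
    simp [hadj]
  · intro i
    rw [← adj_diag, hadj]
    ring

/-- order of the deleted row modulo `A ℤⁿ` -/
theorem smul_mem_iff {n : ℕ} (M : Matrix (Fin (n + 1)) (Fin (n + 1)) ℤ) (hs : M.IsSymm)
    {k : Fin (n + 1) → ℤ} (hk : M.mulVec k = 0) (hp : Prim k) {i : Fin (n + 1)}
    (h0 : (dl M i).det ≠ 0) (m : ℤ) :
    (∃ u : Fin n → ℤ, (dl M i).mulVec u = m • rw' M i) ↔ k i ∣ m := by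
  have h1 := ker_del M hs hk i
  constructor
  · rintro ⟨u, hu⟩
    have h2 : (dl M i).mulVec (k i • u + m • fun j => k (i.succAbove j)) = 0 := by
      rw [Matrix.mulVec_add, Matrix.mulVec_smul, Matrix.mulVec_smul, hu, h1, smul_smul, smul_smul]
      rw [← add_smul]
      have : k i * m + m * -k i = 0 := by ring
      rw [this, zero_smul]
    have h3 : (k i • u + m • fun j => k (i.succAbove j)) = 0 := by
      by_contra hne
      exact h0 (Matrix.exists_mulVec_eq_zero_iff.1 ⟨_, hne, h2⟩)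
    refine hp.dvd fun j => ?_
    rcases Fin.eq_self_or_eq_succAbove i j with rfl | ⟨j', rfl⟩
    · exact Dvd.intro_left m rfl
    · have := congrFun h3 j'
      simp only [Pi.add_apply, Pi.smul_apply, smul_eq_mul, Pi.zero_apply] at this
      exact ⟨-u j', by linarith⟩
  · rintro ⟨e, rfl⟩
    refine ⟨(-e) • fun j => k (i.succAbove j), ?_⟩
    rw [Matrix.mulVec_smul, h1, smul_smul]
    congr 1
    ring

end Crest.Agent.R152.Adj
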