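import Mathlib

/-! Row 152, module ARI, part 1: the rational form `x^T A⁻¹ y`, the number `E A` (gcd of the entries
of the adjugate = |det A| / exponent of the cokernel) and the integrality lemma INT. -/

set_option autoImplicit false
set_option linter.unusedSectionVars false
set_option linter.unusedSimpArgs false

namespace Crest.Agent.R152.Ari

open Matrix

variable {ι : Type*} [Fintype ι] [DecidableEq ι]

/-- cast an integer vector to a rational vector -/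
def qv (x : ι → ℤ) : ι → ℚ := fun i => (x i : ℚ)

/-- `x^T A⁻¹ y` over `ℚ` -/
noncomputable def bf (A : Matrix ι ι ℤ) (x y : ι → ℤ) : ℚ :=
  qv x ⬝ᵥ ((A.map (Int.cast : ℤ → ℚ))⁻¹ *ᵥ qv y)

/-- the rational number is an integer -/
def IsZ (q : ℚ) : Prop := ∃ z : ℤ, q = z

theorem IsZ.add {a b : ℚ} (ha : IsZ a) (hb : IsZ b) : IsZ (a + b) := by
  obtain ⟨x, rfl⟩ := ha; obtain ⟨y, rfl⟩ := hb; exact ⟨x + y, by push_cast; rfl⟩

theorem IsZ.neg {a : ℚ} (ha : IsZ a) : IsZ (-a) := by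
  obtain ⟨x, rfl⟩ := ha; exact ⟨-x, by push_cast; rfl⟩

theorem IsZ.sub {a b : ℚ} (ha : IsZ a) (hb : IsZ b) : IsZ (a - b) := by
  rw [sub_eq_add_neg]; exact ha.add hb.neg

theorem IsZ.mul {a b : ℚ} (ha : IsZ a) (hb : IsZ b) : IsZ (a * b) := by
  obtain ⟨x, rfl⟩ := ha; obtain ⟨y, rfl⟩ := hb; exact ⟨x * y, by push_cast; rfl⟩

theorem IsZ.int (z : ℤ) : IsZ (z : ℚ) := ⟨z, rfl⟩

theorem IsZ.zero : IsZ 0 := ⟨0, by simp⟩

theorem IsZ.of_sq {a : ℚ} (h : IsZ (a * a)) : IsZ a := by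
  obtain ⟨z, hz⟩ := h
  have h1 : (a * a).den = 1 := by rw [hz]; simp
  have h2 : (a * a).den = a.den * a.den := by rw [Rat.mul_self_den]
  have h3 : a.den = 1 := by
    rw [h2] at h1; exact Nat.eq_one_of_mul_eq_one_right h1
  exact ⟨a.num, ((Rat.den_eq_one_iff a).1 h3).symm⟩

theorem qv_add (x y : ι → ℤ) : qv (x + y) = qv x + qv y := by
  ext i; simp [qv]

theorem qv_smul (c : ℤ) (x : ι → ℤ) : qv (c • x) = (c : ℚ) • qv x := by
  ext i; simp [qv]

theorem qv_mulVec (A : Matrix ι ι ℤ) (x : ι → ℤ) :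
    qv (A *ᵥ x) = A.map (Int.cast : ℤ → ℚ) *ᵥ qv x := by
  ext i; simp [qv, mulVec, dotProduct]

theorem qv_dot (x y : ι → ℤ) : qv x ⬝ᵥ qv y = ((x ⬝ᵥ y : ℤ) : ℚ) := by
  simp [qv, dotProduct]

theorem det_map (A : Matrix ι ι ℤ) : (A.map (Int.cast : ℤ → ℚ)).det = (A.det : ℚ) := by
  have := (Int.castRingHom ℚ).map_det A
  simpa using this.symm

theorem det_unit {A : Matrix ι ι ℤ} (h : A.det ≠ 0) : IsUnit (A.map (Int.cast : ℤ → ℚ)).det := by
  rw [det_map]; exact (Int.cast_ne_zero.2 h).isUnit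

theorem bf_add_left (A : Matrix ι ι ℤ) (x x' y : ι → ℤ) : bf A (x + x') y = bf A x y + bf A x' y := by
  simp [bf, qv_add, add_dotProduct]

theorem bf_add_right (A : Matrix ι ι ℤ) (x y y' : ι → ℤ) : bf A x (y + y') = bf A x y + bf A x y' := by
  simp [bf, qv_add, mulVec_add, dotProduct_add]

theorem bf_smul_left (A : Matrix ι ι ℤ) (c : ℤ) (x y : ι → ℤ) : bf A (c • x) y = c * bf A x y := by
  unfold bf; rw [qv_smul, smul_dotProduct, smul_eq_mul]

theorem bf_smul_right (A : Matrix ι ι ℤ) (c : ℤ) (x y : ι → ℤ) : bf A x (c • y) = c * bf A x y := by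
  unfold bf; rw [qv_smul, mulVec_smul, dotProduct_smul, smul_eq_mul]

theorem bf_comm {A : Matrix ι ι ℤ} (hA : Aᵀ = A) (x y : ι → ℤ) : bf A x y = bf A y x := by
  unfold bf
  rw [dotProduct_comm, ← vecMul_transpose, ← dotProduct_mulVec, transpose_nonsing_inv,
    ← transpose_map, hA]

theorem bf_mulVec_right {A : Matrix ι ι ℤ} (h : A.det ≠ 0) (x t : ι → ℤ) :
    bf A x (A *ᵥ t) = ((x ⬝ᵥ t : ℤ) : ℚ) := by
  unfold bf
  rw [qv_mulVec, mulVec_mulVec, nonsing_inv_mul _ (det_unit h), one_mulVec, qv_dot]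

theorem bf_mulVec_left {A : Matrix ι ι ℤ} (hA : Aᵀ = A) (h : A.det ≠ 0) (t y : ι → ℤ) :
    bf A (A *ᵥ t) y = ((y ⬝ᵥ t : ℤ) : ℚ) := by
  rw [bf_comm hA, bf_mulVec_right h]

/-- the lattice `A ℤ^ι` -/
def img (A : Matrix ι ι ℤ) : AddSubgroup (ι → ℤ) := (LinearMap.range A.mulVecLin).toAddSubgroup

theorem mem_img {A : Matrix ι ι ℤ} {y : ι → ℤ} : y ∈ img A ↔ ∃ t, A *ᵥ t = y := by
  simp [img]

/-- the subgroup used in INT -/
def intK (A : Matrix ι ι ℤ) (n : ℤ) (Γ : AddSubgroup (ι → ℤ)) : AddSubgroup (ι → ℤ) where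
  carrier := {u | u ∈ Γ ∧ ∃ u' ∈ Γ, ∃ t, u = n • u' + A *ᵥ t}
  zero_mem' := ⟨Γ.zero_mem, 0, Γ.zero_mem, 0, by simp⟩
  add_mem' := by
    rintro a b ⟨ha, u, hu, t, rfl⟩ ⟨hb, v, hv, s, rfl⟩
    exact ⟨Γ.add_mem ha hb, u + v, Γ.add_mem hu hv, t + s, by
      rw [smul_add, mulVec_add]; abel⟩
  neg_mem' := by
    rintro a ⟨ha, u, hu, t, rfl⟩
    exact ⟨Γ.neg_mem ha, -u, Γ.neg_mem hu, -t, by rw [smul_neg, mulVec_neg]; abel⟩

theorem intK_le (A : Matrix ι ι ℤ) (n : ℤ) (Γ : AddSubgroup (ι → ℤ)) : intK A n Γ ≤ Γ :=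
  fun _ hu => hu.1

/-- index of `intK` in a subgroup contained in `img A + ℤ e`. -/
theorem relIndex_intK (A : Matrix ι ι ℤ) (e : ι → ℤ) (n : ℕ) (hn : 0 < n)
    (Γ : AddSubgroup (ι → ℤ)) (hΓ : Γ ≤ img A ⊔ AddSubgroup.zmultiples e) :
    (intK A n Γ).relIndex Γ ≠ 0 ∧ (intK A n Γ).relIndex Γ ≤ n := by
  classical
  -- the ideal of coefficients
  let I : AddSubgroup ℤ :=
    { carrier := {α | ∃ u ∈ Γ, ∃ t, u = A *ᵥ t + α • e}
      zero_mem' := ⟨0, Γ.zero_mem, 0, by simp⟩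
      add_mem' := by
        rintro a b ⟨u, hu, t, rfl⟩ ⟨v, hv, s, rfl⟩
        exact ⟨_, Γ.add_mem hu hv, t + s, by rw [mulVec_add, add_smul]; abel⟩
      neg_mem' := by
        rintro a ⟨u, hu, t, rfl⟩
        exact ⟨_, Γ.neg_mem hu, -t, by rw [mulVec_neg, neg_smul]; abel⟩ }
  obtain ⟨a, ha⟩ := Int.subgroup_cyclic I
  have haI : a ∈ I := by rw [ha]; exact AddSubgroup.mem_closure_singleton_self a
  obtain ⟨g, hg, tg, hgt⟩ := haI
  have key : ∀ u ∈ Γ, ∃ r : Fin n, u - (r : ℤ) • g ∈ intK A n Γ := by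
    intro u hu
    obtain ⟨y, hy, z, hz, hyz⟩ := AddSubgroup.mem_sup.1 (hΓ hu)
    obtain ⟨t, rfl⟩ := mem_img.1 hy
    obtain ⟨α, rfl⟩ := AddSubgroup.mem_zmultiples_iff.1 hz
    have hα : α ∈ I := ⟨u, hu, t, hyz.symm⟩
    rw [ha, AddSubgroup.mem_closure_singleton] at hα
    obtain ⟨α', rfl⟩ := hα
    have hn' : (0 : ℤ) < n := by exact_mod_cast hn
    have hr0 : 0 ≤ α' % (n : ℤ) := Int.emod_nonneg _ hn'.ne'
    have hr1 : α' % (n : ℤ) < n := Int.emod_lt_of_pos _ hn'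
    refine ⟨⟨(α' % (n : ℤ)).toNat, by omega⟩, ?_⟩
    have hcast : (((α' % (n : ℤ)).toNat : ℕ) : ℤ) = α' % (n : ℤ) := Int.toNat_of_nonneg hr0
    simp only [hcast]
    refine ⟨Γ.sub_mem hu (Γ.zsmul_mem hg _), (α' / (n : ℤ)) • g, Γ.zsmul_mem hg _,
      t - α' • tg, ?_⟩
    have h1 : α' = n * (α' / (n : ℤ)) + α' % (n : ℤ) := (Int.mul_ediv_add_emod α' n).symm
    rw [← hyz, mulVec_sub, mulVec_smul]
    have h2 : (α' • a) • e = α' • g - α' • (A *ᵥ tg) := by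
      rw [hgt, smul_add, smul_assoc]; abel
    rw [h2]
    have h3 : α' • g = (n : ℤ) • ((α' / (n : ℤ)) • g) + (α' % (n : ℤ)) • g := by
      conv_lhs => rw [h1]
      rw [add_smul, mul_smul]
    rw [h3]; abel
  let f : Fin n → (Γ ⧸ (intK A n Γ).addSubgroupOf Γ) :=
    fun r => QuotientAddGroup.mk ((r : ℤ) • (⟨g, hg⟩ : Γ))
  have hf : Function.Surjective f := by
    intro q
    induction q using QuotientAddGroup.induction_on with
    | H u =>
      obtain ⟨r, hr⟩ := key u.1 u.2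
      refine ⟨r, ?_⟩
      simp only [f]
      rw [QuotientAddGroup.eq, AddSubgroup.mem_addSubgroupOf]
      have : ((-((r : ℤ) • (⟨g, hg⟩ : Γ)) + u : Γ) : ι → ℤ) = u.1 - (r : ℤ) • g := by
        push_cast; abel
      rw [this]; exact hr
  have hfin : Finite (Γ ⧸ (intK A n Γ).addSubgroupOf Γ) := Finite.of_surjective f hf
  constructor
  · rw [AddSubgroup.relIndex, AddSubgroup.index]
    exact (Nat.card_pos (α := Γ ⧸ (intK A n Γ).addSubgroupOf Γ)).ne'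
  · rw [AddSubgroup.relIndex, AddSubgroup.index]
    calc Nat.card (Γ ⧸ (intK A n Γ).addSubgroupOf Γ) ≤ Nat.card (Fin n) :=
          Nat.card_le_card_of_surjective f hf
      _ = n := by simp

/-- INT, general form: `e` any vector, `n` the index of `A ℤ^ι + ℤ e`. -/
theorem int_form_aux {A : Matrix ι ι ℤ} (hA : Aᵀ = A) (h : A.det ≠ 0) (e : ι → ℤ) (n : ℕ)
    (hn0 : 0 < n) (hn : (img A ⊔ AddSubgroup.zmultiples e).index = n)
    (S : Set (ι → ℤ)) (hS : ∀ x ∈ S, IsZ (bf A x x)) :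
    ∃ K : AddSubgroup (ι → ℤ), K ≤ AddSubgroup.closure S ∧
      K.relIndex (AddSubgroup.closure S) ≠ 0 ∧
      K.relIndex (AddSubgroup.closure S) ≤ n ^ 2 ∧
      ∀ u ∈ K, ∀ v ∈ K, IsZ (bf A u v) := by
  classical
  set H := img A ⊔ AddSubgroup.zmultiples e with hH
  set Γ := AddSubgroup.closure S with hΓ
  -- decomposition of n x
  have hdec : ∀ x : ι → ℤ, ∃ t, ∃ α : ℤ, (n : ℤ) • x = A *ᵥ t + α • e := by
    intro x
    have h1 : (n : ℤ) • x ∈ H := by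
      have := H.nsmul_index_mem x
      rw [hn] at this
      simpa using this
    obtain ⟨y, hy, z, hz, hyz⟩ := AddSubgroup.mem_sup.1 h1
    obtain ⟨t, rfl⟩ := mem_img.1 hy
    obtain ⟨α, rfl⟩ := AddSubgroup.mem_zmultiples_iff.1 hz
    exact ⟨t, α, hyz.symm⟩
  have hbe : ∀ (t s : ι → ℤ) (α β : ℤ),
      ∃ z : ℤ, bf A (A *ᵥ t + α • e) (A *ᵥ s + β • e) = z + α * β * bf A e e := by
    intro t s α β
    refine ⟨(A *ᵥ t) ⬝ᵥ s + β * (e ⬝ᵥ t) + α * (e ⬝ᵥ s), ?_⟩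
    rw [bf_add_left, bf_add_right, bf_add_right, bf_mulVec_right h, bf_smul_right,
      bf_mulVec_left hA h, bf_smul_left, bf_mulVec_right h, bf_smul_left, bf_smul_right]
    push_cast; ring
  have hsq : ∀ x ∈ S, ∀ (t : ι → ℤ) (α : ℤ), (n : ℤ) • x = A *ᵥ t + α • e →
      IsZ ((α : ℚ) * α * bf A e e) := by
    intro x hx t α hxt
    obtain ⟨z, hz⟩ := hbe t t α α
    rw [← hxt, bf_smul_left, bf_smul_right] at hz
    have h2 : (α : ℚ) * α * bf A e e = ((n : ℤ) : ℚ) * (((n : ℤ) : ℚ) * bf A x x) - z := by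
      rw [hz]; ring
    rw [h2]
    exact ((IsZ.int _).mul ((IsZ.int _).mul (hS x hx))).sub (IsZ.int z)
  have hpair : ∀ x ∈ S, ∀ y ∈ S, IsZ (bf A ((n : ℤ) • x) ((n : ℤ) • y)) := by
    intro x hx y hy
    obtain ⟨t, α, ht⟩ := hdec x
    obtain ⟨s, β, hs⟩ := hdec y
    obtain ⟨z, hz⟩ := hbe t s α β
    rw [ht, hs, hz]
    refine (IsZ.int z).add (IsZ.of_sq ?_)
    have : (α : ℚ) * β * bf A e e * ((α : ℚ) * β * bf A e e) =
        ((α : ℚ) * α * bf A e e) * ((β : ℚ) * β * bf A e e) := by ring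
    rw [this]
    exact (hsq x hx t α ht).mul (hsq y hy s β hs)
  have hΓΓ : ∀ u ∈ Γ, ∀ v ∈ Γ, IsZ (bf A ((n : ℤ) • u) ((n : ℤ) • v)) := by
    intro u hu v hv
    induction hu using AddSubgroup.closure_induction with
    | mem x hx =>
      induction hv using AddSubgroup.closure_induction with
      | mem y hy => exact hpair x hx y hy
      | zero => 
        rw [smul_zero, ← zero_smul ℤ (0 : ι → ℤ), bf_smul_right]; simp [IsZ.zero]
      | add a b _ _ ha hb => rw [smul_add, bf_add_right]; exact ha.add hb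
      | neg a _ ha => 
        rw [smul_neg, ← neg_one_smul ℤ, bf_smul_right]
        exact (IsZ.int _).mul ha
    | zero => rw [smul_zero, ← zero_smul ℤ (0 : ι → ℤ), bf_smul_left]; simp [IsZ.zero]
    | add a b _ _ ha hb => rw [smul_add, bf_add_left]; exact ha.add hb
    | neg a _ ha => 
      rw [smul_neg, ← neg_one_smul ℤ, bf_smul_left]
      exact (IsZ.int _).mul ha
  -- the subgroup
  set Γ1 := Γ ⊓ H with hΓ1
  refine ⟨intK A n Γ1, (intK_le _ _ _).trans inf_le_left, ?_, ?_, ?_⟩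
  · rw [← AddSubgroup.relIndex_mul_relIndex _ Γ1 Γ (intK_le _ _ _) inf_le_left]
    refine mul_ne_zero (relIndex_intK A e n hn0 Γ1 inf_le_right).1 ?_
    rw [hΓ1, AddSubgroup.inf_relIndex_left]
    intro h0
    have := AddSubgroup.relIndex_dvd_index_of_normal H Γ
    rw [h0, hn, zero_dvd_iff] at this
    omega
  · rw [← AddSubgroup.relIndex_mul_relIndex _ Γ1 Γ (intK_le _ _ _) inf_le_left, pow_two]
    refine Nat.mul_le_mul (relIndex_intK A e n hn0 Γ1 inf_le_right).2 ?_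
    rw [hΓ1, AddSubgroup.inf_relIndex_left]
    have := AddSubgroup.relIndex_dvd_index_of_normal H Γ
    rw [hn] at this
    exact Nat.le_of_dvd hn0 this
  · rintro u ⟨_, u', hu', t, rfl⟩ v ⟨_, v', hv', s, rfl⟩
    have hu'' : u' ∈ Γ := hu'.1
    have hv'' : v' ∈ Γ := hv'.1
    rw [bf_add_left, bf_add_right, bf_add_right, bf_mulVec_right h, bf_mulVec_left hA h,
      bf_mulVec_right h]
    exact ((hΓΓ u' hu'' v' hv'').add (IsZ.int _)).add ((IsZ.int _).add (IsZ.int _))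

end Crest.Agent.R152.Ari
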