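import Crest.Agent.R152.AsmDefs

set_option autoImplicit false

/-! Row 152, ASM part 1: the part of `c` prime to `k_i`, averaging over `i`. -/

namespace Crest.Agent.R152.Asm

/-- the part of `m` prime to `K` (full prime powers of `m`) -/
def cop (m K : ℕ) : ℕ := ∏ q ∈ m.primeFactors.filter (fun q => ¬ q ∣ K), q ^ (m.factorization q)

/-- the complementary part -/
def ncop (m K : ℕ) : ℕ := ∏ q ∈ m.primeFactors.filter (fun q => q ∣ K), q ^ (m.factorization q)

theorem cop_mul_ncop {m : ℕ} (hm : m ≠ 0) (K : ℕ) : cop m K * ncop m K = m := by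
  unfold cop ncop
  rw [mul_comm, Finset.prod_filter_mul_prod_filter_not]
  exact Nat.factorization_prod_pow_eq_self hm

theorem cop_pos {m : ℕ} (hm : m ≠ 0) (K : ℕ) : 0 < cop m K := by
  have := cop_mul_ncop hm K
  exact Nat.pos_of_ne_zero fun h => hm (by rw [← this, h, zero_mul])

theorem cop_coprime_K (m K : ℕ) : Nat.Coprime (cop m K) K := by
  unfold cop
  refine Nat.Coprime.prod_left fun q hq => Nat.Coprime.pow_left _ ?_
  rw [Finset.mem_filter] at hq
  exact (Nat.Prime.coprime_iff_not_dvd (Nat.prime_of_mem_primeFactors hq.1)).2 hq.2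

theorem cop_coprime_ncop (m K : ℕ) : Nat.Coprime (cop m K) (ncop m K) := by
  unfold cop ncop
  refine Nat.Coprime.prod_left fun q hq => Nat.Coprime.prod_right fun r hr => ?_
  refine Nat.Coprime.pow _ _ ?_
  rw [Finset.mem_filter] at hq hr
  have h1 := Nat.prime_of_mem_primeFactors hq.1
  have h2 := Nat.prime_of_mem_primeFactors hr.1
  rw [Nat.coprime_primes h1 h2]
  rintro rfl
  exact hq.2 hr.2

/-- `cop m K` is a unitary divisor of `m K²`. -/
theorem cop_unitary {m : ℕ} (hm : m ≠ 0) (K : ℕ) (hK : K ≠ 0) :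
    cop m K ∣ m * K ^ 2 ∧ Nat.Coprime (cop m K) (m * K ^ 2 / cop m K) := by
  have h1 := cop_mul_ncop hm K
  have h2 : m * K ^ 2 = cop m K * (ncop m K * K ^ 2) := by
    rw [← mul_assoc, h1]
  refine ⟨⟨_, h2⟩, ?_⟩
  rw [h2, Nat.mul_div_cancel_left _ (cop_pos hm K)]
  exact Nat.Coprime.mul_right (cop_coprime_ncop m K) (Nat.Coprime.pow_right _ (cop_coprime_K m K))

theorem log_cop {m : ℕ} (K : ℕ) : Real.log (cop m K) =
    ∑ q ∈ m.primeFactors.filter (fun q => ¬ q ∣ K), (m.factorization q : ℝ) * Real.log q := by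
  unfold cop
  push_cast
  rw [Real.log_prod]
  · exact Finset.sum_congr rfl fun q _ => Real.log_pow _ _
  · intro q hq
    rw [Finset.mem_filter] at hq
    have := (Nat.prime_of_mem_primeFactors hq.1).pos
    positivity

theorem log_eq_sum {m : ℕ} (hm : m ≠ 0) : Real.log m =
    ∑ q ∈ m.primeFactors, (m.factorization q : ℝ) * Real.log q := by
  conv_lhs => rw [← Nat.factorization_prod_pow_eq_self hm]
  rw [Finsupp.prod, Nat.support_factorization]
  push_cast
  rw [Real.log_prod]
  · exact Finset.sum_congr rfl fun q _ => Real.log_pow _ _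
  · intro q hq
    have := (Nat.prime_of_mem_primeFactors hq).pos
    positivity

theorem log_cop_le {m : ℕ} (hm : m ≠ 0) (K : ℕ) : Real.log (cop m K) ≤ Real.log m := by
  have h0 := cop_pos hm K
  refine Real.log_le_log (by exact_mod_cast h0) ?_
  exact_mod_cast Nat.le_of_dvd (Nat.pos_of_ne_zero hm) ⟨_, (cop_mul_ncop hm K).symm⟩

/-- Averaging: many indices `i` have a large part of `m` prime to `K i`. -/
theorem avg {ι : Type*} [Fintype ι] {m : ℕ} (hm : m ≠ 0) (K : ι → ℕ) {c1 Y : ℝ} (hY : 1 ≤ Y)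
    (h : ∀ q : ℕ, q.Prime → c1 ≤ ((Finset.univ.filter (fun i => ¬ q ∣ K i)).card : ℝ)) :
    c1 * Real.log m ≤ ((Finset.univ.filter (fun i => Y ≤ (cop m (K i) : ℝ))).card : ℝ) * Real.log m +
      (Fintype.card ι : ℝ) * Real.log Y := by
  classical
  have hlm : 0 ≤ Real.log m := Real.log_natCast_nonneg m
  have hlY : 0 ≤ Real.log Y := Real.log_nonneg hY
  have h1 : ∑ i, Real.log (cop m (K i)) = ∑ q ∈ m.primeFactors,
      ((Finset.univ.filter (fun i => ¬ q ∣ K i)).card : ℝ) *
        ((m.factorization q : ℝ) * Real.log q) := by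
    simp_rw [log_cop, Finset.sum_filter]
    rw [Finset.sum_comm]
    refine Finset.sum_congr rfl fun q _ => ?_
    rw [← Finset.sum_filter, Finset.sum_const, nsmul_eq_mul]
  have h2 : c1 * Real.log m ≤ ∑ i, Real.log (cop m (K i)) := by
    rw [h1, log_eq_sum hm, Finset.mul_sum]
    refine Finset.sum_le_sum fun q hq => ?_
    exact mul_le_mul_of_nonneg_right (h q (Nat.prime_of_mem_primeFactors hq))
      (mul_nonneg (Nat.cast_nonneg _) (Real.log_natCast_nonneg _))
  have h3 : ∀ i, Real.log (cop m (K i)) ≤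
      (if Y ≤ (cop m (K i) : ℝ) then Real.log m else 0) + Real.log Y := by
    intro i
    split_ifs with hi
    · have := log_cop_le hm (K i)
      linarith
    · have h0 : (0 : ℝ) < cop m (K i) := by exact_mod_cast cop_pos hm (K i)
      have := Real.log_le_log h0 (not_le.1 hi).le
      linarith
  calc c1 * Real.log m ≤ ∑ i, Real.log (cop m (K i)) := h2
    _ ≤ ∑ i, ((if Y ≤ (cop m (K i) : ℝ) then Real.log m else 0) + Real.log Y) :=
        Finset.sum_le_sum fun i _ => h3 i
    _ = _ := by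
        rw [Finset.sum_add_distrib, ← Finset.sum_filter, Finset.sum_const, Finset.sum_const,
          nsmul_eq_mul, nsmul_eq_mul, Finset.card_univ]

end Crest.Agent.R152.Asm
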