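import Crest.Agent.R152.Asm1

set_option autoImplicit false

/-! Row 152, ASM part 2: the family of few giant-index lattices attached to a matrix. -/

namespace Crest.Agent.R152.Asm

def PART1 : Prop := ∀ (n : ℕ) (A : Matrix (Fin n) (Fin n) ℤ), A.det ≠ 0 → ∀ D E : ℕ,
    D * E = A.det.natAbs → Nat.Coprime D E →
    rng A ≤ kil A E ∧ (kil A E).index ≠ 0 ∧ D ≤ (kil A E).index

def PART1b : Prop := ∀ (n : ℕ) (A : Matrix (Fin n) (Fin n) ℤ), ∀ D E : ℕ,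
    D * E = A.det.natAbs → ∀ x : Fin n → ℤ, Nat.Coprime (od A x) D → x ∈ kil A E

def PART2 : Prop := ∀ (n : ℕ) (A : Matrix (Fin n) (Fin n) ℤ), A.transpose = A → A.det ≠ 0 →
    ∀ c o : ℕ, c * o ^ 2 = A.det.natAbs →
    ∃ x0 y0 : Fin n → ℤ, ∀ z : Fin n → ℤ, (∃ t : ℤ, bil A z z = t) → od A z = o →
      od A x0 = o ∧ od A y0 = o ∧
      ∃ f : ℕ, f ∣ o ∧ o ≤ 2 * c * f ^ 3 ∧ (z ∈ perp A x0 (o / f) ∨ z ∈ perp A y0 (o / f))

def PERPI : Prop := ∀ (n : ℕ) (A : Matrix (Fin n) (Fin n) ℤ), A.transpose = A → A.det ≠ 0 →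
    ∀ (x : Fin n → ℤ) (o f : ℕ), od A x = o → f ∣ o →
    rng A ≤ perp A x (o / f) ∧ (perp A x (o / f)).index ≠ 0 ∧ f ≤ (perp A x (o / f)).index

/-- the conclusion of DIV for one pair `n, z` -/
def DivAt (n : ℕ) (z ε : ℝ) : Prop := ∀ m : ℕ, 0 < m → (m : ℝ) ≤ (n : ℝ) ^ (n : ℝ) →
  ((m.divisors.filter (fun d : ℕ => (d : ℝ) ≤ (n : ℝ) ^ (z * n))).card : ℝ) ≤ (2 : ℝ) ^ (ε * n) ∧
  (∃ F : Finset ℕ, (F.card : ℝ) ≤ (2 : ℝ) ^ (ε * n) ∧ (∀ f ∈ F, f ∣ m ∧ (n : ℝ) ^ (z * n) ≤ f) ∧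
    ∀ f : ℕ, f ∣ m → (n : ℝ) ^ (z * n) ≤ f → ∃ f' ∈ F, f' ∣ f) ∧
  (∃ F : Finset ℕ, (F.card : ℝ) ≤ (2 : ℝ) ^ (ε * n) ∧
    (∀ f ∈ F, f ∣ m ∧ Nat.Coprime f (m / f) ∧ (n : ℝ) ^ (z * n) ≤ f) ∧
    ∀ f : ℕ, f ∣ m → Nat.Coprime f (m / f) → (n : ℝ) ^ (z * n) ≤ f → ∃ f' ∈ F, f' ∣ f)

def DIV : Prop := ∀ ε : ℝ, 0 < ε → ∃ z0 : ℝ, 0 < z0 ∧ ∀ z : ℝ, 0 < z → z ≤ z0 →
  ∃ n0 : ℕ, ∀ n : ℕ, n0 ≤ n → DivAt n z ε

/-- a lattice `A ℤⁿ ≤ L` of giant index -/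
def Giant {n : ℕ} (A : Matrix (Fin n) (Fin n) ℤ) (z : ℝ) (L : AddSubgroup (Fin n → ℤ)) : Prop :=
  rng A ≤ L ∧ (n : ℝ) ^ (z * n) ≤ (L.index : ℝ)

theorem perp_mono {n : ℕ} (A : Matrix (Fin n) (Fin n) ℤ) (x : Fin n → ℤ) {m m' : ℕ}
    (h : m ∣ m') : perp A x m ≤ perp A x m' := by
  rintro z ⟨t, ht⟩
  obtain ⟨a, rfl⟩ := h
  refine ⟨a * t, ?_⟩
  push_cast
  rw [← ht]
  ring

theorem cover_c (hP2 : PART2) (hPI : PERPI) {n : ℕ} {z κ η ε : ℝ}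
    (hdiv : DivAt n z ε)
    (hnum : 4 * (n : ℝ) ^ ((3 * κ + 6 * z) * n) ≤ (n : ℝ) ^ (η * n)) (hn : 1 ≤ n)
    (A : Matrix (Fin n) (Fin n) ℤ) (hA : A.transpose = A) (hdet : A.det ≠ 0)
    (hle : (A.det.natAbs : ℝ) ≤ (n : ℝ) ^ (n : ℝ))
    (hbig : (n : ℝ) ^ (η * n) < A.det.natAbs) (c : ℕ) (hc : (c : ℝ) ≤ (n : ℝ) ^ (κ * n)) :
    ∃ Ls : Finset (AddSubgroup (Fin n → ℤ)), (Ls.card : ℝ) ≤ 2 * (2 : ℝ) ^ (ε * n) ∧
      (∀ L ∈ Ls, Giant A z L) ∧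
      ∀ x : Fin n → ℤ, (∃ t : ℤ, bil A x x = t) → c * (od A x) ^ 2 = A.det.natAbs →
        ∃ L ∈ Ls, x ∈ L := by
  classical
  by_cases hex : ∃ x : Fin n → ℤ, (∃ t : ℤ, bil A x x = t) ∧ c * (od A x) ^ 2 = A.det.natAbs
  swap
  · refine ⟨∅, by simp; positivity, by simp, fun x h1 h2 => (hex ⟨x, h1, h2⟩).elim⟩
  obtain ⟨x1, hx1, hx1c⟩ := hex
  set o := od A x1 with ho
  have hm0 : 0 < A.det.natAbs := Int.natAbs_pos.2 hdet
  have hc0 : 0 < c := by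
    rcases Nat.eq_zero_or_pos c with h | h
    · rw [h, zero_mul] at hx1c; omega
    · exact h
  have ho0 : 0 < o := by
    rcases Nat.eq_zero_or_pos o with h | h
    · rw [h] at hx1c; simp at hx1c; omega
    · exact h
  obtain ⟨x0, y0, hxy⟩ := hP2 n A hA hdet c o hx1c
  have hole : (o : ℝ) ≤ (n : ℝ) ^ (n : ℝ) := by
    refine le_trans ?_ hle
    rw [← hx1c]
    have : o ≤ c * o ^ 2 := by nlinarith
    exact_mod_cast this
  obtain ⟨-, ⟨F, hFc, hF1, hF2⟩, -⟩ := hdiv o ho0 hole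
  obtain ⟨hx0, hy0, -⟩ := hxy x1 hx1 rfl
  refine ⟨F.image (fun f => perp A x0 (o / f)) ∪ F.image (fun f => perp A y0 (o / f)), ?_, ?_, ?_⟩
  · have h1 := Finset.card_union_le (F.image (fun f => perp A x0 (o / f)))
      (F.image (fun f => perp A y0 (o / f)))
    have h2 : (F.image (fun f => perp A x0 (o / f))).card ≤ F.card := Finset.card_image_le
    have h3 : (F.image (fun f => perp A y0 (o / f))).card ≤ F.card := Finset.card_image_le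
    have h4 : ((F.image (fun f => perp A x0 (o / f)) ∪
      F.image (fun f => perp A y0 (o / f))).card : ℝ) ≤ 2 * F.card := by
      have : (F.image (fun f => perp A x0 (o / f)) ∪
        F.image (fun f => perp A y0 (o / f))).card ≤ 2 * F.card := by omega
      exact_mod_cast this
    linarith
  · intro L hL
    rw [Finset.mem_union, Finset.mem_image, Finset.mem_image] at hL
    rcases hL with ⟨f, hf, rfl⟩ | ⟨f, hf, rfl⟩
    · obtain ⟨hfo, hfY⟩ := hF1 f hf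
      obtain ⟨h1, -, h3⟩ := hPI n A hA hdet x0 o f hx0 hfo
      exact ⟨h1, hfY.trans (by exact_mod_cast h3)⟩
    · obtain ⟨hfo, hfY⟩ := hF1 f hf
      obtain ⟨h1, -, h3⟩ := hPI n A hA hdet y0 o f hy0 hfo
      exact ⟨h1, hfY.trans (by exact_mod_cast h3)⟩
  · intro x hx hxc
    have hxo : od A x = o := by
      have h1 : c * (od A x) ^ 2 = c * o ^ 2 := hxc.trans hx1c.symm
      have h2 := Nat.eq_of_mul_eq_mul_left hc0 h1
      exact Nat.pow_left_injective (by norm_num : (2 : ℕ) ≠ 0) h2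
    obtain ⟨-, -, f, hfo, hf3, hf⟩ := hxy x hx hxo
    have hn0 : (0 : ℝ) < n := by exact_mod_cast hn
    -- f is giant
    have hfY : (n : ℝ) ^ (z * n) ≤ f := by
      by_contra hlt
      push Not at hlt
      have h1 : (o : ℝ) ≤ 2 * c * (f : ℝ) ^ 3 := by exact_mod_cast hf3
      have hY0 : 0 < (n : ℝ) ^ (z * n) := Real.rpow_pos_of_pos hn0 _
      have hK0 : 0 < (n : ℝ) ^ (κ * n) := Real.rpow_pos_of_pos hn0 _
      have h2 : (f : ℝ) ^ 3 ≤ ((n : ℝ) ^ (z * n)) ^ 3 := pow_le_pow_left₀ (Nat.cast_nonneg _) hlt.le 3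
      have h3 : (o : ℝ) ≤ 2 * (n : ℝ) ^ (κ * n) * ((n : ℝ) ^ (z * n)) ^ 3 := by
        refine h1.trans ?_
        have hf30 : (0 : ℝ) ≤ (f : ℝ) ^ 3 := by positivity
        have : (c : ℝ) * (f : ℝ) ^ 3 ≤ (n : ℝ) ^ (κ * n) * ((n : ℝ) ^ (z * n)) ^ 3 :=
          mul_le_mul hc h2 hf30 hK0.le
        linarith
      have h4 : (A.det.natAbs : ℝ) ≤ 4 * (n : ℝ) ^ ((3 * κ + 6 * z) * n) := by
        have e1 : (A.det.natAbs : ℝ) = c * (o : ℝ) ^ 2 := by rw [← hx1c]; push_cast; ring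
        rw [e1]
        have h5 : (o : ℝ) ^ 2 ≤ (2 * (n : ℝ) ^ (κ * n) * ((n : ℝ) ^ (z * n)) ^ 3) ^ 2 :=
          pow_le_pow_left₀ (Nat.cast_nonneg _) h3 2
        have h6 : (c : ℝ) * (o : ℝ) ^ 2 ≤ (n : ℝ) ^ (κ * n) *
            (2 * (n : ℝ) ^ (κ * n) * ((n : ℝ) ^ (z * n)) ^ 3) ^ 2 :=
          mul_le_mul hc h5 (by positivity) hK0.le
        refine h6.trans (le_of_eq ?_)
        have e2 : (n : ℝ) ^ ((3 * κ + 6 * z) * n) =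
            ((n : ℝ) ^ (κ * n)) ^ 3 * ((n : ℝ) ^ (z * n)) ^ 6 := by
          rw [← Real.rpow_natCast ((n : ℝ) ^ (κ * n)) 3, ← Real.rpow_natCast ((n : ℝ) ^ (z * n)) 6,
            ← Real.rpow_mul hn0.le, ← Real.rpow_mul hn0.le, ← Real.rpow_add hn0]
          congr 1
          push_cast
          ring
        rw [e2]
        ring
      linarith
    obtain ⟨f', hf'F, hf'f⟩ := hF2 f hfo hfY
    have hdv : o / f ∣ o / f' := by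
      obtain ⟨a, rfl⟩ := hf'f
      obtain ⟨b, hb⟩ := hfo
      have ha0 : 0 < f' * a := Nat.pos_of_ne_zero fun h => by rw [h, zero_mul] at hb; omega
      have hf0 : 0 < f' := Nat.pos_of_mul_pos_right ha0 
      rw [hb, Nat.mul_div_cancel_left _ ha0, mul_assoc, Nat.mul_div_cancel_left _ hf0]
      exact ⟨a, by ring⟩
    rcases hf with hf | hf
    · exact ⟨_, Finset.mem_union_left _ (Finset.mem_image_of_mem _ hf'F), perp_mono A x0 hdv hf⟩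
    · exact ⟨_, Finset.mem_union_right _ (Finset.mem_image_of_mem _ hf'F), perp_mono A y0 hdv hf⟩

theorem exists_cover (hP1 : PART1) (hP1b : PART1b) (hP2 : PART2) (hPI : PERPI) {n : ℕ}
    {z κ η ε : ℝ} (hdiv : DivAt n z ε) (hdivκ : DivAt n κ ε)
    (hnum : 4 * (n : ℝ) ^ ((3 * κ + 6 * z) * n) ≤ (n : ℝ) ^ (η * n)) (hn : 1 ≤ n)
    (A : Matrix (Fin n) (Fin n) ℤ) (hA : A.transpose = A) (hdet : A.det ≠ 0)
    (hle : (A.det.natAbs : ℝ) ≤ (n : ℝ) ^ (n : ℝ)) :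
    ∃ Ls : Finset (AddSubgroup (Fin n → ℤ)),
      (Ls.card : ℝ) ≤ (2 : ℝ) ^ (ε * n) + (2 : ℝ) ^ (ε * n) * (2 * (2 : ℝ) ^ (ε * n)) ∧
      (∀ L ∈ Ls, Giant A z L) ∧
      (∀ x : Fin n → ℤ, (∃ D : ℕ, D ∣ A.det.natAbs ∧ Nat.Coprime D (A.det.natAbs / D) ∧
        (n : ℝ) ^ (z * n) ≤ D ∧ Nat.Coprime (od A x) D) → ∃ L ∈ Ls, x ∈ L) ∧
      (∀ x : Fin n → ℤ, (∃ t : ℤ, bil A x x = t) → (n : ℝ) ^ (η * n) < A.det.natAbs →
        (∃ c : ℕ, (c : ℝ) ≤ (n : ℝ) ^ (κ * n) ∧ c * (od A x) ^ 2 = A.det.natAbs) →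
        ∃ L ∈ Ls, x ∈ L) := by
  classical
  set m := A.det.natAbs with hm
  have hm0 : 0 < m := Int.natAbs_pos.2 hdet
  obtain ⟨-, -, ⟨F, hFc, hF1, hF2⟩⟩ := hdiv m hm0 hle
  obtain ⟨hCs, -, -⟩ := hdivκ m hm0 hle
  set Cs := m.divisors.filter (fun d : ℕ => (d : ℝ) ≤ (n : ℝ) ^ (κ * n)) with hCsd
  -- the second family
  have hII : ∃ G : Finset (AddSubgroup (Fin n → ℤ)),
      (G.card : ℝ) ≤ (2 : ℝ) ^ (ε * n) * (2 * (2 : ℝ) ^ (ε * n)) ∧ (∀ L ∈ G, Giant A z L) ∧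
      (∀ x : Fin n → ℤ, (∃ t : ℤ, bil A x x = t) → (n : ℝ) ^ (η * n) < m →
        (∃ c : ℕ, (c : ℝ) ≤ (n : ℝ) ^ (κ * n) ∧ c * (od A x) ^ 2 = m) → ∃ L ∈ G, x ∈ L) := by
    by_cases hbig : (n : ℝ) ^ (η * n) < m
    swap
    · exact ⟨∅, by simp; positivity, by simp, fun x _ h => (hbig h).elim⟩
    have hc : ∀ c : ℕ, ∃ Ls : Finset (AddSubgroup (Fin n → ℤ)), c ∈ Cs →
        (Ls.card : ℝ) ≤ 2 * (2 : ℝ) ^ (ε * n) ∧ (∀ L ∈ Ls, Giant A z L) ∧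
        ∀ x : Fin n → ℤ, (∃ t : ℤ, bil A x x = t) → c * (od A x) ^ 2 = m → ∃ L ∈ Ls, x ∈ L := by
      intro c
      by_cases hcC : c ∈ Cs
      · obtain ⟨Ls, h⟩ := cover_c hP2 hPI hdiv hnum hn A hA hdet hle hbig c
          (by rw [hCsd, Finset.mem_filter] at hcC; exact hcC.2)
        exact ⟨Ls, fun _ => h⟩
      · exact ⟨∅, fun h => (hcC h).elim⟩
    choose G hG using hc
    refine ⟨Cs.biUnion G, ?_, ?_, ?_⟩
    · have h1 : ((Cs.biUnion G).card : ℝ) ≤ ∑ c ∈ Cs, ((G c).card : ℝ) := by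
        exact_mod_cast Finset.card_biUnion_le
      refine h1.trans ?_
      calc ∑ c ∈ Cs, ((G c).card : ℝ) ≤ ∑ c ∈ Cs, 2 * (2 : ℝ) ^ (ε * n) :=
            Finset.sum_le_sum fun c hc => (hG c hc).1
        _ = (Cs.card : ℝ) * (2 * (2 : ℝ) ^ (ε * n)) := by rw [Finset.sum_const, nsmul_eq_mul]
        _ ≤ _ := mul_le_mul_of_nonneg_right hCs (by positivity)
    · intro L hL
      obtain ⟨c, hc, hLc⟩ := Finset.mem_biUnion.1 hL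
      exact (hG c hc).2.1 L hLc
    · rintro x hx - ⟨c, hcκ, hceq⟩
      have hcC : c ∈ Cs := by
        rw [hCsd, Finset.mem_filter, Nat.mem_divisors]
        exact ⟨⟨⟨_, hceq.symm⟩, hm0.ne'⟩, hcκ⟩
      obtain ⟨L, hL, hxL⟩ := (hG c hcC).2.2 x hx hceq
      exact ⟨L, Finset.mem_biUnion.2 ⟨c, hcC, hL⟩, hxL⟩
  obtain ⟨G, hGc, hG1, hG2⟩ := hII
  refine ⟨F.image (fun D => kil A (m / D)) ∪ G, ?_, ?_, ?_, ?_⟩
  · have h1 := Finset.card_union_le (F.image (fun D => kil A (m / D))) G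
    have h2 : (F.image (fun D => kil A (m / D))).card ≤ F.card := Finset.card_image_le
    have h4 : ((F.image (fun D => kil A (m / D)) ∪ G).card : ℝ) ≤ F.card + G.card := by
      have : (F.image (fun D => kil A (m / D)) ∪ G).card ≤ F.card + G.card := by omega
      exact_mod_cast this
    linarith
  · intro L hL
    rw [Finset.mem_union, Finset.mem_image] at hL
    rcases hL with ⟨D, hD, rfl⟩ | hL
    · obtain ⟨hDm, hDc, hDY⟩ := hF1 D hD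
      obtain ⟨h1, -, h3⟩ := hP1 n A hdet D (m / D) (Nat.mul_div_cancel' hDm) hDc
      exact ⟨h1, hDY.trans (by exact_mod_cast h3)⟩
    · exact hG1 L hL
  · rintro x ⟨D, hDm, hDc, hDY, hxD⟩
    obtain ⟨D', hD'F, hD'D⟩ := hF2 D hDm hDc hDY
    obtain ⟨hD'm, -, -⟩ := hF1 D' hD'F
    refine ⟨kil A (m / D'), Finset.mem_union_left _ (Finset.mem_image_of_mem _ hD'F), ?_⟩
    exact hP1b n A D' (m / D') (Nat.mul_div_cancel' hD'm) x (Nat.Coprime.coprime_dvd_right hD'D hxD)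
  · intro x h1 h2 h3
    obtain ⟨L, hL, hxL⟩ := hG2 x h1 h2 h3
    exact ⟨L, Finset.mem_union_right _ hL, hxL⟩

end Crest.Agent.R152.Asm
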