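import Crest.Agent.R152.Asm2

set_option autoImplicit false

/-! Row 152, ASM part 3: the sets `R n A` of candidate rows and their cardinality. -/

open Crest.FinProb Crest.ProbabilityR.SignMatrix Crest.Agent.R152.Base

namespace Crest.Agent.R152.Asm

/-- the candidates for the deleted row -/
def RR (z κ η : ℝ) (C n : ℕ) (A : Matrix (Fin n) (Fin n) ℤ) : Set (Fin n → Bool) :=
  {x | ((∃ t : ℤ, bil A (sv x) (sv x) = t) ∧
      (((A.det.natAbs : ℝ) ≤ (n : ℝ) ^ (η * n) ∧ ∀ i, |qinv A (sv x) i| ≤ (n : ℚ) ^ C) ∨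
       ((n : ℝ) ^ (η * n) < A.det.natAbs ∧
          ∃ c : ℕ, (c : ℝ) ≤ (n : ℝ) ^ (κ * n) ∧ c * (od A (sv x)) ^ 2 = A.det.natAbs))) ∨
    ∃ D : ℕ, D ∣ A.det.natAbs ∧ Nat.Coprime D (A.det.natAbs / D) ∧
        (n : ℝ) ^ (z * n) ≤ D ∧ Nat.Coprime (od A (sv x)) D}

/-- few candidates if `A` satisfies the conclusions of GLO and T1'. -/
theorem ncard_RR_le (hP1 : PART1) (hP1b : PART1b) (hP2 : PART2) (hPI : PERPI) {n : ℕ}
    {z κ η ε b : ℝ} {C : ℕ} (hdiv : DivAt n z ε) (hdivκ : DivAt n κ ε)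
    (hnum : 4 * (n : ℝ) ^ ((3 * κ + 6 * z) * n) ≤ (n : ℝ) ^ (η * n)) (hn : 1 ≤ n)
    (A : Matrix (Fin n) (Fin n) ℤ) (hA : A.transpose = A) (hdet : A.det ≠ 0)
    (hle : (A.det.natAbs : ℝ) ≤ (n : ℝ) ^ (n : ℝ))
    (hG : ∀ L : AddSubgroup (Fin n → ℤ), Giant A z L →
      (Nat.card {x : Fin n → Bool // sv x ∈ L} : ℝ) ≤ (2 : ℝ) ^ (b * n))
    (hT : (A.det.natAbs : ℝ) ≤ (n : ℝ) ^ (η * n) →
      (Nat.card {x : Fin n → Bool // (∃ t : ℤ, bil A (sv x) (sv x) = t) ∧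
        ∀ i, |qinv A (sv x) i| ≤ (n : ℚ) ^ C} : ℝ) ≤ (2 : ℝ) ^ (b * n)) :
    ((RR z κ η C n A).ncard : ℝ) ≤ (2 : ℝ) ^ (b * n) +
      ((2 : ℝ) ^ (ε * n) + (2 : ℝ) ^ (ε * n) * (2 * (2 : ℝ) ^ (ε * n))) * (2 : ℝ) ^ (b * n) := by
  classical
  obtain ⟨Ls, hLc, hLg, hL1, hL2⟩ :=
    exists_cover hP1 hP1b hP2 hPI hdiv hdivκ hnum hn A hA hdet hle
  set T : Set (Fin n → Bool) := {x | (A.det.natAbs : ℝ) ≤ (n : ℝ) ^ (η * n) ∧
    ((∃ t : ℤ, bil A (sv x) (sv x) = t) ∧ ∀ i, |qinv A (sv x) i| ≤ (n : ℚ) ^ C)} with hTd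
  have hsub : RR z κ η C n A ⊆ T ∪ ⋃ L ∈ Ls, {x : Fin n → Bool | sv x ∈ L} := by
    rintro x (⟨hx, (⟨h1, h2⟩ | ⟨h1, h2⟩)⟩ | hx)
    · exact Or.inl ⟨h1, hx, h2⟩
    · obtain ⟨L, hL, hxL⟩ := hL2 (sv x) hx h1 h2
      exact Or.inr (Set.mem_biUnion hL hxL)
    · obtain ⟨L, hL, hxL⟩ := hL1 (sv x) hx
      exact Or.inr (Set.mem_biUnion hL hxL)
  have hTc : (T.ncard : ℝ) ≤ (2 : ℝ) ^ (b * n) := by
    by_cases hs : (A.det.natAbs : ℝ) ≤ (n : ℝ) ^ (η * n)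
    · refine le_trans ?_ (hT hs)
      have : T = {x : Fin n → Bool | (∃ t : ℤ, bil A (sv x) (sv x) = t) ∧
          ∀ i, |qinv A (sv x) i| ≤ (n : ℚ) ^ C} := by
        rw [hTd]; ext x; exact ⟨fun h => h.2, fun h => ⟨hs, h⟩⟩
      rw [this]
      rfl
    · have : T = ∅ := by
        rw [hTd, Set.eq_empty_iff_forall_notMem]
        rintro x ⟨h, -⟩
        exact hs h
      rw [this, Set.ncard_empty]
      simp only [Nat.cast_zero]
      positivity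
  have hUc : ((⋃ L ∈ Ls, {x : Fin n → Bool | sv x ∈ L}).ncard : ℝ) ≤
      (Ls.card : ℝ) * (2 : ℝ) ^ (b * n) := by
    have h1 : (⋃ L ∈ Ls, {x : Fin n → Bool | sv x ∈ L}) =
        ((Ls.biUnion fun L => Finset.univ.filter fun x : Fin n → Bool => sv x ∈ L :
          Finset (Fin n → Bool)) : Set (Fin n → Bool)) := by
      ext x; simp
    rw [h1, Set.ncard_coe_finset]
    have h2 : ((Ls.biUnion fun L => Finset.univ.filter fun x : Fin n → Bool => sv x ∈ L).card : ℝ) ≤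
        ∑ L ∈ Ls, ((Finset.univ.filter fun x : Fin n → Bool => sv x ∈ L).card : ℝ) := by
      exact_mod_cast Finset.card_biUnion_le
    refine h2.trans ?_
    calc ∑ L ∈ Ls, ((Finset.univ.filter fun x : Fin n → Bool => sv x ∈ L).card : ℝ)
        ≤ ∑ L ∈ Ls, (2 : ℝ) ^ (b * n) := by
          refine Finset.sum_le_sum fun L hL => ?_
          have := hG L (hLg L hL)
          rwa [Nat.card_eq_fintype_card, Fintype.card_subtype] at this
      _ = (Ls.card : ℝ) * (2 : ℝ) ^ (b * n) := by rw [Finset.sum_const, nsmul_eq_mul]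
  have h1 : (RR z κ η C n A).ncard ≤ T.ncard +
      (⋃ L ∈ Ls, {x : Fin n → Bool | sv x ∈ L}).ncard :=
    (Set.ncard_le_ncard hsub (Set.toFinite _)).trans (Set.ncard_union_le _ _)
  have h2 : ((RR z κ η C n A).ncard : ℝ) ≤ T.ncard +
      (⋃ L ∈ Ls, {x : Fin n → Bool | sv x ∈ L}).ncard := by exact_mod_cast h1
  refine h2.trans (add_le_add hTc (hUc.trans ?_))
  exact mul_le_mul_of_nonneg_right hLc (by positivity)

/-- the determinant of a sign matrix is at most `nⁿ` -/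
theorem det_le {n : ℕ} (w : Sym2 (Fin n) → Bool) :
    ((symMat w).det.natAbs : ℝ) ≤ (n : ℝ) ^ (n : ℝ) := by
  have h := Matrix.det_le (A := symMat w) (abv := AbsoluteValue.abs) (x := (1 : ℤ)) (by
    intro i j
    rw [symMat_apply, AbsoluteValue.abs_apply]
    cases w s(i, j) <;> simp [sg])
  rw [AbsoluteValue.abs_apply] at h
  simp only [Fintype.card_fin, one_pow, nsmul_eq_mul, mul_one] at h
  have h2 : ((symMat w).det.natAbs : ℤ) ≤ (n ^ n : ℕ) := by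
    rw [Int.natCast_natAbs]
    refine h.trans ?_
    exact_mod_cast Nat.factorial_le_pow n
  have h3 : (symMat w).det.natAbs ≤ n ^ n := by exact_mod_cast h2
  rw [Real.rpow_natCast]
  exact_mod_cast h3

end Crest.Agent.R152.Asm
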