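import Crest.Agent.R152.PartII

set_option autoImplicit false

/-! Row 152, ASM PART I: unitary divisors of the determinant. -/

open Matrix

namespace Crest.Agent.R152.Asm

theorem index_rng {n : ℕ} (A : Matrix (Fin n) (Fin n) ℤ) (hA : A.det ≠ 0) :
    (rng A).index = A.det.natAbs := by
  have hinj : Function.Injective (Matrix.mulVecLin A) := by
    rw [← LinearMap.ker_eq_bot]
    have := Matrix.ker_mulVecLin_eq_bot_iff (M := A)
    rw [this]
    intro v hv
    exact Matrix.eq_zero_of_mulVec_eq_zero hA hv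
  have h := Submodule.natAbs_det_equiv (Matrix.mulVecLin A).range (LinearEquiv.ofInjective _ hinj)
  have h2 : ((Matrix.mulVecLin A).range.subtype ∘ₗ
      AddMonoidHom.toIntLinearMap ((LinearEquiv.ofInjective (Matrix.mulVecLin A) hinj) :
        (Fin n → ℤ) →+ (Matrix.mulVecLin A).range)) = Matrix.mulVecLin A := by
    ext x
    rfl
  rw [h2] at h
  have h3 : LinearMap.det (Matrix.mulVecLin A) = A.det := by
    rw [← Matrix.toLin'_apply', LinearMap.det_toLin']
  rw [h3] at h
  rw [h]
  rfl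

theorem mem_kil_of_coprime {n : ℕ} (A : Matrix (Fin n) (Fin n) ℤ) {D E : ℕ}
    (hDE : D * E = A.det.natAbs) {x : Fin n → ℤ} (hx : Nat.Coprime (od A x) D) : x ∈ kil A E := by
  rw [mem_kil, ← od_dvd_iff]
  have h : od A x ∣ D * E := by
    rw [hDE, od_dvd_iff]
    have h := P2.det_smul_mem (A := A) x
    rcases Int.natAbs_eq A.det with h1 | h1
    · rw [h1] at h; exact h
    · rw [h1, neg_smul] at h
      simpa using (rng A).neg_mem h
  exact hx.dvd_of_dvd_mul_left h

theorem kil_index {n : ℕ} (A : Matrix (Fin n) (Fin n) ℤ) (hA : A.det ≠ 0) {D E : ℕ}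
    (hDE : D * E = A.det.natAbs) (hco : Nat.Coprime D E) :
    rng A ≤ kil A E ∧ (kil A E).index ≠ 0 ∧ D ≤ (kil A E).index := by
  have hle : rng A ≤ kil A E := by
    intro z hz
    rw [mem_kil]
    exact (rng A).zsmul_mem hz _
  have hi0 : (kil A E).index ≠ 0 := by
    have h := AddSubgroup.index_dvd_of_le hle
    intro h0
    rw [h0, zero_dvd_iff] at h
    exact P2.index_rng_ne_zero hA h
  refine ⟨hle, hi0, ?_⟩
  refine Nat.le_of_dvd (Nat.pos_of_ne_zero hi0) ?_
  have hmul : (rng A).relIndex (kil A E) * (kil A E).index = D * E := by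
    rw [AddSubgroup.relIndex_mul_index hle, index_rng A hA, hDE]
  have hr0 : (rng A).relIndex (kil A E) ≠ 0 := by
    intro h0
    rw [h0, zero_mul] at hmul
    have : A.det.natAbs = 0 := by rw [← hDE, ← hmul]
    exact hA (Int.natAbs_eq_zero.1 this)
  have hcop : Nat.Coprime D ((rng A).relIndex (kil A E)) := by
    rw [Nat.coprime_iff_gcd_eq_one]
    by_contra hne
    obtain ⟨q, hq, hqd⟩ := Nat.exists_prime_and_dvd hne
    have hqD : q ∣ D := hqd.trans (Nat.gcd_dvd_left _ _)
    have hqr : q ∣ (rng A).relIndex (kil A E) := hqd.trans (Nat.gcd_dvd_right _ _)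
    have : Fact q.Prime := ⟨hq⟩
    have hfin : Finite ((kil A E) ⧸ (rng A).addSubgroupOf (kil A E)) := by
      refine Nat.finite_of_card_ne_zero ?_
      exact hr0
    obtain ⟨g, hg⟩ := exists_prime_addOrderOf_dvd_card' (G := (kil A E) ⧸ (rng A).addSubgroupOf (kil A E)) q
      (by exact hqr)
    obtain ⟨⟨z, hz⟩, rfl⟩ := QuotientAddGroup.mk_surjective g
    have hE : E • (QuotientAddGroup.mk ⟨z, hz⟩ : (kil A E) ⧸ (rng A).addSubgroupOf (kil A E)) = 0 := by
      rw [← QuotientAddGroup.mk_nsmul, QuotientAddGroup.eq_zero_iff]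
      rw [AddSubgroup.mem_addSubgroupOf]
      have h2 : (E : ℤ) • z ∈ rng A := mem_kil.1 hz
      simpa using h2
    have hqE : q ∣ E := by
      rw [← hg]
      exact addOrderOf_dvd_of_nsmul_eq_zero hE
    have := Nat.dvd_gcd hqD hqE
    rw [hco] at this
    exact hq.one_lt.ne' (Nat.dvd_one.1 this)
  have hD : D ∣ (rng A).relIndex (kil A E) * (kil A E).index := by
    rw [hmul]; exact Dvd.intro _ rfl
  exact hcop.dvd_of_dvd_mul_left hD

end Crest.Agent.R152.Asm
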