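import Crest.Agent.R152.Asm3
import Crest.Agent.R152.AsmP1
import Crest.Agent.R152.Adj

set_option autoImplicit false

/-! Row 152, ASM part 4: the deterministic heart: many indices `i` have their row in `R n A`. -/

open Crest.FinProb Crest.ProbabilityR.SignMatrix Crest.Agent.R152.Base

namespace Crest.Agent.R152.Asm

theorem part1 : PART1 := fun _ A hA _ _ hDE hco => kil_index A hA hDE hco
theorem part1b : PART1b := fun _ A _ _ hDE _ hx => mem_kil_of_coprime A hDE hx
theorem part2 : PART2 := fun _ A hA hdet _ _ hco => two_base A hA hdet hco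
theorem perpi : PERPI := fun _ A hA hdet _ _ _ ho hf => perp_index A hA hdet ho hf

/-- the deleted row as a coin vector -/
def rowB {n : ℕ} (w : Sym2 (Fin (n + 1)) → Bool) (i : Fin (n + 1)) : Fin n → Bool :=
  fun j => w s(i, i.succAbove j)

theorem sv_rowB {n : ℕ} (w : Sym2 (Fin (n + 1)) → Bool) (i : Fin (n + 1)) :
    sv (rowB w i) = row (symMat w) i := rfl

theorem cop_zero_right (m : ℕ) : cop m 0 = 1 := by
  unfold cop
  rw [Finset.filter_false_of_mem, Finset.prod_empty]
  intro q _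
  simp

/-- **Deterministic heart.** -/
theorem good_indices {n : ℕ} (w : Sym2 (Fin (n + 1)) → Bool) (hdet : (symMat w).det = 0)
    (hex : ∃ i, (del (symMat w) i).det ≠ 0) {c1 δ2 z κ η : ℝ} {C : ℕ} (hn : 2 ≤ n)
    (hz : 0 < z) (hκ : 0 < κ) (hzκ : z ≤ κ * (c1 / 4)) (hc1 : 0 < c1)
    (hC : ((n : ℚ) + 1) ^ C ≤ (n : ℚ) ^ (C + 1))
    (hSP : ∀ k : Fin (n + 1) → ℤ, (symMat w).mulVec k = 0 → Prim k → ∀ q : ℕ, q.Prime →
      c1 * ((n + 1 : ℕ) : ℝ) ≤ ((Finset.univ.filter fun j => ¬ (q : ℤ) ∣ k j).card : ℝ))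
    (hNM : ∀ k : Fin (n + 1) → ℤ, k ≠ 0 → (symMat w).mulVec k = 0 →
      δ2 * ((n + 1 : ℕ) : ℝ) ≤ ((Finset.univ.filter fun i => ∀ j,
        |k j| ≤ ((n + 1 : ℕ) : ℤ) ^ C * |k i|).card : ℝ)) :
    min (c1 / 2) δ2 * ((n + 1 : ℕ) : ℝ) ≤
      (Set.ncard {i | (del (symMat w) i).det ≠ 0 ∧
        rowB w i ∈ RR z κ η (C + 1) n (del (symMat w) i)} : ℝ) := by
  classical
  obtain ⟨k, c, hk, hk0, hprim, hc0, hdk, hmain⟩ := adj_main (symMat w) (symMat_symm w) hdet hex
  have hnR : (2 : ℝ) ≤ n := by exact_mod_cast hn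
  have hn0 : (0 : ℝ) < n := by linarith
  have hdetabs : ∀ i, (del (symMat w) i).det.natAbs = c.natAbs * (k i).natAbs ^ 2 := by
    intro i
    rw [hdk i, Int.natAbs_mul, Int.natAbs_pow]
  have hdne : ∀ i, k i ≠ 0 → (del (symMat w) i).det ≠ 0 := by
    intro i hi
    rw [hdk i]
    exact mul_ne_zero hc0 (pow_ne_zero 2 hi)
  -- a finset of indices included in the set
  have hfin : ∀ S : Finset (Fin (n + 1)), (∀ i ∈ S, k i ≠ 0 ∧
      rowB w i ∈ RR z κ η (C + 1) n (del (symMat w) i)) →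
      (S.card : ℝ) ≤ (Set.ncard {i | (del (symMat w) i).det ≠ 0 ∧
        rowB w i ∈ RR z κ η (C + 1) n (del (symMat w) i)} : ℝ) := by
    intro S hS
    rw [← Set.ncard_coe_finset]
    have : (S : Set (Fin (n + 1))) ⊆ {i | (del (symMat w) i).det ≠ 0 ∧
        rowB w i ∈ RR z κ η (C + 1) n (del (symMat w) i)} := by
      intro i hi
      have := hS i (by simpa using hi)
      exact ⟨hdne i this.1, this.2⟩
    exact_mod_cast Set.ncard_le_ncard this (Set.toFinite _)
  by_cases hcase : (c.natAbs : ℝ) ≤ (n : ℝ) ^ (κ * n)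
  · -- near-max indices
    refine le_trans ?_ (hfin (Finset.univ.filter fun i => ∀ j,
        |k j| ≤ ((n + 1 : ℕ) : ℤ) ^ C * |k i|) ?_)
    · refine le_trans ?_ (hNM k hk0 hk)
      exact mul_le_mul_of_nonneg_right (min_le_right _ _) (Nat.cast_nonneg _)
    · intro i hi
      rw [Finset.mem_filter] at hi
      have hki : k i ≠ 0 := by
        intro h0
        apply hk0
        funext j
        have := hi.2 j
        rw [h0, abs_zero, mul_zero] at this
        simpa using this
      refine ⟨hki, Or.inl ?_⟩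
      obtain ⟨hod, hbil, hq⟩ := hmain i hki
      rw [sv_rowB]
      refine ⟨⟨_, hbil⟩, ?_⟩
      by_cases hs : ((del (symMat w) i).det.natAbs : ℝ) ≤ (n : ℝ) ^ (η * n)
      · refine Or.inl ⟨hs, fun j => ?_⟩
        rw [hq j, abs_neg, abs_div]
        have hpos : (0 : ℚ) < |(k i : ℚ)| := abs_pos.2 (by exact_mod_cast hki)
        rw [div_le_iff₀ hpos]
        have h1 : |(k (i.succAbove j) : ℚ)| ≤ ((n : ℚ) + 1) ^ C * |(k i : ℚ)| := by
          have := hi.2 (i.succAbove j)
          exact_mod_cast this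
        exact h1.trans (mul_le_mul_of_nonneg_right hC hpos.le)
      · refine Or.inr ⟨not_le.1 hs, c.natAbs, hcase, ?_⟩
        rw [hod, hdetabs i]
  · -- averaging
    push Not at hcase
    have hm0 : c.natAbs ≠ 0 := Int.natAbs_ne_zero.2 hc0
    have hY1 : (1 : ℝ) < (n : ℝ) ^ (z * n) :=
      Real.one_lt_rpow (by linarith) (by positivity)
    have havg := avg (ι := Fin (n + 1)) hm0 (fun i => (k i).natAbs) (c1 := c1 * ((n + 1 : ℕ) : ℝ))
      hY1.le (by
        intro q hq
        refine (hSP k hk hprim q hq).trans ?_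
        apply le_of_eq
        congr 3
        ext j
        rw [Int.natCast_dvd])
    have hlogn : 0 < Real.log n := Real.log_pos (by linarith)
    have hlogY : Real.log ((n : ℝ) ^ (z * n)) = z * n * Real.log n := Real.log_rpow hn0 _
    have hlogc : κ * n * Real.log n < Real.log (c.natAbs : ℝ) := by
      rw [← Real.log_rpow hn0]
      exact Real.log_lt_log (Real.rpow_pos_of_pos hn0 _) hcase
    have hlc0 : 0 < Real.log (c.natAbs : ℝ) := lt_trans (by positivity) hlogc
    rw [hlogY, Fintype.card_fin] at havg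
    set S := Finset.univ.filter (fun i : Fin (n + 1) =>
      (n : ℝ) ^ (z * n) ≤ (cop c.natAbs (k i).natAbs : ℝ)) with hS
    have hSc : c1 / 2 * ((n + 1 : ℕ) : ℝ) ≤ (S.card : ℝ) := by
      have h1 : z * n * Real.log n ≤ c1 / 4 * Real.log (c.natAbs : ℝ) := by
        have h2 : z * (n * Real.log n) ≤ κ * (c1 / 4) * (n * Real.log n) :=
          mul_le_mul_of_nonneg_right hzκ (by positivity)
        have h3 : (c1 / 4) * (κ * n * Real.log n) ≤ c1 / 4 * Real.log (c.natAbs : ℝ) :=
          mul_le_mul_of_nonneg_left hlogc.le (by positivity)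
        nlinarith
      have hN : (0 : ℝ) < ((n + 1 : ℕ) : ℝ) := by positivity
      have h4 : ((n + 1 : ℕ) : ℝ) * (z * n * Real.log n) ≤
          ((n + 1 : ℕ) : ℝ) * (c1 / 4 * Real.log (c.natAbs : ℝ)) :=
        mul_le_mul_of_nonneg_left h1 hN.le
      have h5 : (c1 / 2 * ((n + 1 : ℕ) : ℝ)) * Real.log (c.natAbs : ℝ) ≤
          (S.card : ℝ) * Real.log (c.natAbs : ℝ) := by
        have h6 : 0 ≤ c1 * ((n + 1 : ℕ) : ℝ) * Real.log (c.natAbs : ℝ) := by positivity
        nlinarith
      exact le_of_mul_le_mul_right h5 hlc0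
    refine le_trans ?_ (hSc.trans (hfin S ?_))
    · exact mul_le_mul_of_nonneg_right (min_le_left _ _) (Nat.cast_nonneg _)
    · intro i hi
      rw [hS, Finset.mem_filter] at hi
      have hki : k i ≠ 0 := by
        intro h0
        have h1 := hi.2
        rw [h0, Int.natAbs_zero, cop_zero_right] at h1
        simp only [Nat.cast_one] at h1
        linarith
      refine ⟨hki, Or.inr ⟨cop c.natAbs (k i).natAbs, ?_, ?_, hi.2, ?_⟩⟩
      · rw [hdetabs i]
        exact (cop_unitary hm0 _ (Int.natAbs_ne_zero.2 hki)).1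
      · rw [hdetabs i]
        exact (cop_unitary hm0 _ (Int.natAbs_ne_zero.2 hki)).2
      · rw [sv_rowB, (hmain i hki).1]
        exact (cop_coprime_K _ _).symm

end Crest.Agent.R152.Asm
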