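import Crest.Agent.R152.Asm4

set_option autoImplicit false

/-! Row 152, ASM part 5: the two asymptotic statements used by the top level. -/

open Crest.FinProb Crest.ProbabilityR.SignMatrix Crest.Agent.R152.Base Filter Topology

namespace Crest.Agent.R152.Asm

/-- sparse kernels modulo primes are rare -/
def SPK (p : ℝ) : Prop := ∀ ε : ℝ, 0 < ε → ∃ c : ℝ, 0 < c ∧ ∃ n0 : ℕ, ∀ n : ℕ, n0 ≤ n →
  bernoulliProb p {w : Sym2 (Fin n) → Bool | ∃ k : Fin n → ℤ, (symMat w).mulVec k = 0 ∧ Prim k ∧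
    ∃ q : ℕ, q.Prime ∧ ((Finset.univ.filter fun j => ¬ (q : ℤ) ∣ k j).card : ℝ) < c * n} ≤
      (rate p + ε) ^ n

/-- kernels with few near-maximal entries are rare -/
def NMZ (p : ℝ) : Prop := ∀ ε : ℝ, 0 < ε → ∃ δ : ℝ, 0 < δ ∧ ∃ C : ℕ, ∃ n0 : ℕ, ∀ n : ℕ, n0 ≤ n →
  bernoulliProb p {w : Sym2 (Fin n) → Bool | ∃ k : Fin n → ℤ, k ≠ 0 ∧ (symMat w).mulVec k = 0 ∧
    ((Finset.univ.filter fun i => ∀ j, |k j| ≤ (n : ℤ) ^ C * |k i|).card : ℝ) < δ * n} ≤
      (rate p + ε) ^ n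

theorem two_mul_pow_le {a b : ℝ} (ha : 0 < a) (hab : a < b) :
    ∀ᶠ n : ℕ in atTop, a ^ (n + 1) + a ^ (n + 1) ≤ b ^ n := by
  have hb : 0 < b := ha.trans hab
  have hr1 : a / b < 1 := (div_lt_one hb).2 hab
  have hr0 : 0 ≤ a / b := by positivity
  have h := tendsto_pow_atTop_nhds_zero_of_lt_one hr0 hr1
  have h2 : ∀ᶠ n : ℕ in atTop, (a / b) ^ n < 1 / (2 * a) :=
    (tendsto_order.1 h).2 _ (by positivity)
  filter_upwards [h2] with n hn
  rw [div_pow, div_lt_div_iff₀ (by positivity) (by positivity)] at hn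
  have : a ^ (n + 1) + a ^ (n + 1) = a ^ n * (2 * a) := by ring
  rw [this]
  linarith

theorem eventually_le_rpow {c t : ℝ} (ht : 0 < t) :
    ∀ᶠ n : ℕ in atTop, c ≤ (n : ℝ) ^ (t * n) := by
  have h1 : ∀ᶠ n : ℕ in atTop, c ≤ (2 : ℝ) ^ (t * n) := by
    have h2 : Tendsto (fun n : ℕ => (2 : ℝ) ^ (t * n)) atTop atTop := by
      have h3 : Tendsto (fun n : ℕ => ((2 : ℝ) ^ t) ^ n) atTop atTop :=
        tendsto_pow_atTop_atTop_of_one_lt (Real.one_lt_rpow (by norm_num) ht)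
      refine h3.congr fun n => ?_
      rw [← Real.rpow_natCast, ← Real.rpow_mul (by norm_num)]
    exact h2.eventually_ge_atTop c
  filter_upwards [h1, eventually_ge_atTop 2] with n hn hn2
  refine hn.trans ?_
  exact Real.rpow_le_rpow (by norm_num) (by exact_mod_cast hn2) (by positivity)

theorem eventually_le_two_rpow {c t : ℝ} (ht : 0 < t) :
    ∀ᶠ n : ℕ in atTop, c ≤ (2 : ℝ) ^ (t * n) := by
  have h3 : Tendsto (fun n : ℕ => ((2 : ℝ) ^ t) ^ n) atTop atTop :=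
    tendsto_pow_atTop_atTop_of_one_lt (Real.one_lt_rpow (by norm_num) ht)
  have h2 : Tendsto (fun n : ℕ => (2 : ℝ) ^ (t * n)) atTop atTop := by
    refine h3.congr fun n => ?_
    rw [← Real.rpow_natCast, ← Real.rpow_mul (by norm_num)]
  exact h2.eventually_ge_atTop c

theorem eventually_succ_pow (C : ℕ) :
    ∀ᶠ n : ℕ in atTop, ((n : ℚ) + 1) ^ C ≤ (n : ℚ) ^ (C + 1) := by
  filter_upwards [eventually_ge_atTop (2 ^ C), eventually_ge_atTop 1] with n hn hn1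
  have h1 : (1 : ℚ) ≤ n := by exact_mod_cast hn1
  have h2 : ((2 : ℚ) ^ C) ≤ n := by exact_mod_cast hn
  calc ((n : ℚ) + 1) ^ C ≤ (2 * n) ^ C := pow_le_pow_left₀ (by linarith) (by linarith) C
    _ = 2 ^ C * (n : ℚ) ^ C := mul_pow _ _ _
    _ ≤ n * (n : ℚ) ^ C := mul_le_mul_of_nonneg_right h2 (by positivity)
    _ = (n : ℚ) ^ (C + 1) := by ring

/-- The hypothesis of the top level theorem. -/
theorem H_holds {p : ℝ} (hp0 : 0 < p) (hp1 : p < 1) (hG : GLO p) (hT : T1p p) (hS : SPK p)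
    (hN : NMZ p) (hD : DIV) : ∀ ε : ℝ, 0 < ε → ∃ δ : ℝ, 0 < δ ∧
    ∃ R : (n : ℕ) → Matrix (Fin n) (Fin n) ℤ → Set (Fin n → Bool),
    (∀ᶠ n : ℕ in atTop, bernoulliProb p {w : Sym2 (Fin (n + 1)) → Bool |
      (symMat w).det = 0 ∧ (∃ i, (del (symMat w) i).det ≠ 0) ∧
      (Set.ncard {i | (del (symMat w) i).det ≠ 0 ∧ rowB w i ∈ R n (del (symMat w) i)} : ℝ) <
        δ * ((n + 1 : ℕ) : ℝ)} ≤ (rate p + ε) ^ n) ∧
    (∀ᶠ n : ℕ in atTop, bernoulliProb p {w : Sym2 (Fin n) → Bool |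
      (symMat w).det ≠ 0 ∧ (1 + ε) ^ n < ((R n (symMat w)).ncard : ℝ)} ≤ (rate p + ε) ^ n) := by
  intro ε hε
  have hr := rate_pos p
  have hrh := half_le_rate p
  obtain ⟨c1, hc1, n1, hS1⟩ := hS (ε / 2) (by linarith)
  obtain ⟨δ2, hδ2, C, n2, hN1⟩ := hN (ε / 2) (by linarith)
  set L : ℝ := Real.logb 2 (1 + ε) with hL
  have hL0 : 0 < L := Real.logb_pos (by norm_num) (by linarith)
  have h2L : (2 : ℝ) ^ L = 1 + ε := Real.rpow_logb (by norm_num) (by norm_num) (by linarith)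
  obtain ⟨η, hη, n3, hT1⟩ := hT (C + 1) (L / 8) (by linarith)
  obtain ⟨z0, hz0, hD1⟩ := hD (L / 8) (by linarith)
  set κ : ℝ := min z0 (η / 12) with hκd
  have hκ : 0 < κ := lt_min hz0 (by linarith)
  set z : ℝ := min (min z0 (η / 24)) (κ * (c1 / 4)) with hzd
  have hz : 0 < z := lt_min (lt_min hz0 (by linarith)) (by positivity)
  have hzκ : z ≤ κ * (c1 / 4) := min_le_right _ _
  have hzz : z ≤ z0 := (min_le_left _ _).trans (min_le_left _ _)
  have hzη : z ≤ η / 24 := (min_le_left _ _).trans (min_le_right _ _)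
  have hκz : κ ≤ z0 := min_le_left _ _
  have hκη : κ ≤ η / 12 := min_le_right _ _
  obtain ⟨n4, hD2⟩ := hD1 z hz hzz
  obtain ⟨n5, hD3⟩ := hD1 κ hκ hκz
  obtain ⟨n6, hG1⟩ := hG z hz (L / 8) (by linarith)
  refine ⟨min (c1 / 2) δ2, lt_min (by linarith) hδ2, RR z κ η (C + 1), ?_, ?_⟩
  · filter_upwards [eventually_ge_atTop n1, eventually_ge_atTop n2, eventually_ge_atTop 2,
      eventually_succ_pow C, two_mul_pow_le (a := rate p + ε / 2) (b := rate p + ε)
        (by linarith) (by linarith)] with n hn1 hn2 hn hC hpow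
    have hsub : {w : Sym2 (Fin (n + 1)) → Bool |
        (symMat w).det = 0 ∧ (∃ i, (del (symMat w) i).det ≠ 0) ∧
        (Set.ncard {i | (del (symMat w) i).det ≠ 0 ∧
          rowB w i ∈ RR z κ η (C + 1) n (del (symMat w) i)} : ℝ) <
          min (c1 / 2) δ2 * ((n + 1 : ℕ) : ℝ)} ⊆
        {w : Sym2 (Fin (n + 1)) → Bool | ∃ k : Fin (n + 1) → ℤ, (symMat w).mulVec k = 0 ∧
          Prim k ∧ ∃ q : ℕ, q.Prime ∧
            ((Finset.univ.filter fun j => ¬ (q : ℤ) ∣ k j).card : ℝ) < c1 * ((n + 1 : ℕ) : ℝ)} ∪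
        {w : Sym2 (Fin (n + 1)) → Bool | ∃ k : Fin (n + 1) → ℤ, k ≠ 0 ∧
          (symMat w).mulVec k = 0 ∧ ((Finset.univ.filter fun i =>
            ∀ j, |k j| ≤ ((n + 1 : ℕ) : ℤ) ^ C * |k i|).card : ℝ) < δ2 * ((n + 1 : ℕ) : ℝ)} := by
      rintro w ⟨hdet, hex, hlt⟩
      by_contra hw
      rw [Set.mem_union, not_or] at hw
      obtain ⟨hw1, hw2⟩ := hw
      refine absurd hlt (not_lt.2 ?_)
      refine good_indices w hdet hex hn hz hκ hzκ hc1 hC ?_ ?_
      · intro k hk hp q hq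
        by_contra hlt'
        exact hw1 ⟨k, hk, hp, q, hq, not_le.1 hlt'⟩
      · intro k hk0 hk
        by_contra hlt'
        exact hw2 ⟨k, hk0, hk, not_le.1 hlt'⟩
    refine (prob_mono hp0.le hp1.le hsub).trans ((prob_union_le hp0.le hp1.le _ _).trans ?_)
    exact (add_le_add (hS1 (n + 1) (by omega)) (hN1 (n + 1) (by omega))).trans hpow
  · filter_upwards [eventually_ge_atTop n3, eventually_ge_atTop n4, eventually_ge_atTop n5,
      eventually_ge_atTop n6, eventually_ge_atTop 2,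
      eventually_le_rpow (c := 4) (t := η / 2) (by linarith),
      eventually_le_two_rpow (c := 4) (t := 5 / 8 * L) (by linarith)] with
      n hn3 hn4 hn5 hn6 hn h4 h4'
    have hnR : (2 : ℝ) ≤ n := by exact_mod_cast hn
    have hn0 : (0 : ℝ) < n := by linarith
    have hnum : 4 * (n : ℝ) ^ ((3 * κ + 6 * z) * n) ≤ (n : ℝ) ^ (η * n) := by
      have h5 : (n : ℝ) ^ ((3 * κ + 6 * z) * n) ≤ (n : ℝ) ^ (η / 2 * n) := by
        refine Real.rpow_le_rpow_of_exponent_le (by linarith) ?_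
        refine mul_le_mul_of_nonneg_right ?_ hn0.le
        linarith
      calc 4 * (n : ℝ) ^ ((3 * κ + 6 * z) * n) ≤ (n : ℝ) ^ (η / 2 * n) * (n : ℝ) ^ (η / 2 * n) :=
            mul_le_mul h4 h5 (by positivity) (by positivity)
        _ = (n : ℝ) ^ (η * n) := by
            rw [← Real.rpow_add hn0]; congr 1; ring
    have hsub : {w : Sym2 (Fin n) → Bool | (symMat w).det ≠ 0 ∧
        (1 + ε) ^ n < ((RR z κ η (C + 1) n (symMat w)).ncard : ℝ)} ⊆
        {w : Sym2 (Fin n) → Bool | (symMat w).det ≠ 0 ∧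
          ∃ L' : AddSubgroup (Fin n → ℤ), rng (symMat w) ≤ L' ∧ (n : ℝ) ^ (z * n) ≤ (L'.index : ℝ) ∧
            (2 : ℝ) ^ (L / 8 * n) < (Nat.card {x : Fin n → Bool // sv x ∈ L'} : ℝ)} ∪
        {w : Sym2 (Fin n) → Bool | (symMat w).det ≠ 0 ∧
          ((symMat w).det.natAbs : ℝ) ≤ (n : ℝ) ^ (η * n) ∧
          (2 : ℝ) ^ (L / 8 * n) < (Nat.card {x : Fin n → Bool //
            (∃ t : ℤ, bil (symMat w) (sv x) (sv x) = t) ∧
            ∀ i, |qinv (symMat w) (sv x) i| ≤ (n : ℚ) ^ (C + 1)} : ℝ)} := by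
      rintro w ⟨hdet, hlt⟩
      by_contra hw
      rw [Set.mem_union, not_or] at hw
      obtain ⟨hw1, hw2⟩ := hw
      refine absurd hlt (not_lt.2 ?_)
      have hmain := ncard_RR_le part1 part1b part2 perpi (C := C + 1) (b := L / 8)
        (hD2 n hn4) (hD3 n hn5) hnum (by omega) (symMat w) (symMat_symm w) hdet (det_le w)
        (by
          intro L' hL'
          by_contra hlt'
          exact hw1 ⟨hdet, L', hL'.1, hL'.2, not_le.1 hlt'⟩)
        (by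
          intro hs
          by_contra hlt'
          exact hw2 ⟨hdet, hs, not_le.1 hlt'⟩)
      refine hmain.trans ?_
      have hB : (1 : ℝ) ≤ (2 : ℝ) ^ (L / 8 * n) :=
        Real.one_le_rpow (by norm_num) (by positivity)
      have e1 : ((1 + ε) ^ n : ℝ) = (2 : ℝ) ^ (5 / 8 * L * n) * ((2 : ℝ) ^ (L / 8 * n)) ^ 3 := by
        rw [← h2L, ← Real.rpow_natCast, ← Real.rpow_natCast, ← Real.rpow_mul (by norm_num),
          ← Real.rpow_mul (by norm_num), ← Real.rpow_add (by norm_num)]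
        congr 1
        push_cast
        ring
      rw [e1]
      set B : ℝ := (2 : ℝ) ^ (L / 8 * n) with hBd
      have h6 : B + (B + B * (2 * B)) * B ≤ 4 * B ^ 3 := by
        have h7 : B ≤ B ^ 2 := by nlinarith
        have h8 : B ^ 2 ≤ B ^ 3 := by nlinarith [sq_nonneg B]
        nlinarith
      refine h6.trans ?_
      exact mul_le_mul_of_nonneg_right h4' (by positivity)
    refine (prob_mono hp0.le hp1.le hsub).trans ((prob_union_le hp0.le hp1.le _ _).trans ?_)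
    refine (add_le_add (hG1 n hn6) (hT1 n hn3)).trans ?_
    have h9 : (1 / 4 : ℝ) ^ n + (1 / 4 : ℝ) ^ n ≤ (1 / 2 : ℝ) ^ n := by
      have h10 : (1 / 4 : ℝ) ^ n = (1 / 2 : ℝ) ^ n * (1 / 2 : ℝ) ^ n := by
        rw [← mul_pow]; norm_num
      have h11 : (1 / 2 : ℝ) ^ n ≤ 1 / 2 := by
        calc (1 / 2 : ℝ) ^ n ≤ (1 / 2 : ℝ) ^ 1 :=
              pow_le_pow_of_le_one (by norm_num) (by norm_num) (by omega)
          _ = 1 / 2 := pow_one _
      have h12 : 0 < (1 / 2 : ℝ) ^ n := by positivity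
      rw [h10]
      nlinarith
    exact h9.trans (pow_le_pow_left₀ (by norm_num) (by linarith) n)

end Crest.Agent.R152.Asm
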