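import Crest.Agent.R152.Crk

set_option autoImplicit false

/-!
# Row 152, module TOP: reduction to corank one, asymptotic form
-/

open Crest.FinProb Crest.ProbabilityR.SignMatrix Filter Topology

namespace Crest.Agent.R152.Crk

open Base

theorem tendsto_sqrt_succ : Tendsto (fun n : ℕ => Nat.sqrt n + 1) atTop atTop := by
  rw [tendsto_atTop]
  intro b
  filter_upwards [eventually_ge_atTop (b * b)] with n hn
  have := Nat.le_sqrt.2 hn
  omega

/-- polynomial factors `(2n)^{K(√n+1)}` are subexponential -/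
theorem subexp (K : ℕ) {ρ : ℝ} (hρ : 1 < ρ) :
    ∀ᶠ n : ℕ in atTop, 2 * (n : ℝ) * (2 * (n : ℝ)) ^ (K * (Nat.sqrt n + 1)) ≤ ρ ^ n := by
  set σ : ℝ := Real.sqrt ρ with hσ
  have hσ1 : 1 < σ := by
    rw [hσ, Real.lt_sqrt (by norm_num)]
    simpa using hρ
  have hσ2 : σ ^ 2 = ρ := Real.sq_sqrt (by linarith)
  have h1 := tendsto_pow_const_div_const_pow_of_one_lt (2 * (K + 1)) hσ1
  have h2 : ∀ᶠ t : ℕ in atTop, (2 * (t : ℝ) ^ 2) ^ (K + 1) ≤ σ ^ t := by
    have h3 : (0 : ℝ) < 1 / 2 ^ (K + 1) := by positivity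
    filter_upwards [(tendsto_order.1 h1).2 _ h3] with t ht
    have hσt : 0 < σ ^ t := by positivity
    rw [div_lt_div_iff₀ hσt (by positivity)] at ht
    rw [mul_pow, ← pow_mul]
    linarith
  have h4 : ∀ᶠ t : ℕ in atTop, (2 * (t : ℝ) ^ 2) ^ (K + 1) ≤ σ ^ t ∧ 4 ≤ t :=
    h2.and (eventually_ge_atTop 4)
  filter_upwards [tendsto_sqrt_succ.eventually h4, eventually_ge_atTop 1] with n hn hn1
  obtain ⟨h5, h6⟩ := hn
  set t := Nat.sqrt n + 1 with ht
  have hlt : n < t * t := Nat.lt_succ_sqrt n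
  have hge : (t - 1) * (t - 1) ≤ n := by
    rw [ht, Nat.add_sub_cancel]
    exact Nat.sqrt_le n
  have hn' : (1 : ℝ) ≤ n := by exact_mod_cast hn1
  have hnt : (n : ℝ) ≤ (t : ℝ) ^ 2 := by
    have : (n : ℝ) ≤ ((t * t : ℕ) : ℝ) := by exact_mod_cast hlt.le
    rw [Nat.cast_mul] at this
    nlinarith
  have h1t : (1 : ℝ) ≤ 2 * (t : ℝ) ^ 2 := by linarith
  have h7 : 2 * (n : ℝ) * (2 * (n : ℝ)) ^ (K * t) ≤ (2 * (t : ℝ) ^ 2) ^ ((K + 1) * t) := by
    have h8 : 2 * (n : ℝ) * (2 * (n : ℝ)) ^ (K * t) = (2 * (n : ℝ)) ^ (K * t + 1) := by ring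
    rw [h8]
    calc (2 * (n : ℝ)) ^ (K * t + 1) ≤ (2 * (t : ℝ) ^ 2) ^ (K * t + 1) :=
          pow_le_pow_left₀ (by positivity) (by linarith) _
      _ ≤ (2 * (t : ℝ) ^ 2) ^ ((K + 1) * t) := by
          refine pow_le_pow_right₀ h1t ?_
          have : 1 ≤ t := by omega
          nlinarith
  refine h7.trans ?_
  calc (2 * (t : ℝ) ^ 2) ^ ((K + 1) * t) = ((2 * (t : ℝ) ^ 2) ^ (K + 1)) ^ t := by rw [pow_mul]
    _ ≤ (σ ^ t) ^ t := pow_le_pow_left₀ (by positivity) h5 _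
    _ = σ ^ (t * t) := by rw [← pow_mul]
    _ ≤ σ ^ (2 * ((t - 1) * (t - 1))) := by
        refine pow_le_pow_right₀ hσ1.le ?_
        obtain ⟨u, hu⟩ : ∃ u, t = u + 4 := ⟨t - 4, by omega⟩
        rw [hu]
        have : u + 4 - 1 = u + 3 := by omega
        rw [this]
        nlinarith
    _ = ρ ^ ((t - 1) * (t - 1)) := by rw [pow_mul, hσ2]
    _ ≤ ρ ^ n := pow_le_pow_right₀ hρ.le hge

theorem c1_nonneg {p : ℝ} (hp0 : 0 ≤ p) (hp1 : p ≤ 1) (n : ℕ) : 0 ≤ c1 n p :=
  prob_nonneg hp0 hp1 _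

/-- **Reduction to corank one**, asymptotic form. -/
theorem corank_red {p : ℝ} (hp0 : 0 < p) (hp1 : p < 1)
    (H : ∀ ε : ℝ, 0 < ε → ∀ᶠ n : ℕ in atTop, c1 n p ≤ (rate p + ε) ^ n) :
    ∀ ε : ℝ, 0 < ε → ∀ᶠ n : ℕ in atTop, singularProb n p ≤ (rate p + ε) ^ n := by
  intro ε hε
  set q : ℝ := max p (1 - p) with hq
  have hpq : p ≤ q := le_max_left _ _
  have hpq' : 1 - p ≤ q := le_max_right _ _
  have hq1 : q < 1 := max_lt hp1 (by linarith)
  have hq0 : 0 < q := lt_of_lt_of_le hp0 hpq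
  obtain ⟨j, hj⟩ := exists_pow_lt_of_lt_one (show (0 : ℝ) < 1 / 8 by norm_num) hq1
  -- `K` with `K² ≥ 2 j`
  set K : ℕ := 2 * j + 1 with hK
  have hr2 := half_le_rate p
  set R : ℝ := rate p + ε / 2 with hR
  have hR0 : 1 / 2 ≤ R := by linarith
  have hρ : 1 < (rate p + ε) / R := by
    rw [one_lt_div (by linarith)]
    linarith
  obtain ⟨N0, hN0⟩ := eventually_atTop.1 (H (ε / 2) (by linarith))
  filter_upwards [subexp K hρ, tendsto_sqrt_succ.eventually (eventually_ge_atTop (K + N0 + 4)),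
    eventually_ge_atTop 1] with n h1 h2 h3
  set t := Nat.sqrt n + 1 with ht
  have hge : (t - 1) * (t - 1) ≤ n := by
    rw [ht, Nat.add_sub_cancel]
    exact Nat.sqrt_le n
  have hlt : n < t * t := Nat.lt_succ_sqrt n
  have hs : K * t + N0 ≤ n := by
    refine le_trans ?_ hge
    obtain ⟨u, hu⟩ : ∃ u, t = u + (K + N0 + 4) := ⟨t - (K + N0 + 4), by omega⟩
    rw [hu]
    have : u + (K + N0 + 4) - 1 = u + (K + N0 + 3) := by omega
    rw [this]
    nlinarith
  have h4 := corank_sum hp0.le hp1.le hpq hpq' hq1.le n (K * t)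
  -- the exceptional term
  have h5 : (2 : ℝ) ^ n * q ^ (K * t + 1).choose 2 ≤ (1 / 2) * (rate p + ε) ^ n := by
    have h6 : j * n ≤ (K * t + 1).choose 2 := by
      rw [Nat.choose_two_right, Nat.add_sub_cancel, Nat.le_div_iff_mul_le (by norm_num)]
      have h7 : j * n * 2 ≤ K * n := by
        rw [hK]
        nlinarith
      have h8 : K * n ≤ (K * t + 1) * (K * t) := by
        have h9 : K * n ≤ K * (t * t) := Nat.mul_le_mul_left _ hlt.le
        have h10 : 1 ≤ K := by omega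
        nlinarith [Nat.mul_le_mul h10 (le_refl (K * (t * t)))]
      exact h7.trans h8
    have h7 : q ^ (K * t + 1).choose 2 ≤ (1 / 8) ^ n := by
      calc q ^ (K * t + 1).choose 2 ≤ q ^ (j * n) :=
            pow_le_pow_of_le_one hq0.le hq1.le h6
        _ = (q ^ j) ^ n := by rw [pow_mul]
        _ ≤ (1 / 8) ^ n := pow_le_pow_left₀ (by positivity) hj.le _
    calc (2 : ℝ) ^ n * q ^ (K * t + 1).choose 2 ≤ 2 ^ n * (1 / 8) ^ n :=
          mul_le_mul_of_nonneg_left h7 (by positivity)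
      _ = (1 / 2) ^ n * (1 / 2) ^ n := by
          rw [← mul_pow, ← mul_pow]
          norm_num
      _ ≤ (1 / 2) * (rate p + ε) ^ n := by
          refine mul_le_mul ?_ ?_ (by positivity) (by norm_num)
          · calc (1 / 2 : ℝ) ^ n ≤ (1 / 2) ^ 1 :=
                  pow_le_pow_of_le_one (by norm_num) (by norm_num) h3
              _ = 1 / 2 := by norm_num
          · exact pow_le_pow_left₀ (by norm_num) (by linarith) _
  -- the main terms
  have hn' : (1 : ℝ) ≤ n := by exact_mod_cast h3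
  have h6 : ∀ m ∈ (Finset.range n).filter (fun m => n ≤ m + K * t),
      (n.choose (m + 1) : ℝ) * c1 m p ≤ (2 * (n : ℝ)) ^ (K * t) * R ^ n := by
    intro m hm
    rw [Finset.mem_filter, Finset.mem_range] at hm
    obtain ⟨hm1, hm2⟩ := hm
    have h7 : c1 m p ≤ R ^ m := hN0 m (by omega)
    have h8 : R ^ m ≤ 2 ^ (K * t) * R ^ n := by
      have h9 : R ^ n = R ^ m * R ^ (n - m) := by
        rw [← pow_add]
        congr 1
        omega
      have h10 : (1 / 2 : ℝ) ^ (K * t) ≤ R ^ (n - m) := by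
        calc (1 / 2 : ℝ) ^ (K * t) ≤ (1 / 2) ^ (n - m) :=
              pow_le_pow_of_le_one (by norm_num) (by norm_num) (by omega)
          _ ≤ R ^ (n - m) := pow_le_pow_left₀ (by norm_num) hR0 _
      have h11 : (2 : ℝ) ^ (K * t) * (1 / 2) ^ (K * t) = 1 := by
        rw [← mul_pow]
        norm_num
      rw [h9]
      have h12 : 0 ≤ R ^ m := by positivity
      calc R ^ m = R ^ m * ((2 : ℝ) ^ (K * t) * (1 / 2) ^ (K * t)) := by rw [h11, mul_one]
        _ ≤ R ^ m * ((2 : ℝ) ^ (K * t) * R ^ (n - m)) := by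
            refine mul_le_mul_of_nonneg_left ?_ h12
            exact mul_le_mul_of_nonneg_left h10 (by positivity)
        _ = 2 ^ (K * t) * (R ^ m * R ^ (n - m)) := by ring
    have h13 : (n.choose (m + 1) : ℝ) ≤ (n : ℝ) ^ (K * t) := by
      rw [← Nat.choose_symm (by omega : m + 1 ≤ n)]
      calc ((n.choose (n - (m + 1)) : ℕ) : ℝ) ≤ (n : ℝ) ^ (n - (m + 1)) := by
            exact_mod_cast Nat.choose_le_pow n (n - (m + 1))
        _ ≤ (n : ℝ) ^ (K * t) := pow_le_pow_right₀ hn' (by omega)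
    calc (n.choose (m + 1) : ℝ) * c1 m p ≤ (n : ℝ) ^ (K * t) * (2 ^ (K * t) * R ^ n) :=
          mul_le_mul h13 (h7.trans h8) (c1_nonneg hp0.le hp1.le m) (by positivity)
      _ = (2 * (n : ℝ)) ^ (K * t) * R ^ n := by rw [mul_pow]; ring
  have h7 : (∑ m ∈ (Finset.range n).filter (fun m => n ≤ m + K * t),
      (n.choose (m + 1) : ℝ) * c1 m p) ≤ (1 / 2) * (rate p + ε) ^ n := by
    refine (Finset.sum_le_card_nsmul _ _ _ h6).trans ?_
    rw [nsmul_eq_mul]
    have h8 : (((Finset.range n).filter (fun m => n ≤ m + K * t)).card : ℝ) ≤ n := by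
      have := Finset.card_filter_le (Finset.range n) (fun m => n ≤ m + K * t)
      rw [Finset.card_range] at this
      exact_mod_cast this
    have hRn : 0 < R ^ n := by positivity
    have h9 : 2 * (n : ℝ) * (2 * (n : ℝ)) ^ (K * t) * R ^ n ≤ (rate p + ε) ^ n := by
      calc 2 * (n : ℝ) * (2 * (n : ℝ)) ^ (K * t) * R ^ n ≤ ((rate p + ε) / R) ^ n * R ^ n :=
            mul_le_mul_of_nonneg_right h1 hRn.le
        _ = (rate p + ε) ^ n := by
            rw [← mul_pow, div_mul_cancel₀]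
            linarith
    calc _ ≤ (n : ℝ) * ((2 * (n : ℝ)) ^ (K * t) * R ^ n) :=
          mul_le_mul_of_nonneg_right h8 (by positivity)
      _ = (1 / 2) * (2 * (n : ℝ) * (2 * (n : ℝ)) ^ (K * t) * R ^ n) := by ring
      _ ≤ (1 / 2) * (rate p + ε) ^ n := mul_le_mul_of_nonneg_left h9 (by norm_num)
  linarith

end Crest.Agent.R152.Crk
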