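import Crest.Agent.R152.Div

set_option autoImplicit false

/-! Row 152, DIV in the exact form used by ASM (helper904). -/

namespace Crest.Agent.R152.Div

theorem div_asm : ∀ ε : ℝ, 0 < ε → ∃ z0 : ℝ, 0 < z0 ∧ ∀ z : ℝ, 0 < z → z ≤ z0 → ∃ n0 : ℕ,
    ∀ n : ℕ, n0 ≤ n → ∀ m : ℕ, 0 < m → (m : ℝ) ≤ (n : ℝ) ^ (n : ℝ) →
      (((m.divisors.filter (fun d : ℕ => (d : ℝ) ≤ (n : ℝ) ^ (z * n))).card : ℝ) ≤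
        (2 : ℝ) ^ (ε * n)) ∧
      (∃ F : Finset ℕ, (F.card : ℝ) ≤ (2 : ℝ) ^ (ε * n) ∧
        (∀ f ∈ F, f ∣ m ∧ (n : ℝ) ^ (z * n) ≤ f) ∧
        ∀ f : ℕ, f ∣ m → (n : ℝ) ^ (z * n) ≤ f → ∃ f' ∈ F, f' ∣ f) ∧
      (∃ F : Finset ℕ, (F.card : ℝ) ≤ (2 : ℝ) ^ (ε * n) ∧
        (∀ f ∈ F, f ∣ m ∧ Nat.Coprime f (m / f) ∧ (n : ℝ) ^ (z * n) ≤ f) ∧
        ∀ f : ℕ, f ∣ m → Nat.Coprime f (m / f) → (n : ℝ) ^ (z * n) ≤ f → ∃ f' ∈ F, f' ∣ f) := by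
  intro ε hε
  obtain ⟨z0, hz0, n0, h⟩ := div_all 1 ε hε
  refine ⟨z0, hz0, fun z hz hzz => ⟨n0, fun n hn m hm hmn => h z hz hzz n hn m hm ?_⟩⟩
  rwa [one_mul]

end Crest.Agent.R152.Div
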