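import Crest.Agent.R152.Base2

set_option autoImplicit false
set_option linter.unusedSectionVars false

/-! Row 152, BASE part 3: the easy lower bound (two equal rows) and the final limit. -/

open Crest.FinProb Crest.ProbabilityR.SignMatrix Filter Topology

namespace Crest.Agent.R152.Base

/-- `p² + (1-p)²`, the probability that two independent coins agree -/
noncomputable def rate (p : ℝ) : ℝ := p ^ 2 + (1 - p) ^ 2

theorem rate_pos (p : ℝ) : 0 < rate p := by
  unfold rate
  nlinarith [sq_nonneg (p - (1 - p)), sq_nonneg (2 * p - 1)]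

theorem rate_le_one {p : ℝ} (hp0 : 0 ≤ p) (hp1 : p ≤ 1) : rate p ≤ 1 := by
  unfold rate
  nlinarith

theorem rate_lt_one {p : ℝ} (hp0 : 0 < p) (hp1 : p < 1) : rate p < 1 := by
  unfold rate
  nlinarith

theorem rate_half : rate (1 / 2) = 1 / 2 := by unfold rate; norm_num

theorem half_le_rate (p : ℝ) : 1 / 2 ≤ rate p := by
  unfold rate
  nlinarith [sq_nonneg (2 * p - 1)]

section
variable {α : Type*} [Fintype α] [DecidableEq α]

theorem weight_option (p : ℝ) (c : Bool) (x : α → Bool) :
    bernoulliWeight p (fun o : Option α => o.elim c x) =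
      (if c then p else 1 - p) * bernoulliWeight p x := by
  unfold bernoulliWeight
  rw [Fintype.prod_option]
  rfl

theorem ex_weight (p : ℝ) : ex p (fun x : α → Bool => bernoulliWeight p x) =
    rate p ^ Fintype.card α := by
  unfold ex rate
  have h := sum_weight_prod (ι := α)
    (fun _ c => (if c then p else 1 - p) * (if c then p else 1 - p))
  have h1 : ∀ x : α → Bool, bernoulliWeight p x * bernoulliWeight p x =
      ∏ i, (if x i then p else 1 - p) * (if x i then p else 1 - p) := by
    intro x
    unfold bernoulliWeight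
    rw [Finset.prod_mul_distrib]
  rw [Finset.sum_congr rfl fun x _ => h1 x, h]
  simp only [if_true, Bool.false_eq_true, if_false, Finset.prod_const, Finset.card_univ]
  congr 1
  ring

theorem single_le_ex {p : ℝ} (hp0 : 0 ≤ p) (hp1 : p ≤ 1) {F : (α → Bool) → ℝ}
    (hF : ∀ ω, 0 ≤ F ω) (ω₀ : α → Bool) : bernoulliWeight p ω₀ * F ω₀ ≤ ex p F := by
  unfold ex
  exact Finset.single_le_sum (f := fun ω => bernoulliWeight p ω * F ω)
    (fun ω _ => mul_nonneg (weight_nonneg hp0 hp1 ω) (hF ω)) (Finset.mem_univ ω₀)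

end

/-- two equal rows force a zero determinant -/
theorem det_glue_eq_zero {β : Type*} [Fintype β] [DecidableEq β] (b : Sym2 β → Bool)
    (x : β → Bool) (d : Bool) :
    (symMat (glue (glue b x d) (fun o : Option β => o.elim d x) d)).det = 0 := by
  refine Matrix.det_zero_of_row_eq (i := some none) (j := none) (by simp) ?_
  funext k
  rcases k with _ | _ | k <;> simp [symMat_apply]

theorem lower_option (p : ℝ) (hp0 : 0 ≤ p) (hp1 : p ≤ 1) (β : Type*) [Fintype β] [DecidableEq β] :
    (p ^ 3 + (1 - p) ^ 3) * rate p ^ Fintype.card β ≤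
      bernoulliProb p {b : Sym2 (Option (Option β)) → Bool | (symMat b).det = 0} := by
  set F : (Sym2 (Option (Option β)) → Bool) → ℝ :=
    {b : Sym2 (Option (Option β)) → Bool | (symMat b).det = 0}.indicator (fun _ => 1) with hF
  have hq : 0 ≤ 1 - p := by linarith
  have hF0 : ∀ b, 0 ≤ F b := fun b => Set.indicator_nonneg (fun _ _ => zero_le_one) b
  have hF1 : ∀ (b : Sym2 β → Bool) (x : β → Bool) (d : Bool),
      F (glue (glue b x d) (fun o : Option β => o.elim d x) d) = 1 := by
    intro b x d
    simp only [hF]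
    exact Set.indicator_of_mem (s := {b : Sym2 (Option (Option β)) → Bool | (symMat b).det = 0})
      (det_glue_eq_zero b x d) (fun _ => (1 : ℝ))
  have hinner : ∀ (b : Sym2 β → Bool) (x : β → Bool) (d : Bool),
      (if d then p else 1 - p) ^ 2 * bernoulliWeight p x ≤
        ex p (fun y : Option β → Bool => p * F (glue (glue b x d) y true) +
          (1 - p) * F (glue (glue b x d) y false)) := by
    intro b x d
    refine le_trans ?_ (single_le_ex hp0 hp1 (fun y => by
      have := hF0 (glue (glue b x d) y true)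
      have := hF0 (glue (glue b x d) y false)
      positivity) (fun o : Option β => o.elim d x))
    rw [weight_option]
    have hw := weight_nonneg hp0 hp1 x
    cases d
    · have h1 := hF1 b x false
      have h2 := hF0 (glue (glue b x false) (fun o : Option β => o.elim false x) true)
      simp only [Bool.false_eq_true, if_false]
      rw [h1]
      nlinarith [mul_nonneg (mul_nonneg hq hw) (mul_nonneg hp0 h2)]
    · have h1 := hF1 b x true
      have h2 := hF0 (glue (glue b x true) (fun o : Option β => o.elim true x) false)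
      simp only [if_true]
      rw [h1]
      nlinarith [mul_nonneg (mul_nonneg hp0 hw) (mul_nonneg hq h2)]
  rw [prob_eq_ind, ← hF, ex_glue, ex_glue]
  calc (p ^ 3 + (1 - p) ^ 3) * rate p ^ Fintype.card β
      = ex p (fun _ : Sym2 β → Bool => (p ^ 3 + (1 - p) ^ 3) *
          ex p (fun x : β → Bool => bernoulliWeight p x)) := by
        rw [ex_const, ex_weight]
    _ = ex p (fun _ : Sym2 β → Bool =>
          ex p (fun x : β → Bool => (p ^ 3 + (1 - p) ^ 3) * bernoulliWeight p x)) := by
        refine ex_congr p fun _ => ?_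
        rw [ex_smul]
    _ ≤ _ := by
        refine ex_mono hp0 hp1 fun b => ex_mono hp0 hp1 fun x => ?_
        have ht := hinner b x true
        have hf := hinner b x false
        simp only [if_true, Bool.false_eq_true, if_false] at ht hf
        have h1 := mul_le_mul_of_nonneg_left ht hp0
        have h2 := mul_le_mul_of_nonneg_left hf hq
        nlinarith [h1, h2]

/-- **Lower bound**: two equal rows. -/
theorem lowerBound {p : ℝ} (hp0 : 0 ≤ p) (hp1 : p ≤ 1) {n : ℕ} (hn : 2 ≤ n) :
    (p ^ 3 + (1 - p) ^ 3) * rate p ^ (n - 2) ≤ singularProb n p := by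
  have e : Fin n ≃ Option (Option (Fin (n - 2))) := by
    refine Fintype.equivOfCardEq ?_
    simp only [Fintype.card_fin, Fintype.card_option]
    omega
  rw [singularProb_eq, det_prob_congr e]
  simpa using lower_option p hp0 hp1 (Fin (n - 2))

theorem singularProb_nonneg {p : ℝ} (hp0 : 0 ≤ p) (hp1 : p ≤ 1) (n : ℕ) : 0 ≤ singularProb n p :=
  prob_nonneg hp0 hp1 _

theorem singularProb_le_one {p : ℝ} (hp0 : 0 ≤ p) (hp1 : p ≤ 1) (n : ℕ) : singularProb n p ≤ 1 :=
  prob_le_one hp0 hp1 _

/-- **The limit from the upper bound alone.** -/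
theorem tendsto_of_upper {p : ℝ} (hp0 : 0 < p) (hp1 : p < 1)
    (hup : ∀ ε : ℝ, 0 < ε → ∀ᶠ n : ℕ in atTop, singularProb n p ≤ (rate p + ε) ^ n) :
    Tendsto (fun n : ℕ => singularProb n p ^ (1 / (n : ℝ))) atTop (𝓝 (rate p)) := by
  have hr := rate_pos p
  set c : ℝ := (p ^ 3 + (1 - p) ^ 3) * (rate p ^ 2)⁻¹ with hc
  have hcpos : 0 < c := by
    have : 0 < 1 - p := by linarith
    positivity
  have hlow : ∀ᶠ n : ℕ in atTop, Real.exp (Real.log c * (1 / (n : ℝ))) * rate p ≤
      singularProb n p ^ (1 / (n : ℝ)) := by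
    filter_upwards [eventually_ge_atTop 2] with n hn
    have hn0 : (0 : ℝ) < n := by
      have : (2 : ℝ) ≤ n := by exact_mod_cast hn
      linarith
    have h1 := lowerBound hp0.le hp1.le hn
    have h2 : (p ^ 3 + (1 - p) ^ 3) * rate p ^ (n - 2) = c * rate p ^ n := by
      rw [hc]
      have : rate p ^ n = rate p ^ (n - 2) * rate p ^ 2 := by
        rw [← pow_add]; congr 1; omega
      rw [this]
      field_simp
    rw [h2] at h1
    have h3 : (c * rate p ^ n) ^ (1 / (n : ℝ)) = Real.exp (Real.log c * (1 / (n : ℝ))) * rate p := by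
      rw [Real.mul_rpow hcpos.le (by positivity), Real.rpow_def_of_pos hcpos,
        ← Real.rpow_natCast, ← Real.rpow_mul hr.le, mul_one_div_cancel hn0.ne', Real.rpow_one]
    rw [← h3]
    exact Real.rpow_le_rpow (by positivity) h1 (by positivity)
  have hlim : Tendsto (fun n : ℕ => Real.exp (Real.log c * (1 / (n : ℝ))) * rate p) atTop
      (𝓝 (rate p)) := by
    have h0 : Tendsto (fun n : ℕ => (1 / (n : ℝ))) atTop (𝓝 0) := tendsto_one_div_atTop_nhds_zero_nat
    have h1 : Tendsto (fun n : ℕ => Real.exp (Real.log c * (1 / (n : ℝ))) * rate p) atTop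
        (𝓝 (Real.exp (Real.log c * 0) * rate p)) :=
      ((Real.continuous_exp.tendsto _).comp (h0.const_mul _)).mul_const _
    simpa using h1
  rw [tendsto_order]
  constructor
  · intro a ha
    have h1 := (tendsto_order.1 hlim).1 a ha
    filter_upwards [h1, hlow] with n h2 h3
    exact lt_of_lt_of_le h2 h3
  · intro a ha
    have hε : 0 < (a - rate p) / 2 := by linarith
    filter_upwards [hup _ hε, eventually_ge_atTop 1] with n h1 hn
    have hn0 : (0 : ℝ) < n := by exact_mod_cast hn
    calc singularProb n p ^ (1 / (n : ℝ)) ≤ ((rate p + (a - rate p) / 2) ^ n) ^ (1 / (n : ℝ)) :=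
          Real.rpow_le_rpow (singularProb_nonneg hp0.le hp1.le n) h1 (by positivity)
      _ = rate p + (a - rate p) / 2 := by
          rw [← Real.rpow_natCast, ← Real.rpow_mul (by linarith), mul_one_div_cancel hn0.ne',
            Real.rpow_one]
      _ < a := by linarith

/-- S0215 from the upper bound. -/
theorem S0215_of_upper
    (hup : ∀ ε : ℝ, 0 < ε → ∀ᶠ n : ℕ in atTop, singularProb n (1 / 2) ≤ (1 / 2 + ε) ^ n) :
    Tendsto (fun n : ℕ => singularProb n (1 / 2) ^ (1 / (n : ℝ))) atTop (𝓝 (1 / 2)) := by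
  have h := tendsto_of_upper (p := 1 / 2) (by norm_num) (by norm_num)
    (fun ε hε => by rw [rate_half]; exact hup ε hε)
  rwa [rate_half] at h

/-- S0216 from the upper bound. -/
theorem S0216_of_upper {p : ℝ} (hp0 : 0 < p) (hp1 : p < 1)
    (hup : ∀ ε : ℝ, 0 < ε → ∀ᶠ n : ℕ in atTop,
      singularProb n p ≤ (p ^ 2 + (1 - p) ^ 2 + ε) ^ n) :
    Tendsto (fun n : ℕ => singularProb n p ^ (1 / (n : ℝ))) atTop (𝓝 (p ^ 2 + (1 - p) ^ 2)) :=
  tendsto_of_upper hp0 hp1 hup

end Crest.Agent.R152.Base
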