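import Mathlib
import Crest.Prelude.Def_FinProb
import Crest.Prelude.Def_SignMatrix

set_option autoImplicit false
set_option linter.unusedSectionVars false

/-! Row 152, BASE part 1: expectations under independent coins, product structure, relabelling. -/

open Crest.FinProb Crest.ProbabilityR.SignMatrix

namespace Crest.Agent.R152.Base

section Weights
variable {ι κ : Type*} [Fintype ι] [DecidableEq ι] [Fintype κ] [DecidableEq κ]

/-- expectation of a real function under independent `p`-coins -/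
noncomputable def ex (p : ℝ) (F : (ι → Bool) → ℝ) : ℝ :=
  ∑ ω, bernoulliWeight p ω * F ω

theorem weight_nonneg {p : ℝ} (hp0 : 0 ≤ p) (hp1 : p ≤ 1) (ω : ι → Bool) :
    0 ≤ bernoulliWeight p ω := by
  unfold bernoulliWeight
  refine Finset.prod_nonneg fun i _ => ?_
  split_ifs
  · exact hp0
  · linarith

theorem weight_pos {p : ℝ} (hp0 : 0 < p) (hp1 : p < 1) (ω : ι → Bool) :
    0 < bernoulliWeight p ω := by
  unfold bernoulliWeight
  refine Finset.prod_pos fun i _ => ?_
  split_ifs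
  · exact hp0
  · linarith

theorem sum_weight_prod (g : ι → Bool → ℝ) :
    ∑ ω : ι → Bool, ∏ i, g i (ω i) = ∏ i, (g i true + g i false) := by
  have := Finset.prod_univ_sum (κ := fun _ : ι => Bool) (R := ℝ)
    (fun _ => (Finset.univ : Finset Bool)) (fun i b => g i b)
  simp only [Fintype.piFinset_univ] at this
  rw [← this]
  simp

theorem sum_weight (p : ℝ) : ∑ ω : ι → Bool, bernoulliWeight p ω = 1 := by
  classical
  have := sum_weight_prod (fun (_ : ι) (b : Bool) => if b then p else 1 - p)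
  simpa [bernoulliWeight] using this

theorem ex_const (p c : ℝ) : ex p (fun _ : ι → Bool => c) = c := by
  unfold ex
  rw [← Finset.sum_mul, sum_weight, one_mul]

theorem ex_add (p : ℝ) (F G : (ι → Bool) → ℝ) : ex p (fun ω => F ω + G ω) = ex p F + ex p G := by
  unfold ex
  rw [← Finset.sum_add_distrib]
  exact Finset.sum_congr rfl fun ω _ => by ring

theorem ex_sum (p : ℝ) {α : Type*} (s : Finset α) (F : α → (ι → Bool) → ℝ) :
    ex p (fun ω => ∑ a ∈ s, F a ω) = ∑ a ∈ s, ex p (F a) := by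
  unfold ex
  rw [Finset.sum_comm]
  exact Finset.sum_congr rfl fun ω _ => by rw [Finset.mul_sum]

theorem ex_smul (p c : ℝ) (F : (ι → Bool) → ℝ) : ex p (fun ω => c * F ω) = c * ex p F := by
  unfold ex
  rw [Finset.mul_sum]
  exact Finset.sum_congr rfl fun ω _ => by ring

theorem ex_mono {p : ℝ} (hp0 : 0 ≤ p) (hp1 : p ≤ 1) {F G : (ι → Bool) → ℝ}
    (h : ∀ ω, F ω ≤ G ω) : ex p F ≤ ex p G :=
  Finset.sum_le_sum fun ω _ => mul_le_mul_of_nonneg_left (h ω) (weight_nonneg hp0 hp1 ω)

theorem ex_nonneg {p : ℝ} (hp0 : 0 ≤ p) (hp1 : p ≤ 1) {F : (ι → Bool) → ℝ}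
    (h : ∀ ω, 0 ≤ F ω) : 0 ≤ ex p F :=
  Finset.sum_nonneg fun ω _ => mul_nonneg (weight_nonneg hp0 hp1 ω) (h ω)

theorem ex_congr (p : ℝ) {F G : (ι → Bool) → ℝ} (h : ∀ ω, F ω = G ω) : ex p F = ex p G := by
  rw [show F = G from funext h]

open Classical in
theorem prob_eq_ex (p : ℝ) (E : Set (ι → Bool)) :
    bernoulliProb p E = ex p (fun ω => if ω ∈ E then 1 else 0) := by
  unfold bernoulliProb ex
  rw [Finset.sum_filter]
  exact Finset.sum_congr rfl fun ω _ => by by_cases h : ω ∈ E <;> simp [h]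

theorem prob_eq_ind (p : ℝ) (E : Set (ι → Bool)) :
    bernoulliProb p E = ex p (E.indicator fun _ => 1) := by
  classical
  rw [prob_eq_ex]
  exact ex_congr p fun ω => by by_cases h : ω ∈ E <;> simp [h]

theorem prob_nonneg {p : ℝ} (hp0 : 0 ≤ p) (hp1 : p ≤ 1) (E : Set (ι → Bool)) :
    0 ≤ bernoulliProb p E := by
  classical
  rw [prob_eq_ex]
  exact ex_nonneg hp0 hp1 fun ω => by split_ifs <;> norm_num

theorem prob_mono {p : ℝ} (hp0 : 0 ≤ p) (hp1 : p ≤ 1) {E F : Set (ι → Bool)}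
    (h : E ⊆ F) : bernoulliProb p E ≤ bernoulliProb p F := by
  classical
  rw [prob_eq_ex, prob_eq_ex]
  refine ex_mono hp0 hp1 fun ω => ?_
  by_cases h1 : ω ∈ E
  · simp [h1, h h1]
  · simp only [h1, if_false]
    split_ifs <;> norm_num

theorem prob_le_one {p : ℝ} (hp0 : 0 ≤ p) (hp1 : p ≤ 1) (E : Set (ι → Bool)) :
    bernoulliProb p E ≤ 1 := by
  classical
  rw [prob_eq_ex]
  calc _ ≤ ex p (fun _ : ι → Bool => (1 : ℝ)) := ex_mono hp0 hp1 fun ω => by split_ifs <;> norm_num
    _ = 1 := ex_const p 1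

theorem prob_univ (p : ℝ) : bernoulliProb p (Set.univ : Set (ι → Bool)) = 1 := by
  classical
  rw [prob_eq_ex]
  simpa using ex_const (ι := ι) p 1

theorem prob_empty (p : ℝ) : bernoulliProb p (∅ : Set (ι → Bool)) = 0 := by
  classical
  rw [prob_eq_ex]
  simpa using ex_const (ι := ι) p 0

theorem prob_union_le {p : ℝ} (hp0 : 0 ≤ p) (hp1 : p ≤ 1) (E F : Set (ι → Bool)) :
    bernoulliProb p (E ∪ F) ≤ bernoulliProb p E + bernoulliProb p F := by
  classical
  rw [prob_eq_ex, prob_eq_ex, prob_eq_ex, ← ex_add]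
  refine ex_mono hp0 hp1 fun ω => ?_
  by_cases h1 : ω ∈ E <;> by_cases h2 : ω ∈ F <;> simp [h1, h2]

theorem prob_biUnion_le {p : ℝ} (hp0 : 0 ≤ p) (hp1 : p ≤ 1) {α : Type*}
    (s : Finset α) (E : α → Set (ι → Bool)) :
    bernoulliProb p (⋃ a ∈ s, E a) ≤ ∑ a ∈ s, bernoulliProb p (E a) := by
  classical
  induction s using Finset.induction_on with
  | empty => simp [prob_empty]
  | insert a s ha ih =>
    rw [Finset.set_biUnion_insert, Finset.sum_insert ha]
    exact (prob_union_le hp0 hp1 _ _).trans (by linarith)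

theorem prob_iUnion_le {p : ℝ} (hp0 : 0 ≤ p) (hp1 : p ≤ 1) {α : Type*} [Fintype α]
    (E : α → Set (ι → Bool)) :
    bernoulliProb p (⋃ a, E a) ≤ ∑ a, bernoulliProb p (E a) := by
  classical
  have := prob_biUnion_le hp0 hp1 (Finset.univ : Finset α) E
  simpa using this

/-- Markov's inequality. -/
theorem markov {p : ℝ} (hp0 : 0 ≤ p) (hp1 : p ≤ 1) {F : (ι → Bool) → ℝ}
    (hF : ∀ ω, 0 ≤ F ω) {t : ℝ} (ht : 0 < t) :
    bernoulliProb p {ω | t ≤ F ω} ≤ ex p F / t := by
  classical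
  rw [prob_eq_ex, le_div_iff₀ ht, mul_comm, ← ex_smul]
  refine ex_mono hp0 hp1 fun ω => ?_
  by_cases h : t ≤ F ω
  · simpa [h] using h
  · simpa [h] using hF ω

/-! relabelling -/

theorem weight_comp (e : ι ≃ κ) (p : ℝ) (ω : κ → Bool) :
    bernoulliWeight p (ω ∘ e) = bernoulliWeight p ω := by
  unfold bernoulliWeight
  exact Fintype.prod_equiv e _ _ fun i => rfl

theorem ex_comp (e : ι ≃ κ) (p : ℝ) (F : (ι → Bool) → ℝ) :
    ex p F = ex p (fun ω : κ → Bool => F (ω ∘ e)) := by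
  unfold ex
  refine Fintype.sum_equiv (Equiv.arrowCongr e (Equiv.refl Bool)) _ _ fun ω => ?_
  have h1 : ((Equiv.arrowCongr e (Equiv.refl Bool)) ω) ∘ e = ω := by
    funext i
    simp [Equiv.arrowCongr]
  have h2 : bernoulliWeight p ((Equiv.arrowCongr e (Equiv.refl Bool)) ω) = bernoulliWeight p ω := by
    rw [← weight_comp e p, h1]
  simp only [h1, h2]

theorem prob_comp (e : ι ≃ κ) (p : ℝ) (E : Set (ι → Bool)) :
    bernoulliProb p E = bernoulliProb p {ω : κ → Bool | ω ∘ e ∈ E} := by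
  classical
  rw [prob_eq_ex, prob_eq_ex, ex_comp e]
  rfl

/-! product structure -/

theorem weight_sum (p : ℝ) (a : ι → Bool) (b : κ → Bool) :
    bernoulliWeight p (Sum.elim a b) = bernoulliWeight p a * bernoulliWeight p b := by
  unfold bernoulliWeight
  rw [Fintype.prod_sum_type]
  rfl

theorem ex_sumType (p : ℝ) (F : (ι ⊕ κ → Bool) → ℝ) :
    ex p F = ex p (fun a : ι → Bool => ex p (fun b : κ → Bool => F (Sum.elim a b))) := by
  unfold ex
  rw [← Fintype.sum_equiv (Equiv.sumArrowEquivProdArrow ι κ Bool).symm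
    (fun ab => bernoulliWeight p (Sum.elim ab.1 ab.2) * F (Sum.elim ab.1 ab.2)) _ (fun ab => rfl)]
  rw [Fintype.sum_prod_type]
  refine Finset.sum_congr rfl fun a _ => ?_
  rw [Finset.mul_sum]
  refine Finset.sum_congr rfl fun b _ => ?_
  rw [weight_sum]
  ring

theorem ex_option (p : ℝ) (F : (Option ι → Bool) → ℝ) :
    ex p F = ex p (fun a : ι → Bool =>
      p * F (fun o => o.elim true a) + (1 - p) * F (fun o => o.elim false a)) := by
  have h := ex_comp (Equiv.optionEquivSumPUnit.{0} ι) p F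
  rw [h, ex_sumType]
  refine ex_congr p fun a => ?_
  unfold ex
  rw [Fintype.sum_equiv (Equiv.funUnique PUnit Bool)
    (fun b : PUnit → Bool => bernoulliWeight p b *
      F (Sum.elim a b ∘ (Equiv.optionEquivSumPUnit.{0} ι)))
    (fun c : Bool => (if c then p else 1 - p) * F (fun o => o.elim c a)) ?_]
  · simp
  · intro b
    have h1 : bernoulliWeight p b = if b PUnit.unit then p else 1 - p := by
      simp [bernoulliWeight]
    rw [h1]
    have h2 : (Sum.elim a b ∘ (Equiv.optionEquivSumPUnit.{0} ι)) =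
        (fun o : Option ι => o.elim (b PUnit.unit) a) := by
      funext o
      cases o <;> simp
    rw [h2]
    rfl

end Weights

end Crest.Agent.R152.Base
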