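import Crest.Agent.R152.Base1

set_option autoImplicit false
set_option linter.unusedSectionVars false

/-! Row 152, BASE part 2: the symmetric sign matrix on an arbitrary finite index type, deletion of
one index. -/

open Crest.FinProb Crest.ProbabilityR.SignMatrix

namespace Crest.Agent.R152.Base

/-- sign of a coin -/
def sg (c : Bool) : ℤ := if c then 1 else -1

theorem sg_mul_self (c : Bool) : sg c * sg c = 1 := by cases c <;> simp [sg]

theorem sg_ne_zero (c : Bool) : sg c ≠ 0 := by cases c <;> simp [sg]

theorem sg_injective : Function.Injective sg := by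
  intro a b h
  cases a <;> cases b <;> simp_all [sg]

/-- the symmetric sign matrix with coins indexed by unordered pairs -/
def symMat {ι : Type*} (b : Sym2 ι → Bool) : Matrix ι ι ℤ :=
  Matrix.of fun i j => sg (b s(i, j))

theorem symMat_apply {ι : Type*} (b : Sym2 ι → Bool) (i j : ι) : symMat b i j = sg (b s(i, j)) :=
  rfl

theorem symMat_fin (n : ℕ) (b : Sym2 (Fin n) → Bool) : symMat b = symSignMatrix n b := rfl

theorem symMat_symm {ι : Type*} (b : Sym2 ι → Bool) : (symMat b).transpose = symMat b := by
  ext i j
  simp [symMat, Sym2.eq_swap]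

theorem symMat_reindex {ι κ : Type*} (e : ι ≃ κ) (b : Sym2 κ → Bool) :
    symMat (b ∘ Sym2.map e) = (symMat b).submatrix e e := by
  ext i j
  simp [symMat]

/-- relabelling of unordered pairs -/
def symEquiv {ι κ : Type*} (e : ι ≃ κ) : Sym2 ι ≃ Sym2 κ where
  toFun := Sym2.map e
  invFun := Sym2.map e.symm
  left_inv z := by simp [Sym2.map_map]
  right_inv z := by simp [Sym2.map_map]

theorem coe_symEquiv {ι κ : Type*} (e : ι ≃ κ) : ⇑(symEquiv e) = Sym2.map e := rfl

/-- the probability of an event for the symmetric sign matrix on `ι` -/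
noncomputable def symProb {ι : Type*} [Fintype ι] [DecidableEq ι] (p : ℝ)
    (E : Set (Sym2 ι → Bool)) : ℝ := bernoulliProb p E

theorem singularProb_eq (n : ℕ) (p : ℝ) :
    singularProb n p = bernoulliProb p {b : Sym2 (Fin n) → Bool | (symMat b).det = 0} := rfl

/-- Invariance under relabelling of the index type. -/
theorem det_prob_congr {ι κ : Type*} [Fintype ι] [DecidableEq ι] [Fintype κ] [DecidableEq κ]
    (e : ι ≃ κ) (p : ℝ) :
    bernoulliProb p {b : Sym2 ι → Bool | (symMat b).det = 0} =
      bernoulliProb p {b : Sym2 κ → Bool | (symMat b).det = 0} := by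
  rw [prob_comp (symEquiv e)]
  congr 1
  ext b
  simp only [Set.mem_setOf_eq]
  have h : symMat (b ∘ (symEquiv e)) = (symMat b).submatrix e e := symMat_reindex e b
  rw [h, Matrix.det_submatrix_equiv_self]

/-- General relabelling: an event about the matrix. -/
theorem prob_relabel {ι κ : Type*} [Fintype ι] [DecidableEq ι] [Fintype κ] [DecidableEq κ]
    (e : ι ≃ κ) (p : ℝ) (E : Set (Matrix ι ι ℤ)) :
    bernoulliProb p {b : Sym2 ι → Bool | symMat b ∈ E} =
      bernoulliProb p {b : Sym2 κ → Bool | (symMat b).submatrix e e ∈ E} := by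
  rw [prob_comp (symEquiv e)]
  congr 1

/-! ### one more row -/

section Option
variable {α : Type*}

/-- unordered pairs of `Option α` = unordered pairs of `α` plus the row `Option α` of the new
index (the value `none` is the diagonal entry) -/
def sym2Opt : Sym2 (Option α) ≃ Sym2 α ⊕ Option α where
  toFun z := Sym2.lift ⟨fun a b => match a, b with
    | some a, some b => Sum.inl s(a, b)
    | some a, none => Sum.inr (some a)
    | none, some b => Sum.inr (some b)
    | none, none => Sum.inr none, by
      intro a b
      cases a <;> cases b <;> simp [Sym2.eq_swap]⟩ z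
  invFun := Sum.elim (Sym2.map some) (fun o => s(o, none))
  left_inv := by
    intro z
    induction z using Sym2.ind with
    | _ a b =>
      cases a <;> cases b <;> simp [Sym2.eq_swap]
  right_inv := by
    intro w
    rcases w with z | o
    · induction z using Sym2.ind with
      | _ a b => simp
    · cases o <;> simp

@[simp] theorem sym2Opt_some (a b : α) : sym2Opt s(some a, some b) = Sum.inl s(a, b) := rfl
@[simp] theorem sym2Opt_some_none (a : α) : sym2Opt s(some a, none) = Sum.inr (some a) := rfl
@[simp] theorem sym2Opt_none_some (a : α) : sym2Opt s(none, some a) = Sum.inr (some a) := rfl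
@[simp] theorem sym2Opt_none_none : sym2Opt (s(none, none) : Sym2 (Option α)) = Sum.inr none := rfl

/-- coins of the bordered matrix -/
def glue (b : Sym2 α → Bool) (x : α → Bool) (d : Bool) : Sym2 (Option α) → Bool :=
  fun z => Sum.elim b (fun o => o.elim d x) (sym2Opt z)

@[simp] theorem glue_some (b : Sym2 α → Bool) (x : α → Bool) (d : Bool) (i j : α) :
    glue b x d s(some i, some j) = b s(i, j) := rfl
@[simp] theorem glue_some_none (b : Sym2 α → Bool) (x : α → Bool) (d : Bool) (i : α) :
    glue b x d s(some i, none) = x i := rfl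
@[simp] theorem glue_none_some (b : Sym2 α → Bool) (x : α → Bool) (d : Bool) (i : α) :
    glue b x d s(none, some i) = x i := rfl
@[simp] theorem glue_none_none (b : Sym2 α → Bool) (x : α → Bool) (d : Bool) :
    glue b x d s(none, none) = d := rfl

variable [Fintype α] [DecidableEq α]

/-- Product structure: expectation over the bordered matrix. -/
theorem ex_glue (p : ℝ) (F : (Sym2 (Option α) → Bool) → ℝ) :
    ex p F = ex p (fun b : Sym2 α → Bool => ex p (fun x : α → Bool =>
      p * F (glue b x true) + (1 - p) * F (glue b x false))) := by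
  rw [ex_comp sym2Opt, ex_sumType]
  refine ex_congr p fun b => ?_
  rw [ex_option]
  refine ex_congr p fun x => ?_
  rfl

end Option

/-- Deleting the index `i`: `ι ≃ Option {j // j ≠ i}`. -/
theorem ex_delete {ι : Type*} [Fintype ι] [DecidableEq ι] (i : ι) (p : ℝ)
    (F : Matrix ι ι ℤ → ℝ) :
    ex p (fun b : Sym2 ι → Bool => F (symMat b)) =
      ex p (fun b : Sym2 {j // j ≠ i} → Bool => ex p (fun x : {j // j ≠ i} → Bool =>
        p * F ((symMat (glue b x true)).submatrix (Equiv.optionSubtypeNe i).symm
            (Equiv.optionSubtypeNe i).symm) +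
        (1 - p) * F ((symMat (glue b x false)).submatrix (Equiv.optionSubtypeNe i).symm
            (Equiv.optionSubtypeNe i).symm))) := by
  rw [ex_comp (symEquiv (Equiv.optionSubtypeNe i).symm), ex_glue]
  refine ex_congr p fun b => ex_congr p fun x => ?_
  have h : ∀ c : Sym2 (Option {j // j ≠ i}) → Bool,
      symMat (c ∘ (symEquiv (Equiv.optionSubtypeNe i).symm)) =
        (symMat c).submatrix (Equiv.optionSubtypeNe i).symm (Equiv.optionSubtypeNe i).symm :=
    fun c => symMat_reindex _ c
  rw [h, h]

end Crest.Agent.R152.Base
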