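import Mathlib
import Crest.Agent.R152.Base1
import Crest.Agent.R152.Base2

set_option autoImplicit false
set_option linter.unusedSectionVars false

/-! Row 152, module LS (helper162's Lemma S), part 1: robust Odlyzko lemma in Laplace form. -/

open Crest.FinProb Crest.ProbabilityR.SignMatrix
open scoped InnerProductSpace RealInnerProductSpace

namespace Crest.Agent.R152.LS

open Crest.Agent.R152.Base

variable {ι : Type*} [Fintype ι] [DecidableEq ι]

theorem ex_update (p : ℝ) (i : ι) (F : (ι → Bool) → ℝ) :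
    ex p F = ex p (fun ω => p * F (Function.update ω i true)
      + (1 - p) * F (Function.update ω i false)) := by
  classical
  unfold ex
  have hw : ∀ (c : Bool) (a : {j // j ≠ i} → Bool),
      bernoulliWeight p ((Equiv.funSplitAt i Bool).symm (c, a)) =
        (if c then p else 1 - p) * bernoulliWeight p a := by
    intro c a
    unfold bernoulliWeight
    rw [← Finset.mul_prod_erase Finset.univ _ (Finset.mem_univ i)]
    congr 1
    · simp [Equiv.funSplitAt]
    · rw [Finset.prod_subtype (Finset.univ.erase i) (p := fun j => j ≠ i)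
        (fun x => by simp) (fun j => if (Equiv.funSplitAt i Bool).symm (c, a) j then p else 1 - p)]
      refine Finset.prod_congr rfl fun j _ => ?_
      simp [Equiv.funSplitAt, j.2]
  have hu : ∀ (c : Bool) (a : {j // j ≠ i} → Bool) (d : Bool),
      Function.update ((Equiv.funSplitAt i Bool).symm (c, a)) i d =
        (Equiv.funSplitAt i Bool).symm (d, a) := by
    intro c a d
    funext j
    by_cases hj : j = i
    · subst hj; simp [Equiv.funSplitAt]
    · simp [Equiv.funSplitAt, hj]
  rw [← Fintype.sum_equiv (Equiv.funSplitAt i Bool).symm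
    (fun ca => bernoulliWeight p ((Equiv.funSplitAt i Bool).symm ca) *
      F ((Equiv.funSplitAt i Bool).symm ca)) _ (fun ca => rfl)]
  rw [← Fintype.sum_equiv (Equiv.funSplitAt i Bool).symm
    (fun ca => bernoulliWeight p ((Equiv.funSplitAt i Bool).symm ca) *
      (p * F (Function.update ((Equiv.funSplitAt i Bool).symm ca) i true)
      + (1 - p) * F (Function.update ((Equiv.funSplitAt i Bool).symm ca) i false))) _
      (fun ca => rfl)]
  rw [Fintype.sum_prod_type, Fintype.sum_prod_type]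
  simp only [hw, hu, Fintype.univ_bool, Finset.mem_singleton, Bool.true_eq_false, not_false_eq_true,
    Finset.sum_insert, if_true, Finset.sum_singleton, Bool.false_eq_true, if_false]
  rw [← Finset.sum_add_distrib, ← Finset.sum_add_distrib]
  refine Finset.sum_congr rfl fun a _ => ?_
  ring

/-- the sign vector as an element of Euclidean space -/
noncomputable def sv (ω : ι → Bool) : EuclideanSpace ℝ ι :=
  WithLp.toLp 2 (fun i => (sg (ω i) : ℝ))

@[simp] theorem sv_apply (ω : ι → Bool) (i : ι) : sv ω i = (sg (ω i) : ℝ) := rfl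

theorem inner_single (x : EuclideanSpace ℝ ι) (i : ι) :
    ⟪EuclideanSpace.single i (1 : ℝ), x⟫_ℝ = x i := by
  simp [EuclideanSpace.inner_single_left]

/-- the trace of an orthogonal projection -/
theorem sum_norm_proj (U : Submodule ℝ (EuclideanSpace ℝ ι)) :
    ∑ i, ‖U.starProjection (EuclideanSpace.single i (1 : ℝ))‖ ^ 2 = Module.finrank ℝ U := by
  classical
  let b := stdOrthonormalBasis ℝ U
  have h1 : ∀ x : EuclideanSpace ℝ ι, ‖U.starProjection x‖ ^ 2 =
      ∑ k, (⟪(b k : EuclideanSpace ℝ ι), x⟫_ℝ) ^ 2 := by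
    intro x
    have h2 : ‖U.starProjection x‖ = ‖U.orthogonalProjectionOnto x‖ := by
      rw [Submodule.starProjection_apply]; rfl
    rw [h2, ← b.sum_sq_norm_inner_right (U.orthogonalProjectionOnto x)]
    refine Finset.sum_congr rfl fun k _ => ?_
    have h3 : ⟪b k, U.orthogonalProjectionOnto x⟫_ℝ = ⟪(b k : EuclideanSpace ℝ ι), x⟫_ℝ := by
      rw [Submodule.coe_inner]
      have h4 := U.starProjection_inner_eq_zero x (b k : EuclideanSpace ℝ ι) (b k).2
      rw [inner_sub_left, Submodule.starProjection_apply] at h4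
      rw [real_inner_comm, real_inner_comm x]
      linarith
    rw [h3, Real.norm_eq_abs, sq_abs]
  simp only [h1]
  rw [Finset.sum_comm]
  have h5 : ∀ k, ∑ i, (⟪(b k : EuclideanSpace ℝ ι), EuclideanSpace.single i (1:ℝ)⟫_ℝ) ^ 2 = 1 := by
    intro k
    have h6 : ∀ i, ⟪(b k : EuclideanSpace ℝ ι), EuclideanSpace.single i (1:ℝ)⟫_ℝ =
        (b k : EuclideanSpace ℝ ι) i := by
      intro i
      rw [real_inner_comm]; exact inner_single _ _
    simp only [h6]
    rw [← EuclideanSpace.real_norm_sq_eq]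
    have h7 : ‖b k‖ = 1 := b.norm_eq_one k
    have h8 : ‖(b k : EuclideanSpace ℝ ι)‖ = 1 := h7
    rw [h8]; norm_num
  simp [h5]

/-- the coordinate subspace step -/
theorem proj_step (U : Submodule ℝ (EuclideanSpace ℝ ι)) (i : ι) {ρ : ℝ} (hρ : 0 < ρ)
    (hi : ρ ≤ ‖U.starProjection (EuclideanSpace.single i (1 : ℝ))‖) :
    ∃ U' : Submodule ℝ (EuclideanSpace ℝ ι),
      Module.finrank ℝ U ≤ Module.finrank ℝ U' + 1 ∧
      U'.starProjection (EuclideanSpace.single i (1 : ℝ)) = 0 ∧
      ∃ q : EuclideanSpace ℝ ι, ρ ≤ ⟪q, EuclideanSpace.single i (1 : ℝ)⟫_ℝ ∧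
        ∀ x, ‖U'.starProjection x‖ ^ 2 + ⟪q, x⟫_ℝ ^ 2 ≤ ‖U.starProjection x‖ ^ 2 := by
  classical
  set e : EuclideanSpace ℝ ι := EuclideanSpace.single i (1 : ℝ) with he
  set v : EuclideanSpace ℝ ι := U.starProjection e with hv
  have hvpos : 0 < ‖v‖ := lt_of_lt_of_le hρ hi
  have hvU : v ∈ U := U.starProjection_apply_mem e
  have hin : ∀ u ∈ U, ⟪u, e⟫_ℝ = ⟪u, v⟫_ℝ := by
    intro u hu
    have h4 := U.starProjection_inner_eq_zero e u hu
    rw [inner_sub_left, sub_eq_zero] at h4
    rw [real_inner_comm, h4, real_inner_comm]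
  let U' : Submodule ℝ (EuclideanSpace ℝ ι) := U ⊓ (Submodule.span ℝ {v})ᗮ
  have hU'v : ∀ u ∈ U', ⟪u, v⟫_ℝ = 0 := by
    intro u hu
    have := (Submodule.mem_inf.1 hu).2
    rw [Submodule.mem_orthogonal_singleton_iff_inner_left] at this
    exact this
  refine ⟨U', ?_, ?_, (‖v‖⁻¹) • v, ?_, ?_⟩
  · have h1 := Submodule.finrank_sup_add_finrank_inf_eq U (Submodule.span ℝ {v})ᗮ
    have h2 := (Submodule.span ℝ {v}).finrank_add_finrank_orthogonal
    have h3 : Module.finrank ℝ (Submodule.span ℝ {v}) ≤ 1 := by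
      have := finrank_span_singleton (K := ℝ) (v := v) (by
        intro h; rw [h] at hvpos; simp at hvpos)
      omega
    have h4 : Module.finrank ℝ ↥(U ⊔ (Submodule.span ℝ {v})ᗮ) ≤
        Module.finrank ℝ (EuclideanSpace ℝ ι) := Submodule.finrank_le _
    show Module.finrank ℝ U ≤ Module.finrank ℝ ↥(U ⊓ (Submodule.span ℝ {v})ᗮ) + 1
    omega
  · rw [Submodule.starProjection_apply_eq_zero_iff, Submodule.mem_orthogonal]
    intro u hu
    rw [hin u (Submodule.mem_inf.1 hu).1]
    exact hU'v u hu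
  · rw [real_inner_smul_left, hin v hvU, real_inner_self_eq_norm_sq, pow_two, ← mul_assoc,
      inv_mul_cancel₀ hvpos.ne', one_mul]
    exact hi
  · intro x
    set w := U.starProjection x with hw
    have hwU : w ∈ U := U.starProjection_apply_mem x
    have hPw : U'.starProjection x = U'.starProjection w := by
      have h := Submodule.starProjection_comp_starProjection_of_le
        (inf_le_left : U' ≤ U)
      have h2 := congrArg (fun f => f x) h
      simpa using h2.symm
    have hvx : ⟪v, x⟫_ℝ = ⟪v, w⟫_ℝ := by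
      have h4 := U.starProjection_inner_eq_zero x v hvU
      rw [inner_sub_left, sub_eq_zero] at h4
      rw [real_inner_comm, h4, real_inner_comm]
    have hsplit := Submodule.norm_sq_eq_add_norm_sq_starProjection w U'
    set w' := U'ᗮ.starProjection w with hw'
    have hww : w = U'.starProjection w + w' := by
      have := U'.starProjection_add_starProjection_orthogonal w
      exact this.symm
    have hvw : ⟪v, w⟫_ℝ = ⟪v, w'⟫_ℝ := by
      conv_lhs => rw [hww]
      rw [inner_add_right, real_inner_comm, hU'v _ (U'.starProjection_apply_mem w), zero_add]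
    have hcs := real_inner_mul_inner_self_le v w'
    rw [hPw, hsplit, real_inner_smul_left, hvx, hvw]
    have h5 : (‖v‖⁻¹ * ⟪v, w'⟫_ℝ) ^ 2 ≤ ‖w'‖ ^ 2 := by
      rw [mul_pow, inv_pow, ← div_eq_inv_mul, div_le_iff₀ (by positivity)]
      have := abs_real_inner_le_norm v w'
      calc ⟪v, w'⟫_ℝ ^ 2 = |⟪v, w'⟫_ℝ| ^ 2 := (sq_abs _).symm
        _ ≤ (‖v‖ * ‖w'‖) ^ 2 := by gcongr
        _ = ‖w'‖ ^ 2 * ‖v‖ ^ 2 := by ring
    linarith

/-- flipping a sign moves a coordinate functional by `2ρ`: one of the two values is large -/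
theorem two_point {p q ρ lam : ℝ} (hp0 : 0 ≤ p) (hp1 : p ≤ 1) (hq1 : p ≤ q) (hq2 : 1 - p ≤ q)
    (hq : q ≤ 1) (hρ : 0 ≤ ρ) (hl : 0 ≤ lam) {x y : ℝ} (hxy : y + 2 * ρ ≤ x) :
    p * Real.exp (-lam * x ^ 2) + (1 - p) * Real.exp (-lam * y ^ 2) ≤
      q + (1 - q) * Real.exp (-lam * ρ ^ 2) := by
  have key : ρ ≤ x ∨ y ≤ -ρ := by
    by_contra h
    push Not at h
    linarith [h.1, h.2]
  have he1 : ∀ z : ℝ, Real.exp (-lam * z ^ 2) ≤ 1 := by
    intro z
    rw [Real.exp_le_one_iff]
    have := mul_nonneg hl (sq_nonneg z)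
    linarith
  have he2 : ∀ z : ℝ, ρ ^ 2 ≤ z ^ 2 → Real.exp (-lam * z ^ 2) ≤ Real.exp (-lam * ρ ^ 2) := by
    intro z hz
    apply Real.exp_le_exp.2
    have := mul_le_mul_of_nonneg_left hz hl
    linarith
  have hE : 0 ≤ Real.exp (-lam * ρ ^ 2) := (Real.exp_pos _).le
  have hE1 := he1 ρ
  rcases key with h | h
  · have h1 := he2 x (by nlinarith)
    have h2 := he1 y
    have h3 : p * Real.exp (-lam * x ^ 2) ≤ p * Real.exp (-lam * ρ ^ 2) :=
      mul_le_mul_of_nonneg_left h1 hp0
    have h4 : (1 - p) * Real.exp (-lam * y ^ 2) ≤ (1 - p) * 1 :=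
      mul_le_mul_of_nonneg_left h2 (by linarith)
    nlinarith
  · have h1 := he2 y (by nlinarith)
    have h2 := he1 x
    have h3 : p * Real.exp (-lam * x ^ 2) ≤ p * 1 := mul_le_mul_of_nonneg_left h2 hp0
    have h4 : (1 - p) * Real.exp (-lam * y ^ 2) ≤ (1 - p) * Real.exp (-lam * ρ ^ 2) :=
      mul_le_mul_of_nonneg_left h1 (by linarith)
    nlinarith

theorem sv_update (ω : ι → Bool) (i : ι) (c : Bool) :
    sv (Function.update ω i c) = sv ω + ((sg c : ℝ) - sg (ω i)) • EuclideanSpace.single i (1 : ℝ) := by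
  ext j
  by_cases hj : j = i
  · subst hj; simp [sv]
  · simp [sv, hj]

/-- **Robust Odlyzko lemma, Laplace form.** -/
theorem laplace {p q ρ lam : ℝ} (hp0 : 0 ≤ p) (hp1 : p ≤ 1) (hq1 : p ≤ q) (hq2 : 1 - p ≤ q)
    (hq : q ≤ 1) (hρ : 0 < ρ) (hl : 0 ≤ lam) (s : ℕ) :
    ∀ U : Submodule ℝ (EuclideanSpace ℝ ι), ρ ^ 2 * Fintype.card ι + s ≤ Module.finrank ℝ U →
      ∀ a : EuclideanSpace ℝ ι,
      ex p (fun ω : ι → Bool => Real.exp (-lam * ‖U.starProjection (sv ω - a)‖ ^ 2)) ≤
        (q + (1 - q) * Real.exp (-lam * ρ ^ 2)) ^ s := by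
  induction s with
  | zero =>
    intro U _ a
    rw [pow_zero, ← ex_const (ι := ι) p 1]
    refine ex_mono hp0 hp1 fun ω => ?_
    rw [Real.exp_le_one_iff]
    have := mul_nonneg hl (sq_nonneg ‖U.starProjection (sv ω - a)‖)
    linarith
  | succ s ih =>
    intro U hU a
    have hQ : 0 ≤ q + (1 - q) * Real.exp (-lam * ρ ^ 2) := by
      have := Real.exp_pos (-lam * ρ ^ 2)
      have h0 : 0 ≤ q := hp0.trans hq1
      have h1 : 0 ≤ (1 - q) * Real.exp (-lam * ρ ^ 2) := mul_nonneg (by linarith) this.le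
      linarith
    -- choose the coordinate
    have hex : ∃ i, ρ ≤ ‖U.starProjection (EuclideanSpace.single i (1 : ℝ))‖ := by
      by_contra hcon
      push Not at hcon
      have h1 := sum_norm_proj U
      have h2 : ∑ i : ι, ‖U.starProjection (EuclideanSpace.single i (1 : ℝ))‖ ^ 2 ≤
          ∑ _i : ι, ρ ^ 2 := by
        refine Finset.sum_le_sum fun i _ => ?_
        have := hcon i
        gcongr
      rw [h1, Finset.sum_const, Finset.card_univ, nsmul_eq_mul] at h2
      push_cast at hU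
      have hs : (0:ℝ) ≤ s := Nat.cast_nonneg s
      linarith
    obtain ⟨i, hi⟩ := hex
    obtain ⟨U', hfr, hzero, v, hv, hsplit⟩ := proj_step U i hρ hi
    have hU' : ρ ^ 2 * Fintype.card ι + s ≤ Module.finrank ℝ U' := by
      have : (Module.finrank ℝ U : ℝ) ≤ Module.finrank ℝ U' + 1 := by exact_mod_cast hfr
      push_cast at hU
      linarith
    have hih := ih U' hU' a
    rw [ex_update p i]
    have hstep : ∀ ω : ι → Bool,
        p * Real.exp (-lam * ‖U.starProjection (sv (Function.update ω i true) - a)‖ ^ 2) +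
        (1 - p) * Real.exp (-lam * ‖U.starProjection (sv (Function.update ω i false) - a)‖ ^ 2) ≤
        (q + (1 - q) * Real.exp (-lam * ρ ^ 2)) *
          Real.exp (-lam * ‖U'.starProjection (sv ω - a)‖ ^ 2) := by
      intro ω
      have hU'c : ∀ c : Bool, U'.starProjection (sv (Function.update ω i c) - a) =
          U'.starProjection (sv ω - a) := by
        intro c
        rw [sv_update, add_sub_right_comm, map_add, map_smul, hzero, smul_zero, add_zero]
      have hb : ∀ c : Bool,
          Real.exp (-lam * ‖U.starProjection (sv (Function.update ω i c) - a)‖ ^ 2) ≤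
          Real.exp (-lam * ‖U'.starProjection (sv ω - a)‖ ^ 2) *
          Real.exp (-lam * ⟪v, sv (Function.update ω i c) - a⟫_ℝ ^ 2) := by
        intro c
        rw [← Real.exp_add]
        apply Real.exp_le_exp.2
        have := hsplit (sv (Function.update ω i c) - a)
        rw [hU'c c] at this
        have h2 := mul_le_mul_of_nonneg_left this hl
        linarith
      have hT := hb true
      have hF := hb false
      have hxy : ⟪v, sv (Function.update ω i false) - a⟫_ℝ + 2 * ρ ≤
          ⟪v, sv (Function.update ω i true) - a⟫_ℝ := by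
        rw [sv_update, sv_update]
        simp only [inner_sub_right, inner_add_right, real_inner_smul_right]
        have e1 : ((sg true : ℤ) : ℝ) = 1 := by simp [sg]
        have e2 : ((sg false : ℤ) : ℝ) = -1 := by simp [sg]
        rw [e1, e2]
        nlinarith
      have h2 := two_point hp0 hp1 hq1 hq2 hq hρ.le hl hxy
      have hE := Real.exp_pos (-lam * ‖U'.starProjection (sv ω - a)‖ ^ 2)
      have h3 := mul_le_mul_of_nonneg_left hT hp0
      have h4 := mul_le_mul_of_nonneg_left hF (by linarith : 0 ≤ 1 - p)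
      have h5 := mul_le_mul_of_nonneg_left h2 hE.le
      nlinarith
    refine (ex_mono hp0 hp1 hstep).trans ?_
    rw [ex_smul, pow_succ, mul_comm]
    exact mul_le_mul_of_nonneg_right hih hQ

/-- tail form: a sign vector is near an affine subspace with exponentially small probability -/
theorem prob_near {p q ρ lam : ℝ} (hp0 : 0 ≤ p) (hp1 : p ≤ 1) (hq1 : p ≤ q) (hq2 : 1 - p ≤ q)
    (hq : q ≤ 1) (hρ : 0 < ρ) (hl : 0 ≤ lam) (s : ℕ)
    (U : Submodule ℝ (EuclideanSpace ℝ ι)) (hU : ρ ^ 2 * Fintype.card ι + s ≤ Module.finrank ℝ U)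
    (a : EuclideanSpace ℝ ι) (R : ℝ) (hR : 0 ≤ R) :
    bernoulliProb p {ω : ι → Bool | ‖U.starProjection (sv ω - a)‖ ≤ R} ≤
      Real.exp (lam * R ^ 2) * (q + (1 - q) * Real.exp (-lam * ρ ^ 2)) ^ s := by
  have h1 : bernoulliProb p {ω : ι → Bool | ‖U.starProjection (sv ω - a)‖ ≤ R} ≤
      bernoulliProb p {ω : ι → Bool | Real.exp (-lam * R ^ 2) ≤
        Real.exp (-lam * ‖U.starProjection (sv ω - a)‖ ^ 2)} := by
    refine prob_mono hp0 hp1 fun ω hω => ?_
    simp only [Set.mem_ofPred_eq] at hω ⊢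
    apply Real.exp_le_exp.2
    have h2 : ‖U.starProjection (sv ω - a)‖ ^ 2 ≤ R ^ 2 := by gcongr
    have := mul_le_mul_of_nonneg_left h2 hl
    linarith
  refine h1.trans ((markov hp0 hp1 (fun ω => (Real.exp_pos _).le) (Real.exp_pos _)).trans ?_)
  rw [div_le_iff₀ (Real.exp_pos _)]
  have h2 := laplace hp0 hp1 hq1 hq2 hq hρ hl s U hU a
  have h3 : Real.exp (lam * R ^ 2) * (q + (1 - q) * Real.exp (-lam * ρ ^ 2)) ^ s *
      Real.exp (-lam * R ^ 2) = (q + (1 - q) * Real.exp (-lam * ρ ^ 2)) ^ s := by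
    rw [mul_right_comm, ← Real.exp_add]
    simp
  rw [h3]
  exact h2

end Crest.Agent.R152.LS
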