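import Mathlib
import Crest.Agent.R152.Base3
import Crest.Agent.R152.LS1

set_option autoImplicit false
set_option linter.unusedSectionVars false

/-! Row 152, SPARSE part 1: coins along an injection, iid rows, probability that a sign row kills
a vector, and the chain lemma. -/

open Crest.FinProb Crest.ProbabilityR.SignMatrix

namespace Crest.Agent.R152.Sparse

open Crest.Agent.R152.Base

section inj
variable {ι κ : Type*} [Fintype ι] [DecidableEq ι] [Fintype κ] [DecidableEq κ]

/-- A function of the coins along an injection. -/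
theorem ex_inj (p : ℝ) (φ : κ → ι) (hφ : Function.Injective φ) (G : (κ → Bool) → ℝ) :
    ex p (fun ω : ι → Bool => G (ω ∘ φ)) = ex p G := by
  classical
  let e1 : ι ≃ (Set.range φ) ⊕ ((Set.range φ)ᶜ : Set ι) := (Equiv.Set.sumCompl (Set.range φ)).symm
  let e2 : κ ≃ Set.range φ := Equiv.ofInjective φ hφ
  let e : ι ≃ κ ⊕ ((Set.range φ)ᶜ : Set ι) := e1.trans (Equiv.sumCongr e2.symm (Equiv.refl _))
  have he : ∀ k, e (φ k) = Sum.inl k := by
    intro k
    have h1 : e1 (φ k) = Sum.inl (e2 k) := by
      simp only [e1, e2]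
      rw [Equiv.symm_apply_eq]
      simp
    simp [e, h1]
  rw [ex_comp e, ex_sumType]
  have h2 : ∀ (a : κ → Bool) (b : ((Set.range φ)ᶜ : Set ι) → Bool),
      (fun ω : κ ⊕ ((Set.range φ)ᶜ : Set ι) → Bool => G ((ω ∘ e) ∘ φ)) (Sum.elim a b) = G a := by
    intro a b
    have : ((Sum.elim a b ∘ e) ∘ φ) = a := by
      funext k
      simp [he]
    simp only [this]
  refine ex_congr p fun a => ?_
  rw [ex_congr p (fun b => h2 a b), ex_const]

end inj

section kill
variable {Y : Type*} [Fintype Y] [DecidableEq Y]

/-- value of the sign row `r` on the vector `w` -/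
def dot {R : Type*} [CommRing R] (r : Y → Bool) (w : Y → R) : R := ∑ y, ((sg (r y) : ℤ) : R) * w y

theorem dot_update {R : Type*} [CommRing R] (r : Y → Bool) (w : Y → R) (i : Y) (c : Bool) :
    dot (Function.update r i c) w = ((sg c : ℤ) : R) * w i
      + ∑ y ∈ Finset.univ.erase i, ((sg (r y) : ℤ) : R) * w y := by
  unfold dot
  rw [← Finset.add_sum_erase _ _ (Finset.mem_univ i)]
  congr 1
  · simp
  · refine Finset.sum_congr rfl fun y hy => ?_
    rw [Function.update_of_ne (Finset.ne_of_mem_erase hy)]

open Classical in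
/-- A nonzero vector is killed by a sign row with probability at most `rate p`. -/
theorem kill_prob {K : Type*} [Field K] (h2 : (2 : K) ≠ 0) {p : ℝ} (hp0 : 0 ≤ p) (hp1 : p ≤ 1)
    (w : Y → K) (hw : w ≠ 0) :
    ex p (fun r : Y → Bool => if dot r w = 0 then 1 else 0) ≤ rate p := by
  have hq : 0 ≤ 1 - p := by linarith
  obtain ⟨i, hi⟩ : ∃ i, w i ≠ 0 := by
    by_contra h
    push Not at h
    exact hw (funext h)
  by_cases hj : ∃ j, j ≠ i ∧ w j ≠ 0
  · obtain ⟨j, hji, hj⟩ := hj
    rw [LS.ex_update p i]
    rw [LS.ex_update p j]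
    refine le_trans (ex_mono hp0 hp1 (G := fun _ => rate p) fun r => ?_) (ex_const p _).le
    set s : K := ∑ y ∈ (Finset.univ.erase i).erase j, ((sg (r y) : ℤ) : K) * w y with hs
    have hd : ∀ a b : Bool, dot (Function.update (Function.update r j b) i a) w =
        ((sg a : ℤ) : K) * w i + (((sg b : ℤ) : K) * w j + s) := by
      intro a b
      rw [dot_update]
      congr 1
      rw [← Finset.add_sum_erase _ _ (Finset.mem_erase.2 ⟨hji, Finset.mem_univ j⟩)]
      congr 1
      · simp
      · refine Finset.sum_congr rfl fun y hy => ?_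
        rw [Function.update_of_ne (Finset.ne_of_mem_erase hy)]
    simp only [hd]
    have e1 : ((sg true : ℤ) : K) = 1 := by simp [sg]
    have e2 : ((sg false : ℤ) : K) = -1 := by simp [sg]
    simp only [e1, e2]
    have k1 : ¬ (1 * w i + (1 * w j + s) = 0 ∧ (-1 : K) * w i + (1 * w j + s) = 0) := by
      rintro ⟨h1, h3⟩
      have : 2 * w i = 0 := by linear_combination h1 - h3
      exact hi ((mul_eq_zero.1 this).resolve_left h2)
    have k2 : ¬ (1 * w i + (-1 * w j + s) = 0 ∧ (-1 : K) * w i + (-1 * w j + s) = 0) := by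
      rintro ⟨h1, h3⟩
      have : 2 * w i = 0 := by linear_combination h1 - h3
      exact hi ((mul_eq_zero.1 this).resolve_left h2)
    have k3 : ¬ (1 * w i + (1 * w j + s) = 0 ∧ (1 : K) * w i + (-1 * w j + s) = 0) := by
      rintro ⟨h1, h3⟩
      have : 2 * w j = 0 := by linear_combination h1 - h3
      exact hj ((mul_eq_zero.1 this).resolve_left h2)
    have k4 : ¬ ((-1 : K) * w i + (1 * w j + s) = 0 ∧ (-1 : K) * w i + (-1 * w j + s) = 0) := by
      rintro ⟨h1, h3⟩
      have : 2 * w j = 0 := by linear_combination h1 - h3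
      exact hj ((mul_eq_zero.1 this).resolve_left h2)
    have key : ∀ (A B C D : Prop) [Decidable A] [Decidable B] [Decidable C] [Decidable D],
        ¬ (A ∧ B) → ¬ (C ∧ D) → ¬ (A ∧ C) → ¬ (B ∧ D) →
        p * (p * (if A then 1 else 0) + (1 - p) * (if B then 1 else 0))
          + (1 - p) * (p * (if C then 1 else 0) + (1 - p) * (if D then 1 else 0)) ≤ rate p := by
      intro A B C D _ _ _ _ hAB hCD hAC hBD
      unfold rate
      by_cases hA : A
      · have hB : ¬ B := fun h => hAB ⟨hA, h⟩
        have hC : ¬ C := fun h => hAC ⟨hA, h⟩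
        simp only [hA, hB, hC, if_true, if_false]
        split_ifs <;> nlinarith [mul_nonneg hp0 hq, mul_nonneg hp0 hp0, mul_nonneg hq hq]
      · by_cases hD : D
        · have hB : ¬ B := fun h => hBD ⟨h, hD⟩
          have hC : ¬ C := fun h => hCD ⟨h, hD⟩
          simp only [hA, hB, hC, hD, if_true, if_false]
          nlinarith [mul_nonneg hp0 hq, mul_nonneg hp0 hp0, mul_nonneg hq hq]
        · simp only [hA, hD, if_false]
          split_ifs <;> nlinarith [mul_nonneg hp0 hq, sq_nonneg (p - (1 - p)), mul_nonneg hp0 hp0,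
            mul_nonneg hq hq]
    exact key _ _ _ _ k1 k2 k3 k4
  · push Not at hj
    have h0 : ∀ r : Y → Bool, dot r w ≠ 0 := by
      intro r h
      have h1 : dot r w = ((sg (r i) : ℤ) : K) * w i := by
        unfold dot
        rw [Finset.sum_eq_single i]
        · intro y _ hy
          rw [hj y hy, mul_zero]
        · intro h
          exact absurd (Finset.mem_univ i) h
      rw [h1] at h
      rcases mul_eq_zero.1 h with h | h
      · have : ((sg (r i) : ℤ) : K) * ((sg (r i) : ℤ) : K) = 1 := by
          rw [← Int.cast_mul, sg_mul_self, Int.cast_one]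
        rw [h] at this
        simp at this
      · exact hi h
    simp only [h0, if_false]
    rw [ex_const]
    exact (rate_pos p).le

end kill

end Crest.Agent.R152.Sparse
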