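import Mathlib
import Crest.Agent.R152.Sparse1

set_option autoImplicit false
set_option linter.unusedSectionVars false

/-! Row 152, SPARSE part 2: iid rows one after the other; the chain lemma. -/

open Crest.FinProb Crest.ProbabilityR.SignMatrix

namespace Crest.Agent.R152.Sparse

open Crest.Agent.R152.Base

variable {Y : Type*} [Fintype Y] [DecidableEq Y]

/-- `m` further iid rows, the functional depends on the set of rows -/
noncomputable def exS (p : ℝ) (F : Set (Y → Bool) → ℝ) : ℕ → Set (Y → Bool) → ℝ
  | 0, S => F S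
  | m + 1, S => ex p (fun r => exS p F m (insert r S))

theorem exS_zero (p : ℝ) (F : Set (Y → Bool) → ℝ) (S : Set (Y → Bool)) : exS p F 0 S = F S := rfl

theorem exS_succ (p : ℝ) (F : Set (Y → Bool) → ℝ) (m : ℕ) (S : Set (Y → Bool)) :
    exS p F (m + 1) S = ex p (fun r => exS p F m (insert r S)) := rfl

theorem exS_const (p c : ℝ) (m : ℕ) (S : Set (Y → Bool)) : exS p (fun _ => c) m S = c := by
  induction m generalizing S with
  | zero => rfl
  | succ m ih =>
    rw [exS_succ, ex_congr p (fun r => ih (insert r S)), ex_const]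

theorem exS_mono_above {p : ℝ} (hp0 : 0 ≤ p) (hp1 : p ≤ 1) {F G : Set (Y → Bool) → ℝ} (m : ℕ)
    (S : Set (Y → Bool)) (h : ∀ T, S ⊆ T → F T ≤ G T) : exS p F m S ≤ exS p G m S := by
  induction m generalizing S with
  | zero => exact h S subset_rfl
  | succ m ih =>
    rw [exS_succ, exS_succ]
    exact ex_mono hp0 hp1 fun r => ih _ fun T hT => h T ((Set.subset_insert r S).trans hT)

theorem exS_sum (p : ℝ) {α : Type*} (s : Finset α) (F : α → Set (Y → Bool) → ℝ) (m : ℕ)
    (S : Set (Y → Bool)) :
    exS p (fun T => ∑ a ∈ s, F a T) m S = ∑ a ∈ s, exS p (F a) m S := by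
  induction m generalizing S with
  | zero => rfl
  | succ m ih =>
    rw [exS_succ, ex_congr p (fun r => ih (insert r S)), ex_sum]
    rfl

/-- splitting off the first of `m + 1` rows of coins -/
def finRows (Y : Type*) (m : ℕ) : (Fin (m + 1) × Y) ≃ Y ⊕ (Fin m × Y) where
  toFun z := Fin.cases (motive := fun _ => Y ⊕ (Fin m × Y)) (Sum.inl z.2)
    (fun a => Sum.inr (a, z.2)) z.1
  invFun := Sum.elim (fun y => (0, y)) (fun ay => (ay.1.succ, ay.2))
  left_inv := by
    rintro ⟨i, y⟩
    refine Fin.cases ?_ (fun a => ?_) i <;> simp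
  right_inv := by
    rintro (y | ⟨a, y⟩) <;> simp

theorem exS_fin (p : ℝ) (F : Set (Y → Bool) → ℝ) (m : ℕ) (S : Set (Y → Bool)) :
    ex p (fun ω : Fin m × Y → Bool => F (S ∪ Set.range (fun z y => ω (z, y)))) = exS p F m S := by
  induction m generalizing S with
  | zero =>
    have : ∀ ω : Fin 0 × Y → Bool, F (S ∪ Set.range (fun z y => ω (z, y))) = F S := by
      intro ω
      rw [Set.range_eq_empty, Set.union_empty]
    rw [ex_congr p this, ex_const]
    rfl
  | succ m ih =>
    rw [ex_comp (finRows Y m), ex_sumType, exS_succ]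
    refine ex_congr p fun r => ?_
    rw [← ih (insert r S)]
    refine ex_congr p fun a => ?_
    congr 1
    ext t
    simp only [Set.mem_union, Set.mem_range, Set.mem_insert_iff]
    constructor
    · rintro (h | ⟨z, rfl⟩)
      · exact Or.inl (Or.inr h)
      · refine Fin.cases ?_ (fun z => ?_) z
        · exact Or.inl (Or.inl rfl)
        · exact Or.inr ⟨z, rfl⟩
    · rintro ((rfl | h) | ⟨z, rfl⟩)
      · exact Or.inr ⟨0, rfl⟩
      · exact Or.inl h
      · exact Or.inr ⟨z.succ, rfl⟩

theorem exS_rows {Z : Type*} [Fintype Z] [DecidableEq Z] (p : ℝ) (F : Set (Y → Bool) → ℝ)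
    (S : Set (Y → Bool)) :
    ex p (fun ω : Z × Y → Bool => F (S ∪ Set.range (fun z y => ω (z, y)))) =
      exS p F (Fintype.card Z) S := by
  rw [← exS_fin, ex_comp ((Fintype.equivFin Z).prodCongr (Equiv.refl Y))]
  refine ex_congr p fun ω => ?_
  congr 2
  ext t
  simp only [Set.mem_range]
  constructor
  · rintro ⟨z, rfl⟩
    exact ⟨Fintype.equivFin Z z, rfl⟩
  · rintro ⟨i, rfl⟩
    refine ⟨(Fintype.equivFin Z).symm i, ?_⟩
    funext y
    simp

/-- the vectors killed by all rows in `S` -/
def ker (R : Type*) [CommRing R] (S : Set (Y → Bool)) : Submodule R (Y → R) where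
  carrier := {w | ∀ r ∈ S, dot r w = 0}
  add_mem' := by
    intro a b ha hb r hr
    have : dot r (a + b) = dot r a + dot r b := by
      unfold dot
      rw [← Finset.sum_add_distrib]
      exact Finset.sum_congr rfl fun y _ => by simp [mul_add]
    rw [this, ha r hr, hb r hr, add_zero]
  zero_mem' := by
    intro r _
    unfold dot
    simp
  smul_mem' := by
    intro c a ha r hr
    have : dot r (c • a) = c * dot r a := by
      unfold dot
      rw [Finset.mul_sum]
      exact Finset.sum_congr rfl fun y _ => by simp; ring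
    rw [this, ha r hr, mul_zero]

theorem mem_ker {R : Type*} [CommRing R] {S : Set (Y → Bool)} {w : Y → R} :
    w ∈ ker R S ↔ ∀ r ∈ S, dot r w = 0 := Iff.rfl

theorem ker_anti {R : Type*} [CommRing R] {S T : Set (Y → Bool)} (h : S ⊆ T) :
    ker R T ≤ ker R S := fun _ hw r hr => hw r (h hr)

open Classical in
/-- **Chain lemma.** If every vector of `V₀` is killed by a row with probability `≤ ρ`, then some
vector of `V₀` is killed by `m` rows with probability at most `t^l (ρ + 1/t)^m`. -/
theorem chain {R : Type*} [CommRing R] (l : Submodule R (Y → R) → ℕ) (hl : StrictMono l)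
    (V₀ : Set (Y → R)) {p : ℝ} (hp0 : 0 ≤ p) (hp1 : p ≤ 1) {ρ : ℝ} (hρ0 : 0 ≤ ρ)
    (hρ : ∀ v ∈ V₀, ex p (fun r : Y → Bool => if dot r v = 0 then 1 else 0) ≤ ρ)
    {t : ℝ} (ht : 1 ≤ t) (m : ℕ) (S : Set (Y → Bool)) :
    exS p (fun T => if ∃ v ∈ V₀, v ∈ ker R T then 1 else 0) m S ≤
      t ^ l (ker R S) * (ρ + 1 / t) ^ m := by
  have ht0 : 0 < t := lt_of_lt_of_le one_pos ht
  have hX : 0 < ρ + 1 / t := by positivity
  induction m generalizing S with
  | zero =>
    rw [exS_zero, pow_zero, mul_one]
    have : (1 : ℝ) ≤ t ^ l (ker R S) := one_le_pow₀ ht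
    split_ifs
    · exact this
    · linarith
  | succ m ih =>
    rw [exS_succ]
    by_cases hS : ∃ v ∈ V₀, v ∈ ker R S
    · obtain ⟨v, hv, hvS⟩ := hS
      have step : ∀ r : Y → Bool,
          exS p (fun T => if ∃ v ∈ V₀, v ∈ ker R T then 1 else 0) m (insert r S) ≤
            (t ^ l (ker R S) * (ρ + 1 / t) ^ m) * ((if dot r v = 0 then 1 else 0) + 1 / t) := by
        intro r
        refine (ih (insert r S)).trans ?_
        have hle : ker R (insert r S) ≤ ker R S := ker_anti (Set.subset_insert r S)
        rcases hle.eq_or_lt with h | h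
        · have hrv : dot r v = 0 := by
            have : v ∈ ker R (insert r S) := by rw [h]; exact hvS
            exact this r (Set.mem_insert r S)
          rw [h, if_pos hrv]
          have h1 : 0 ≤ t ^ l (ker R S) * (ρ + 1 / t) ^ m := by positivity
          have h2 : 0 ≤ 1 / t := by positivity
          nlinarith
        · have h1 : l (ker R (insert r S)) + 1 ≤ l (ker R S) := hl h
          have h2 : t ^ l (ker R (insert r S)) * t ≤ t ^ l (ker R S) := by
            rw [← pow_succ]
            exact pow_le_pow_right₀ ht h1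
          have h3 : t ^ l (ker R (insert r S)) ≤ t ^ l (ker R S) * (1 / t) := by
            rw [mul_one_div, le_div_iff₀ ht0]
            exact h2
          calc t ^ l (ker R (insert r S)) * (ρ + 1 / t) ^ m
              ≤ (t ^ l (ker R S) * (1 / t)) * (ρ + 1 / t) ^ m :=
                mul_le_mul_of_nonneg_right h3 (by positivity)
            _ = (t ^ l (ker R S) * (ρ + 1 / t) ^ m) * (0 + 1 / t) := by ring
            _ ≤ _ := by
              refine mul_le_mul_of_nonneg_left ?_ (by positivity)
              have : (0 : ℝ) ≤ if dot r v = 0 then 1 else 0 := by split_ifs <;> norm_num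
              linarith
      refine (ex_mono hp0 hp1 step).trans ?_
      rw [ex_smul, ex_add, ex_const, pow_succ]
      have h1 := hρ v hv
      have h0 : 0 ≤ t ^ l (ker R S) * (ρ + 1 / t) ^ m := by positivity
      calc _ ≤ (t ^ l (ker R S) * (ρ + 1 / t) ^ m) * (ρ + 1 / t) :=
            mul_le_mul_of_nonneg_left (by linarith) h0
        _ = _ := by ring
    · have h0 : ∀ r : Y → Bool,
          exS p (fun T => if ∃ v ∈ V₀, v ∈ ker R T then (1 : ℝ) else 0) m (insert r S) ≤ 0 := by
        intro r
        refine (exS_mono_above hp0 hp1 m (insert r S) (G := fun _ => 0) fun T hT => ?_).trans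
          (exS_const p 0 m _).le
        rw [if_neg]
        rintro ⟨v, hv, hvT⟩
        exact hS ⟨v, hv, ker_anti ((Set.subset_insert r S).trans hT) hvT⟩
      refine (ex_mono hp0 hp1 h0).trans ?_
      rw [ex_const]
      positivity

end Crest.Agent.R152.Sparse
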