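import Mathlib
import Crest.Agent.R152.Sparse2

set_option autoImplicit false
set_option linter.unusedSectionVars false

/-! Row 152, SPARSE part 3: kernels over a field, all odd primes at once, parity rows. -/

open Crest.FinProb Crest.ProbabilityR.SignMatrix
open scoped Matrix

namespace Crest.Agent.R152.Sparse

open Crest.Agent.R152.Base

variable {Y : Type*} [Fintype Y] [DecidableEq Y]

open Classical in
/-- General chain lemma. -/
theorem chain_aux {R : Type*} [CommRing R] (l : Submodule R (Y → R) → ℕ) (hl : StrictMono l)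
    (V₀ : Set (Y → R)) {p : ℝ} (hp0 : 0 ≤ p) (hp1 : p ≤ 1) {ρ : ℝ} (hρ0 : 0 ≤ ρ)
    (hρ : ∀ v ∈ V₀, ex p (fun r : Y → Bool => if dot r v = 0 then 1 else 0) ≤ ρ)
    {t : ℝ} (ht : 1 ≤ t) (F : Set (Y → Bool) → ℝ) {C : ℝ} (hC : 0 ≤ C) (hF : ∀ T, F T ≤ C)
    (hbase : ∀ S, (¬ ∃ v ∈ V₀, v ∈ ker R S) → ∀ m, exS p F m S ≤ C * (ρ + 1 / t) ^ m)
    (m : ℕ) (S : Set (Y → Bool)) :
    exS p F m S ≤ C * (t ^ l (ker R S) * (ρ + 1 / t) ^ m) := by
  have ht0 : 0 < t := lt_of_lt_of_le one_pos ht
  have hX : 0 < ρ + 1 / t := by positivity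
  induction m generalizing S with
  | zero =>
    rw [exS_zero, pow_zero, mul_one]
    have : (1 : ℝ) ≤ t ^ l (ker R S) := one_le_pow₀ ht
    exact (hF S).trans (le_mul_of_one_le_right hC this)
  | succ m ih =>
    by_cases hS : ∃ v ∈ V₀, v ∈ ker R S
    · rw [exS_succ]
      obtain ⟨v, hv, hvS⟩ := hS
      have step : ∀ r : Y → Bool,
          exS p F m (insert r S) ≤
            (C * (t ^ l (ker R S) * (ρ + 1 / t) ^ m)) * ((if dot r v = 0 then 1 else 0) + 1 / t) := by
        intro r
        refine (ih (insert r S)).trans ?_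
        rw [mul_assoc]
        refine mul_le_mul_of_nonneg_left ?_ hC
        have hle : ker R (insert r S) ≤ ker R S := ker_anti (Set.subset_insert r S)
        rcases hle.eq_or_lt with h | h
        · have hrv : dot r v = 0 := by
            have : v ∈ ker R (insert r S) := by rw [h]; exact hvS
            exact this r (Set.mem_insert r S)
          rw [h, if_pos hrv]
          have h1 : 0 ≤ t ^ l (ker R S) * (ρ + 1 / t) ^ m := by positivity
          have h2 : 0 ≤ 1 / t := by positivity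
          nlinarith
        · have h1 : l (ker R (insert r S)) + 1 ≤ l (ker R S) := hl h
          have h2 : t ^ l (ker R (insert r S)) * t ≤ t ^ l (ker R S) := by
            rw [← pow_succ]
            exact pow_le_pow_right₀ ht h1
          have h3 : t ^ l (ker R (insert r S)) ≤ t ^ l (ker R S) * (1 / t) := by
            rw [mul_one_div, le_div_iff₀ ht0]
            exact h2
          calc t ^ l (ker R (insert r S)) * (ρ + 1 / t) ^ m
              ≤ (t ^ l (ker R S) * (1 / t)) * (ρ + 1 / t) ^ m :=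
                mul_le_mul_of_nonneg_right h3 (by positivity)
            _ = (t ^ l (ker R S) * (ρ + 1 / t) ^ m) * (0 + 1 / t) := by ring
            _ ≤ _ := by
              refine mul_le_mul_of_nonneg_left ?_ (by positivity)
              have : (0 : ℝ) ≤ if dot r v = 0 then 1 else 0 := by split_ifs <;> norm_num
              linarith
      refine (ex_mono hp0 hp1 step).trans ?_
      rw [ex_smul, ex_add, ex_const, pow_succ]
      have h1 := hρ v hv
      have h0 : 0 ≤ C * (t ^ l (ker R S) * (ρ + 1 / t) ^ m) := by positivity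
      calc _ ≤ (C * (t ^ l (ker R S) * (ρ + 1 / t) ^ m)) * (ρ + 1 / t) :=
            mul_le_mul_of_nonneg_left (by linarith) h0
        _ = _ := by ring
    · refine (hbase S hS (m + 1)).trans ?_
      refine mul_le_mul_of_nonneg_left ?_ hC
      have : (1 : ℝ) ≤ t ^ l (ker R S) := one_le_pow₀ ht
      exact le_mul_of_one_le_left (by positivity) this

open Classical in
/-- Over a field of characteristic not two. -/
theorem chain_field {K : Type*} [Field K] (h2 : (2 : K) ≠ 0) {p : ℝ} (hp0 : 0 ≤ p) (hp1 : p ≤ 1)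
    {t : ℝ} (ht : 1 ≤ t) (m : ℕ) (S : Set (Y → Bool)) :
    exS p (fun T => if ∃ w ∈ ker K T, w ≠ 0 then 1 else 0) m S ≤
      t ^ (Module.finrank K (ker K S)) * (rate p + 1 / t) ^ m := by
  have h := chain (R := K) (fun W => Module.finrank K W)
    (fun a b hab => Submodule.finrank_lt_finrank_of_lt hab) {w | w ≠ 0} hp0 hp1 (rate_pos p).le
    (fun v hv => kill_prob h2 hp0 hp1 v hv) ht m S
  refine le_trans (le_of_eq ?_) h
  congr 1
  funext T
  congr 1
  exact propext ⟨fun ⟨w, h1, h2⟩ => ⟨w, h2, h1⟩, fun ⟨w, h1, h2⟩ => ⟨w, h2, h1⟩⟩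

/-- a nonzero integer divisible by all primes modulo which the rows degenerate -/
theorem exists_minor (S : Set (Y → Bool)) (hS : ker ℚ S = ⊥) :
    ∃ D : ℤ, D ≠ 0 ∧ |D| ≤ (Fintype.card Y).factorial ∧
      ∀ l : ℕ, l.Prime → (∃ w ∈ ker (ZMod l) S, w ≠ 0) → (l : ℤ) ∣ D := by
  classical
  set v : (Y → Bool) → (Y → ℚ) := fun r y => ((sg (r y) : ℤ) : ℚ) with hv
  have hspan : Submodule.span ℚ (v '' S) = ⊤ := by
    by_contra hne
    obtain ⟨f, hf0, hf⟩ := Submodule.exists_le_ker_of_lt_top _ (lt_top_iff_ne_top.2 hne)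
    set w : Y → ℚ := fun y => f (Pi.single y 1) with hw
    have hfw : ∀ u : Y → ℚ, f u = ∑ y, u y * w y := by
      intro u
      have : u = ∑ y, u y • (Pi.single y (1 : ℚ) : Y → ℚ) := by
        funext z
        simp [Finset.sum_apply, Pi.single_apply]
      conv_lhs => rw [this]
      rw [map_sum]
      exact Finset.sum_congr rfl fun y _ => by rw [map_smul, smul_eq_mul]
    have hwk : w ∈ ker ℚ S := by
      intro r hr
      have h1 : v r ∈ LinearMap.ker f := hf (Submodule.subset_span ⟨r, hr, rfl⟩)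
      have h2 : f (v r) = 0 := h1
      rw [hfw] at h2
      exact h2
    rw [hS, Submodule.mem_bot] at hwk
    apply hf0
    ext y
    have := congrFun hwk y
    simpa [hw] using this
  obtain ⟨b, hb, hbs, hbl⟩ := exists_linearIndependent ℚ (v '' S)
  rw [hspan] at hbs
  let B : Module.Basis b ℚ (Y → ℚ) := Module.Basis.mk hbl (by rw [Subtype.range_coe]; exact hbs.ge)
  have hcard : Nat.card b = Fintype.card Y := by
    have h1 := Module.finrank_eq_nat_card_basis B
    rw [Module.finrank_fintype_fun_eq_card] at h1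
    exact h1.symm
  have : Fintype b := Module.Basis.fintypeIndexOfRankLtAleph0 B (by
    exact Module.rank_lt_aleph0 ℚ (Y → ℚ))
  have e : Y ≃ b := Fintype.equivOfCardEq (by rw [← hcard, Nat.card_eq_fintype_card])
  choose g hgS hg using fun y : Y => hb (e y).2
  let A : Matrix Y Y ℤ := Matrix.of fun y z => sg (g y z)
  refine ⟨A.det, ?_, ?_, ?_⟩
  · have hli : LinearIndependent ℚ (fun y : Y => ((e y : b) : Y → ℚ)) := hbl.comp e e.injective
    have hrows : (A.map (Int.cast : ℤ → ℚ)).row = fun y : Y => ((e y : b) : Y → ℚ) := by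
      funext y z
      have := congrFun (hg y) z
      simpa [A, hv, Matrix.row] using this
    rw [← hrows, Matrix.linearIndependent_rows_iff_isUnit, Matrix.isUnit_iff_isUnit_det,
      isUnit_iff_ne_zero] at hli
    intro h0
    apply hli
    have : (A.map (Int.cast : ℤ → ℚ)).det = ((A.det : ℤ) : ℚ) := by
      rw [Int.cast_det]
    rw [this, h0, Int.cast_zero]
  · have h1 := Matrix.det_le (A := A) (abv := AbsoluteValue.abs) (x := 1) (fun i j => by
      simp only [A, Matrix.of_apply, AbsoluteValue.abs_apply]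
      rcases g i j with _ | _ <;> simp [sg])
    simpa using h1
  · intro l hl hw
    obtain ⟨w, hwk, hw0⟩ := hw
    have : Fact l.Prime := ⟨hl⟩
    have h1 : (A.map (Int.cast : ℤ → ZMod l)) *ᵥ w = 0 := by
      funext y
      have h2 := hwk (g y) (hgS y)
      simpa [Matrix.mulVec, dotProduct, A, dot] using h2
    have h2 : (A.map (Int.cast : ℤ → ZMod l)).det = 0 :=
      Matrix.exists_mulVec_eq_zero_iff.1 ⟨w, hw0, h1⟩
    have h3 : ((A.det : ℤ) : ZMod l) = 0 := by
      rw [Int.cast_det]; exact h2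
    exact (ZMod.intCast_zmod_eq_zero_iff_dvd _ _).1 h3

theorem card_primeFactors_le {D : ℤ} (hD : D ≠ 0) {s : ℕ} (h : |D| ≤ s.factorial) :
    D.natAbs.primeFactors.card ≤ s ^ 2 := by
  have h0 : D.natAbs ≠ 0 := Int.natAbs_ne_zero.2 hD
  have h1 : 2 ^ D.natAbs.primeFactors.card ≤ D.natAbs := by
    refine le_trans ?_ (Nat.le_of_dvd (Nat.pos_of_ne_zero h0) (Nat.prod_primeFactors_dvd _))
    exact Finset.pow_card_le_prod _ _ _ fun q hq => (Nat.prime_of_mem_primeFactors hq).two_le
  have h2 : D.natAbs ≤ s.factorial := by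
    have : ((D.natAbs : ℕ) : ℤ) ≤ (s.factorial : ℤ) := by rw [Int.natCast_natAbs]; exact h
    exact_mod_cast this
  have h3 : s.factorial ≤ 2 ^ (s ^ 2) := by
    refine (Nat.factorial_le_pow s).trans ?_
    rw [pow_two, pow_mul]
    exact Nat.pow_le_pow_left (Nat.lt_two_pow_self).le s
  exact (Nat.pow_le_pow_iff_right (by norm_num)).1 (h1.trans (h2.trans h3))

open Classical in
/-- **All odd primes at once.** -/
theorem chain_primes {p : ℝ} (hp0 : 0 ≤ p) (hp1 : p ≤ 1) {t : ℝ} (ht : 1 ≤ t) (m : ℕ)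
    (S : Set (Y → Bool)) :
    exS p (fun T => if ∃ l : ℕ, l.Prime ∧ l ≠ 2 ∧ ∃ w ∈ ker (ZMod l) T, w ≠ 0 then 1 else 0) m S ≤
      (((Fintype.card Y) ^ 2 + 1 : ℕ) * t ^ Fintype.card Y) *
        (t ^ (Module.finrank ℚ (ker ℚ S)) * (rate p + 1 / t) ^ m) := by
  have ht0 : 0 < t := lt_of_lt_of_le one_pos ht
  have htY : (1 : ℝ) ≤ t ^ Fintype.card Y := one_le_pow₀ ht
  refine chain_aux (R := ℚ) (fun W => Module.finrank ℚ W)
    (fun a b hab => Submodule.finrank_lt_finrank_of_lt hab) {w | w ≠ 0} hp0 hp1 (rate_pos p).le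
    (fun v hv => kill_prob two_ne_zero hp0 hp1 v hv) ht _ (by positivity) ?_ ?_ m S
  · intro T
    have h1 : (1 : ℝ) ≤ ((Fintype.card Y ^ 2 + 1 : ℕ) : ℝ) := by
      push_cast
      nlinarith [sq_nonneg ((Fintype.card Y : ℕ) : ℝ)]
    have : (1 : ℝ) ≤ ((Fintype.card Y ^ 2 + 1 : ℕ) : ℝ) * t ^ Fintype.card Y := by nlinarith
    split_ifs
    · exact this
    · linarith
  · intro S' hS' m'
    have hbot : ker ℚ S' = ⊥ := by
      rw [eq_bot_iff]
      intro w hw
      rw [Submodule.mem_bot]
      by_contra h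
      exact hS' ⟨w, h, hw⟩
    obtain ⟨D, hD0, hDle, hDl⟩ := exists_minor S' hbot
    have hX : 0 < rate p + 1 / t := add_pos (rate_pos p) (by positivity)
    have hbound : ∀ l ∈ D.natAbs.primeFactors.filter (fun l => l ≠ 2),
        exS p (fun T => if ∃ w ∈ ker (ZMod l) T, w ≠ 0 then 1 else 0) m' S' ≤
          t ^ Fintype.card Y * (rate p + 1 / t) ^ m' := by
      intro l hl
      rw [Finset.mem_filter] at hl
      have hlp := Nat.prime_of_mem_primeFactors hl.1
      have : Fact l.Prime := ⟨hlp⟩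
      have h2 : (2 : ZMod l) ≠ 0 := by
        intro h
        have h3 : ((2 : ℕ) : ZMod l) = 0 := by exact_mod_cast h
        rw [ZMod.natCast_eq_zero_iff] at h3
        exact hl.2 ((Nat.prime_dvd_prime_iff_eq hlp Nat.prime_two).1 h3)
      refine (chain_field (K := ZMod l) h2 hp0 hp1 ht m' S').trans ?_
      refine mul_le_mul_of_nonneg_right ?_ (by positivity)
      refine pow_le_pow_right₀ ht ?_
      refine (Submodule.finrank_le _).trans ?_
      rw [Module.finrank_fintype_fun_eq_card]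
    have hcard : (((D.natAbs.primeFactors.filter (fun l => l ≠ 2)).card : ℕ) : ℝ) ≤
        ((Fintype.card Y ^ 2 + 1 : ℕ) : ℝ) := by
      have h1 : (D.natAbs.primeFactors.filter (fun l => l ≠ 2)).card ≤ Fintype.card Y ^ 2 + 1 :=
        (Finset.card_filter_le _ _).trans ((card_primeFactors_le hD0 hDle).trans (Nat.le_succ _))
      exact_mod_cast h1
    calc exS p (fun T => if ∃ l : ℕ, l.Prime ∧ l ≠ 2 ∧ ∃ w ∈ ker (ZMod l) T, w ≠ 0 then 1 else 0)
          m' S'
        ≤ exS p (fun T => ∑ l ∈ D.natAbs.primeFactors.filter (fun l => l ≠ 2),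
            if ∃ w ∈ ker (ZMod l) T, w ≠ 0 then 1 else 0) m' S' := by
          refine exS_mono_above hp0 hp1 m' S' fun T hT => ?_
          by_cases h : ∃ l : ℕ, l.Prime ∧ l ≠ 2 ∧ ∃ w ∈ ker (ZMod l) T, w ≠ 0
          · rw [if_pos h]
            obtain ⟨l, hl, hl2, w, hw, hw0⟩ := h
            have hlD : (l : ℤ) ∣ D := hDl l hl ⟨w, ker_anti hT hw, hw0⟩
            have hmem : l ∈ D.natAbs.primeFactors.filter (fun l => l ≠ 2) := by
              rw [Finset.mem_filter, Nat.mem_primeFactors]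
              exact ⟨⟨hl, Int.natCast_dvd.1 hlD, Int.natAbs_ne_zero.2 hD0⟩, hl2⟩
            refine le_trans ?_ (Finset.single_le_sum (f := fun l : ℕ =>
              if ∃ w ∈ ker (ZMod l) T, w ≠ 0 then (1 : ℝ) else 0)
              (fun l _ => by positivity) hmem)
            have : ∃ w ∈ ker (ZMod l) T, w ≠ 0 := ⟨w, hw, hw0⟩
            simp only [this, if_true, le_refl]
          · rw [if_neg h]
            exact Finset.sum_nonneg fun l _ => by positivity
      _ = ∑ l ∈ D.natAbs.primeFactors.filter (fun l => l ≠ 2),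
            exS p (fun T => if ∃ w ∈ ker (ZMod l) T, w ≠ 0 then 1 else 0) m' S' := exS_sum _ _ _ _ _
      _ ≤ ∑ l ∈ D.natAbs.primeFactors.filter (fun l => l ≠ 2),
            t ^ Fintype.card Y * (rate p + 1 / t) ^ m' := Finset.sum_le_sum hbound
      _ = ((D.natAbs.primeFactors.filter (fun l => l ≠ 2)).card : ℝ) *
            (t ^ Fintype.card Y * (rate p + 1 / t) ^ m') := by rw [Finset.sum_const, nsmul_eq_mul]
      _ ≤ ((Fintype.card Y ^ 2 + 1 : ℕ) : ℝ) * (t ^ Fintype.card Y * (rate p + 1 / t) ^ m') :=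
          mul_le_mul_of_nonneg_right hcard (by positivity)
      _ = _ := by ring

end Crest.Agent.R152.Sparse
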