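import Mathlib
import Crest.Agent.R152.Sparse3

set_option autoImplicit false
set_option linter.unusedSectionVars false

/-! Row 152, SPARSE part 4: parity rows; the rows of a symmetric matrix outside a set `Y`. -/

open Crest.FinProb Crest.ProbabilityR.SignMatrix
open scoped Matrix

namespace Crest.Agent.R152.Sparse

open Crest.Agent.R152.Base

section flip
variable {Y : Type*} [Fintype Y] [DecidableEq Y]

open Classical in
/-- An event which is destroyed by flipping either of two coordinates. -/
theorem two_flip {p : ℝ} (hp0 : 0 ≤ p) (hp1 : p ≤ 1) (E : (Y → Bool) → Prop) {i j : Y}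
    (hij : j ≠ i)
    (hi : ∀ r, ¬ (E (Function.update r i true) ∧ E (Function.update r i false)))
    (hj : ∀ r, ¬ (E (Function.update r j true) ∧ E (Function.update r j false))) :
    ex p (fun r : Y → Bool => if E r then 1 else 0) ≤ rate p := by
  have hq : 0 ≤ 1 - p := by linarith
  rw [LS.ex_update p i]
  rw [LS.ex_update p j]
  refine le_trans (ex_mono hp0 hp1 (G := fun _ => rate p) fun r => ?_) (ex_const p _).le
  have key : ∀ (A B C D : Prop) [Decidable A] [Decidable B] [Decidable C] [Decidable D],
      ¬ (A ∧ B) → ¬ (C ∧ D) → ¬ (A ∧ C) → ¬ (B ∧ D) →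
      p * (p * (if A then 1 else 0) + (1 - p) * (if B then 1 else 0))
        + (1 - p) * (p * (if C then 1 else 0) + (1 - p) * (if D then 1 else 0)) ≤ rate p := by
    intro A B C D _ _ _ _ hAB hCD hAC hBD
    unfold rate
    by_cases hA : A
    · have hB : ¬ B := fun h => hAB ⟨hA, h⟩
      have hC : ¬ C := fun h => hAC ⟨hA, h⟩
      simp only [hA, hB, hC, if_true, if_false]
      split_ifs <;> nlinarith [mul_nonneg hp0 hq, mul_nonneg hp0 hp0, mul_nonneg hq hq]
    · by_cases hD : D
      · have hB : ¬ B := fun h => hBD ⟨h, hD⟩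
        have hC : ¬ C := fun h => hCD ⟨h, hD⟩
        simp only [hA, hB, hC, hD, if_true, if_false]
        nlinarith [mul_nonneg hp0 hq, mul_nonneg hp0 hp0, mul_nonneg hq hq]
      · simp only [hA, hD, if_false]
        split_ifs <;> nlinarith [mul_nonneg hp0 hq, sq_nonneg (p - (1 - p)), mul_nonneg hp0 hp0,
          mul_nonneg hq hq]
  have hcomm : ∀ a b : Bool, Function.update (Function.update r j b) i a =
      Function.update (Function.update r i a) j b := fun a b => Function.update_comm hij b a r
  refine key _ _ _ _ (hi _) (hi _) ?_ ?_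
  · rw [hcomm, hcomm]; exact hj _
  · rw [hcomm, hcomm]; exact hj _

/-- twice the number of `false` entries, mod 4 -/
def par (r : Y → Bool) : ZMod 4 := ∑ y, if r y then 0 else 2

theorem par_update (r : Y → Bool) (i : Y) (c : Bool) :
    par (Function.update r i c) = (if c then 0 else 2) +
      ∑ y ∈ Finset.univ.erase i, if r y then (0 : ZMod 4) else 2 := by
  unfold par
  rw [← Finset.add_sum_erase _ _ (Finset.mem_univ i)]
  congr 1
  · simp
  · refine Finset.sum_congr rfl fun y hy => ?_
    rw [Function.update_of_ne (Finset.ne_of_mem_erase hy)]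

open Classical in
theorem par_prob {p : ℝ} (hp0 : 0 ≤ p) (hp1 : p ≤ 1) {i j : Y} (hij : j ≠ i) (τ : ZMod 4) :
    ex p (fun r : Y → Bool => if par r = τ then 1 else 0) ≤ rate p := by
  have h : ∀ (i : Y) (r : Y → Bool),
      ¬ (par (Function.update r i true) = τ ∧ par (Function.update r i false) = τ) := by
    rintro i r ⟨h1, h2⟩
    rw [par_update] at h1 h2
    have h3 : (2 : ZMod 4) = 0 := by
      have := h2.trans h1.symm
      simpa using this
    exact absurd h3 (by decide)
  convert two_flip hp0 hp1 (fun r => par r = τ) hij (h i) (h j)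

open Classical in
theorem par_rows {p : ℝ} (hp0 : 0 ≤ p) (hp1 : p ≤ 1) {i j : Y} (hij : j ≠ i) (τ : ZMod 4) (m : ℕ)
    (S : Set (Y → Bool)) :
    exS p (fun T => if ∀ r ∈ T, par r = τ then 1 else 0) m S ≤ rate p ^ m := by
  induction m generalizing S with
  | zero =>
    rw [exS_zero, pow_zero]
    split_ifs <;> norm_num
  | succ m ih =>
    rw [exS_succ]
    have step : ∀ r : Y → Bool,
        exS p (fun T => if ∀ r ∈ T, par r = τ then 1 else 0) m (insert r S) ≤
          rate p ^ m * (if par r = τ then 1 else 0) := by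
      intro r
      by_cases h : par r = τ
      · rw [if_pos h, mul_one]
        exact ih _
      · rw [if_neg h, mul_zero]
        refine (exS_mono_above hp0 hp1 m (insert r S) (G := fun _ => 0) fun T hT => ?_).trans
          (exS_const p 0 m _).le
        rw [if_neg]
        intro hall
        exact h (hall r (hT (Set.mem_insert r S)))
    refine (ex_mono hp0 hp1 step).trans ?_
    rw [ex_smul, pow_succ]
    exact mul_le_mul_of_nonneg_left (par_prob hp0 hp1 hij τ) (pow_nonneg (rate_pos p).le m)

end flip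

section sym
variable {ι : Type*} [Fintype ι] [DecidableEq ι]

/-- the rows with index outside `Y` and different from `i0` -/
abbrev Out (Y : Finset ι) (i0 : ι) : Type _ := {i : ι // i ∉ Y ∧ i ≠ i0}

/-- the row `z` restricted to `Y` -/
def rw' (Y : Finset ι) (b : Sym2 ι → Bool) (z : ι) : Y → Bool := fun y => b s(z, (y : ι))

theorem out_card (Y : Finset ι) (i0 : ι) :
    Fintype.card ι ≤ Fintype.card (Out Y i0) + Y.card + 1 := by
  classical
  rw [Fintype.card_subtype]
  have h : (Finset.univ : Finset ι) ⊆
      (Finset.univ.filter fun i => i ∉ Y ∧ i ≠ i0) ∪ (Y ∪ {i0}) := by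
    intro i _
    simp only [Finset.mem_union, Finset.mem_filter, Finset.mem_univ, true_and,
      Finset.mem_singleton]
    tauto
  calc Fintype.card ι = (Finset.univ : Finset ι).card := rfl
    _ ≤ _ := Finset.card_le_card h
    _ ≤ (Finset.univ.filter fun i => i ∉ Y ∧ i ≠ i0).card + (Y ∪ {i0}).card :=
        Finset.card_union_le _ _
    _ ≤ (Finset.univ.filter fun i => i ∉ Y ∧ i ≠ i0).card + (Y.card + 1) := by
        gcongr
        exact (Finset.card_union_le _ _).trans (by simp)
    _ = _ := by ring

/-- the set of restricted rows -/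
def rows (Y : Finset ι) (i0 : ι) (b : Sym2 ι → Bool) : Set (Y → Bool) :=
  Set.range fun z : Out Y i0 => rw' Y b z

theorem ex_rows (p : ℝ) (Y : Finset ι) (i0 : ι) (F : Set (Y → Bool) → ℝ) :
    ex p (fun b : Sym2 ι → Bool => F (rows Y i0 b)) =
      exS p F (Fintype.card (Out Y i0)) ∅ := by
  classical
  rw [← exS_rows]
  let φ : Out Y i0 × Y → Sym2 ι := fun zy => s((zy.1 : ι), (zy.2 : ι))
  have hφ : Function.Injective φ := by
    rintro ⟨z, y⟩ ⟨z', y'⟩ h
    simp only [φ, Sym2.eq_iff] at h
    rcases h with ⟨h1, h2⟩ | ⟨h1, h2⟩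
    · exact Prod.ext (Subtype.ext h1) (Subtype.ext h2)
    · exfalso
      apply z.2.1
      rw [h1]
      exact y'.2
  rw [← ex_inj p φ hφ]
  refine ex_congr p fun b => ?_
  rw [Set.empty_union]
  rfl

theorem prob_rows (p : ℝ) (Y : Finset ι) (i0 : ι) (Q : Set (Y → Bool) → Prop) [DecidablePred Q] :
    bernoulliProb p {b : Sym2 ι → Bool | Q (rows Y i0 b)} =
      exS p (fun T => if Q T then 1 else 0) (Fintype.card (Out Y i0)) ∅ := by
  classical
  rw [prob_eq_ex, ← ex_rows]
  refine ex_congr p fun b => ?_
  by_cases h : Q (rows Y i0 b)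
  · rw [if_pos h, if_pos (show b ∈ {b : Sym2 ι → Bool | Q (rows Y i0 b)} from h)]
  · rw [if_neg h, if_neg (show b ∉ {b : Sym2 ι → Bool | Q (rows Y i0 b)} from h)]

theorem finrank_ker_le {K : Type*} [Field K] (Y : Finset ι) (S : Set (Y → Bool)) :
    Module.finrank K (ker K S) ≤ Y.card := by
  refine (Submodule.finrank_le _).trans ?_
  rw [Module.finrank_fintype_fun_eq_card, Fintype.card_coe]

/-- the restriction to `Y` of a vector supported in `Y` and killed by the rows `≠ i0` -/
theorem restrict_mem_ker {R : Type*} [CommRing R] (Y : Finset ι) (i0 : ι) (b : Sym2 ι → Bool)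
    (v : ι → R) (hY : ∀ i, i ∉ Y → v i = 0)
    (hv : ∀ i, i ≠ i0 → (((symMat b).map (Int.cast : ℤ → R)).mulVec v) i = 0) :
    (fun y : Y => v y) ∈ ker R (rows Y i0 b) := by
  classical
  rintro r ⟨z, rfl⟩
  have h1 := hv z z.2.2
  have h2 : (((symMat b).map (Int.cast : ℤ → R)).mulVec v) (z : ι) =
      ∑ i, ((sg (b s((z : ι), i)) : ℤ) : R) * v i := by
    simp [Matrix.mulVec, dotProduct, symMat]
  rw [h2] at h1
  unfold dot
  rw [← Finset.sum_subset (Finset.subset_univ Y) (fun i _ hi => by rw [hY i hi, mul_zero])] at h1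
  rw [← Finset.sum_coe_sort Y (fun i => ((sg (b s((z : ι), i)) : ℤ) : R) * v i)] at h1
  exact h1

end sym

end Crest.Agent.R152.Sparse
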