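import Mathlib
import Crest.Agent.R152.Sparse4
import Crest.Agent.R152.AsmDefs

set_option autoImplicit false
set_option linter.unusedSectionVars false

/-! Row 152, SPARSE part 5: the final statement. -/

open Crest.FinProb Crest.ProbabilityR.SignMatrix
open scoped Matrix

namespace Crest.Agent.R152.Sparse

open Crest.Agent.R152.Base Crest.Agent.R152.Asm

section fixed
variable {ι : Type*} [Fintype ι] [DecidableEq ι]

/-- degenerate over `ℚ` -/
def B0 (Y : Finset ι) (i0 : ι) : Set (Sym2 ι → Bool) :=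
  {b | ∃ w ∈ ker ℚ (rows Y i0 b), w ≠ 0}

/-- degenerate modulo an odd prime -/
def B1 (Y : Finset ι) (i0 : ι) : Set (Sym2 ι → Bool) :=
  {b | ∃ l : ℕ, l.Prime ∧ l ≠ 2 ∧ ∃ w ∈ ker (ZMod l) (rows Y i0 b), w ≠ 0}

/-- degenerate modulo four -/
def B2 (Y : Finset ι) (i0 : ι) (τ : ZMod 4) : Set (Sym2 ι → Bool) :=
  {b | (∃ i j : Y, j ≠ i) ∧ ∀ r ∈ rows Y i0 b, par r = τ}

/-- the bad event for `Y`, `i0` -/
def BB (Y : Finset ι) (i0 : ι) : Set (Sym2 ι → Bool) :=
  (B0 Y i0 ∪ B1 Y i0) ∪ ⋃ τ : ZMod 4, B2 Y i0 τ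

theorem prob_BB {p : ℝ} (hp0 : 0 ≤ p) (hp1 : p ≤ 1) {t : ℝ} (ht : 1 ≤ t)
    (hX1 : rate p + 1 / t ≤ 1) (Y : Finset ι) (i0 : ι) :
    bernoulliProb p (BB Y i0) ≤ (((Fintype.card ι) ^ 2 + 6 : ℕ) / (rate p + 1 / t)) *
      (t ^ 2 / (rate p + 1 / t)) ^ Y.card * (rate p + 1 / t) ^ Fintype.card ι := by
  classical
  set X : ℝ := rate p + 1 / t with hX
  have ht0 : 0 < t := lt_of_lt_of_le one_pos ht
  have hX0 : 0 < X := add_pos (rate_pos p) (by positivity)
  set m : ℕ := Fintype.card (Out Y i0) with hm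
  have hYn : Y.card ≤ Fintype.card ι := Finset.card_le_univ Y
  have hT : (1 : ℝ) ≤ t ^ Y.card := one_le_pow₀ ht
  have h0 : bernoulliProb p (B0 Y i0) ≤ t ^ Y.card * X ^ m := by
    have h := prob_rows p Y i0 (fun T => ∃ w ∈ ker ℚ T, w ≠ 0)
    have h' := chain_field (K := ℚ) two_ne_zero hp0 hp1 ht m (∅ : Set (Y → Bool))
    unfold B0
    rw [h]
    refine le_trans (le_trans (le_of_eq ?_) h') ?_
    · congr
    · exact mul_le_mul_of_nonneg_right (pow_le_pow_right₀ ht (finrank_ker_le Y _)) (by positivity)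
  have h1 : bernoulliProb p (B1 Y i0) ≤
      (((Fintype.card ι) ^ 2 + 1 : ℕ) : ℝ) * (t ^ Y.card * t ^ Y.card) * X ^ m := by
    have h := prob_rows p Y i0
      (fun T => ∃ l : ℕ, l.Prime ∧ l ≠ 2 ∧ ∃ w ∈ ker (ZMod l) T, w ≠ 0)
    have h' := chain_primes hp0 hp1 ht m (∅ : Set (Y → Bool))
    unfold B1
    rw [h]
    refine le_trans (le_trans (le_of_eq ?_) h') ?_
    · congr
    · rw [Fintype.card_coe]
      have e1 : (((Y.card ^ 2 + 1 : ℕ) : ℝ)) ≤ (((Fintype.card ι) ^ 2 + 1 : ℕ) : ℝ) := by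
        exact_mod_cast Nat.add_le_add_right (Nat.pow_le_pow_left hYn 2) 1
      have e2 : t ^ Module.finrank ℚ (ker ℚ (∅ : Set (Y → Bool))) ≤ t ^ Y.card :=
        pow_le_pow_right₀ ht (finrank_ker_le Y _)
      calc ((Y.card ^ 2 + 1 : ℕ) : ℝ) * t ^ Y.card *
            (t ^ Module.finrank ℚ (ker ℚ (∅ : Set (Y → Bool))) * X ^ m)
          ≤ (((Fintype.card ι) ^ 2 + 1 : ℕ) : ℝ) * t ^ Y.card * (t ^ Y.card * X ^ m) := by
            gcongr
        _ = _ := by ring
  have h2 : ∀ τ : ZMod 4, bernoulliProb p (B2 Y i0 τ) ≤ X ^ m := by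
    intro τ
    by_cases hY : ∃ i j : Y, j ≠ i
    · obtain ⟨i, j, hij⟩ := hY
      have h := prob_rows p Y i0 (fun T => ∀ r ∈ T, par r = τ)
      have h' := par_rows hp0 hp1 hij τ m (∅ : Set (Y → Bool))
      have hsub : B2 Y i0 τ ⊆ {b : Sym2 ι → Bool | ∀ r ∈ rows Y i0 b, par r = τ} :=
        fun b hb => hb.2
      refine (prob_mono hp0 hp1 hsub).trans ?_
      rw [h]
      refine le_trans (le_trans (le_of_eq ?_) h') ?_
      · congr
      · refine pow_le_pow_left₀ (rate_pos p).le ?_ m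
        have : 0 < 1 / t := by positivity
        linarith
    · have : B2 Y i0 τ = ∅ := by
        ext b
        simp only [B2, Set.mem_setOf_eq, Set.mem_empty_iff_false, iff_false]
        exact fun h => hY h.1
      rw [this, prob_empty]
      positivity
  have h3 : bernoulliProb p (⋃ τ : ZMod 4, B2 Y i0 τ) ≤ 4 * X ^ m := by
    refine (prob_iUnion_le hp0 hp1 _).trans ?_
    refine (Finset.sum_le_sum fun τ _ => h2 τ).trans ?_
    rw [Finset.sum_const, nsmul_eq_mul]
    simp [ZMod.card]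
  have hcard : Fintype.card ι ≤ m + Y.card + 1 := out_card Y i0
  have hXm : X ^ m ≤ X ^ Fintype.card ι / (X ^ Y.card * X) := by
    rw [le_div_iff₀ (by positivity), ← pow_succ, ← pow_add]
    exact pow_le_pow_of_le_one hX0.le hX1 (by omega)
  have hTT : (1 : ℝ) ≤ t ^ Y.card * t ^ Y.card := by nlinarith
  have htot : bernoulliProb p (BB Y i0) ≤
      (((Fintype.card ι) ^ 2 + 6 : ℕ) : ℝ) * (t ^ Y.card * t ^ Y.card) * X ^ m := by
    have hu := (prob_union_le hp0 hp1 (B0 Y i0 ∪ B1 Y i0) (⋃ τ : ZMod 4, B2 Y i0 τ)).trans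
      (add_le_add (prob_union_le hp0 hp1 (B0 Y i0) (B1 Y i0)) le_rfl)
    have hXm0 : 0 ≤ X ^ m := by positivity
    have e1 : t ^ Y.card * X ^ m ≤ (t ^ Y.card * t ^ Y.card) * X ^ m := by
      refine mul_le_mul_of_nonneg_right ?_ hXm0
      nlinarith
    have e2 : 4 * X ^ m ≤ 4 * ((t ^ Y.card * t ^ Y.card) * X ^ m) := by
      nlinarith [mul_le_mul_of_nonneg_right hTT hXm0]
    have e3 : (((Fintype.card ι) ^ 2 + 6 : ℕ) : ℝ) = (((Fintype.card ι) ^ 2 + 1 : ℕ) : ℝ) + 5 := by
      push_cast; ring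
    rw [e3]
    unfold BB
    calc _ ≤ _ := hu
      _ ≤ (t ^ Y.card * t ^ Y.card) * X ^ m +
          (((Fintype.card ι) ^ 2 + 1 : ℕ) : ℝ) * (t ^ Y.card * t ^ Y.card) * X ^ m +
          4 * ((t ^ Y.card * t ^ Y.card) * X ^ m) := by
        refine add_le_add (add_le_add (h0.trans e1) h1) (h3.trans e2)
      _ = _ := by ring
  refine htot.trans ?_
  calc (((Fintype.card ι) ^ 2 + 6 : ℕ) : ℝ) * (t ^ Y.card * t ^ Y.card) * X ^ m
      ≤ (((Fintype.card ι) ^ 2 + 6 : ℕ) : ℝ) * (t ^ Y.card * t ^ Y.card) *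
        (X ^ Fintype.card ι / (X ^ Y.card * X)) :=
        mul_le_mul_of_nonneg_left hXm (by positivity)
    _ = _ := by
      rw [div_pow, ← pow_mul, two_mul, pow_add]
      field_simp

end fixed

/-- all almost-kernel vectors over `ℚ`, modulo odd primes and modulo four have more than `c n`
nonzero (resp. odd) entries -/
def Dense (c : ℝ) {n : ℕ} (M : Matrix (Fin n) (Fin n) ℤ) : Prop :=
  (∀ v : Fin n → ℚ, v ≠ 0 →
    (∃ i0, ∀ i, i ≠ i0 → ((M.map (Int.cast : ℤ → ℚ)).mulVec v) i = 0) →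
      c * n < ((Finset.univ.filter fun i => v i ≠ 0).card : ℝ)) ∧
  (∀ l : ℕ, l.Prime → l ≠ 2 → ∀ w : Fin n → ZMod l, w ≠ 0 →
    (∃ i0, ∀ i, i ≠ i0 → ((M.map (Int.cast : ℤ → ZMod l)).mulVec w) i = 0) →
      c * n < ((Finset.univ.filter fun i => w i ≠ 0).card : ℝ)) ∧
  (∀ w : Fin n → ZMod 4, (∃ i, 2 * w i ≠ 0) →
    (∃ i0, ∀ i, i ≠ i0 → ((M.map (Int.cast : ℤ → ZMod 4)).mulVec w) i = 0) →
      c * n < ((Finset.univ.filter fun i => 2 * w i ≠ 0).card : ℝ))

theorem two_mul_zmod4 (w : ZMod 4) (h : 2 * w ≠ 0) : 2 * w = 2 := by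
  revert w; decide

theorem zmod4_cast_two (w : ZMod 4) : (ZMod.castHom (show 2 ∣ 4 by norm_num) (ZMod 2)) w =
    if 2 * w ≠ 0 then 1 else 0 := by
  revert w; decide

/-- a failure of `Dense` is a bad event for some small `Y` -/
theorem not_dense_subset {n : ℕ} {c : ℝ} (hc : c * n + 2 ≤ n) (b : Sym2 (Fin n) → Bool)
    (hb : ¬ Dense c (symMat b)) :
    ∃ (Y : Finset (Fin n)) (i0 : Fin n), (Y.card : ℝ) ≤ c * n ∧ b ∈ BB Y i0 := by
  classical
  by_contra hcon
  push Not at hcon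
  apply hb
  refine ⟨?_, ?_, ?_⟩
  · rintro v hv ⟨i0, hi0⟩
    by_contra hlt
    push Not at hlt
    refine hcon (Finset.univ.filter fun i => v i ≠ 0) i0 hlt (Or.inl (Or.inl ?_))
    refine ⟨_, restrict_mem_ker _ i0 b v (fun i hi => ?_) hi0, ?_⟩
    · simpa using hi
    · intro h
      apply hv
      funext i
      by_contra hi
      have : i ∈ Finset.univ.filter fun i => v i ≠ 0 := by simpa using hi
      exact hi (congrFun h ⟨i, this⟩)
  · rintro l hl hl2 v hv ⟨i0, hi0⟩
    by_contra hlt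
    push Not at hlt
    refine hcon (Finset.univ.filter fun i => v i ≠ 0) i0 hlt (Or.inl (Or.inr ⟨l, hl, hl2, ?_⟩))
    refine ⟨_, restrict_mem_ker _ i0 b v (fun i hi => ?_) hi0, ?_⟩
    · simpa using hi
    · intro h
      apply hv
      funext i
      by_contra hi
      have : i ∈ Finset.univ.filter fun i => v i ≠ 0 := by simpa using hi
      exact hi (congrFun h ⟨i, this⟩)
  · rintro w ⟨i1, hi1⟩ ⟨i0, hi0⟩
    by_contra hlt
    push Not at hlt
    set Y : Finset (Fin n) := Finset.univ.filter fun i => 2 * w i ≠ 0 with hY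
    -- the value of the parity
    have hpar : ∀ z : Out Y i0, par (rw' Y b z) = ∑ j, w j := by
      intro z
      have h1 := hi0 z z.2.2
      have h2 : (((symMat b).map (Int.cast : ℤ → ZMod 4)).mulVec w) (z : Fin n) =
          ∑ i, ((sg (b s((z : Fin n), i)) : ℤ) : ZMod 4) * w i := by
        simp [Matrix.mulVec, dotProduct, symMat]
      rw [h2] at h1
      have h3 : ∀ i, ((sg (b s((z : Fin n), i)) : ℤ) : ZMod 4) * w i =
          w i - (if b s((z : Fin n), i) then 0 else 2 * w i) := by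
        intro i
        cases b s((z : Fin n), i) <;> simp [sg]
        ring
      rw [Finset.sum_congr rfl fun i _ => h3 i, Finset.sum_sub_distrib, sub_eq_zero] at h1
      rw [h1]
      unfold par rw'
      rw [Finset.sum_coe_sort Y (fun i => if b s((z : Fin n), i) then (0 : ZMod 4) else 2)]
      rw [← Finset.sum_subset (Finset.subset_univ Y) (f := fun i =>
        if b s((z : Fin n), i) then (0 : ZMod 4) else 2 * w i) (fun i _ hi => ?_)]
      · refine Finset.sum_congr rfl fun i hi => ?_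
        rw [hY, Finset.mem_filter] at hi
        rw [two_mul_zmod4 (w i) hi.2]
      · have : 2 * w i = 0 := by
          by_contra h
          exact hi (by rw [hY, Finset.mem_filter]; exact ⟨Finset.mem_univ _, h⟩)
        simp [this]
    -- an outside row exists
    have hout : Nonempty (Out Y i0) := by
      rw [← Fintype.card_pos_iff]
      have h1 := out_card Y i0
      rw [Fintype.card_fin] at h1
      have h2 : (Y.card : ℝ) + 2 ≤ n := by linarith
      have h3 : Y.card + 2 ≤ n := by exact_mod_cast h2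
      omega
    obtain ⟨z⟩ := hout
    have h2Y : ∃ i j : Y, j ≠ i := by
      have hi1Y : i1 ∈ Y := by rw [hY, Finset.mem_filter]; exact ⟨Finset.mem_univ _, hi1⟩
      by_contra hno
      push Not at hno
      have hYs : Y = {i1} := by
        ext j
        rw [Finset.mem_singleton]
        constructor
        · intro hj
          exact congrArg Subtype.val (hno ⟨i1, hi1Y⟩ ⟨j, hj⟩)
        · rintro rfl; exact hi1Y
      have h1 := congrArg (ZMod.castHom (show 2 ∣ 4 by norm_num) (ZMod 2)) (hpar z)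
      rw [map_sum, Finset.sum_congr rfl fun j _ => zmod4_cast_two (w j)] at h1
      have h3 : ∑ j : Fin n, (if 2 * w j ≠ 0 then (1 : ZMod 2) else 0) = 1 := by
        rw [← Finset.sum_filter, ← hY, hYs, Finset.sum_singleton]
      rw [h3] at h1
      unfold par at h1
      rw [map_sum] at h1
      have h4 : ∀ y : Y, (ZMod.castHom (show 2 ∣ 4 by norm_num) (ZMod 2))
          (if rw' Y b z y then (0 : ZMod 4) else 2) = 0 := by
        intro y
        split_ifs <;> decide
      rw [Finset.sum_congr rfl fun y _ => h4 y] at h1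
      simp at h1
    refine hcon Y i0 hlt (Or.inr ?_)
    rw [Set.mem_iUnion]
    refine ⟨∑ j, w j, h2Y, ?_⟩
    rintro r ⟨z, rfl⟩
    exact hpar z

end Crest.Agent.R152.Sparse
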