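import Mathlib
import Crest.Agent.R152.Sparse5

set_option autoImplicit false
set_option linter.unusedSectionVars false

/-! Row 152, SPARSE part 6: the probability bound `sp4` and its consequences for kernel vectors. -/

open Crest.FinProb Crest.ProbabilityR.SignMatrix Filter Topology
open scoped Matrix

namespace Crest.Agent.R152.Sparse

open Crest.Agent.R152.Base Crest.Agent.R152.Asm

theorem sum_small {ι : Type*} [Fintype ι] [DecidableEq ι] {g u s : ℝ} (hg : 0 ≤ g) (hu : 1 ≤ u) :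
    ∑ Y ∈ (Finset.univ : Finset (Finset ι)).filter (fun Y => (Y.card : ℝ) ≤ s), g ^ Y.card ≤
      u ^ s * (1 + g / u) ^ Fintype.card ι := by
  classical
  have hu0 : 0 < u := lt_of_lt_of_le one_pos hu
  have h1 : ∀ Y ∈ (Finset.univ : Finset (Finset ι)).filter (fun Y => (Y.card : ℝ) ≤ s),
      g ^ Y.card ≤ u ^ s * (g / u) ^ Y.card := by
    intro Y hY
    rw [Finset.mem_filter] at hY
    have h2 : u ^ Y.card ≤ u ^ s := by
      rw [← Real.rpow_natCast]
      exact Real.rpow_le_rpow_of_exponent_le hu hY.2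
    have h3 : g ^ Y.card = u ^ Y.card * (g / u) ^ Y.card := by
      rw [← mul_pow, mul_div_cancel₀ _ hu0.ne']
    rw [h3]
    exact mul_le_mul_of_nonneg_right h2 (by positivity)
  refine (Finset.sum_le_sum h1).trans ?_
  rw [← Finset.mul_sum]
  refine mul_le_mul_of_nonneg_left ?_ (Real.rpow_nonneg hu0.le s)
  calc _ ≤ ∑ Y : Finset ι, (g / u) ^ Y.card :=
        Finset.sum_le_sum_of_subset_of_nonneg (Finset.filter_subset _ _)
          (fun Y _ _ => by positivity)
    _ = (g / u + 1) ^ Fintype.card ι := by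
        have := Finset.sum_pow_mul_eq_add_pow (g / u) 1 (Finset.univ : Finset ι)
        simp only [one_pow, mul_one, Finset.powerset_univ] at this
        rw [this]
        rfl
    _ = _ := by rw [add_comm]

/-- **SPARSE.** -/
theorem sp4 {p : ℝ} (hp0 : 0 < p) (hp1 : p < 1) : ∀ ε : ℝ, 0 < ε → ∃ c : ℝ, 0 < c ∧ ∃ n0 : ℕ,
    ∀ n : ℕ, n0 ≤ n →
      bernoulliProb p {b : Sym2 (Fin n) → Bool | ¬ Dense c (symMat b)} ≤ (rate p + ε) ^ n := by
  classical
  intro ε hε
  have ha0 := rate_pos p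
  rcases le_or_gt 1 (rate p + ε) with h1 | h1
  · refine ⟨1, one_pos, 0, fun n _ => ?_⟩
    exact (prob_le_one hp0.le hp1.le _).trans (one_le_pow₀ h1)
  set t : ℝ := 4 / ε with ht
  have ht1 : 1 ≤ t := by
    rw [ht, le_div_iff₀ hε]
    linarith
  have ht0 : 0 < t := lt_of_lt_of_le one_pos ht1
  have ht' : 1 / t = ε / 4 := by rw [ht, one_div_div]
  set X : ℝ := rate p + 1 / t with hX
  have hX0 : 0 < X := add_pos ha0 (by positivity)
  have hX1 : X ≤ 1 := by rw [hX, ht']; linarith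
  have hXε : X < rate p + ε := by rw [hX, ht']; linarith
  set g : ℝ := t ^ 2 / X with hg
  have hg0 : 0 < g := by positivity
  set L : ℝ := Real.log ((rate p + ε) / X) with hL
  have hL0 : 0 < L := Real.log_pos (by rw [lt_div_iff₀ hX0]; linarith)
  set u : ℝ := max 1 (4 * g / L) with hu
  have hu1 : 1 ≤ u := le_max_left _ _
  have hu0 : 0 < u := lt_of_lt_of_le one_pos hu1
  have hgu : g / u ≤ L / 4 := by
    rw [div_le_iff₀ hu0]
    have : 4 * g / L ≤ u := le_max_right _ _
    rw [div_le_iff₀ hL0] at this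
    nlinarith
  have hlu : 0 ≤ Real.log u := Real.log_nonneg hu1
  set c : ℝ := min (1 / 4) (L / (4 * (Real.log u + 1))) with hc
  have hc0 : 0 < c := lt_min (by norm_num) (by positivity)
  have hc4 : c ≤ 1 / 4 := min_le_left _ _
  have hcu : c * Real.log u ≤ L / 4 := by
    have h2 : c ≤ L / (4 * (Real.log u + 1)) := min_le_right _ _
    rw [le_div_iff₀ (by positivity)] at h2
    nlinarith
  have hr : 1 < Real.exp (L / 2) := by
    rw [← Real.exp_zero]
    exact Real.exp_lt_exp.2 (by linarith)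
  have hlim := tendsto_pow_const_div_const_pow_of_one_lt 3 hr
  have hev : ∀ᶠ n : ℕ in atTop, (n : ℝ) ^ 3 / Real.exp (L / 2) ^ n ≤ X / 7 :=
    ((tendsto_order.1 hlim).2 _ (by positivity)).mono fun n hn => hn.le
  obtain ⟨n1, hn1⟩ := eventually_atTop.1 hev
  refine ⟨c, hc0, max n1 3, fun n hn => ?_⟩
  have hn3 : 3 ≤ n := (le_max_right _ _).trans hn
  have hn1' := hn1 n ((le_max_left _ _).trans hn)
  have hnR : (3 : ℝ) ≤ n := by exact_mod_cast hn3
  have hcn : c * n + 2 ≤ n := by nlinarith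
  -- the union bound
  set 𝒴 : Finset (Finset (Fin n)) :=
    (Finset.univ : Finset (Finset (Fin n))).filter (fun Y => (Y.card : ℝ) ≤ c * n) with h𝒴
  have hsub : {b : Sym2 (Fin n) → Bool | ¬ Dense c (symMat b)} ⊆
      ⋃ Y ∈ 𝒴, ⋃ i0 : Fin n, BB Y i0 := by
    intro b hb
    obtain ⟨Y, i0, hY, hbb⟩ := not_dense_subset hcn b hb
    simp only [Set.mem_iUnion]
    exact ⟨Y, by rw [h𝒴, Finset.mem_filter]; exact ⟨Finset.mem_univ _, hY⟩, i0, hbb⟩
  set Q : ℝ := (n : ℝ) * (((n : ℝ) ^ 2 + 6) / X) with hQ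
  have hb1 : ∀ Y ∈ 𝒴, bernoulliProb p (⋃ i0 : Fin n, BB Y i0) ≤ Q * X ^ n * g ^ Y.card := by
    intro Y _
    refine (prob_iUnion_le hp0.le hp1.le _).trans ?_
    refine (Finset.sum_le_sum fun i0 _ => prob_BB hp0.le hp1.le ht1 hX1 Y i0).trans ?_
    rw [Finset.sum_const, nsmul_eq_mul, Finset.card_univ, Fintype.card_fin]
    rw [hQ, hg, hX]
    push_cast
    apply le_of_eq
    ring
  have hpoly : Q ≤ Real.exp (L / 2) ^ n := by
    rw [div_le_iff₀ (by positivity)] at hn1'
    have h2 : (n : ℝ) * ((n : ℝ) ^ 2 + 6) ≤ 7 * (n : ℝ) ^ 3 := by nlinarith [sq_nonneg (n : ℝ)]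
    rw [hQ, ← mul_div_assoc, div_le_iff₀ hX0]
    nlinarith
  calc bernoulliProb p {b : Sym2 (Fin n) → Bool | ¬ Dense c (symMat b)}
      ≤ bernoulliProb p (⋃ Y ∈ 𝒴, ⋃ i0 : Fin n, BB Y i0) := prob_mono hp0.le hp1.le hsub
    _ ≤ ∑ Y ∈ 𝒴, bernoulliProb p (⋃ i0 : Fin n, BB Y i0) := prob_biUnion_le hp0.le hp1.le _ _
    _ ≤ ∑ Y ∈ 𝒴, Q * X ^ n * g ^ Y.card := Finset.sum_le_sum hb1
    _ = Q * X ^ n * ∑ Y ∈ 𝒴, g ^ Y.card := by rw [Finset.mul_sum]
    _ ≤ Q * X ^ n * (u ^ (c * n) * (1 + g / u) ^ n) := by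
        have h2 := sum_small (ι := Fin n) (s := c * n) hg0.le hu1
        rw [Fintype.card_fin] at h2
        exact mul_le_mul_of_nonneg_left h2 (by positivity)
    _ ≤ Real.exp (L / 2) ^ n * X ^ n * (Real.exp (L / 4) ^ n * Real.exp (L / 4) ^ n) := by
        have h2 : u ^ (c * n) ≤ Real.exp (L / 4) ^ n := by
          rw [Real.rpow_def_of_pos hu0, ← Real.exp_nat_mul]
          refine Real.exp_le_exp.2 ?_
          calc Real.log u * (c * n) = (n : ℝ) * (c * Real.log u) := by ring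
            _ ≤ (n : ℝ) * (L / 4) := mul_le_mul_of_nonneg_left hcu (by positivity)
        have h3 : (1 + g / u) ^ n ≤ Real.exp (L / 4) ^ n := by
          refine pow_le_pow_left₀ (by positivity) ?_ n
          have := Real.add_one_le_exp (L / 4)
          linarith
        gcongr
    _ = Real.exp L ^ n * X ^ n := by
        rw [← mul_pow, ← mul_pow, ← mul_pow, ← mul_pow]
        congr 1
        have : Real.exp L = Real.exp (L / 2) * (Real.exp (L / 4) * Real.exp (L / 4)) := by
          rw [← Real.exp_add, ← Real.exp_add]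
          congr 1
          ring
        rw [this]
        ring
    _ = (rate p + ε) ^ n := by
        rw [hL, Real.exp_log (by positivity), ← mul_pow, div_mul_cancel₀ _ hX0.ne']

/-- nonzero integer kernel vectors have many nonzero entries -/
theorem Dense.supp {c : ℝ} {n : ℕ} {M : Matrix (Fin n) (Fin n) ℤ} (h : Dense c M)
    {k : Fin n → ℤ} (hk : k ≠ 0) (hMk : M.mulVec k = 0) :
    c * n < ((Finset.univ.filter fun j => k j ≠ 0).card : ℝ) := by
  obtain ⟨j, hj⟩ : ∃ j, k j ≠ 0 := by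
    by_contra hno
    push Not at hno
    exact hk (funext hno)
  have h1 := h.1 (fun i => (k i : ℚ)) (fun h0 => hj (by simpa using congrFun h0 j)) ⟨j, fun i _ => ?_⟩
  · simpa using h1
  · have h2 := congrFun hMk i
    simp only [Matrix.mulVec, dotProduct, Pi.zero_apply] at h2
    simp only [Matrix.mulVec, dotProduct, Matrix.map_apply]
    exact_mod_cast h2

/-- primitive kernel vectors have many entries prime to `q`, for every prime `q` -/
theorem Dense.prime {c : ℝ} {n : ℕ} {M : Matrix (Fin n) (Fin n) ℤ} (h : Dense c M)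
    {k : Fin n → ℤ} (hMk : M.mulVec k = 0) (hk : Prim k) {q : ℕ} (hq : q.Prime) :
    c * n < ((Finset.univ.filter fun j => ¬ (q : ℤ) ∣ k j).card : ℝ) := by
  classical
  obtain ⟨j, hj⟩ : ∃ j, ¬ (q : ℤ) ∣ k j := by
    by_contra hno
    push Not at hno
    have h1 := hk q hno
    rw [Int.isUnit_iff] at h1
    have h2 := hq.two_le
    omega
  have hmul : ∀ (m : ℕ) (i : Fin n),
      ((M.map (Int.cast : ℤ → ZMod m)).mulVec (fun i => (k i : ZMod m))) i = 0 := by
    intro m i
    have h2 := congrFun hMk i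
    simp only [Matrix.mulVec, dotProduct, Pi.zero_apply] at h2
    simp only [Matrix.mulVec, dotProduct, Matrix.map_apply]
    have h3 := congrArg (Int.cast : ℤ → ZMod m) h2
    push_cast at h3
    exact h3
  by_cases hq2 : q = 2
  · subst hq2
    have hiff : ∀ i, 2 * ((k i : ℤ) : ZMod 4) ≠ 0 ↔ ¬ ((2 : ℕ) : ℤ) ∣ k i := by
      intro i
      have e : 2 * ((k i : ℤ) : ZMod 4) = ((2 * k i : ℤ) : ZMod 4) := by push_cast; ring
      rw [e, Ne, ZMod.intCast_zmod_eq_zero_iff_dvd]
      constructor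
      · intro h1 h2
        apply h1
        obtain ⟨m, hm⟩ := h2
        exact ⟨m, by rw [hm]; push_cast; ring⟩
      · intro h1 h2
        apply h1
        obtain ⟨m, hm⟩ := h2
        exact ⟨m, by push_cast at hm ⊢; linarith⟩
    have h1 := h.2.2 (fun i => ((k i : ℤ) : ZMod 4)) ⟨j, (hiff j).2 hj⟩ ⟨j, fun i _ => hmul 4 i⟩
    have h2 : (Finset.univ.filter fun i => 2 * ((k i : ℤ) : ZMod 4) ≠ 0) =
        Finset.univ.filter fun i => ¬ ((2 : ℕ) : ℤ) ∣ k i := by
      ext i
      simp only [Finset.mem_filter, Finset.mem_univ, true_and]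
      exact hiff i
    rw [h2] at h1
    exact h1
  · have hiff : ∀ i, ((k i : ℤ) : ZMod q) ≠ 0 ↔ ¬ (q : ℤ) ∣ k i := by
      intro i
      rw [Ne, ZMod.intCast_zmod_eq_zero_iff_dvd]
    have h1 := h.2.1 q hq hq2 (fun i => ((k i : ℤ) : ZMod q))
      (fun h0 => (hiff j).2 hj (congrFun h0 j)) ⟨j, fun i _ => hmul q i⟩
    have h2 : (Finset.univ.filter fun i => ((k i : ℤ) : ZMod q) ≠ 0) =
        Finset.univ.filter fun i => ¬ (q : ℤ) ∣ k i := by
      ext i
      simp only [Finset.mem_filter, Finset.mem_univ, true_and]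
      exact hiff i
    rw [h2] at h1
    exact h1

end Crest.Agent.R152.Sparse
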