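import Crest.Agent.R152.Spec5

set_option autoImplicit false
set_option linter.unusedSectionVars false

/-! Row 152, SPEC part 6: asymptotic forms. -/

open Crest.FinProb Crest.ProbabilityR.SignMatrix
open Filter Topology

namespace Crest.Agent.R152.Spec

open Base

/-- the numerical bound -/
theorem num_bound {a : ℝ} (ha : 0 < a) {c d : ℝ} (hc : c < 1 / 2) (hcd : c < d) :
    ∃ n0 : ℕ, ∀ n : ℕ, n0 ≤ n → ∀ L : ℕ, L = ⌊(n : ℝ) ^ (1 - c) / 4⌋₊ →
      (n : ℝ) ^ (1 - 2 * d) * n ≤ a * (L : ℝ) ^ 2 / 4 ∧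
      (n : ℝ) ^ L * Real.exp (-(a * (L : ℝ) ^ 2 / 16)) ≤ (1 / 4 : ℝ) ^ n := by
  have hnat := tendsto_natCast_atTop_atTop (R := ℝ)
  have h1 : ∀ᶠ n : ℕ in atTop, (8 : ℝ) ≤ (n : ℝ) ^ (1 - c) :=
    ((tendsto_rpow_atTop (by linarith : 0 < 1 - c)).comp hnat).eventually_ge_atTop 8
  have h2 : ∀ᶠ n : ℕ in atTop, 256 / a ≤ (n : ℝ) ^ (2 * (d - c)) :=
    ((tendsto_rpow_atTop (by linarith : 0 < 2 * (d - c))).comp hnat).eventually_ge_atTop _
  have h3 : ∀ᶠ n : ℕ in atTop, 2048 * Real.log 4 / a ≤ (n : ℝ) ^ (1 - 2 * c) :=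
    ((tendsto_rpow_atTop (by linarith : 0 < 1 - 2 * c)).comp hnat).eventually_ge_atTop _
  have h4 : ∀ᶠ n : ℕ in atTop, Real.log n ≤ a / 256 * (n : ℝ) ^ (1 - c) := by
    have := (isLittleO_log_rpow_atTop (by linarith : 0 < 1 - c)).def (by positivity : 0 < a / 256)
    have h5 := hnat.eventually this
    filter_upwards [h5] with n hn
    rw [Real.norm_eq_abs, Real.norm_eq_abs] at hn
    refine (le_abs_self _).trans (hn.trans ?_)
    rw [abs_of_nonneg (by positivity)]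
  have h6 : ∀ᶠ n : ℕ in atTop, 1 ≤ n := eventually_ge_atTop 1
  obtain ⟨n0, hn0⟩ := eventually_atTop.mp (h1.and (h2.and (h3.and (h4.and h6))))
  refine ⟨n0, fun n hn L hL => ?_⟩
  obtain ⟨g1, g2, g3, g4, g6⟩ := hn0 n hn
  have hnpos : (0 : ℝ) < n := by exact_mod_cast g6
  set x : ℝ := (n : ℝ) ^ (1 - c) with hx
  have hLx : x / 8 ≤ (L : ℝ) := by
    have : x / 4 < (L : ℝ) + 1 := by rw [hL]; exact Nat.lt_floor_add_one _
    linarith
  have hx0 : 0 < x := by linarith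
  have hLx2 : x ^ 2 / 64 ≤ (L : ℝ) ^ 2 := by nlinarith
  have hxx : x ^ 2 = (n : ℝ) ^ (2 - 2 * c) := by
    rw [hx, ← Real.rpow_natCast, ← Real.rpow_mul hnpos.le]
    congr 1
    push_cast
    ring
  constructor
  · have e1 : (n : ℝ) ^ (1 - 2 * d) * n * (n : ℝ) ^ (2 * (d - c)) = x ^ 2 := by
      rw [hxx]
      nth_rewrite 2 [← Real.rpow_one (n : ℝ)]
      rw [← Real.rpow_add hnpos, ← Real.rpow_add hnpos]
      congr 1
      ring
    have e2 : 0 < (n : ℝ) ^ (1 - 2 * d) * n := by positivity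
    have e3 : (n : ℝ) ^ (1 - 2 * d) * n * (256 / a) ≤ x ^ 2 := by
      rw [← e1]
      exact mul_le_mul_of_nonneg_left g2 e2.le
    have e4 : (n : ℝ) ^ (1 - 2 * d) * n ≤ a * x ^ 2 / 256 := by
      rw [le_div_iff₀ (by norm_num)]
      have := mul_le_mul_of_nonneg_left e3 ha.le
      have e5 : a * ((n : ℝ) ^ (1 - 2 * d) * n * (256 / a)) = (n : ℝ) ^ (1 - 2 * d) * n * 256 := by
        field_simp
      rw [e5] at this
      exact this
    nlinarith [mul_le_mul_of_nonneg_left hLx2 ha.le]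
  · have e1 : (n : ℝ) ^ L = Real.exp (L * Real.log n) := by
      rw [mul_comm, Real.exp_mul, Real.exp_log hnpos, Real.rpow_natCast]
    have e2 : (1 / 4 : ℝ) ^ n = Real.exp (-(n * Real.log 4)) := by
      rw [Real.exp_neg, mul_comm, Real.exp_mul, Real.exp_log (by norm_num), Real.rpow_natCast,
        one_div, inv_pow]
    rw [e1, e2, ← Real.exp_add]
    refine Real.exp_le_exp.mpr ?_
    have hL0 : (0 : ℝ) ≤ L := Nat.cast_nonneg L
    have e3 : L * Real.log n ≤ a * (L : ℝ) ^ 2 / 32 := by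
      have : Real.log n ≤ a * L / 32 := by
        refine g4.trans ?_
        nlinarith [mul_le_mul_of_nonneg_left hLx ha.le]
      nlinarith [mul_le_mul_of_nonneg_left this hL0]
    have e4 : n * Real.log 4 ≤ a * (L : ℝ) ^ 2 / 32 := by
      have e5 : (n : ℝ) * (n : ℝ) ^ (1 - 2 * c) = x ^ 2 := by
        rw [hxx]
        nth_rewrite 1 [← Real.rpow_one (n : ℝ)]
        rw [← Real.rpow_add hnpos]
        congr 1
        ring
      have e6 : n * (2048 * Real.log 4 / a) ≤ x ^ 2 := by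
        rw [← e5]
        exact mul_le_mul_of_nonneg_left g3 hnpos.le
      have e7 : n * Real.log 4 * 2048 ≤ a * x ^ 2 := by
        have := mul_le_mul_of_nonneg_left e6 ha.le
        have e8 : a * (n * (2048 * Real.log 4 / a)) = n * Real.log 4 * 2048 := by
          field_simp
        rw [e8] at this
        exact this
      nlinarith [mul_le_mul_of_nonneg_left hLx2 ha.le]
    linarith

/-- **SPEC**, coordinate form: outside probability `4^{-n}` there is no subspace of dimension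
`≥ n^{1-c}` on which `|A u| ≤ n^{1/2-d} |u|`. -/
theorem spec_coord {p : ℝ} (hp0 : 0 < p) (hp1 : p < 1) {c d : ℝ} (hc : c < 1 / 2) (hcd : c < d) :
    ∃ n0 : ℕ, ∀ n : ℕ, n0 ≤ n → bernoulliProb p {b : Sym2 (Fin n) → Bool |
      ∃ U : Submodule ℝ (Fin n → ℝ), (n : ℝ) ^ (1 - c) ≤ (Module.finrank ℝ U : ℝ) ∧
        ∀ u ∈ U, ∑ q, (∑ j, ((symMat b q j : ℤ) : ℝ) * u j) ^ 2 ≤
          (n : ℝ) ^ (1 - 2 * d) * ∑ j, u j ^ 2} ≤ (1 / 4 : ℝ) ^ n := by
  have ha : 0 < p * (1 - p) := mul_pos hp0 (by linarith)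
  obtain ⟨n0, hn0⟩ := num_bound ha hc hcd
  refine ⟨n0, fun n hn => ?_⟩
  obtain ⟨h1, h2⟩ := hn0 n hn _ rfl
  set L := ⌊(n : ℝ) ^ (1 - c) / 4⌋₊ with hL
  refine le_trans (prob_mono hp0.le hp1.le ?_) ((spec_main (ι := Fin n) hp0.le hp1.le L
    ((n : ℝ) ^ (1 - 2 * d)) (by positivity) (by simpa using h1)).trans (by simpa using h2))
  rintro b ⟨U, hU, hb⟩
  refine ⟨U, ?_, hb⟩
  have h3 : ((4 * L : ℕ) : ℝ) ≤ (n : ℝ) ^ (1 - c) := by
    have : (L : ℝ) ≤ (n : ℝ) ^ (1 - c) / 4 := Nat.floor_le (by positivity)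
    push_cast
    linarith
  exact_mod_cast h3.trans hU

/-- **SPEC**, Euclidean form. -/
theorem spec_euclid {p : ℝ} (hp0 : 0 < p) (hp1 : p < 1) {c d : ℝ} (hc : c < 1 / 2) (hcd : c < d) :
    ∃ n0 : ℕ, ∀ n : ℕ, n0 ≤ n → bernoulliProb p {b : Sym2 (Fin n) → Bool |
      ∃ U : Submodule ℝ (EuclideanSpace ℝ (Fin n)),
        (n : ℝ) ^ (1 - c) ≤ (Module.finrank ℝ U : ℝ) ∧
        ∀ u ∈ U, ‖Matrix.toEuclideanLin ((symMat b).map (Int.cast : ℤ → ℝ)) u‖ ≤
          (n : ℝ) ^ (1 / 2 - d) * ‖u‖} ≤ (1 / 4 : ℝ) ^ n := by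
  obtain ⟨n0, hn0⟩ := spec_coord hp0 hp1 hc hcd
  refine ⟨n0, fun n hn => le_trans (prob_mono hp0.le hp1.le ?_) (hn0 n hn)⟩
  rintro b ⟨U, hU, hb⟩
  refine ⟨U.map (WithLp.linearEquiv 2 ℝ (Fin n → ℝ)).toLinearMap, ?_, ?_⟩
  · rw [LinearEquiv.finrank_map_eq]
    exact hU
  · rintro _ ⟨w, hw, rfl⟩
    have h1 := hb w hw
    have h2 := pow_le_pow_left₀ (norm_nonneg _) h1 2
    rw [mul_pow, ← Real.rpow_natCast ((n : ℝ) ^ (1 / 2 - d)) 2, ← Real.rpow_mul (by positivity),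
      EuclideanSpace.norm_sq_eq, EuclideanSpace.norm_sq_eq] at h2
    have h3 : (1 / 2 - d) * ((2 : ℕ) : ℝ) = 1 - 2 * d := by push_cast; ring
    rw [h3] at h2
    simp only [Real.norm_eq_abs, sq_abs] at h2
    exact h2

/-- weak form with exponential-quadratic failure -/
theorem spec_weak {p : ℝ} (hp0 : 0 < p) (hp1 : p < 1) {e1 : ℝ} (he : 0 < e1) :
    ∃ c : ℝ, 0 < c ∧ ∃ n0 : ℕ, ∀ n : ℕ, n0 ≤ n → bernoulliProb p {b : Sym2 (Fin n) → Bool |
      ∃ U : Submodule ℝ (Fin n → ℝ), e1 * n ≤ (Module.finrank ℝ U : ℝ) ∧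
        ∀ u ∈ U, ∑ q, (∑ j, ((symMat b q j : ℤ) : ℝ) * u j) ^ 2 ≤
          c * n * ∑ j, u j ^ 2} ≤ Real.exp (-(c * (n : ℝ) ^ 2)) := by
  set a := p * (1 - p) with hadef
  have ha : 0 < a := mul_pos hp0 (by linarith)
  have ha1 : a ≤ 1 := by rw [hadef]; nlinarith
  -- L = floor (e1 n / 4) ≥ e1 n / 8
  refine ⟨a * e1 ^ 2 / 2048, by positivity, ?_⟩
  have hnat := tendsto_natCast_atTop_atTop (R := ℝ)
  have h1 : ∀ᶠ n : ℕ in atTop, 8 / e1 ≤ (n : ℝ) := hnat.eventually_ge_atTop _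
  have h4 : ∀ᶠ n : ℕ in atTop, Real.log n ≤ a * e1 / 256 * (n : ℝ) := by
    have := (Real.isLittleO_log_id_atTop).def (by positivity : 0 < a * e1 / 256)
    have h5 := hnat.eventually this
    filter_upwards [h5] with n hn
    rw [Real.norm_eq_abs, Real.norm_eq_abs] at hn
    refine (le_abs_self _).trans (hn.trans ?_)
    simp
  have h6 : ∀ᶠ n : ℕ in atTop, 1 ≤ n := eventually_ge_atTop 1
  obtain ⟨n0, hn0⟩ := eventually_atTop.mp (h1.and (h4.and h6))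
  refine ⟨n0, fun n hn => ?_⟩
  obtain ⟨g1, g4, g6⟩ := hn0 n hn
  have hnpos : (0 : ℝ) < n := by exact_mod_cast g6
  set L := ⌊e1 * n / 4⌋₊ with hL
  have g1' : 8 ≤ e1 * n := by
    rw [div_le_iff₀ he] at g1
    linarith
  have hLx : e1 * n / 8 ≤ (L : ℝ) := by
    have : e1 * n / 4 < (L : ℝ) + 1 := Nat.lt_floor_add_one _
    linarith
  have hL0 : (0 : ℝ) ≤ L := Nat.cast_nonneg L
  have hLx2 : (e1 * n) ^ 2 / 64 ≤ (L : ℝ) ^ 2 := by
    have : 0 ≤ e1 * n / 8 := by positivity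
    nlinarith
  refine le_trans (prob_mono hp0.le hp1.le ?_) ((spec_main (ι := Fin n) hp0.le hp1.le L
    (a * e1 ^ 2 / 2048 * n) (by positivity) ?_).trans ?_)
  · rintro b ⟨U, hU, hb⟩
    refine ⟨U, ?_, hb⟩
    have h3 : ((4 * L : ℕ) : ℝ) ≤ e1 * n := by
      have : (L : ℝ) ≤ e1 * n / 4 := Nat.floor_le (by positivity)
      push_cast
      linarith
    exact_mod_cast h3.trans hU
  · rw [Fintype.card_fin]
    have := mul_le_mul_of_nonneg_left hLx2 ha.le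
    have h7 : 0 ≤ a * (e1 * n) ^ 2 := by positivity
    nlinarith
  · rw [Fintype.card_fin]
    have e1' : (n : ℝ) ^ L = Real.exp (L * Real.log n) := by
      rw [mul_comm, Real.exp_mul, Real.exp_log hnpos, Real.rpow_natCast]
    rw [e1', ← Real.exp_add]
    refine Real.exp_le_exp.mpr ?_
    have e3 : L * Real.log n ≤ a * (L : ℝ) ^ 2 / 32 := by
      have : Real.log n ≤ a * L / 32 := by
        refine g4.trans ?_
        nlinarith [mul_le_mul_of_nonneg_left hLx ha.le]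
      nlinarith [mul_le_mul_of_nonneg_left this hL0]
    have := mul_le_mul_of_nonneg_left hLx2 ha.le
    have h7 : a * (e1 * n) ^ 2 = a * e1 ^ 2 * n ^ 2 := by ring
    nlinarith

end Crest.Agent.R152.Spec
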