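import Mathlib

set_option autoImplicit false
set_option linter.unusedSectionVars false

/-!
# Row 152, module T1' (helper876 for helper199): coordinates along the small eigenvectors
-/

namespace Crest.Agent.R152.TP

open Matrix Module

/-- if a symmetric matrix has no `4L`-dimensional small subspace, then `< 4L` coordinates and
`|A v|` control `|v|`. -/
theorem exists_coords {n : ℕ} (A : Matrix (Fin n) (Fin n) ℝ) (hA : A.transpose = A) (L : ℕ)
    (_hL : 0 < L) (t2 : ℝ) (ht : 0 < t2)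
    (hbad : ¬ ∃ U : Submodule ℝ (Fin n → ℝ), 4 * L ≤ Module.finrank ℝ U ∧
      ∀ u ∈ U, ∑ q, (∑ j, A q j * u j) ^ 2 ≤ t2 * ∑ j, u j ^ 2) :
    ∃ (c : Fin (4 * L) → (Fin n → ℝ) →ₗ[ℝ] ℝ),
      (∀ l v, (c l v) ^ 2 ≤ ∑ j, v j ^ 2) ∧
      (∀ v, ∑ j, v j ^ 2 ≤ ∑ l, (c l v) ^ 2 + (∑ q, (A *ᵥ v) q ^ 2) / t2) := by
  classical
  have hA' : A.IsHermitian := by
    rw [IsHermitian, conjTranspose_eq_transpose_of_trivial, hA]
  set b := hA'.eigenvectorBasis with hb
  set μ := hA'.eigenvalues with hμ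
  set w : Fin n → (Fin n → ℝ) := fun i => ⇑(b i) with hw
  have hinner : ∀ i (v : Fin n → ℝ), inner ℝ (b i) (WithLp.toLp 2 v) = w i ⬝ᵥ v := by
    intro i v
    simp [PiLp.inner_apply, dotProduct, hw, mul_comm]
  -- Parseval
  have hpars : ∀ v : Fin n → ℝ, ∑ i, (w i ⬝ᵥ v) ^ 2 = ∑ j, v j ^ 2 := by
    intro v
    have h1 := b.sum_sq_norm_inner_right (WithLp.toLp 2 v)
    simp only [hinner, Real.norm_eq_abs, sq_abs] at h1
    rw [h1, EuclideanSpace.norm_sq_eq]
    simp
  have heig : ∀ i (v : Fin n → ℝ), w i ⬝ᵥ (A *ᵥ v) = μ i * (w i ⬝ᵥ v) := by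
    intro i v
    have h1 : A *ᵥ w i = μ i • w i := hA'.mulVec_eigenvectorBasis i
    rw [dotProduct_mulVec, ← mulVec_transpose, hA, h1, smul_dotProduct, smul_eq_mul]
  have hAv : ∀ v : Fin n → ℝ, ∑ q, (A *ᵥ v) q ^ 2 = ∑ i, μ i ^ 2 * (w i ⬝ᵥ v) ^ 2 := by
    intro v
    rw [← hpars (A *ᵥ v)]
    apply Finset.sum_congr rfl
    intro i _
    rw [heig]; ring
  set small : Finset (Fin n) := Finset.univ.filter (fun i => μ i ^ 2 ≤ t2) with hsmall
  have hmem : ∀ i, i ∈ small ↔ μ i ^ 2 ≤ t2 := by intro i; simp [hsmall]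
  -- number of small eigenvalues
  have hcard : small.card < 4 * L := by
    by_contra hge
    push Not at hge
    apply hbad
    refine ⟨Submodule.span ℝ (Set.range fun i : small => w i), ?_, ?_⟩
    · have hli0 : LinearIndependent ℝ w := by
        have h1 := b.toBasis.linearIndependent.map' (WithLp.linearEquiv 2 ℝ (Fin n → ℝ)).toLinearMap
          (LinearEquiv.ker _)
        have h2 : (⇑(WithLp.linearEquiv 2 ℝ (Fin n → ℝ)).toLinearMap ∘ ⇑b.toBasis) = w := by
          funext i
          simp [hw]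
        rwa [h2] at h1
      have hli : LinearIndependent ℝ (fun i : small => w i) :=
        hli0.comp _ Subtype.val_injective
      rw [finrank_span_eq_card hli]
      simpa using hge
    · intro u hu
      have h0 : ∀ i, i ∉ small → w i ⬝ᵥ u = 0 := by
        intro i hi
        induction hu using Submodule.span_induction with
        | mem x hx =>
          obtain ⟨j, rfl⟩ := hx
          have hij : i ≠ j := fun h => hi (h ▸ j.2)
          have h1 := b.orthonormal.2 hij
          have h2 := hinner i (w j)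
          rw [← h2]
          exact h1
        | zero => simp
        | add x y _ _ hx hy => rw [dotProduct_add, hx, hy, add_zero]
        | smul a x _ hx => rw [dotProduct_smul, hx, smul_zero]
      have h1 : ∑ q, (∑ j, A q j * u j) ^ 2 = ∑ q, (A *ᵥ u) q ^ 2 := rfl
      rw [h1, hAv, ← hpars u, Finset.mul_sum]
      apply Finset.sum_le_sum
      intro i _
      by_cases hi : i ∈ small
      · have h2 := (hmem i).1 hi
        gcongr
      · rw [h0 i hi]; simp
  -- the coordinates
  let e : Fin small.card ≃ small := small.equivFin.symm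
  let cf : Fin n → (Fin n → ℝ) →ₗ[ℝ] ℝ := fun i =>
    { toFun := fun v => w i ⬝ᵥ v
      map_add' := fun x y => dotProduct_add _ _ _
      map_smul' := fun a x => by rw [dotProduct_smul, RingHom.id_apply] }
  have hcf : ∀ i v, cf i v = w i ⬝ᵥ v := fun _ _ => rfl
  let c : Fin (4 * L) → (Fin n → ℝ) →ₗ[ℝ] ℝ := fun l =>
    if h : l.val < small.card then cf (e ⟨l.val, h⟩) else 0
  have hc1 : ∀ l (h : l.val < small.card), c l = cf (e ⟨l.val, h⟩) := fun l h => dif_pos h
  have hc0 : ∀ l, ¬ l.val < small.card → c l = 0 := fun l h => dif_neg h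
  refine ⟨c, ?_, ?_⟩
  · intro l v
    by_cases h : l.val < small.card
    · rw [hc1 l h, hcf, ← hpars v]
      exact Finset.single_le_sum (f := fun i => (w i ⬝ᵥ v) ^ 2) (fun i _ => sq_nonneg _)
        (Finset.mem_univ _)
    · rw [hc0 l h, LinearMap.zero_apply]
      have : 0 ≤ ∑ j, v j ^ 2 := Finset.sum_nonneg fun i _ => sq_nonneg _
      simpa using this
  · intro v
    have h1 : ∑ i ∈ small, (w i ⬝ᵥ v) ^ 2 ≤ ∑ l, (c l v) ^ 2 := by
      have h2 : ∑ i ∈ small, (w i ⬝ᵥ v) ^ 2 = ∑ k : Fin small.card, (w (e k) ⬝ᵥ v) ^ 2 := by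
        rw [← Finset.sum_coe_sort small (fun i => (w i ⬝ᵥ v) ^ 2), ← e.sum_comp]
      have h3 : ∑ k : Fin small.card, (w (e k) ⬝ᵥ v) ^ 2 =
          ∑ l ∈ Finset.univ.map (Fin.castLEEmb hcard.le), (c l v) ^ 2 := by
        rw [Finset.sum_map]
        apply Finset.sum_congr rfl
        intro k _
        have h4 : (Fin.castLEEmb hcard.le k).val < small.card := k.2
        rw [hc1 _ h4, hcf]
        rfl
      rw [h2, h3]
      exact Finset.sum_le_univ_sum_of_nonneg fun l => sq_nonneg _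
    have h5 : ∑ i ∈ smallᶜ, (w i ⬝ᵥ v) ^ 2 ≤ (∑ q, (A *ᵥ v) q ^ 2) / t2 := by
      rw [le_div_iff₀ ht, hAv, Finset.sum_mul]
      calc ∑ i ∈ smallᶜ, (w i ⬝ᵥ v) ^ 2 * t2 ≤ ∑ i ∈ smallᶜ, μ i ^ 2 * (w i ⬝ᵥ v) ^ 2 := by
            apply Finset.sum_le_sum
            intro i hi
            have h6 : t2 < μ i ^ 2 := by
              by_contra hle
              push Not at hle
              exact (Finset.mem_compl.1 hi) ((hmem i).2 hle)
            rw [mul_comm]
            gcongr
        _ ≤ ∑ i, μ i ^ 2 * (w i ⬝ᵥ v) ^ 2 :=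
            Finset.sum_le_univ_sum_of_nonneg fun i => by positivity
    rw [← hpars v, ← Finset.sum_add_sum_compl small]
    linarith

end Crest.Agent.R152.TP
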