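import Crest.Agent.R152.TP3
import Crest.Agent.R152.TPS
import Crest.Agent.R152.Spec6
import Crest.Agent.R152.AsmDefs

set_option autoImplicit false

/-!
# Row 152, module TP (helper199), part 4: the statement (T1')
-/

open Crest.FinProb Crest.ProbabilityR.SignMatrix Crest.Agent.R152.Base

namespace Crest.Agent.R152.TP

open Matrix Module Crest.Agent.R152.WRM Crest.Agent.R152.WRM3 Filter

/-- the rational solution and the real solution agree -/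
theorem qinv_cast {n : ℕ} {A : Matrix (Fin n) (Fin n) ℤ} (hA : A.det ≠ 0) (x : Fin n → Bool)
    (i : Fin n) : ((Asm.qinv A (Asm.sv x) i : ℚ) : ℝ) = vv A x i := by
  set AQ : Matrix (Fin n) (Fin n) ℚ := A.map (Int.cast : ℤ → ℚ) with hAQ
  have hdet : AQ.det ≠ 0 := by
    have h1 : AQ.det = (A.det : ℚ) := by
      have := (RingHom.map_det (Int.castRingHom ℚ) A).symm
      simpa [hAQ, RingHom.mapMatrix_apply] using this
    rw [h1]; exact_mod_cast hA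
  set u : Fin n → ℚ := Asm.qinv A (Asm.sv x) with hu
  have h1 : AQ *ᵥ u = fun i => ((Asm.sv x i : ℤ) : ℚ) := by
    rw [hu]
    unfold Asm.qinv
    rw [Matrix.mulVec_mulVec, Matrix.mul_nonsing_inv _ (isUnit_iff_ne_zero.mpr hdet),
      Matrix.one_mulVec]
  have h2 : im A *ᵥ (fun i => ((u i : ℚ) : ℝ)) = fun i => ((sg (x i) : ℤ) : ℝ) := by
    ext j
    have h3 := congrFun h1 j
    simp only [Matrix.mulVec, dotProduct, hAQ, Matrix.map_apply] at h3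
    have h4 := congrArg (fun q : ℚ => (q : ℝ)) h3
    simp only [Rat.cast_sum, Rat.cast_mul, Rat.cast_intCast] at h4
    simp only [Matrix.mulVec, dotProduct, im, Matrix.map_apply]
    rw [h4]; rfl
  have h5 : (fun i => ((u i : ℚ) : ℝ)) = vv A x := by
    unfold vv
    rw [← h2, Matrix.mulVec_mulVec,
      Matrix.nonsing_inv_mul _ (isUnit_iff_ne_zero.mpr (im_det_ne hA)), Matrix.one_mulVec]
  exact congrFun h5 i

/-- `n ^ a * log n` is negligible -/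
theorem ev_small {a ε : ℝ} (ha : a < 1) (hε : 0 < ε) :
    ∀ᶠ n : ℕ in atTop, 1 ≤ Real.log n ∧ (n : ℝ) ^ a * Real.log n ≤ ε * n := by
  have h1 := (isLittleO_log_rpow_atTop (r := 1 - a) (by linarith)).bound hε
  have h2 := tendsto_natCast_atTop_atTop (R := ℝ) |>.eventually h1
  have h3 := (Real.tendsto_log_atTop.comp (tendsto_natCast_atTop_atTop (R := ℝ))).eventually_ge_atTop 1
  filter_upwards [h2, h3, eventually_ge_atTop 1] with n hn hl hn1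
  refine ⟨hl, ?_⟩
  have hnpos : (0:ℝ) < n := by exact_mod_cast hn1
  have hl' : 1 ≤ Real.log n := hl
  rw [Real.norm_eq_abs, Real.norm_eq_abs, abs_of_nonneg (by linarith), abs_of_nonneg (by positivity)] at hn
  calc (n : ℝ) ^ a * Real.log n ≤ (n:ℝ) ^ a * (ε * (n:ℝ) ^ (1 - a)) := by gcongr
    _ = ε * ((n:ℝ) ^ a * (n:ℝ) ^ (1 - a)) := by ring
    _ = ε * n := by
        rw [← Real.rpow_add hnpos]
        norm_num

/-- the size of the kernel -/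
theorem num_k {n : ℕ} (hn : 3 ≤ n) {b : ℝ} {k : ℕ} {D : ℝ} (hD : 0 < D)
    (hD2 : D ≤ (n : ℝ) ^ (b / 128 * n))
    (hk : ((n : ℝ) ^ (1 / 16 : ℝ)) ^ k ≤ (n : ℝ) ^ (1 / 16 : ℝ) * D ^ 2) :
    (k : ℝ) ≤ 1 + b / 4 * n := by
  have hn3 : (3:ℝ) ≤ n := by exact_mod_cast hn
  have hnpos : (0:ℝ) < n := by linarith
  have hlogn : 0 < Real.log n := Real.log_pos (by linarith)
  have e1 := Real.log_le_log (by positivity) hk
  rw [Real.log_pow, Real.log_mul (by positivity) (by positivity), Real.log_rpow hnpos,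
    Real.log_pow] at e1
  have e5 := Real.log_le_log hD hD2
  rw [Real.log_rpow hnpos] at e5
  have e6 : (k : ℝ) * (1/16 * Real.log n) ≤ (1 + b / 4 * n) * (1/16 * Real.log n) := by
    have e7 : (1 + b / 4 * n) * (1/16 * Real.log n) =
        1/16 * Real.log n + 2 * (b / 128 * n * Real.log n) := by ring
    rw [e7]
    push_cast at e1
    linarith
  exact le_of_mul_le_mul_right e6 (by positivity)

theorem num_K {n C : ℕ} (hn : 3 ≤ n) :
    Real.log ((2 * (n ^ (C + 2) + 1) + 1 : ℕ) : ℝ) ≤ ((C : ℝ) + 6) * Real.log n := by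
  have hn3 : (3:ℝ) ≤ n := by exact_mod_cast hn
  have e1 : ((2 * (n ^ (C + 2) + 1) + 1 : ℕ) : ℝ) ≤ (n:ℝ) ^ (C + 6) := by
    push_cast
    have e2 : (n:ℝ) ^ (C + 6) = (n:ℝ) ^ (C + 2) * (n:ℝ) ^ 4 := by rw [← pow_add]
    have e3 : (1:ℝ) ≤ (n:ℝ) ^ (C + 2) := one_le_pow₀ (by linarith)
    have e4 : (81:ℝ) ≤ (n:ℝ) ^ 4 := by
      calc (81:ℝ) = 3 ^ 4 := by norm_num
        _ ≤ (n:ℝ) ^ 4 := by gcongr
    rw [e2]
    nlinarith
  have e5 := Real.log_le_log (by positivity) e1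
  rw [Real.log_pow] at e5
  push_cast at e5 ⊢
  exact e5

theorem num_3 {n : ℕ} (hn : 3 ≤ n) :
    Real.pi * (n : ℝ) ^ (2 * (1/16 : ℝ)) * (((n : ℝ) ^ (1 / 16 : ℝ)) ^ 2 *
      (1 + 4 * n / (n : ℝ) ^ (1 / 2 : ℝ))) ≤ 20 * (n : ℝ) ^ (3/4 : ℝ) := by
  have hn3 : (3:ℝ) ≤ n := by exact_mod_cast hn
  have hnpos : (0:ℝ) < n := by linarith
  have e1 : (n:ℝ) / (n : ℝ) ^ (1 / 2 : ℝ) = (n : ℝ) ^ (1/2 : ℝ) := by
    rw [div_eq_iff (Real.rpow_pos_of_pos hnpos _).ne', ← Real.rpow_add hnpos]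
    norm_num
  have e2 : 1 + 4 * n / (n : ℝ) ^ (1 / 2 : ℝ) ≤ 5 * (n : ℝ) ^ (1/2 : ℝ) := by
    rw [mul_div_assoc, e1]
    have : (1:ℝ) ≤ (n : ℝ) ^ (1/2 : ℝ) := Real.one_le_rpow (by linarith) (by norm_num)
    linarith
  have e3 : ((n : ℝ) ^ (1 / 16 : ℝ)) ^ 2 = (n : ℝ) ^ (1/8 : ℝ) := by
    rw [← Real.rpow_natCast, ← Real.rpow_mul hnpos.le]; norm_num
  calc Real.pi * (n : ℝ) ^ (2 * (1/16 : ℝ)) * (((n : ℝ) ^ (1 / 16 : ℝ)) ^ 2 *
        (1 + 4 * n / (n : ℝ) ^ (1 / 2 : ℝ)))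
      ≤ 4 * (n : ℝ) ^ (2 * (1/16 : ℝ)) * (((n : ℝ) ^ (1 / 16 : ℝ)) ^ 2 *
        (5 * (n : ℝ) ^ (1/2 : ℝ))) := by
        gcongr
        exact Real.pi_le_four
    _ = 20 * ((n : ℝ) ^ (2 * (1/16 : ℝ)) * (n : ℝ) ^ (1/8 : ℝ) * (n : ℝ) ^ (1/2 : ℝ)) := by
        rw [e3]; ring
    _ = 20 * (n : ℝ) ^ (3/4 : ℝ) := by
        rw [← Real.rpow_add hnpos, ← Real.rpow_add hnpos]; norm_num

theorem num_main (C : ℕ) {b : ℝ} (hb : 0 < b) : ∃ n3 : ℕ, ∀ n : ℕ, n3 ≤ n → 3 ≤ n ∧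
    ∀ m k : ℕ, (m : ℝ) ≤ 5 * (n : ℝ) ^ (7/8 : ℝ) → (k : ℝ) ≤ 1 + b / 4 * n →
      ((2 * (n ^ (C + 2) + 1) + 1 : ℕ) : ℝ) ^ m *
        Real.exp (2 * (n : ℝ) ^ (1 - (1/16 : ℝ) / 4) +
          Real.pi * (n : ℝ) ^ (2 * (1/16 : ℝ)) * (((n : ℝ) ^ (1 / 16 : ℝ)) ^ 2 *
            (1 + 4 * n / (n : ℝ) ^ (1 / 2 : ℝ)))) * 2 ^ k ≤ (2 : ℝ) ^ (b * n) := by
  have hl2 : 0 < Real.log 2 := Real.log_pos (by norm_num)
  set e : ℝ := b * Real.log 2 / 64 / (C + 10) with he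
  have hepos : 0 < e := by positivity
  obtain ⟨n3, hn3⟩ := eventually_atTop.mp ((ev_small (a := 7/8) (by norm_num) hepos).and
    ((ev_small (a := 63/64) (by norm_num) hepos).and
      ((ev_small (a := 3/4) (by norm_num) hepos).and (ev_small (a := 0) (by norm_num) hepos))))
  refine ⟨max n3 3, fun n hn => ⟨le_trans (le_max_right _ _) hn, ?_⟩⟩
  intro m k hm hk
  obtain ⟨⟨hlog, ha⟩, ⟨-, hb1⟩, ⟨-, hc1⟩, ⟨-, hd1⟩⟩ := hn3 n (le_trans (le_max_left _ _) hn)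
  have hnn4 : 3 ≤ n := le_trans (le_max_right _ _) hn
  have hn3' : (3:ℝ) ≤ n := by exact_mod_cast hnn4
  have hnpos : (0:ℝ) < n := by linarith
  have hterm1 : (m : ℝ) * Real.log ((2 * (n ^ (C + 2) + 1) + 1 : ℕ) : ℝ) ≤
      5 * ((C : ℝ) + 6) * (e * n) := by
    calc (m : ℝ) * Real.log ((2 * (n ^ (C + 2) + 1) + 1 : ℕ) : ℝ)
        ≤ (5 * (n : ℝ) ^ (7/8 : ℝ)) * (((C : ℝ) + 6) * Real.log n) := by
          refine mul_le_mul hm (num_K hnn4) (Real.log_nonneg ?_) (by positivity)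
          push_cast
          have : (0:ℝ) ≤ (n:ℝ) ^ (C + 2) := by positivity
          linarith
      _ = 5 * ((C : ℝ) + 6) * ((n : ℝ) ^ (7/8 : ℝ) * Real.log n) := by ring
      _ ≤ 5 * ((C : ℝ) + 6) * (e * n) := by gcongr
  have hterm2 : 2 * (n : ℝ) ^ (1 - (1/16 : ℝ) / 4) ≤ 2 * (e * n) := by
    have e1 : (1 - (1/16 : ℝ) / 4) = 63/64 := by norm_num
    rw [e1]
    have e2 : (n : ℝ) ^ (63/64 : ℝ) * 1 ≤ (n : ℝ) ^ (63/64 : ℝ) * Real.log n := by gcongr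
    linarith
  have hterm3 : Real.pi * (n : ℝ) ^ (2 * (1/16 : ℝ)) * (((n : ℝ) ^ (1 / 16 : ℝ)) ^ 2 *
      (1 + 4 * n / (n : ℝ) ^ (1 / 2 : ℝ))) ≤ 20 * (e * n) := by
    refine (num_3 hnn4).trans ?_
    have : (n : ℝ) ^ (3/4 : ℝ) * 1 ≤ (n : ℝ) ^ (3/4 : ℝ) * Real.log n := by gcongr
    linarith
  have hone : Real.log 2 ≤ e * n := by
    have e1 : (n:ℝ) ^ (0:ℝ) * Real.log n = Real.log n := by simp
    rw [e1] at hd1
    have e2 : Real.log 2 ≤ 1 := by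
      have := Real.log_two_lt_d9
      linarith
    linarith
  have hsumE : (5 * ((C:ℝ) + 6) + 2 + 20 + 1) * (e * n) ≤ b * Real.log 2 / 2 * n := by
    have e1 : (5 * ((C:ℝ) + 6) + 2 + 20 + 1) ≤ 32 * (C + 10) := by
      have : (0:ℝ) ≤ C := Nat.cast_nonneg C
      linarith
    have e2 : 32 * ((C:ℝ) + 10) * e = b * Real.log 2 / 2 := by
      rw [he]; field_simp; ring
    calc (5 * ((C:ℝ) + 6) + 2 + 20 + 1) * (e * n) ≤ 32 * (C + 10) * (e * n) := by gcongr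
      _ = (32 * (C + 10) * e) * n := by ring
      _ = _ := by rw [e2]
  have hkl : (k:ℝ) * Real.log 2 ≤ (1 + b / 4 * n) * Real.log 2 := by gcongr
  have hX : 0 < ((2 * (n ^ (C + 2) + 1) + 1 : ℕ) : ℝ) ^ m := by positivity
  have h2b : (0:ℝ) < (2 : ℝ) ^ (b * n) := Real.rpow_pos_of_pos (by norm_num) _
  rw [← Real.log_le_log_iff (by positivity) h2b, Real.log_mul (by positivity)
    (by positivity), Real.log_mul hX.ne' (by positivity), Real.log_exp, Real.log_pow,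
    Real.log_pow, Real.log_rpow (by norm_num)]
  have hfin : (5 * ((C:ℝ) + 6) + 2 + 20 + 1) * (e * n) =
    5 * ((C : ℝ) + 6) * (e * n) + 2 * (e * n) + 20 * (e * n) + e * n := by ring
  have hlast : (1 + b / 4 * n) * Real.log 2 = Real.log 2 + b * Real.log 2 / 4 * n := by ring
  have hpos : 0 ≤ b * Real.log 2 * n := by positivity
  rw [hlast] at hkl
  rw [hfin] at hsumE
  have hgoal : b * n * Real.log 2 = b * Real.log 2 / 2 * n + b * Real.log 2 / 4 * n +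
    b * Real.log 2 * n / 4 := by ring
  rw [hgoal]
  linarith

theorem T1p_all {p : ℝ} (hp0 : 0 < p) (hp1 : p < 1) : Asm.T1p p := by
  classical
  intro C b hb
  refine ⟨b / 128, by positivity, ?_⟩
  obtain ⟨n1, hspec⟩ := Spec.spec_coord hp0 hp1 (c := 1/8) (d := 1/4) (by norm_num) (by norm_num)
  obtain ⟨n2, hcount⟩ := count_main (δ := 1/16) (by norm_num)
  obtain ⟨n3, hnum⟩ := num_main C hb
  refine ⟨max (max n1 n2) n3, fun n hn => ?_⟩
  have hnn1 : n1 ≤ n := le_trans (le_trans (le_max_left _ _) (le_max_left _ _)) hn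
  have hnn2 : n2 ≤ n := le_trans (le_trans (le_max_right _ _) (le_max_left _ _)) hn
  obtain ⟨hnn4, hnum⟩ := hnum n (le_trans (le_max_right _ _) hn)
  obtain ⟨hn1, hcount⟩ := hcount n hnn2
  refine le_trans (prob_mono hp0.le hp1.le ?_) (hspec n hnn1)
  intro w hw
  simp only [Set.mem_ofPred_eq] at hw ⊢
  obtain ⟨hdet, hsmall, hmany⟩ := hw
  by_contra hbad
  apply absurd hmany
  rw [not_lt]
  set A := symMat w with hA
  clear_value A
  have hAt : A.transpose = A := by rw [hA, symMat_symm]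
  clear hA hmany hnn1 hnn2 hspec hn
  have hn3' : (3:ℝ) ≤ n := by exact_mod_cast hnn4
  have hnpos : (0:ℝ) < n := by linarith
  -- the coordinates
  set L : ℕ := ⌈(n : ℝ) ^ (7/8 : ℝ) / 4⌉₊ with hL
  have h78 : (1:ℝ) ≤ (n : ℝ) ^ (7/8 : ℝ) := Real.one_le_rpow (by linarith) (by norm_num)
  have hLc : (L : ℝ) < (n : ℝ) ^ (7/8 : ℝ) / 4 + 1 :=
    Nat.ceil_lt_add_one (show (0:ℝ) ≤ (n : ℝ) ^ (7/8 : ℝ) / 4 by positivity)
  have hLpos : 0 < L := by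
    rw [hL]; apply Nat.ceil_pos.mpr; positivity
  have hLge : (n : ℝ) ^ (7/8 : ℝ) ≤ ((4 * L : ℕ) : ℝ) := by
    have := Nat.le_ceil ((n : ℝ) ^ (7/8 : ℝ) / 4)
    push_cast; rw [← hL] at this; linarith
  have hLle : ((4 * L : ℕ) : ℝ) ≤ 5 * (n : ℝ) ^ (7/8 : ℝ) := by
    push_cast; linarith
  have ht2pos : 0 < (n : ℝ) ^ (1 / 2 : ℝ) := Real.rpow_pos_of_pos hnpos _
  obtain ⟨c, hc1', hc2'⟩ := exists_coords (im A) (by
      rw [← WRM3.im_transpose, hAt]) L hLpos ((n : ℝ) ^ (1 / 2 : ℝ)) ht2pos (by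
    rintro ⟨U, hU, hU2⟩
    apply hbad
    refine ⟨U, ?_, ?_⟩
    · have e1 : ((1:ℝ) - 1/8) = 7/8 := by norm_num
      rw [e1]
      refine hLge.trans ?_
      exact_mod_cast hU
    · intro u hu
      have e1 : ((1:ℝ) - 2 * (1/4)) = 1/2 := by norm_num
      rw [e1]
      exact hU2 u hu)
  -- the bound
  have hE1 : 1 < (n : ℝ) ^ (1 / 16 : ℝ) := Real.one_lt_rpow (by linarith) (by norm_num)
  have h4L : 4 * L ≤ n ^ 2 := by
    have e3 : (n : ℝ) ^ (7/8 : ℝ) ≤ n := by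
      calc (n : ℝ) ^ (7/8 : ℝ) ≤ (n:ℝ) ^ (1:ℝ) :=
            Real.rpow_le_rpow_of_exponent_le (by linarith) (by norm_num)
        _ = n := Real.rpow_one _
    have e4 : ((4 * L : ℕ) : ℝ) < ((n ^ 2 + 1 : ℕ) : ℝ) := by
      push_cast
      nlinarith
    have e5 : 4 * L < n ^ 2 + 1 := by exact_mod_cast e4
    omega
  set s : Finset (Fin n → Bool) := Finset.univ.filter fun x =>
    (∃ t : ℤ, Asm.bil A (Asm.sv x) (Asm.sv x) = t) ∧
      ∀ i, |Asm.qinv A (Asm.sv x) i| ≤ (n : ℚ) ^ C with hs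
  obtain ⟨k, hk, hcard⟩ := hcount A hdet (4 * L) c _ ht2pos h4L hc1' hc2' _ hE1 ((n : ℝ) ^ C)
    (n ^ (C + 2) + 1) (by positivity) (by push_cast; rw [pow_add, mul_comm]) s (by
      intro x hx i
      have h1 := (Finset.mem_filter.mp hx).2.2 i
      rw [← qinv_cast hdet]
      have h2 : ((|Asm.qinv A (Asm.sv x) i| : ℚ) : ℝ) ≤ (((n : ℚ) ^ C : ℚ) : ℝ) := by
        exact_mod_cast h1
      push_cast at h2
      exact h2)
  have hnat : (Nat.card {x : Fin n → Bool // (∃ t : ℤ, Asm.bil A (Asm.sv x) (Asm.sv x) = t) ∧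
      ∀ i, |Asm.qinv A (Asm.sv x) i| ≤ (n : ℚ) ^ C} : ℝ) = s.card := by
    rw [Nat.card_eq_fintype_card, Fintype.card_subtype]
  rw [hnat]
  refine hcard.trans (hnum _ k hLle ?_)
  have hDpos : 0 < |(A.det : ℝ)| := by
    apply abs_pos.mpr; exact_mod_cast hdet
  refine num_k hnn4 hDpos ?_ (by rw [sq_abs]; exact hk)
  have h5 : ((A.det.natAbs : ℕ) : ℝ) = |(A.det : ℝ)| := by
    rw [Nat.cast_natAbs, Int.cast_abs]
  rw [← h5]; exact hsmall

end Crest.Agent.R152.TP
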