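import Crest.Agent.R152.Asm5
import Crest.Agent.R152.Sparse6
import Crest.Agent.R152.Crk2
import Crest.Agent.R152.TP4
import Crest.Agent.R152.Div2

set_option autoImplicit false

/-! Row 152, ASM part F: the hypothesis of TOP from GLO and NEARMAX. -/

open Crest.FinProb Crest.ProbabilityR.SignMatrix Crest.Agent.R152.Base Filter Topology

namespace Crest.Agent.R152.Asm

theorem spk {p : ℝ} (hp0 : 0 < p) (hp1 : p < 1) : SPK p := by
  intro ε hε
  obtain ⟨c, hc, n0, h⟩ := Sparse.sp4 hp0 hp1 ε hε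
  refine ⟨c, hc, n0, fun n hn => (prob_mono hp0.le hp1.le ?_).trans (h n hn)⟩
  rintro w ⟨k, hk, hp, q, hq, hlt⟩ hD
  have := Sparse.Dense.prime hD hk hp hq
  linarith

theorem div_holds : DIV := Div.div_asm

/-- The hypothesis of `Top.top`. -/
theorem top_hyp {p : ℝ} (hp0 : 0 < p) (hp1 : p < 1) (hG : GLO p) (hN : NMZ p) :
    ∀ ε : ℝ, 0 < ε → ∃ δ : ℝ, 0 < δ ∧
    ∃ R : (n : ℕ) → Matrix (Fin n) (Fin n) ℤ → Set (Fin n → Bool),
    (∀ᶠ n : ℕ in atTop, bernoulliProb p {w : Sym2 (Fin (n + 1)) → Bool |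
      Crk.CorankOne (symMat w) ∧
      (Set.ncard {i | (del (symMat w) i).det ≠ 0 ∧
        ∃ x ∈ R n (del (symMat w) i), row (symMat w) i = sv x} : ℝ) < δ * n} ≤
          (rate p + ε) ^ n) ∧
    (∀ᶠ n : ℕ in atTop, bernoulliProb p {w : Sym2 (Fin n) → Bool |
      (symMat w).det ≠ 0 ∧ (1 + ε) ^ n < (Set.ncard (R n (symMat w)) : ℝ)} ≤
        (rate p + ε) ^ n) := by
  intro ε hε
  obtain ⟨δ, hδ, R, h1, h2⟩ :=
    H_holds hp0 hp1 hG (TP.T1p_all hp0 hp1) (spk hp0 hp1) hN div_holds ε hε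
  refine ⟨δ, hδ, R, ?_, h2⟩
  filter_upwards [h1] with n hn
  refine (prob_mono hp0.le hp1.le ?_).trans hn
  rintro w ⟨⟨hd, hex⟩, hlt⟩
  refine ⟨hd, hex, ?_⟩
  have hle : (Set.ncard {i | (del (symMat w) i).det ≠ 0 ∧
      rowB w i ∈ R n (del (symMat w) i)} : ℝ) ≤
      (Set.ncard {i | (del (symMat w) i).det ≠ 0 ∧
        ∃ x ∈ R n (del (symMat w) i), row (symMat w) i = sv x} : ℝ) := by
    have hsub : {i | (del (symMat w) i).det ≠ 0 ∧ rowB w i ∈ R n (del (symMat w) i)} ⊆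
        {i | (del (symMat w) i).det ≠ 0 ∧
          ∃ x ∈ R n (del (symMat w) i), row (symMat w) i = sv x} := by
      rintro i ⟨hi1, hi2⟩
      exact ⟨hi1, rowB w i, hi2, (sv_rowB w i).symm⟩
    exact_mod_cast Set.ncard_le_ncard hsub (Set.toFinite _)
  refine lt_of_le_of_lt hle (hlt.trans_le ?_)
  refine mul_le_mul_of_nonneg_left ?_ hδ.le
  push_cast
  linarith

end Crest.Agent.R152.Asm
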