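import Crest.Agent.R152.Lat2

set_option autoImplicit false
set_option linter.unusedSectionVars false

/-!
# Row 152, module LAT (helper223), part 3: saturation, potentials and minimisers
-/

namespace Crest.Agent.R152.Lat

open Matrix Module

variable {ι : Type*} [Fintype ι]

/-! ### saturation -/

/-- saturation (primitive closure) -/
def sat (L : Submodule ℤ (ι → ℤ)) : Submodule ℤ (ι → ℤ) where
  carrier := {x | ∃ m : ℤ, m ≠ 0 ∧ m • x ∈ L}
  zero_mem' := ⟨1, one_ne_zero, by simp⟩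
  add_mem' := by
    rintro x y ⟨m, hm, hx⟩ ⟨k, hk, hy⟩
    refine ⟨m * k, mul_ne_zero hm hk, ?_⟩
    rw [smul_add]
    refine L.add_mem ?_ ?_
    · rw [mul_comm, mul_smul]; exact L.smul_mem _ hx
    · rw [mul_smul]; exact L.smul_mem _ hy
  smul_mem' := by
    rintro c x ⟨m, hm, hx⟩
    refine ⟨m, hm, ?_⟩
    rw [smul_comm]; exact L.smul_mem _ hx

theorem mem_sat {L : Submodule ℤ (ι → ℤ)} {x : ι → ℤ} :
    x ∈ sat L ↔ ∃ m : ℤ, m ≠ 0 ∧ m • x ∈ L := Iff.rfl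

theorem mem_sat_iff {L : Submodule ℤ (ι → ℤ)} {x : ι → ℤ} : x ∈ sat L ↔ ev x ∈ rsp L :=
  mem_rsp_iff.symm

theorem le_sat (L : Submodule ℤ (ι → ℤ)) : L ≤ sat L := fun _ hx => ⟨1, one_ne_zero, by simpa⟩

theorem rsp_sat (L : Submodule ℤ (ι → ℤ)) : rsp (sat L) = rsp L := by
  apply le_antisymm _ (rsp_mono (le_sat L))
  unfold rsp
  rw [Submodule.span_le]
  rintro _ ⟨z, hz, rfl⟩
  exact mem_sat_iff.mp hz

theorem sat_eq_of_rsp_eq {L M : Submodule ℤ (ι → ℤ)} (h : rsp L = rsp M) : sat L = sat M := by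
  ext x; rw [mem_sat_iff, mem_sat_iff, h]

@[simp] theorem sat_sat (L : Submodule ℤ (ι → ℤ)) : sat (sat L) = sat L :=
  sat_eq_of_rsp_eq (rsp_sat L)

theorem sat_mono {L M : Submodule ℤ (ι → ℤ)} (h : L ≤ M) : sat L ≤ sat M := fun x hx =>
  mem_sat_iff.mpr (rsp_mono h (mem_sat_iff.mp hx))

theorem sat_le {L M : Submodule ℤ (ι → ℤ)} (h : L ≤ M) (hM : sat M = M) : sat L ≤ M :=
  hM ▸ sat_mono h

@[simp] theorem sat_top : sat (⊤ : Submodule ℤ (ι → ℤ)) = ⊤ := top_le_iff.mp (le_sat _)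

@[simp] theorem sat_bot : sat (⊥ : Submodule ℤ (ι → ℤ)) = ⊥ := by
  rw [eq_bot_iff]
  rintro x ⟨m, hm, hx⟩
  rw [Submodule.mem_bot] at hx ⊢
  exact (smul_eq_zero.mp hx).resolve_left hm

theorem sat_inf {L M : Submodule ℤ (ι → ℤ)} (hL : sat L = L) (hM : sat M = M) :
    sat (L ⊓ M) = L ⊓ M :=
  le_antisymm (le_inf ((sat_mono inf_le_left).trans_eq hL) ((sat_mono inf_le_right).trans_eq hM))
    (le_sat _)

theorem rk_sat (L : Submodule ℤ (ι → ℤ)) : rk (sat L) = rk L := by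
  rw [← finrank_rsp, ← finrank_rsp, rsp_sat]

theorem lc_sat (L : Submodule ℤ (ι → ℤ)) : lc L = lc (sat L) + Real.log (ind L (sat L)) :=
  lc_of_le (le_sat L) (rk_sat L).symm

theorem lc_sat_le (L : Submodule ℤ (ι → ℤ)) : lc (sat L) ≤ lc L :=
  lc_le_of_le (le_sat L) (rk_sat L).symm

theorem le_sat_of_rk_eq {L M : Submodule ℤ (ι → ℤ)} (h : L ≤ M) (hr : rk L = rk M) :
    M ≤ sat L := by
  intro x hx
  rw [mem_sat_iff]
  have h1 : rsp L = rsp M := by
    apply Submodule.eq_of_le_of_finrank_eq (rsp_mono h)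
    rw [finrank_rsp, finrank_rsp, hr]
  rw [h1]; exact ev_mem_rsp hx

theorem eq_of_sat_of_rk_eq {L M : Submodule ℤ (ι → ℤ)} (hL : sat L = L) (h : L ≤ M)
    (hr : rk L = rk M) : L = M :=
  le_antisymm h (hL ▸ le_sat_of_rk_eq h hr)

/-- equality case: same rank and same covolume -/
theorem eq_of_lc_eq {L M : Submodule ℤ (ι → ℤ)} (h : L ≤ M) (hr : rk L = rk M)
    (hl : lc L ≤ lc M) : L = M := by
  have h1 := lc_of_le h hr
  have h2 : Real.log (ind L M) ≤ 0 := by linarith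
  have h3 : (0 : ℝ) < ind L M := by exact_mod_cast ind_pos h hr
  have h4 : (ind L M : ℝ) ≤ 1 := by
    by_contra hc
    push Not at hc
    have := Real.log_pos hc
    linarith
  have h5 : ind L M = 1 := by
    have := ind_pos h hr
    have h6 : ind L M ≤ 1 := by exact_mod_cast h4
    omega
  apply le_antisymm h
  unfold ind at h5
  exact AddSubgroup.relIndex_eq_one.mp h5

/-- rank one extension of a saturated lattice -/
theorem exists_eq_sup_span {B F : Submodule ℤ (ι → ℤ)} (hB : sat B = B) (h : B ≤ F)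
    (hr : rk F = rk B + 1) : ∃ u ∈ F, F = B ⊔ Submodule.span ℤ {u} := by
  classical
  let N : Submodule ℤ F := Submodule.comap F.subtype B
  have hN : Module.finrank ℤ N = rk B :=
    LinearEquiv.finrank_eq (Submodule.comapSubtypeEquivOfLe h)
  have hq : Module.finrank ℤ (F ⧸ N) = 1 := by
    have := Submodule.finrank_quotient_add_finrank N
    rw [hN] at this
    unfold rk at hr this
    omega
  have htf : Module.IsTorsionFree ℤ (F ⧸ N) := by
    refine Module.isTorsionFree_iff_smul_eq_zero.mpr ?_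
    intro r x hx
    obtain ⟨f, rfl⟩ := Submodule.mkQ_surjective N x
    by_cases hr0 : r = 0
    · exact Or.inl hr0
    · right
      rw [← map_smul, Submodule.mkQ_apply, Submodule.Quotient.mk_eq_zero] at hx
      rw [Submodule.mkQ_apply, Submodule.Quotient.mk_eq_zero]
      have h1 : r • (f : ι → ℤ) ∈ B := hx
      have h2 : (f : ι → ℤ) ∈ sat B := ⟨r, hr0, h1⟩
      rw [hB] at h2
      exact h2
  obtain ⟨v, _, hv⟩ := finrank_eq_one_iff'.mp hq
  obtain ⟨u, rfl⟩ := Submodule.mkQ_surjective N v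
  refine ⟨u, u.2, le_antisymm ?_ (sup_le h ?_)⟩
  · intro w hw
    obtain ⟨c, hc⟩ := hv (N.mkQ ⟨w, hw⟩)
    rw [← map_smul, Submodule.mkQ_apply, Submodule.mkQ_apply, Submodule.Quotient.eq] at hc
    have h1 : c • (u : ι → ℤ) - w ∈ B := hc
    have h2 : w = -(c • (u : ι → ℤ) - w) + c • (u : ι → ℤ) := by abel
    rw [h2]
    exact Submodule.add_mem_sup (B.neg_mem h1)
      (Submodule.smul_mem _ _ (Submodule.mem_span_singleton_self _))
  · rw [Submodule.span_le]; simp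

/-! ### potentials and minimisers -/

/-- potential -/
noncomputable def fK (K : ℝ) (F : Submodule ℤ (ι → ℤ)) : ℝ := lc F + K * rk F

theorem fK_submod (K : ℝ) (L M : Submodule ℤ (ι → ℤ)) :
    fK K (L ⊔ M) + fK K (L ⊓ M) ≤ fK K L + fK K M := by
  unfold fK
  have h1 := lc_submod L M
  have h2 : (rk (L ⊔ M) : ℝ) + rk (L ⊓ M) = rk L + rk M := by exact_mod_cast rk_modular L M
  have h3 : K * (rk (L ⊔ M) : ℝ) + K * rk (L ⊓ M) = K * rk L + K * rk M := by
    rw [← mul_add, h2, mul_add]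
  linarith

/-- existence of minimisers of `lc F + φ (rk F)` over any nonempty family -/
theorem exists_min_gen (φ : ℕ → ℝ) (P : Submodule ℤ (ι → ℤ) → Prop) (hP : ∃ F, P F) :
    ∃ F, P F ∧ ∀ G, P G → lc F + φ (rk F) ≤ lc G + φ (rk G) := by
  classical
  obtain ⟨F0, hF0⟩ := hP
  set n := Fintype.card ι
  obtain ⟨m, hm⟩ : ∃ m : ℝ, ∀ r ≤ n, m ≤ φ r := by
    refine ⟨-∑ r ∈ Finset.range (n + 1), |φ r|, fun r hr => ?_⟩
    have h1 : |φ r| ≤ ∑ r ∈ Finset.range (n + 1), |φ r| :=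
      Finset.single_le_sum (f := fun r => |φ r|) (fun _ _ => abs_nonneg _)
        (Finset.mem_range.mpr (by omega))
    have := neg_abs_le (φ r)
    linarith
  set D : ℝ := Real.exp (2 * (lc F0 + φ (rk F0) - m)) with hD
  let T : Set (ℕ × ℕ) := {q | q.1 ≤ n ∧ q.2 ≤ ⌈D⌉₊ ∧ ∃ G, P G ∧ rk G = q.1 ∧ (dsc G).toNat = q.2}
  have hTfin : T.Finite := by
    apply Set.Finite.subset (Set.Finite.prod (Set.finite_Iic n) (Set.finite_Iic ⌈D⌉₊))
    rintro ⟨a, b⟩ ⟨h1, h2, _⟩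
    exact ⟨h1, h2⟩
  have hmem : ∀ G, P G → lc G + φ (rk G) ≤ lc F0 + φ (rk F0) → (rk G, (dsc G).toNat) ∈ T := by
    intro G hG hle
    refine ⟨rk_le_card G, ?_, G, hG, rfl, rfl⟩
    have h1 : lc G ≤ lc F0 + φ (rk F0) - m := by
      have := hm (rk G) (rk_le_card G); linarith
    have h2 : (0 : ℝ) < dsc G := by exact_mod_cast dsc_pos G
    have h3 : (dsc G : ℝ) ≤ D := by
      rw [hD, ← Real.log_le_iff_le_exp h2]
      have h7 : lc G = Real.log (dsc G) / 2 := rfl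
      linarith
    have h4 : ((dsc G).toNat : ℝ) ≤ D := by
      have h5 : (((dsc G).toNat : ℤ) : ℝ) = dsc G := by
        rw [Int.toNat_of_nonneg (dsc_pos G).le]
      have h6 : ((dsc G).toNat : ℝ) = dsc G := by exact_mod_cast h5
      rw [h6]; exact h3
    exact_mod_cast h4.trans (Nat.le_ceil D)
  have hTne : T.Nonempty := ⟨_, hmem F0 hF0 le_rfl⟩
  obtain ⟨⟨a, b⟩, ⟨_, _, F, hF, hFa, hFb⟩, hmin⟩ :=
    Set.exists_min_image T (fun q => Real.log (q.2 : ℝ) / 2 + φ q.1) hTfin hTne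
  have hval : ∀ G : Submodule ℤ (ι → ℤ), lc G = Real.log ((dsc G).toNat : ℝ) / 2 := by
    intro G
    unfold lc
    have h6 : ((dsc G).toNat : ℝ) = dsc G := by
      have h5 : (((dsc G).toNat : ℤ) : ℝ) = dsc G := by
        rw [Int.toNat_of_nonneg (dsc_pos G).le]
      exact_mod_cast h5
    rw [h6]
  refine ⟨F, hF, fun G hG => ?_⟩
  have hFle : lc F + φ (rk F) ≤ lc F0 + φ (rk F0) := by
    have := hmin _ (hmem F0 hF0 le_rfl)
    simp only at this
    rw [hval F, hval F0, hFa, hFb]; exact this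
  by_cases hc : lc G + φ (rk G) ≤ lc F0 + φ (rk F0)
  · have := hmin _ (hmem G hG hc)
    simp only at this
    rw [hval F, hval G, hFa, hFb]; exact this
  · push Not at hc; linarith

/-- `F` is a minimiser of `fK K` on the interval `[X, Y]` -/
structure IsMin (K : ℝ) (X Y F : Submodule ℤ (ι → ℤ)) : Prop where
  le : X ≤ F
  ge : F ≤ Y
  min : ∀ G, X ≤ G → G ≤ Y → fK K F ≤ fK K G

theorem exists_isMin (K : ℝ) {X Y : Submodule ℤ (ι → ℤ)} (h : X ≤ Y) : ∃ F, IsMin K X Y F := by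
  obtain ⟨F, ⟨h1, h2⟩, h3⟩ := exists_min_gen (ι := ι) (fun r => K * r) (fun F => X ≤ F ∧ F ≤ Y)
    ⟨X, le_rfl, h⟩
  exact ⟨F, h1, h2, fun G hG1 hG2 => h3 G ⟨hG1, hG2⟩⟩

namespace IsMin

variable {K : ℝ} {X Y F G : Submodule ℤ (ι → ℤ)}

theorem sup (hF : IsMin K X Y F) (hG : IsMin K X Y G) : IsMin K X Y (F ⊔ G) := by
  refine ⟨hF.le.trans le_sup_left, sup_le hF.ge hG.ge, fun H h1 h2 => ?_⟩
  have a := fK_submod K F G
  have b := hF.min (F ⊓ G) (le_inf hF.le hG.le) (inf_le_left.trans hF.ge)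
  have c := hG.min H h1 h2
  linarith

theorem inf (hF : IsMin K X Y F) (hG : IsMin K X Y G) : IsMin K X Y (F ⊓ G) := by
  refine ⟨le_inf hF.le hG.le, inf_le_left.trans hF.ge, fun H h1 h2 => ?_⟩
  have a := fK_submod K F G
  have b := hF.min (F ⊔ G) (hF.le.trans le_sup_left) (sup_le hF.ge hG.ge)
  have c := hG.min H h1 h2
  linarith

/-- the join of a minimiser over `[X, Y]` and one over `[X', Y']`, `X ≤ X'`, `Y ≤ Y'`, is a
minimiser over `[X', Y']` -/
theorem sup' {X' Y' : Submodule ℤ (ι → ℤ)} (hX : X ≤ X') (hY : Y ≤ Y') (hF : IsMin K X Y F)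
    (hG : IsMin K X' Y' G) : IsMin K X' Y' (F ⊔ G) := by
  refine ⟨hG.le.trans le_sup_right, sup_le (hF.ge.trans hY) hG.ge, fun H h1 h2 => ?_⟩
  have a := fK_submod K F G
  have b := hF.min (F ⊓ G) (le_inf hF.le (hX.trans hG.le)) (inf_le_left.trans hF.ge)
  have c := hG.min H h1 h2
  linarith

theorem inf' {X' Y' : Submodule ℤ (ι → ℤ)} (hX : X ≤ X') (hY : Y ≤ Y') (hF : IsMin K X Y F)
    (hG : IsMin K X' Y' G) : IsMin K X Y (F ⊓ G) := by
  refine ⟨le_inf hF.le (hX.trans hG.le), inf_le_left.trans hF.ge, fun H h1 h2 => ?_⟩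
  have a := fK_submod K F G
  have b := hG.min (F ⊔ G) (hG.le.trans le_sup_right) (sup_le (hF.ge.trans hY) hG.ge)
  have c := hF.min H h1 h2
  linarith

theorem min_sup (hF : IsMin K X Y F) (H : Submodule ℤ (ι → ℤ)) (hH : H ≤ Y) :
    fK K F ≤ fK K (F ⊔ H) :=
  hF.min _ (hF.le.trans le_sup_left) (sup_le hF.ge hH)

/-- slopes above a minimiser -/
theorem lc_above (hF : IsMin K X Y F) {H : Submodule ℤ (ι → ℤ)} (h1 : F ≤ H) (h2 : H ≤ Y) :
    -K * ((rk H : ℝ) - rk F) ≤ lc H - lc F := by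
  have := hF.min H (hF.le.trans h1) h2
  unfold fK at this
  nlinarith

/-- slopes below a minimiser -/
theorem lc_below (hF : IsMin K X Y F) {H : Submodule ℤ (ι → ℤ)} (h1 : X ≤ H) (h2 : H ≤ F) :
    lc F - lc H ≤ -K * ((rk F : ℝ) - rk H) := by
  have := hF.min H h1 (h2.trans hF.ge)
  unfold fK at this
  nlinarith

theorem sat_eq (hF : IsMin K X Y F) (hY : sat Y = Y) : sat F = F := by
  have h1 := hF.min (sat F) (hF.le.trans (le_sat F)) (hY ▸ sat_mono hF.ge)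
  unfold fK at h1
  rw [rk_sat] at h1
  exact (eq_of_lc_eq (le_sat F) (rk_sat F).symm (by linarith)).symm

end IsMin

/-- the largest minimiser -/
theorem exists_largest (K : ℝ) {X Y : Submodule ℤ (ι → ℤ)} (h : X ≤ Y) :
    ∃ F, IsMin K X Y F ∧ ∀ G, IsMin K X Y G → G ≤ F := by
  classical
  obtain ⟨F0, hF0⟩ := exists_isMin K h
  let T : Set ℕ := {r | ∃ F, IsMin K X Y F ∧ rk F = r}
  have hT : T.Finite := (Set.finite_Iic (Fintype.card ι)).subset (by
    rintro _ ⟨F, _, rfl⟩; exact rk_le_card F)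
  obtain ⟨_, ⟨F, hF, rfl⟩, hmax⟩ := Set.exists_max_image T id hT ⟨_, F0, hF0, rfl⟩
  refine ⟨F, hF, fun G hG => ?_⟩
  have h1 := hF.sup hG
  have h2 : rk (F ⊔ G) ≤ rk F := hmax _ ⟨_, h1, rfl⟩
  have h3 : rk F = rk (F ⊔ G) := le_antisymm (rk_mono le_sup_left) h2
  have h4 := hF.min _ h1.le h1.ge
  have h5 := h1.min _ hF.le hF.ge
  unfold fK at h4 h5
  rw [← h3] at h4 h5
  rw [eq_of_lc_eq le_sup_left h3 (by linarith)]
  exact le_sup_right

/-- the smallest minimiser -/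
theorem exists_smallest (K : ℝ) {X Y : Submodule ℤ (ι → ℤ)} (h : X ≤ Y) :
    ∃ F, IsMin K X Y F ∧ ∀ G, IsMin K X Y G → F ≤ G := by
  classical
  obtain ⟨F0, hF0⟩ := exists_isMin K h
  let T : Set ℕ := {r | ∃ F, IsMin K X Y F ∧ rk F = r}
  have hT : T.Finite := (Set.finite_Iic (Fintype.card ι)).subset (by
    rintro _ ⟨F, _, rfl⟩; exact rk_le_card F)
  obtain ⟨_, ⟨F, hF, rfl⟩, hmax⟩ := Set.exists_min_image T id hT ⟨_, F0, hF0, rfl⟩
  refine ⟨F, hF, fun G hG => ?_⟩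
  have h1 := hF.inf hG
  have h2 : rk F ≤ rk (F ⊓ G) := hmax _ ⟨_, h1, rfl⟩
  have h3 : rk (F ⊓ G) = rk F := le_antisymm (rk_mono inf_le_left) h2
  have h4 := hF.min _ h1.le h1.ge
  have h5 := h1.min _ hF.le hF.ge
  unfold fK at h4 h5
  rw [h3] at h4 h5
  rw [← eq_of_lc_eq inf_le_left h3 (by linarith)]
  exact inf_le_right

open Classical in
/-- canonical smallest minimiser of `fK K` on `[X, ⊤]` -/
noncomputable def Fmin (K : ℝ) (X : Submodule ℤ (ι → ℤ)) : Submodule ℤ (ι → ℤ) :=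
  Classical.choose (exists_smallest K (le_top : X ≤ ⊤))

open Classical in
/-- canonical largest minimiser of `fK K` on `[X, ⊤]` -/
noncomputable def Fmax (K : ℝ) (X : Submodule ℤ (ι → ℤ)) : Submodule ℤ (ι → ℤ) :=
  Classical.choose (exists_largest K (le_top : X ≤ ⊤))

theorem Fmin_isMin (K : ℝ) (X : Submodule ℤ (ι → ℤ)) : IsMin K X ⊤ (Fmin K X) :=
  (Classical.choose_spec (exists_smallest K (le_top : X ≤ ⊤))).1

theorem Fmin_le {K : ℝ} {X G : Submodule ℤ (ι → ℤ)} (h : IsMin K X ⊤ G) : Fmin K X ≤ G :=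
  (Classical.choose_spec (exists_smallest K (le_top : X ≤ ⊤))).2 G h

theorem Fmax_isMin (K : ℝ) (X : Submodule ℤ (ι → ℤ)) : IsMin K X ⊤ (Fmax K X) :=
  (Classical.choose_spec (exists_largest K (le_top : X ≤ ⊤))).1

theorem le_Fmax {K : ℝ} {X G : Submodule ℤ (ι → ℤ)} (h : IsMin K X ⊤ G) : G ≤ Fmax K X :=
  (Classical.choose_spec (exists_largest K (le_top : X ≤ ⊤))).2 G h

theorem le_Fmin (K : ℝ) (X : Submodule ℤ (ι → ℤ)) : X ≤ Fmin K X := (Fmin_isMin K X).le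

theorem le_Fmax' (K : ℝ) (X : Submodule ℤ (ι → ℤ)) : X ≤ Fmax K X := (Fmax_isMin K X).le

theorem Fmin_mono (K : ℝ) {X X' : Submodule ℤ (ι → ℤ)} (h : X ≤ X') : Fmin K X ≤ Fmin K X' :=
  (Fmin_le ((Fmin_isMin K X).inf' h le_top (Fmin_isMin K X'))).trans inf_le_right

theorem Fmax_mono (K : ℝ) {X X' : Submodule ℤ (ι → ℤ)} (h : X ≤ X') : Fmax K X ≤ Fmax K X' :=
  le_sup_left.trans (le_Fmax ((Fmax_isMin K X).sup' h le_top (Fmax_isMin K X')))

theorem sat_Fmin (K : ℝ) (X : Submodule ℤ (ι → ℤ)) : sat (Fmin K X) = Fmin K X :=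
  (Fmin_isMin K X).sat_eq sat_top

theorem sat_Fmax (K : ℝ) (X : Submodule ℤ (ι → ℤ)) : sat (Fmax K X) = Fmax K X :=
  (Fmax_isMin K X).sat_eq sat_top

/-- the value of the potential `Ψ_K(X) = min_{F ≥ X} (lc F + K rk F)` -/
noncomputable def Psi (K : ℝ) (X : Submodule ℤ (ι → ℤ)) : ℝ := fK K (Fmin K X)

theorem Psi_le {K : ℝ} {X F : Submodule ℤ (ι → ℤ)} (h : X ≤ F) : Psi K X ≤ fK K F :=
  (Fmin_isMin K X).min F h le_top

theorem Psi_mono (K : ℝ) {X X' : Submodule ℤ (ι → ℤ)} (h : X ≤ X') : Psi K X ≤ Psi K X' :=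
  Psi_le (h.trans (le_Fmin K X'))

theorem Psi_eq {K : ℝ} {X F : Submodule ℤ (ι → ℤ)} (h : IsMin K X ⊤ F) : Psi K X = fK K F :=
  le_antisymm (Psi_le h.le) (h.min _ (le_Fmin K X) le_top)

theorem Psi_nonneg {K : ℝ} (hK : 0 ≤ K) (X : Submodule ℤ (ι → ℤ)) : 0 ≤ Psi K X := by
  unfold Psi fK
  have := lc_nonneg (Fmin K X)
  positivity

/-! ### norms -/

theorem one_le_norm_ev {y : ι → ℤ} (hy : y ≠ 0) : 1 ≤ ‖ev y‖ := by
  have h1 : (1 : ℝ) ≤ ‖ev y‖ ^ 2 := by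
    rw [norm_ev_sq]
    have h2 : 0 < y ⬝ᵥ y := by
      have h3 : 0 ≤ y ⬝ᵥ y := by
        simp only [dotProduct]
        exact Finset.sum_nonneg fun i _ => mul_self_nonneg _
      exact lt_of_le_of_ne h3 (fun h => hy (dotProduct_self_eq_zero.mp h.symm))
    exact_mod_cast h2
  nlinarith [norm_nonneg (ev y)]

theorem lc_sup_span_le (L : Submodule ℤ (ι → ℤ)) {y : ι → ℤ} (hy : y ≠ 0) :
    lc (L ⊔ Submodule.span ℤ {y}) ≤ lc L + Real.log ‖ev y‖ := by
  by_cases h : ev y ∈ rsp L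
  · have h1 := lc_le_of_le (le_sup_left : L ≤ L ⊔ Submodule.span ℤ {y}) (rk_sup_span_of_mem h).symm
    have h2 := Real.log_nonneg (one_le_norm_ev hy)
    linarith
  · rw [lc_sup_span h]
    have := Real.log_le_log (dst_pos h) (dst_le_norm L (ev y))
    linarith

/-- Hadamard -/
theorem lc_span_le (s : Finset (ι → ℤ)) (hs : ∀ y ∈ s, y ≠ 0) :
    lc (Submodule.span ℤ (s : Set (ι → ℤ))) ≤ ∑ y ∈ s, Real.log ‖ev y‖ := by
  classical
  induction s using Finset.induction_on with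
  | empty => simp
  | insert y s hys ih =>
    rw [Finset.coe_insert, Submodule.span_insert, sup_comm, Finset.sum_insert hys]
    have h1 := lc_sup_span_le (Submodule.span ℤ (s : Set (ι → ℤ))) (hs y (by simp))
    have h2 := ih fun z hz => hs z (by simp [hz])
    linarith

end Crest.Agent.R152.Lat
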