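import Crest.Agent.R152.Cheap2
import Crest.Agent.R152.Lat3

set_option autoImplicit false
set_option linter.unusedSectionVars false

/-!
# Row 152, module CHEAP, part 4: choice of the constants, the family
-/

namespace Crest.Agent.R152.Cheap

open Matrix Module Filter Crest.Agent.R152.Lat Crest.Agent.R152.Rel

theorem eventually_rpow_le {C c a : ℝ} (hc : 0 < c) (ha : a < 1) :
    ∀ᶠ n : ℕ in atTop, C * (n : ℝ) ^ a ≤ c * n := by
  have h1 : Tendsto (fun x : ℝ => x ^ (-(1 - a))) atTop (nhds 0) :=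
    tendsto_rpow_neg_atTop (by linarith)
  have h2 : Tendsto (fun n : ℕ => (|C| + 1) * (n : ℝ) ^ (-(1 - a))) atTop (nhds 0) := by
    have := (h1.comp tendsto_natCast_atTop_atTop).const_mul (|C| + 1)
    simpa using this
  filter_upwards [h2.eventually_lt_const hc, eventually_ge_atTop 1] with n hn hn1
  have hn0 : (0 : ℝ) < n := by exact_mod_cast hn1
  have h3 : (n : ℝ) ^ a = (n : ℝ) ^ (-(1 - a)) * n := by
    rw [← Real.rpow_add_one hn0.ne']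
    congr 1; ring
  rw [h3]
  have h4 : 0 ≤ (n : ℝ) ^ (-(1 - a)) := Real.rpow_nonneg hn0.le _
  have h5 : C ≤ |C| + 1 := by linarith [le_abs_self C]
  calc C * ((n : ℝ) ^ (-(1 - a)) * n) = (C * (n : ℝ) ^ (-(1 - a))) * n := by ring
    _ ≤ ((|C| + 1) * (n : ℝ) ^ (-(1 - a))) * n := by gcongr
    _ ≤ c * n := by gcongr

/-- sign vectors -/
def sgn (ι : Type*) [Fintype ι] [DecidableEq ι] : Finset (ι → ℤ) :=
  Fintype.piFinset (fun _ => ({1, -1} : Finset ℤ))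

theorem mem_sgn {ι : Type*} [Fintype ι] [DecidableEq ι] {x : ι → ℤ} :
    x ∈ sgn ι ↔ ∀ i, x i = 1 ∨ x i = -1 := by
  simp [sgn, Fintype.mem_piFinset]

theorem card_sgn {ι : Type*} [Fintype ι] [DecidableEq ι] :
    (sgn ι).card = 2 ^ Fintype.card ι := by
  unfold sgn
  rw [Fintype.card_piFinset]
  simp

/-- the family of closures of `k` samples -/
noncomputable def fam (ι : Type*) [Fintype ι] [DecidableEq ι] (lam : ℝ) (k : ℕ) :
    Finset (Submodule ℤ (ι → ℤ)) :=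
  open Classical in
  ((sgn ι) ×ˢ (Fintype.piFinset (fun _ : Fin k => sgn ι))).image
    (fun p => cl lam p.1 (List.ofFn p.2))

theorem card_fam (ι : Type*) [Fintype ι] [DecidableEq ι] (lam : ℝ) (k : ℕ) :
    (fam ι lam k).card ≤ 2 ^ (Fintype.card ι * (k + 1)) := by
  classical
  unfold fam
  refine Finset.card_image_le.trans ?_
  rw [Finset.card_product, Fintype.card_piFinset_const, card_sgn, ← pow_mul, ← pow_add]
  apply le_of_eq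
  congr 1
  ring

theorem cl_mem_fam {ι : Type*} [Fintype ι] [DecidableEq ι] {lam : ℝ} {k : ℕ} {x0 : ι → ℤ}
    (hx0 : x0 ∈ sgn ι) {l : List (ι → ℤ)} (hl : l.length = k) (hl2 : ∀ y ∈ l, y ∈ sgn ι) :
    cl lam x0 l ∈ fam ι lam k := by
  classical
  subst hl
  unfold fam
  rw [Finset.mem_image]
  refine ⟨(x0, l.get), ?_, ?_⟩
  · rw [Finset.mem_product, Fintype.mem_piFinset]
    exact ⟨hx0, fun i => hl2 _ (List.get_mem l i)⟩
  · simp only [List.ofFn_get]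

theorem sat_eq_of_sat {ι : Type*} [Fintype ι] {F : Submodule ℤ (ι → ℤ)} (h : Sat F ⊤) :
    sat F = F := by
  apply le_antisymm
  · intro x hx
    obtain ⟨m, hm, hmx⟩ := hx
    exact h x Submodule.mem_top m hm hmx
  · exact le_sat F

/-- numerical bound of the exponent -/
theorem expo_bound {n : ℕ} (hn : 1 ≤ n) {lam0 lam K0 r E : ℝ} {Δ : ℕ}
    (hlam0a : lam0 ≤ 1 / 8) (hlam : lam = lam0 * Real.log n) (hK0 : K0 = Real.log n / 8)
    (hΔ2 : (Δ : ℝ) ≤ 2 * (n : ℝ) ^ (1 / 64 : ℝ))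
    (hr : r = 4 * (Δ : ℝ) ^ 2 * Real.exp (2 * K0))
    (hE : E = 2 * (n : ℝ) ^ (1 - (1 / 8 : ℝ) / 4) +
      Real.pi * (n : ℝ) ^ (2 * (1 / 8 : ℝ)) * (Real.exp (-(2 * (-lam))) * r)) :
    Δ * E ≤ (4 + 32 * Real.pi) * (n : ℝ) ^ (1 - 1 / 64 : ℝ) := by
  have hn1 : (1 : ℝ) ≤ n := by exact_mod_cast hn
  have hnpos : (0 : ℝ) < n := by linarith
  have hlog : 0 ≤ Real.log n := Real.log_nonneg hn1
  have hpi := Real.pi_pos
  have hexpK : Real.exp (2 * K0) = (n : ℝ) ^ (1 / 4 : ℝ) := by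
    rw [Real.rpow_def_of_pos hnpos, hK0]; congr 1; ring
  have hexpL : Real.exp (-(2 * (-lam))) ≤ (n : ℝ) ^ (1 / 4 : ℝ) := by
    rw [Real.rpow_def_of_pos hnpos, hlam]
    apply Real.exp_le_exp.2
    nlinarith
  have e1 : (Δ : ℝ) ^ 2 ≤ 4 * (n : ℝ) ^ (2 / 64 : ℝ) := by
    have h1 : (n : ℝ) ^ (2 / 64 : ℝ) = ((n : ℝ) ^ (1 / 64 : ℝ)) ^ 2 := by
      rw [← Real.rpow_natCast, ← Real.rpow_mul hnpos.le]; norm_num
    rw [h1]
    have h2 : (0 : ℝ) ≤ Δ := Nat.cast_nonneg _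
    nlinarith
  have e2 : r ≤ 4 * (4 * (n : ℝ) ^ (2 / 64 : ℝ)) * (n : ℝ) ^ (1 / 4 : ℝ) := by
    rw [hr, hexpK]
    have := Real.rpow_nonneg hnpos.le (1 / 4 : ℝ)
    apply mul_le_mul_of_nonneg_right _ this
    linarith
  have hr0 : 0 ≤ r := by rw [hr]; positivity
  have e2' : Real.exp (-(2 * (-lam))) * r ≤ (n : ℝ) ^ (1 / 4 : ℝ) *
      (4 * (4 * (n : ℝ) ^ (2 / 64 : ℝ)) * (n : ℝ) ^ (1 / 4 : ℝ)) :=
    mul_le_mul hexpL e2 hr0 (Real.rpow_nonneg hnpos.le _)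
  have e4 : Real.pi * (n : ℝ) ^ (2 * (1 / 8 : ℝ)) * (Real.exp (-(2 * (-lam))) * r) ≤
      Real.pi * (n : ℝ) ^ (2 * (1 / 8 : ℝ)) * ((n : ℝ) ^ (1 / 4 : ℝ) *
      (4 * (4 * (n : ℝ) ^ (2 / 64 : ℝ)) * (n : ℝ) ^ (1 / 4 : ℝ))) := by
    apply mul_le_mul_of_nonneg_left e2'
    have := Real.rpow_nonneg hnpos.le (2 * (1 / 8 : ℝ))
    positivity
  have e5 : Real.pi * (n : ℝ) ^ (2 * (1 / 8 : ℝ)) * ((n : ℝ) ^ (1 / 4 : ℝ) *
      (4 * (4 * (n : ℝ) ^ (2 / 64 : ℝ)) * (n : ℝ) ^ (1 / 4 : ℝ))) =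
      16 * Real.pi * (n : ℝ) ^ (25 / 32 : ℝ) := by
    have h1 : (n : ℝ) ^ (25 / 32 : ℝ) = (n : ℝ) ^ (2 * (1 / 8 : ℝ)) * (n : ℝ) ^ (1 / 4 : ℝ) *
        (n : ℝ) ^ (2 / 64 : ℝ) * (n : ℝ) ^ (1 / 4 : ℝ) := by
      rw [← Real.rpow_add hnpos, ← Real.rpow_add hnpos, ← Real.rpow_add hnpos]
      norm_num
    rw [h1]; ring
  have e3 : E ≤ 2 * (n : ℝ) ^ (31 / 32 : ℝ) + 16 * Real.pi * (n : ℝ) ^ (25 / 32 : ℝ) := by
    have e6 : (n : ℝ) ^ (1 - (1 / 8 : ℝ) / 4) = (n : ℝ) ^ (31 / 32 : ℝ) := by norm_num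
    rw [hE, e6]
    linarith
  have e7 : (n : ℝ) ^ (1 / 64 : ℝ) * (n : ℝ) ^ (31 / 32 : ℝ) = (n : ℝ) ^ (1 - 1 / 64 : ℝ) := by
    rw [← Real.rpow_add hnpos]; norm_num
  have e8 : (n : ℝ) ^ (1 / 64 : ℝ) * (n : ℝ) ^ (25 / 32 : ℝ) ≤ (n : ℝ) ^ (1 - 1 / 64 : ℝ) := by
    rw [← Real.rpow_add hnpos]
    exact Real.rpow_le_rpow_of_exponent_le hn1 (by norm_num)
  have hE0 : 0 ≤ E := by
    rw [hE]
    have := Real.rpow_nonneg hnpos.le (1 - (1 / 8 : ℝ) / 4)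
    have := Real.rpow_nonneg hnpos.le (2 * (1 / 8 : ℝ))
    positivity
  calc Δ * E ≤ (2 * (n : ℝ) ^ (1 / 64 : ℝ)) *
        (2 * (n : ℝ) ^ (31 / 32 : ℝ) + 16 * Real.pi * (n : ℝ) ^ (25 / 32 : ℝ)) := by
        apply mul_le_mul hΔ2 e3 hE0
        have := Real.rpow_nonneg hnpos.le (1 / 64 : ℝ)
        linarith
    _ = 4 * ((n : ℝ) ^ (1 / 64 : ℝ) * (n : ℝ) ^ (31 / 32 : ℝ)) +
        32 * Real.pi * ((n : ℝ) ^ (1 / 64 : ℝ) * (n : ℝ) ^ (25 / 32 : ℝ)) := by ring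
    _ ≤ 4 * (n : ℝ) ^ (1 - 1 / 64 : ℝ) + 32 * Real.pi * (n : ℝ) ^ (1 - 1 / 64 : ℝ) := by
        rw [e7]
        have h1 : 32 * Real.pi * ((n : ℝ) ^ (1 / 64 : ℝ) * (n : ℝ) ^ (25 / 32 : ℝ)) ≤
          32 * Real.pi * (n : ℝ) ^ (1 - 1 / 64 : ℝ) :=
          mul_le_mul_of_nonneg_left e8 (by positivity)
        linarith
    _ = _ := by ring

/-- deterministic core, all numerical conditions as hypotheses -/
theorem family_core {ι : Type} [Fintype ι] [DecidableEq ι] {n : ℕ} (hcard : Fintype.card ι = n)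
    {θ κ ε η lam K0 N : ℝ} {Δ D k : ℕ} (hθ : 0 < θ)
    (hlampos : 0 < lam) (hK0pos : 0 < K0) (hΔpos : 0 < Δ)
    (hcheap : ∀ F : Submodule ℤ (ι → ℤ), Closed lam F → (cheapSet lam F K0 Δ).Finite ∧
      ((cheapSet lam F K0 Δ).ncard : ℝ) ≤ N)
    (hlt : N * (2 : ℝ) ^ (-θ * ((D : ℝ) - Δ)) < 1)
    (hk : lam * n / K0 + n / Δ < k)
    (hk2 : (n : ℝ) * (k + 1) ≤ ε * (n : ℝ) ^ 2)
    (hD1 : (D : ℝ) ≤ κ * n)
    (hlam1 : lam * n ≤ ε * n * Real.log n)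
    (hη : η * n * Real.log n ≤ lam * (κ * n)) :
    ∃ V : Finset (Submodule ℤ (ι → ℤ)),
        (V.card : ℝ) ≤ (2 : ℝ) ^ (ε * (n : ℝ) ^ 2) ∧
        (∀ F ∈ V, sat F = F ∧ lc F ≤ ε * n * Real.log n) ∧
        ∀ (S : Finset (ι → ℤ)) (U : Submodule ℤ (ι → ℤ)),
          (∀ x ∈ S, ∀ i, x i = 1 ∨ x i = -1) → S.Nonempty → Robust θ U S →
          lc U ≤ η * n * Real.log n →
          ∃ F ∈ V, (rk F : ℝ) ≤ rk (F ⊓ U) + κ * n ∧ (rk U : ℝ) ≤ rk (F ⊓ U) + κ * n := by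
  refine ⟨fam ι lam k, ?_, ?_, ?_⟩
  · have e1 : ((fam ι lam k).card : ℝ) ≤ (2 : ℝ) ^ (((Fintype.card ι * (k + 1) : ℕ)) : ℝ) := by
      rw [Real.rpow_natCast]
      exact_mod_cast card_fam ι lam k
    refine e1.trans ?_
    apply Real.rpow_le_rpow_of_exponent_le (by norm_num)
    rw [hcard]
    push_cast
    exact hk2
  · intro F hF
    unfold fam at hF
    obtain ⟨p, _, rfl⟩ := Finset.mem_image.1 hF
    have hcl := cl_closed lam p.1 (List.ofFn p.2)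
    refine ⟨sat_eq_of_sat (hcl.sat ⊤), ?_⟩
    have e1 := Phi_cl_le lam p.1 (List.ofFn p.2)
    unfold Phi at e1
    rw [hcard] at e1
    have e2 : (0 : ℝ) ≤ lam * rk (cl lam p.1 (List.ofFn p.2)) :=
      mul_nonneg hlampos.le (Nat.cast_nonneg _)
    linarith
  · intro S U hSs hSne hrob hU
    obtain ⟨x0, hx0⟩ := hSne
    have hx0s : x0 ∈ sgn ι := mem_sgn.2 (hSs x0 hx0)
    obtain ⟨l, hl, hlS, hor⟩ := greedy hlampos.le hK0pos hΔpos hθ.le hrob hx0 hcheap hlt k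
    refine ⟨cl lam x0 l, cl_mem_fam hx0s hl (fun y hy => mem_sgn.2 (hSs y (hlS y hy))), ?_, ?_⟩
    · have e1 := rk_cl_le hlampos x0 l U (fun y hy => hrob.1 y (hlS y hy) x0 hx0)
      have e2 : lc U / lam ≤ κ * n := by
        rw [div_le_iff₀ hlampos]
        linarith
      linarith
    · rcases hor with hor | hor
      · have : (rk U : ℝ) ≤ rk (cl lam x0 l ⊓ U) + D := by exact_mod_cast hor.le
        linarith
      · exfalso
        have e1 := Phi_cl_le lam x0 l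
        rw [hcard] at e1
        have e2 : Phi lam (cl lam x0 l) / K0 ≤ lam * n / K0 :=
          div_le_div_of_nonneg_right e1 hK0pos.le
        have e3 : (rk (cl lam x0 l) : ℝ) / Δ ≤ n / Δ := by
          have hΔ' : (0 : ℝ) < Δ := by exact_mod_cast hΔpos
          apply div_le_div_of_nonneg_right _ hΔ'.le
          have := rk_le_card (cl lam x0 l)
          rw [hcard] at this
          exact_mod_cast this
        linarith

/-- **CHEAP: the sampling theorem** -/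
theorem family {θ κ ε : ℝ} (hθ : 0 < θ) (hκ : 0 < κ) (hε : 0 < ε) :
    ∃ η : ℝ, 0 < η ∧ ∀ᶠ n : ℕ in atTop, ∀ (ι : Type) [Fintype ι] [DecidableEq ι],
      Fintype.card ι = n → ∃ V : Finset (Submodule ℤ (ι → ℤ)),
        (V.card : ℝ) ≤ (2 : ℝ) ^ (ε * (n : ℝ) ^ 2) ∧
        (∀ F ∈ V, sat F = F ∧ lc F ≤ ε * n * Real.log n) ∧
        ∀ (S : Finset (ι → ℤ)) (U : Submodule ℤ (ι → ℤ)),
          (∀ x ∈ S, ∀ i, x i = 1 ∨ x i = -1) → S.Nonempty → Robust θ U S →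
          lc U ≤ η * n * Real.log n →
          ∃ F ∈ V, (rk F : ℝ) ≤ rk (F ⊓ U) + κ * n ∧ (rk U : ℝ) ≤ rk (F ⊓ U) + κ * n := by
  -- constants
  obtain ⟨lam0, hlam0pos, hlam0a, hlam0b⟩ : ∃ lam0 : ℝ, 0 < lam0 ∧ lam0 ≤ 1 / 8 ∧
      lam0 ≤ ε / 16 := ⟨min (1 / 8) (ε / 16), by positivity, min_le_left _ _, min_le_right _ _⟩
  have hlog2 : 0 < Real.log 2 := Real.log_pos (by norm_num)
  obtain ⟨n0, hcnt⟩ := count_cls (δ := 1 / 8) (by norm_num)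
  refine ⟨lam0 * κ, by positivity, ?_⟩
  have ev1 := eventually_rpow_le (C := 1) (c := ε / 8) (a := 1 - 1 / 64) (by positivity)
    (by norm_num)
  have ev2 := eventually_rpow_le (C := 4 + 32 * Real.pi) (c := θ * κ * Real.log 2 / 4)
    (a := 1 - 1 / 64) (by positivity) (by norm_num)
  have ev3 := eventually_rpow_le (C := 2) (c := κ / 4) (a := 1 / 64) (by positivity)
    (by norm_num)
  have ev4 := eventually_rpow_le (C := 2) (c := ε / 4) (a := 0) (by positivity)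
    (by norm_num)
  have ev5 := eventually_rpow_le (C := 1) (c := κ / 4) (a := 0) (by positivity)
    (by norm_num)
  filter_upwards [ev1, ev2, ev3, ev4, ev5, eventually_ge_atTop n0, eventually_ge_atTop 3]
    with n h1 h2 h3 h4 h5 hn0 hn3
  rw [Real.rpow_zero] at h4 h5
  intro ι _ _ hcard
  have hn1' : 1 ≤ n := by omega
  have hn1 : (1 : ℝ) ≤ n := by exact_mod_cast hn1'
  have hnpos : (0 : ℝ) < n := by linarith
  have hlog : 0 < Real.log n := Real.log_pos (by exact_mod_cast (by omega : 1 < n))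
  obtain ⟨lam, hlam⟩ : ∃ lam : ℝ, lam = lam0 * Real.log n := ⟨_, rfl⟩
  have hlampos : 0 < lam := by rw [hlam]; positivity
  obtain ⟨K0, hK0⟩ : ∃ K0 : ℝ, K0 = Real.log n / 8 := ⟨_, rfl⟩
  have hK0pos : 0 < K0 := by rw [hK0]; positivity
  have hnr : (1 : ℝ) ≤ (n : ℝ) ^ (1 / 64 : ℝ) := Real.one_le_rpow hn1 (by norm_num)
  obtain ⟨Δ, hΔ1, hΔ2⟩ : ∃ Δ : ℕ, (n : ℝ) ^ (1 / 64 : ℝ) ≤ Δ ∧
      (Δ : ℝ) ≤ 2 * (n : ℝ) ^ (1 / 64 : ℝ) := by
    refine ⟨⌈(n : ℝ) ^ (1 / 64 : ℝ)⌉₊, Nat.le_ceil _, ?_⟩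
    have := Nat.ceil_lt_add_one (by linarith : (0 : ℝ) ≤ (n : ℝ) ^ (1 / 64 : ℝ))
    linarith
  have hΔpos : 0 < Δ := by
    have : (0 : ℝ) < Δ := by linarith
    exact_mod_cast this
  obtain ⟨D, hD1, hD2⟩ : ∃ D : ℕ, (D : ℝ) ≤ κ * n ∧ κ * n - 1 ≤ D := by
    refine ⟨⌊κ * n⌋₊, Nat.floor_le (by positivity), ?_⟩
    have := Nat.lt_floor_add_one (κ * n)
    linarith
  have hq : 0 ≤ 8 * lam0 * n + (n : ℝ) ^ (1 - 1 / 64 : ℝ) := by
    have := Real.rpow_nonneg hnpos.le (1 - 1 / 64 : ℝ)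
    positivity
  obtain ⟨k, hk1, hk2⟩ : ∃ k : ℕ, 8 * lam0 * n + (n : ℝ) ^ (1 - 1 / 64 : ℝ) < k ∧
      (k : ℝ) ≤ 8 * lam0 * n + (n : ℝ) ^ (1 - 1 / 64 : ℝ) + 1 := by
    refine ⟨⌊8 * lam0 * n + (n : ℝ) ^ (1 - 1 / 64 : ℝ)⌋₊ + 1, ?_, ?_⟩
    · push_cast
      exact Nat.lt_floor_add_one _
    · push_cast
      have := Nat.floor_le hq
      linarith
  -- count of cheap supersets
  obtain ⟨r, hr⟩ : ∃ r : ℝ, r = 4 * (Δ : ℝ) ^ 2 * Real.exp (2 * K0) := ⟨_, rfl⟩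
  obtain ⟨E, hE⟩ : ∃ E : ℝ, E = 2 * (n : ℝ) ^ (1 - (1 / 8 : ℝ) / 4) +
    Real.pi * (n : ℝ) ^ (2 * (1 / 8 : ℝ)) * (Real.exp (-(2 * (-lam))) * r) := ⟨_, rfl⟩
  have hcheap : ∀ F : Submodule ℤ (ι → ℤ), Closed lam F → (cheapSet lam F K0 Δ).Finite ∧
      ((cheapSet lam F K0 Δ).ncard : ℝ) ≤ Real.exp (Δ * E) := by
    intro F hF
    obtain ⟨hfin, hb⟩ := (hcnt n hn0).2 ι hcard.le F ⊤ le_top (hF.sat ⊤) (-lam)
      (fun L hL _ => hF.lower hL) r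
    rw [← hE] at hb
    rw [hr] at hfin hb
    obtain ⟨hfin2, hb2⟩ := cheap_card hlampos.le hF hK0pos.le hfin
    refine ⟨hfin2, ?_⟩
    have hb3 : ((cheapSet lam F K0 Δ).ncard : ℝ) ≤
        (((cls F ⊤ (4 * (Δ : ℝ) ^ 2 * Real.exp (2 * K0))).ncard ^ Δ : ℕ) : ℝ) :=
      Nat.cast_le.2 hb2
    rw [Nat.cast_pow] at hb3
    refine hb3.trans ?_
    rw [Real.exp_nat_mul]
    exact pow_le_pow_left₀ (Nat.cast_nonneg _) hb _
  have hEb := expo_bound hn1' hlam0a hlam hK0 hΔ2 hr hE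
  have hlt : Real.exp (Δ * E) * (2 : ℝ) ^ (-θ * ((D : ℝ) - Δ)) < 1 := by
    rw [Real.rpow_def_of_pos (by norm_num : (0 : ℝ) < 2), ← Real.exp_add, Real.exp_lt_one_iff]
    have e1 : κ / 2 * n ≤ (D : ℝ) - Δ := by linarith
    have e2 : Real.log 2 * (θ * (κ / 2 * n)) ≤ Real.log 2 * (θ * ((D : ℝ) - Δ)) :=
      mul_le_mul_of_nonneg_left (mul_le_mul_of_nonneg_left e1 hθ.le) hlog2.le
    have e3 : 0 < θ * κ * Real.log 2 * n := by positivity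
    linarith
  refine family_core hcard hθ hlampos hK0pos hΔpos hcheap hlt (k := k) ?_ ?_ hD1 ?_ ?_
  · -- number of samples
    have e1 : lam * n / K0 = 8 * lam0 * n := by
      rw [hlam, hK0]; field_simp
    have e2 : (n : ℝ) / Δ ≤ (n : ℝ) ^ (1 - 1 / 64 : ℝ) := by
      have hΔ' : (0 : ℝ) < Δ := by exact_mod_cast hΔpos
      rw [div_le_iff₀ hΔ']
      have e5 : (n : ℝ) = (n : ℝ) ^ (1 - 1 / 64 : ℝ) * (n : ℝ) ^ (1 / 64 : ℝ) := by
        rw [← Real.rpow_add hnpos]; norm_num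
      calc (n : ℝ) = (n : ℝ) ^ (1 - 1 / 64 : ℝ) * (n : ℝ) ^ (1 / 64 : ℝ) := e5
        _ ≤ (n : ℝ) ^ (1 - 1 / 64 : ℝ) * Δ :=
          mul_le_mul_of_nonneg_left hΔ1 (Real.rpow_nonneg hnpos.le _)
    linarith
  · have e1 : 8 * lam0 * n ≤ ε / 2 * n := by
      apply mul_le_mul_of_nonneg_right _ hnpos.le
      linarith
    have e2 : (k : ℝ) + 1 ≤ ε * n := by linarith
    calc (n : ℝ) * (k + 1) ≤ n * (ε * n) := mul_le_mul_of_nonneg_left e2 hnpos.le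
      _ = ε * (n : ℝ) ^ 2 := by ring
  · rw [hlam]
    have e1 : lam0 ≤ ε := by linarith
    calc lam0 * Real.log n * n = lam0 * (n * Real.log n) := by ring
      _ ≤ ε * (n * Real.log n) := mul_le_mul_of_nonneg_right e1 (by positivity)
      _ = ε * n * Real.log n := by ring
  · rw [hlam]
    apply le_of_eq
    ring

/-- from the form of `helper745` -/
theorem Robust.of_dl {ι : Type*} [Fintype ι] {θ : ℝ} (hθ : 0 ≤ θ) {S : Finset (ι → ℤ)}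
    {X U : Submodule ℤ (ι → ℤ)} (hX : ∀ x ∈ S, ∀ y ∈ S, x - y ∈ X) (hXU : X ≤ U)
    (hr : rk X = rk U)
    (h : ∀ (L : Submodule ℤ (ι → ℤ)), ∀ x0 ∈ S,
      open Classical in ((S.filter (fun x => x - x0 ∈ L)).card : ℝ) ≤
      (2 : ℝ) ^ (-(θ * ((rk X : ℝ) - rk L))) * S.card) : Robust θ U S := by
  classical
  refine ⟨fun x hx y hy => hXU (hX x hx y hy), fun L x0 hx0 => ?_⟩
  have h1 := h (L ⊓ X) x0 hx0
  have h2 : S.filter (fun x => x - x0 ∈ L) = S.filter (fun x => x - x0 ∈ L ⊓ X) := by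
    apply Finset.filter_congr
    intro x hx
    rw [Submodule.mem_inf]
    exact ⟨fun h => ⟨h, hX x hx x0 hx0⟩, fun h => h.1⟩
  have h3 : rk (L ⊓ X) ≤ rk (L ⊓ U) := rk_mono (inf_le_inf_left _ hXU)
  have h4 : (S.filter (fun x => x - x0 ∈ L)).card = (S.filter (fun x => x - x0 ∈ L ⊓ X)).card := by
    rw [h2]
  calc ((S.filter (fun x => x - x0 ∈ L)).card : ℝ)
      = ((S.filter (fun x => x - x0 ∈ L ⊓ X)).card : ℝ) := by rw [h4]
    _ ≤ (2 : ℝ) ^ (-(θ * ((rk X : ℝ) - rk (L ⊓ X)))) * S.card := by convert h1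
    _ ≤ _ := by
        have h5 : (rk (L ⊓ X) : ℝ) ≤ rk (L ⊓ U) := by exact_mod_cast h3
        have h6 : (rk X : ℝ) = rk U := by exact_mod_cast hr
        apply mul_le_mul_of_nonneg_right _ (Nat.cast_nonneg _)
        apply Real.rpow_le_rpow_of_exponent_le (by norm_num)
        rw [h6]
        nlinarith

end Crest.Agent.R152.Cheap
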