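import Mathlib

set_option autoImplicit false
set_option linter.unusedSectionVars false

/-!
# Row 152, module LAT (helper223): covolume calculus for `ℤ`-submodules of `ι → ℤ`

`rk L` = rank, `dsc L` = Gram determinant of a `ℤ`-basis (square of the covolume),
`lc L = log covol L = (1/2) log (dsc L)`.
-/

namespace Crest.Agent.R152.Lat

open Matrix Module

variable {ι : Type*} [Fintype ι]

/-- integer vectors as Euclidean vectors -/
noncomputable def ev : (ι → ℤ) →ₗ[ℤ] EuclideanSpace ℝ ι where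
  toFun z := WithLp.toLp 2 (fun i => (z i : ℝ))
  map_add' x y := by ext i; simp
  map_smul' c x := by ext i; simp

@[simp] theorem ev_apply (z : ι → ℤ) (i : ι) : ev z i = (z i : ℝ) := rfl

theorem ev_injective : Function.Injective (ev : (ι → ℤ) → EuclideanSpace ℝ ι) := by
  intro x y h
  funext i
  have := congrArg (fun v : EuclideanSpace ℝ ι => v i) h
  simpa using this

/-- Gram matrix of a family of integer vectors -/
def gm {κ : Type*} (b : κ → ι → ℤ) : Matrix κ κ ℤ := Matrix.of fun i j => b i ⬝ᵥ b j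

theorem gm_apply {κ : Type*} (b : κ → ι → ℤ) (i j : κ) : gm b i j = b i ⬝ᵥ b j := rfl

theorem gm_eq {κ : Type*} (b : κ → ι → ℤ) : gm b = Matrix.of b * (Matrix.of b)ᵀ := by
  ext i j
  simp [gm_apply, Matrix.mul_apply, dotProduct]

theorem inner_ev (x y : ι → ℤ) : inner ℝ (ev x) (ev y) = ((x ⬝ᵥ y : ℤ) : ℝ) := by
  simp [PiLp.inner_apply, dotProduct, mul_comm]

theorem norm_ev_sq (x : ι → ℤ) : ‖ev x‖ ^ 2 = ((x ⬝ᵥ x : ℤ) : ℝ) := by
  rw [← inner_ev, real_inner_self_eq_norm_sq]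

theorem gm_map {κ : Type*} (b : κ → ι → ℤ) :
    (gm b).map (fun a => (a : ℝ)) = Matrix.gram ℝ (fun i => ev (b i)) := by
  ext i j
  simp only [Matrix.map_apply, gm_apply, Matrix.gram_apply, inner_ev]

theorem det_gm_cast {κ : Type*} [Fintype κ] [DecidableEq κ] (b : κ → ι → ℤ) :
    ((gm b).det : ℝ) = (Matrix.gram ℝ (fun i => ev (b i))).det := by
  rw [← gm_map]
  exact (Int.castRingHom ℝ).map_det (gm b)

theorem det_gm_nonneg {κ : Type*} [Fintype κ] [DecidableEq κ] (b : κ → ι → ℤ) :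
    0 ≤ (gm b).det := by
  have h : 0 ≤ (Matrix.gram ℝ (fun i => ev (b i))).det := (posSemidef_gram _ _).det_nonneg
  rw [← det_gm_cast] at h
  exact_mod_cast h

theorem det_gm_ne_zero {κ : Type*} [Fintype κ] [DecidableEq κ] {b : κ → ι → ℤ}
    (hb : LinearIndependent ℤ b) : (gm b).det ≠ 0 := by
  intro h0
  obtain ⟨v, hv0, hv⟩ := Matrix.exists_vecMul_eq_zero_iff.mpr h0
  apply hv0
  have h1 : (∑ i, v i • b i) ⬝ᵥ (∑ i, v i • b i) = 0 := by
    have e1 : (∑ i, v i • b i) ⬝ᵥ (∑ i, v i • b i) = (v ᵥ* gm b) ⬝ᵥ v := by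
      have e2 : (∑ i, v i • b i) = v ᵥ* (Matrix.of b) := by
        funext k
        simp [Matrix.vecMul, dotProduct, Finset.sum_apply]
      rw [e2, gm_eq, ← Matrix.vecMul_vecMul, Matrix.vecMul_transpose, dotProduct_comm _ v,
        Matrix.dotProduct_mulVec]
    rw [e1, hv, zero_dotProduct]
  rw [dotProduct_self_eq_zero] at h1
  have h2 := (Fintype.linearIndependent_iff.mp hb) v h1
  funext i; exact h2 i

theorem det_gm_pos {κ : Type*} [Fintype κ] [DecidableEq κ] {b : κ → ι → ℤ}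
    (hb : LinearIndependent ℤ b) : 0 < (gm b).det :=
  lt_of_le_of_ne (det_gm_nonneg b) (Ne.symm (det_gm_ne_zero hb))

theorem linearIndependent_ev {κ : Type*} [Fintype κ] {b : κ → ι → ℤ}
    (hb : LinearIndependent ℤ b) : LinearIndependent ℝ (fun i => ev (b i)) := by
  classical
  apply linearIndependent_of_det_gram_ne_zero
  rw [← det_gm_cast]
  exact_mod_cast det_gm_ne_zero hb

/-- change of family -/
theorem gm_comb {κ κ' : Type*} [Fintype κ] (b : κ → ι → ℤ) (U : Matrix κ' κ ℤ) :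
    gm (fun i => ∑ j, U i j • b j) = U * gm b * Uᵀ := by
  have e : (Matrix.of fun i => ∑ j, U i j • b j) = U * Matrix.of b := by
    ext i k
    simp [Matrix.mul_apply, Finset.sum_apply]
  rw [gm_eq, e, gm_eq, Matrix.transpose_mul]
  simp only [Matrix.mul_assoc]

theorem det_gm_comb {κ : Type*} [Fintype κ] [DecidableEq κ] (b : κ → ι → ℤ)
    (U : Matrix κ κ ℤ) : (gm (fun i => ∑ j, U i j • b j)).det = U.det ^ 2 * (gm b).det := by
  rw [gm_comb, Matrix.det_mul, Matrix.det_mul, Matrix.det_transpose]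
  ring

theorem det_gm_reindex {κ κ' : Type*} [Fintype κ] [DecidableEq κ] [Fintype κ'] [DecidableEq κ']
    (b : κ → ι → ℤ) (e : κ' ≃ κ) : (gm (fun i => b (e i))).det = (gm b).det := by
  have : gm (fun i => b (e i)) = (gm b).submatrix e e := by
    ext i j; rfl
  rw [this, Matrix.det_submatrix_equiv_self]

/-! ### rank, discriminant and log covolume -/

/-- rank -/
noncomputable def rk (L : Submodule ℤ (ι → ℤ)) : ℕ := Module.finrank ℤ L

open Classical in
/-- squared covolume -/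
noncomputable def dsc (L : Submodule ℤ (ι → ℤ)) : ℤ :=
  (gm (fun i => ((Module.Free.chooseBasis ℤ L i : L) : ι → ℤ))).det

/-- log covolume -/
noncomputable def lc (L : Submodule ℤ (ι → ℤ)) : ℝ := Real.log (dsc L) / 2

theorem basis_linearIndependent {κ : Type*} {L : Submodule ℤ (ι → ℤ)} (b : Basis κ ℤ L) :
    LinearIndependent ℤ (fun i => (b i : ι → ℤ)) :=
  b.linearIndependent.map' L.subtype (Submodule.ker_subtype L)

theorem det_gm_basis_eq {κ κ' : Type*} [Fintype κ] [DecidableEq κ] [Fintype κ'] [DecidableEq κ']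
    {L : Submodule ℤ (ι → ℤ)} (b : Basis κ ℤ L) (b' : Basis κ' ℤ L) :
    (gm (fun i => (b i : ι → ℤ))).det = (gm (fun i => (b' i : ι → ℤ))).det := by
  have e : κ' ≃ κ := b'.indexEquiv b
  rw [← det_gm_reindex (fun i => (b i : ι → ℤ)) e]
  set c : Basis κ' ℤ L := b.reindex e.symm with hc
  have hcb : ∀ i, c i = b (e i) := by intro i; simp [hc]
  have h1 : ∀ i, (b (e i) : ι → ℤ) = ∑ j, (b'.toMatrix c)ᵀ i j • (b' j : ι → ℤ) := by
    intro i
    have := b'.sum_toMatrix_smul_self c i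
    have h2 := congrArg (fun x : L => (x : ι → ℤ)) this
    simp only [AddSubmonoidClass.coe_finsetSum, SetLike.val_smul] at h2
    rw [← hcb, ← h2]
    simp [Matrix.transpose_apply]
  have h3 : (fun i => (b (e i) : ι → ℤ)) = fun i => ∑ j, (b'.toMatrix c)ᵀ i j • (b' j : ι → ℤ) :=
    funext h1
  rw [h3, det_gm_comb, Matrix.det_transpose]
  have hu : IsUnit (b'.toMatrix c).det := by
    have := b'.isUnit_det c
    rwa [Basis.det_apply] at this
  rcases Int.isUnit_iff.mp hu with h | h <;> rw [h] <;> ring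

theorem dsc_eq {κ : Type*} [Fintype κ] [DecidableEq κ] {L : Submodule ℤ (ι → ℤ)}
    (b : Basis κ ℤ L) : dsc L = (gm (fun i => (b i : ι → ℤ))).det := by
  classical
  unfold dsc
  exact det_gm_basis_eq _ b

theorem dsc_pos (L : Submodule ℤ (ι → ℤ)) : 0 < dsc L := by
  classical
  unfold dsc
  exact det_gm_pos (basis_linearIndependent _)

theorem one_le_dsc (L : Submodule ℤ (ι → ℤ)) : 1 ≤ dsc L := dsc_pos L

theorem lc_nonneg (L : Submodule ℤ (ι → ℤ)) : 0 ≤ lc L := by
  unfold lc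
  have : (1 : ℝ) ≤ dsc L := by exact_mod_cast one_le_dsc L
  have := Real.log_nonneg this
  positivity

theorem rk_eq {κ : Type*} [Fintype κ] {L : Submodule ℤ (ι → ℤ)} (b : Basis κ ℤ L) :
    rk L = Fintype.card κ := Module.finrank_eq_card_basis b

theorem rk_mono {L M : Submodule ℤ (ι → ℤ)} (h : L ≤ M) : rk L ≤ rk M :=
  Submodule.finrank_mono h

theorem rk_le_card (L : Submodule ℤ (ι → ℤ)) : rk L ≤ Fintype.card ι := by
  have h := Submodule.finrank_le L
  rwa [Module.finrank_fintype_fun_eq_card] at h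

theorem rk_modular (L M : Submodule ℤ (ι → ℤ)) : rk (L ⊔ M) + rk (L ⊓ M) = rk L + rk M := by
  have h := Submodule.rank_sup_add_rank_inf_eq L M
  unfold rk Module.finrank
  rw [← Cardinal.toNat_add (Module.rank_lt_aleph0 ℤ _) (Module.rank_lt_aleph0 ℤ _), h,
    Cardinal.toNat_add (Module.rank_lt_aleph0 ℤ _) (Module.rank_lt_aleph0 ℤ _)]

@[simp] theorem rk_bot : rk (⊥ : Submodule ℤ (ι → ℤ)) = 0 := by
  unfold rk; exact finrank_bot ℤ _

@[simp] theorem dsc_bot : dsc (⊥ : Submodule ℤ (ι → ℤ)) = 1 := by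
  rw [dsc_eq (Basis.empty (⊥ : Submodule ℤ (ι → ℤ)) : Basis (Fin 0) ℤ _)]
  simp

@[simp] theorem lc_bot : lc (⊥ : Submodule ℤ (ι → ℤ)) = 0 := by simp [lc]

@[simp] theorem dsc_top : dsc (⊤ : Submodule ℤ (ι → ℤ)) = 1 := by
  classical
  rw [dsc_eq ((Pi.basisFun ℤ ι).map (Submodule.topEquiv.symm : (ι → ℤ) ≃ₗ[ℤ] _))]
  have : gm (fun i => (((Pi.basisFun ℤ ι).map
      (Submodule.topEquiv.symm : (ι → ℤ) ≃ₗ[ℤ] (⊤ : Submodule ℤ (ι → ℤ))) i :
      (⊤ : Submodule ℤ (ι → ℤ))) : ι → ℤ)) = 1 := by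
    ext i j
    simp [gm_apply, Matrix.one_apply, Pi.single_apply, eq_comm]
  rw [this, Matrix.det_one]

@[simp] theorem lc_top : lc (⊤ : Submodule ℤ (ι → ℤ)) = 0 := by simp [lc]

@[simp] theorem rk_top : rk (⊤ : Submodule ℤ (ι → ℤ)) = Fintype.card ι := by
  unfold rk; rw [finrank_top, Module.finrank_fintype_fun_eq_card]

/-! ### index formula -/

/-- index of `L'` in `L` (0 if infinite) -/
noncomputable def ind (L' L : Submodule ℤ (ι → ℤ)) : ℕ :=
  (L'.toAddSubgroup).relIndex L.toAddSubgroup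

theorem dsc_of_le {L' L : Submodule ℤ (ι → ℤ)} (h : L' ≤ L) (hr : rk L' = rk L) :
    dsc L' = (ind L' L : ℤ) ^ 2 * dsc L := by
  classical
  set b := Module.Free.chooseBasis ℤ L with hb
  set b' := Module.Free.chooseBasis ℤ L' with hb'
  have hcard : Fintype.card (Module.Free.ChooseBasisIndex ℤ L') =
      Fintype.card (Module.Free.ChooseBasisIndex ℤ L) := by
    rw [← rk_eq b, ← rk_eq b', hr]
  let e : Module.Free.ChooseBasisIndex ℤ L' ≃ Module.Free.ChooseBasisIndex ℤ L :=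
    Fintype.equivOfCardEq hcard
  -- the submodule of `L`
  let N : Submodule ℤ L := Submodule.comap L.subtype L'
  let eN : N ≃ₗ[ℤ] L' := Submodule.comapSubtypeEquivOfLe h
  let bN : Basis (Module.Free.ChooseBasisIndex ℤ L) ℤ N := (b'.map eN.symm).reindex e
  have h1 := Submodule.natAbs_det_basis_change b N bN
  have hind : Nat.card (L ⧸ N) = ind L' L := rfl
  rw [hind] at h1
  let c : Basis (Module.Free.ChooseBasisIndex ℤ L) ℤ L' := b'.reindex e
  rw [dsc_eq c, dsc_eq b]
  have h2 : ∀ i, (c i : ι → ℤ) = ∑ j, (b.toMatrix (fun i => (bN i : L)))ᵀ i j • (b j : ι → ℤ) := by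
    intro i
    have := b.sum_toMatrix_smul_self (fun i => (bN i : L)) i
    have h3 := congrArg (fun x : L => (x : ι → ℤ)) this
    simp only [AddSubmonoidClass.coe_finsetSum, SetLike.val_smul] at h3
    have h4 : ((bN i : L) : ι → ℤ) = (c i : ι → ℤ) := by
      simp [bN, c, eN, Submodule.comapSubtypeEquivOfLe]
    rw [← h4, ← h3]
    simp [Matrix.transpose_apply]
  rw [show (fun i => (c i : ι → ℤ)) = fun i => ∑ j, (b.toMatrix (fun i => (bN i : L)))ᵀ i j •
    (b j : ι → ℤ) from funext h2, det_gm_comb, Matrix.det_transpose]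
  congr 1
  have h5 : (b.toMatrix (fun i => (bN i : L))).det = b.det (fun i => (bN i : L)) := by
    rw [Basis.det_apply]
  rw [h5, ← h1]
  simp only [Int.natCast_natAbs, sq_abs]
  rfl

theorem ind_pos {L' L : Submodule ℤ (ι → ℤ)} (h : L' ≤ L) (hr : rk L' = rk L) :
    0 < ind L' L := by
  rcases Nat.eq_zero_or_pos (ind L' L) with h0 | h0
  · have := dsc_of_le h hr
    rw [h0] at this
    have h2 := dsc_pos L'
    simp at this
    omega
  · exact h0

theorem lc_of_le {L' L : Submodule ℤ (ι → ℤ)} (h : L' ≤ L) (hr : rk L' = rk L) :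
    lc L' = lc L + Real.log (ind L' L) := by
  unfold lc
  rw [dsc_of_le h hr]
  have h1 : (0 : ℝ) < dsc L := by exact_mod_cast dsc_pos L
  have h2 : (0 : ℝ) < ind L' L := by exact_mod_cast ind_pos h hr
  push_cast
  rw [Real.log_mul (by positivity) (by positivity), Real.log_pow]
  push_cast; ring

theorem lc_le_of_le {L' L : Submodule ℤ (ι → ℤ)} (h : L' ≤ L) (hr : rk L' = rk L) :
    lc L ≤ lc L' := by
  rw [lc_of_le h hr]
  have : (1 : ℝ) ≤ ind L' L := by exact_mod_cast ind_pos h hr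
  have := Real.log_nonneg this
  linarith

end Crest.Agent.R152.Lat
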