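import Mathlib
import Crest.Agent.R152.Base1
import Crest.Agent.R152.Base2
import Crest.Agent.R152.Lat1

set_option autoImplicit false
set_option linter.unusedSectionVars false

/-! Row 152, module LS (helper162's Lemma S), part 2: the potential `psi`, extension by zero and
restriction, the algebra of one step of the column exposure chain. -/

open Crest.FinProb Crest.ProbabilityR.SignMatrix

namespace Crest.Agent.R152.LS

open Crest.Agent.R152.Base Crest.Agent.R152.Lat

section Psi
variable {ι : Type*} [Fintype ι]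

/-- the potential of a lattice: minimum of `lc F + κ rk F` over all lattices `F ≥ X` -/
noncomputable def psi (κ : ℝ) (X : Submodule ℤ (ι → ℤ)) : ℝ :=
  sInf ((fun F : Submodule ℤ (ι → ℤ) => lc F + κ * rk F) '' {F | X ≤ F})

theorem psi_bdd {κ : ℝ} (hκ : 0 ≤ κ) (X : Submodule ℤ (ι → ℤ)) :
    BddBelow ((fun F : Submodule ℤ (ι → ℤ) => lc F + κ * rk F) '' {F | X ≤ F}) := by
  refine ⟨0, ?_⟩
  rintro _ ⟨F, -, rfl⟩
  have := lc_nonneg F
  have h2 : 0 ≤ κ * (rk F : ℝ) := by positivity
  show 0 ≤ lc F + κ * (rk F : ℝ)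
  linarith

theorem psi_le {κ : ℝ} (hκ : 0 ≤ κ) {X F : Submodule ℤ (ι → ℤ)} (h : X ≤ F) :
    psi κ X ≤ lc F + κ * rk F :=
  csInf_le (psi_bdd hκ X) ⟨F, h, rfl⟩

theorem le_psi {κ c : ℝ} {X : Submodule ℤ (ι → ℤ)}
    (h : ∀ F, X ≤ F → c ≤ lc F + κ * rk F) : c ≤ psi κ X := by
  refine le_csInf ⟨_, ⟨X, le_refl X, rfl⟩⟩ ?_
  rintro _ ⟨F, hF, rfl⟩
  exact h F hF

theorem psi_nonneg {κ : ℝ} (hκ : 0 ≤ κ) (X : Submodule ℤ (ι → ℤ)) : 0 ≤ psi κ X := by
  refine le_psi fun F _ => ?_
  have := lc_nonneg F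
  have h2 : 0 ≤ κ * (rk F : ℝ) := by positivity
  linarith

theorem psi_mono {κ : ℝ} (hκ : 0 ≤ κ) {X Y : Submodule ℤ (ι → ℤ)} (h : X ≤ Y) :
    psi κ X ≤ psi κ Y :=
  le_psi fun _ hF => psi_le hκ (h.trans hF)

end Psi

/-! ### extension and restriction -/

section Opt
variable {β : Type*} [Fintype β] [DecidableEq β]

/-- extension by zero -/
def ext0 : (β → ℤ) →ₗ[ℤ] (Option β → ℤ) where
  toFun x := fun o => o.elim 0 x
  map_add' x y := by funext o; cases o <;> simp
  map_smul' c x := by funext o; cases o <;> simp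

@[simp] theorem ext0_none (x : β → ℤ) : ext0 x none = 0 := rfl
@[simp] theorem ext0_some (x : β → ℤ) (i : β) : ext0 x (some i) = x i := rfl

theorem ext0_injective : Function.Injective (ext0 : (β → ℤ) →ₗ[ℤ] (Option β → ℤ)) := by
  intro x y h
  funext i
  have := congrFun h (some i)
  simpa using this

/-- restriction -/
def res0 : (Option β → ℤ) →ₗ[ℤ] (β → ℤ) where
  toFun x := fun i => x (some i)
  map_add' _ _ := rfl
  map_smul' _ _ := rfl

@[simp] theorem res0_apply (x : Option β → ℤ) (i : β) : res0 x i = x (some i) := rfl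

/-- the part of `N` supported on `β` -/
def sub0 (N : Submodule ℤ (Option β → ℤ)) : Submodule ℤ (β → ℤ) := N.comap ext0

theorem mem_sub0 {N : Submodule ℤ (Option β → ℤ)} {x : β → ℤ} : x ∈ sub0 N ↔ ext0 x ∈ N :=
  Iff.rfl

theorem map_sub0_le (N : Submodule ℤ (Option β → ℤ)) : (sub0 N).map ext0 ≤ N :=
  Submodule.map_comap_le _ _

/-- the generator over the part supported on `β` -/
theorem exists_gen (N : Submodule ℤ (Option β → ℤ)) (h : ∃ ν ∈ N, ν none ≠ 0) :
    ∃ w ∈ N, 1 ≤ w none ∧ N = (sub0 N).map ext0 ⊔ Submodule.span ℤ {w} := by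
  classical
  let φ : (Option β → ℤ) →ₗ[ℤ] ℤ := LinearMap.proj none
  let I : Submodule ℤ ℤ := N.map φ
  obtain ⟨g, hg⟩ := IsPrincipalIdealRing.principal (I : Ideal ℤ)
  obtain ⟨ν, hν, hν0⟩ := h
  have hνI : φ ν ∈ I := Submodule.mem_map_of_mem hν
  have hgI : g ∈ I := by
    have : g ∈ (I : Ideal ℤ) := by rw [hg]; exact Submodule.mem_span_singleton_self g
    exact this
  have hg0 : g ≠ 0 := by
    intro h0
    have h1 : φ ν ∈ (I : Ideal ℤ) := hνI
    rw [hg, h0, Submodule.mem_span_singleton] at h1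
    obtain ⟨a, ha⟩ := h1
    refine hν0 ?_
    show φ ν = 0
    rw [← ha]; simp
  obtain ⟨w0, hw0, hφ⟩ := hgI
  -- sign
  obtain ⟨w, hw, hwpos, hwdiv⟩ : ∃ w ∈ N, 1 ≤ w none ∧ ∀ y ∈ N, w none ∣ y none := by
    have hdiv : ∀ y ∈ N, g ∣ y none := by
      intro y hy
      have h1 : φ y ∈ (I : Ideal ℤ) := Submodule.mem_map_of_mem hy
      rw [hg, Submodule.mem_span_singleton] at h1
      obtain ⟨a, ha⟩ := h1
      exact ⟨a, by rw [← show a • g = y none from ha, smul_eq_mul, mul_comm]⟩
    have hw0n : w0 none = g := hφ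
    rcases lt_or_gt_of_ne hg0 with hneg | hpos
    · refine ⟨-w0, N.neg_mem hw0, ?_, ?_⟩
      · rw [Pi.neg_apply, hw0n]; omega
      · intro y hy
        rw [Pi.neg_apply, hw0n]
        exact (neg_dvd).2 (hdiv y hy)
    · refine ⟨w0, hw0, ?_, ?_⟩
      · rw [hw0n]; omega
      · intro y hy
        rw [hw0n]; exact hdiv y hy
  refine ⟨w, hw, hwpos, le_antisymm ?_ ?_⟩
  · intro y hy
    obtain ⟨a, ha⟩ := hwdiv y hy
    have hz : (y - a • w) none = 0 := by
      simp only [Pi.sub_apply, Pi.smul_apply, smul_eq_mul]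
      rw [ha]; ring
    have hzN : y - a • w ∈ N := N.sub_mem hy (N.smul_mem a hw)
    have hzext : ext0 (res0 (y - a • w)) = y - a • w := by
      funext o
      cases o with
      | none => rw [hz]; rfl
      | some i => rfl
    have h1 : y - a • w ∈ (sub0 N).map ext0 := by
      refine ⟨res0 (y - a • w), ?_, hzext⟩
      show ext0 (res0 (y - a • w)) ∈ N
      rw [hzext]; exact hzN
    have h2 : y = (y - a • w) + a • w := by abel
    rw [h2]
    exact Submodule.add_mem_sup h1 (Submodule.smul_mem _ a (Submodule.mem_span_singleton_self w))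
  · refine sup_le (map_sub0_le N) ?_
    rw [Submodule.span_singleton_le_iff_mem]
    exact hw

theorem rk_map_ext0 (L : Submodule ℤ (β → ℤ)) : rk (L.map ext0) = rk L := by
  unfold rk
  exact (LinearEquiv.finrank_eq (Submodule.equivMapOfInjective ext0 ext0_injective L)).symm

theorem lc_map_ext0 (L : Submodule ℤ (β → ℤ)) : lc (L.map ext0) = lc L := by
  classical
  let b := Module.Free.chooseBasis ℤ L
  let e := Submodule.equivMapOfInjective ext0 ext0_injective L
  unfold lc
  rw [dsc_eq b, dsc_eq (b.map e)]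
  have : gm (fun i => ((b.map e i : L.map ext0) : Option β → ℤ)) =
      gm (fun i => (b i : β → ℤ)) := by
    ext i j
    have h : ∀ i, ((b.map e i : L.map ext0) : Option β → ℤ) = ext0 (b i : β → ℤ) := by
      intro i
      simp [e, Submodule.coe_equivMapOfInjective_apply]
    rw [gm_apply, gm_apply, h, h]
    simp [dotProduct, Fintype.sum_option]
  rw [this]

/-- the matrix action -/
noncomputable def act {ι : Type*} [Fintype ι] (A : Matrix ι ι ℤ) (N : Submodule ℤ (ι → ℤ)) :
    Submodule ℤ (ι → ℤ) := N.map A.mulVecLin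

theorem sg_mulVec_glue (b : Sym2 β → Bool) (x : β → Bool) (d : Bool) (w : Option β → ℤ) (i : β) :
    (symMat (glue b x d)).mulVec w (some i) =
      (symMat b).mulVec (res0 w) i + w none * sg (x i) := by
  simp only [Matrix.mulVec, dotProduct, Fintype.sum_option, symMat_apply, glue_some_none,
    glue_some, res0_apply]
  ring

/-- restriction of the image of `N` to the old rows -/
theorem res_act (b : Sym2 β → Bool) (x : β → Bool) (d : Bool) (N : Submodule ℤ (Option β → ℤ))
    (w : Option β → ℤ) (hw : N = (sub0 N).map ext0 ⊔ Submodule.span ℤ {w}) :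
    (act (symMat (glue b x d)) N).map res0 =
      act (symMat b) (sub0 N) ⊔
        Submodule.span ℤ {(symMat b).mulVec (res0 w) + w none • fun i => sg (x i)} := by
  have h1 : act (symMat (glue b x d)) N =
      (((sub0 N).map ext0).map (symMat (glue b x d)).mulVecLin) ⊔
        Submodule.span ℤ {(symMat (glue b x d)).mulVec w} := by
    unfold act
    conv_lhs => rw [hw]
    rw [Submodule.map_sup, Submodule.map_span, Set.image_singleton]
    rfl
  rw [h1, Submodule.map_sup, Submodule.map_span, Set.image_singleton]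
  congr 1
  · unfold act
    rw [← Submodule.map_comp, ← Submodule.map_comp]
    congr 1
    refine LinearMap.ext fun y => ?_
    funext i
    simp only [LinearMap.comp_apply, Matrix.mulVecLin_apply, res0_apply]
    rw [sg_mulVec_glue]
    simp only [ext0_none, zero_mul, add_zero]
    congr 1
  · congr 2
    funext i
    simp only [res0_apply, Pi.add_apply, Pi.smul_apply, smul_eq_mul]
    exact sg_mulVec_glue b x d w i

end Opt

end Crest.Agent.R152.LS
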