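import Mathlib
import Crest.Agent.R152.LS2

set_option autoImplicit false
set_option linter.unusedSectionVars false

/-! Row 152, module LS (helper162's Lemma S), part 3: relabelling and the exponential moment
induction. -/

open Crest.FinProb Crest.ProbabilityR.SignMatrix

namespace Crest.Agent.R152.LS

open Crest.Agent.R152.Base Crest.Agent.R152.Lat

/-! ### relabelling -/

section Relabel
variable {ι κ : Type*} [Fintype ι] [Fintype κ] [DecidableEq ι] [DecidableEq κ]

/-- relabelling of coordinates -/
def rel (e : ι ≃ κ) : (ι → ℤ) ≃ₗ[ℤ] (κ → ℤ) := LinearEquiv.funCongrLeft ℤ ℤ e.symm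

@[simp] theorem rel_apply (e : ι ≃ κ) (x : ι → ℤ) (k : κ) : rel e x k = x (e.symm k) := rfl

theorem rk_rel (e : ι ≃ κ) (L : Submodule ℤ (ι → ℤ)) :
    rk (L.map (rel e : (ι → ℤ) →ₗ[ℤ] (κ → ℤ))) = rk L := by
  unfold rk
  exact (LinearEquiv.finrank_eq
    (Submodule.equivMapOfInjective (rel e : (ι → ℤ) →ₗ[ℤ] (κ → ℤ)) (rel e).injective L)).symm

theorem lc_rel (e : ι ≃ κ) (L : Submodule ℤ (ι → ℤ)) :
    lc (L.map (rel e : (ι → ℤ) →ₗ[ℤ] (κ → ℤ))) = lc L := by
  classical
  let b := Module.Free.chooseBasis ℤ L
  let f := Submodule.equivMapOfInjective (rel e : (ι → ℤ) →ₗ[ℤ] (κ → ℤ)) (rel e).injective L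
  unfold lc
  rw [dsc_eq b, dsc_eq (b.map f)]
  have : gm (fun i => ((b.map f i : L.map (rel e : (ι → ℤ) →ₗ[ℤ] (κ → ℤ))) : κ → ℤ)) =
      gm (fun i => (b i : ι → ℤ)) := by
    ext i j
    have h : ∀ i, ((b.map f i : L.map (rel e : (ι → ℤ) →ₗ[ℤ] (κ → ℤ))) : κ → ℤ) =
        rel e (b i : ι → ℤ) := by
      intro i
      simp [f, Submodule.coe_equivMapOfInjective_apply]
    rw [gm_apply, gm_apply, h, h]
    simp only [dotProduct, rel_apply]
    exact Equiv.sum_comp e.symm (fun k => (b i : ι → ℤ) k * (b j : ι → ℤ) k)
  rw [this]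

theorem psi_rel {K : ℝ} (hK : 0 ≤ K) (e : ι ≃ κ) (X : Submodule ℤ (ι → ℤ)) :
    psi K (X.map (rel e : (ι → ℤ) →ₗ[ℤ] (κ → ℤ))) = psi K X := by
  apply le_antisymm
  · refine le_psi fun F hF => ?_
    have h := psi_le hK (Submodule.map_mono (f := (rel e : (ι → ℤ) →ₗ[ℤ] (κ → ℤ))) hF)
    rwa [lc_rel, rk_rel] at h
  · refine le_psi fun F hF => ?_
    have h1 : X ≤ F.map (rel e.symm : (κ → ℤ) →ₗ[ℤ] (ι → ℤ)) := by
      intro x hx
      refine ⟨rel e x, hF (Submodule.mem_map_of_mem hx), ?_⟩
      funext i
      simp
    have h := psi_le hK h1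
    rwa [lc_rel, rk_rel] at h

theorem act_submatrix (e : ι ≃ κ) (M : Matrix κ κ ℤ) (N : Submodule ℤ (ι → ℤ)) :
    (act (M.submatrix e e) N).map (rel e : (ι → ℤ) →ₗ[ℤ] (κ → ℤ)) =
      act M (N.map (rel e : (ι → ℤ) →ₗ[ℤ] (κ → ℤ))) := by
  unfold act
  rw [← Submodule.map_comp, ← Submodule.map_comp]
  congr 1
  refine LinearMap.ext fun y => ?_
  funext k
  simp only [LinearMap.comp_apply, Matrix.mulVecLin_apply, LinearEquiv.coe_coe, rel_apply,
    Matrix.mulVec, dotProduct, Matrix.submatrix_apply, Equiv.apply_symm_apply]
  exact Fintype.sum_equiv e _ _ (fun i => by simp)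

theorem psi_act_submatrix {K : ℝ} (hK : 0 ≤ K) (e : ι ≃ κ) (M : Matrix κ κ ℤ)
    (N : Submodule ℤ (ι → ℤ)) :
    psi K (act (M.submatrix e e) N) =
      psi K (act M (N.map (rel e : (ι → ℤ) →ₗ[ℤ] (κ → ℤ)))) := by
  rw [← act_submatrix, psi_rel hK]

end Relabel

/-! ### projection facts needed by the chain -/

/-- the two facts about the coordinate restriction (from `Lat`) -/
structure Facts : Prop where
  /-- the potential does not increase under restriction -/
  proj : ∀ (β : Type) [Fintype β] [DecidableEq β] (κ : ℝ), 0 ≤ κ →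
    ∀ F : Submodule ℤ (Option β → ℤ), lc (F.map res0) + κ * rk (F.map res0) ≤ lc F + κ * rk F
  /-- monotonicity of covolume along the part supported on `β` -/
  mono : ∀ (β : Type) [Fintype β] [DecidableEq β] (N : Submodule ℤ (Option β → ℤ)),
    lc (sub0 N) ≤ lc N
  /-- rank drop -/
  rank : ∀ (β : Type) [Fintype β] [DecidableEq β] (N : Submodule ℤ (Option β → ℤ)),
    (∃ ν ∈ N, ν none ≠ 0) → rk N = rk (sub0 N) + 1

theorem psi_res (hF : Facts) {β : Type} [Fintype β] [DecidableEq β] {κ : ℝ} (hκ : 0 ≤ κ)
    (Y : Submodule ℤ (Option β → ℤ)) : psi κ (Y.map res0) ≤ psi κ Y := by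
  refine le_psi fun F hYF => ?_
  exact (psi_le hκ (Submodule.map_mono hYF)).trans (hF.proj β κ hκ F)

/-- the one-step claim -/
def StepOK (p κ T ε L E0 : ℝ) (n k0 : ℕ) : Prop :=
  ∀ (β : Type) [Fintype β] [DecidableEq β] (N : Submodule ℤ (Option β → ℤ)),
    Fintype.card β + 1 ≤ n → (∃ ν ∈ N, ν none ≠ 0) → k0 + rk (sub0 N) ≤ Fintype.card β →
    lc N ≤ E0 → lc N ≤ lc (sub0 N) + L → ∀ (b : Sym2 β → Bool) (d : Bool),
    bernoulliProb p {x : β → Bool | psi κ ((act (symMat (glue b x d)) N).map res0) <
      psi κ (act (symMat b) (sub0 N)) + T} ≤ ε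

theorem act_sub0_le_res {β : Type} [Fintype β] [DecidableEq β] (b : Sym2 β → Bool) (x : β → Bool)
    (d : Bool) (N : Submodule ℤ (Option β → ℤ)) (h : ∃ ν ∈ N, ν none ≠ 0) :
    act (symMat b) (sub0 N) ≤ (act (symMat (glue b x d)) N).map res0 := by
  obtain ⟨w, -, -, hw⟩ := exists_gen N h
  rw [res_act b x d N w hw]
  exact le_sup_left

theorem chain (hF : Facts) {p κ T ε L E0 θ : ℝ} {n k0 : ℕ} (hp0 : 0 ≤ p) (hp1 : p ≤ 1)
    (hκ : 0 ≤ κ) (hT : 0 ≤ T) (hL : 0 < L) (hθ : 0 ≤ θ) (hε : Real.exp (θ * T) * ε ≤ 1)
    (hS : StepOK p κ T ε L E0 n k0) :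
    ∀ (r : ℕ) (ι : Type) [Fintype ι] [DecidableEq ι] (N : Submodule ℤ (ι → ℤ)),
      rk N = r → Fintype.card ι ≤ n → k0 + r ≤ Fintype.card ι → lc N ≤ E0 →
      ex p (fun b : Sym2 ι → Bool => Real.exp (θ * (T * rk N - psi κ (act (symMat b) N)))) ≤
        2 ^ r * Real.exp (θ * (T / L) * lc N) := by
  intro r
  induction r with
  | zero =>
    intro ι _ _ N hr _ _ _
    rw [pow_zero, one_mul]
    have h1 : ∀ b : Sym2 ι → Bool,
        Real.exp (θ * (T * rk N - psi κ (act (symMat b) N))) ≤ 1 := by
      intro b
      rw [Real.exp_le_one_iff, hr]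
      have := psi_nonneg hκ (act (symMat b) N)
      have h3 := mul_nonneg hθ this
      push_cast
      linarith
    have h2 := ex_mono hp0 hp1 h1
    rw [ex_const] at h2
    refine h2.trans ?_
    rw [Real.one_le_exp_iff]
    have := lc_nonneg N
    positivity
  | succ r ih =>
    intro ι _ _ N hr hcard hk hE
    -- a coordinate where `N` is nonzero
    have hex : ∃ i, ∃ ν ∈ N, ν i ≠ 0 := by
      by_contra hcon
      push Not at hcon
      have hbot : N = ⊥ := by
        rw [Submodule.eq_bot_iff]
        intro ν hν
        funext i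
        exact hcon i ν hν
      rw [hbot, rk_bot] at hr
      omega
    obtain ⟨i, ν, hν, hνi⟩ := hex
    let β := {j : ι // j ≠ i}
    let e : ι ≃ Option β := (Equiv.optionSubtypeNe i).symm
    let N1 : Submodule ℤ (Option β → ℤ) := N.map (rel e : (ι → ℤ) →ₗ[ℤ] (Option β → ℤ))
    have hN1 : ∃ ν ∈ N1, ν none ≠ 0 := by
      refine ⟨rel e ν, Submodule.mem_map_of_mem hν, ?_⟩
      have he : e.symm none = i := rfl
      rw [rel_apply, he]
      exact hνi
    have hrk1 : rk N1 = rk N := rk_rel e N
    have hlc1 : lc N1 = lc N := lc_rel e N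
    have hcardβ : Fintype.card ι = Fintype.card β + 1 := by
      rw [Fintype.card_congr e, Fintype.card_option]
    have hrk0 := hF.rank β N1 hN1
    have hr0 : rk (sub0 N1) = r := by omega
    have hlc0 := hF.mono β N1
    have hih := ih β (sub0 N1) hr0 (by omega) (by omega) (by linarith)
    rw [ex_delete i p (fun A => Real.exp (θ * (T * rk N - psi κ (act A N))))]
    have hc : 0 ≤ θ * (T / L) := by positivity
    have hfac : 1 ≤ Real.exp (θ * (T / L) * (lc N - lc (sub0 N1))) := by
      rw [Real.one_le_exp_iff]
      exact mul_nonneg hc (by linarith)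
    -- pointwise bound in `b`
    have hstep : ∀ b : Sym2 β → Bool,
        ex p (fun x : β → Bool =>
          p * Real.exp (θ * (T * rk N - psi κ (act ((symMat (glue b x true)).submatrix
            (Equiv.optionSubtypeNe i).symm (Equiv.optionSubtypeNe i).symm) N))) +
          (1 - p) * Real.exp (θ * (T * rk N - psi κ (act ((symMat (glue b x false)).submatrix
            (Equiv.optionSubtypeNe i).symm (Equiv.optionSubtypeNe i).symm) N)))) ≤
        (2 * Real.exp (θ * (T / L) * (lc N - lc (sub0 N1)))) *
          Real.exp (θ * (T * rk (sub0 N1) - psi κ (act (symMat b) (sub0 N1)))) := by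
      intro b
      set P0 : ℝ := psi κ (act (symMat b) (sub0 N1)) with hP0
      set B0 : ℝ := Real.exp (θ * (T * rk (sub0 N1) - P0)) with hB0
      have hB0pos : 0 < B0 := Real.exp_pos _
      -- each term
      have hterm : ∀ (x : β → Bool) (d : Bool),
          Real.exp (θ * (T * rk N - psi κ (act ((symMat (glue b x d)).submatrix
            (Equiv.optionSubtypeNe i).symm (Equiv.optionSubtypeNe i).symm) N))) ≤
          B0 * Real.exp (θ * (T + P0 - psi κ ((act (symMat (glue b x d)) N1).map res0))) := by
        intro x d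
        rw [hB0, ← Real.exp_add]
        apply Real.exp_le_exp.2
        have h1 : psi κ (act ((symMat (glue b x d)).submatrix
            (Equiv.optionSubtypeNe i).symm (Equiv.optionSubtypeNe i).symm) N) =
            psi κ (act (symMat (glue b x d)) N1) :=
          psi_act_submatrix hκ e (symMat (glue b x d)) N
        have h2 := psi_res hF hκ (act (symMat (glue b x d)) N1)
        rw [h1]
        have h3 : (rk N : ℝ) = rk (sub0 N1) + 1 := by
          rw [← hrk1, hrk0]; push_cast; ring
        rw [h3]
        have h4 := mul_le_mul_of_nonneg_left h2 hθ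
        nlinarith
      have hmono : ∀ (x : β → Bool) (d : Bool),
          P0 ≤ psi κ ((act (symMat (glue b x d)) N1).map res0) := by
        intro x d
        exact psi_mono hκ (act_sub0_le_res b x d N1 hN1)
      have hindep : ∀ (x : β → Bool),
          psi κ ((act (symMat (glue b x true)) N1).map res0) =
          psi κ ((act (symMat (glue b x false)) N1).map res0) := by
        intro x
        obtain ⟨w, -, -, hw⟩ := exists_gen N1 hN1
        rw [res_act b x true N1 w hw, res_act b x false N1 w hw]
      by_cases hgood : lc N1 ≤ lc (sub0 N1) + L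
      · -- good step
        have hP := hS β N1 (by omega) hN1 (by omega) (by linarith) hgood b true
        classical
        rw [prob_eq_ex] at hP
        have hle : ∀ x : β → Bool,
            p * Real.exp (θ * (T * rk N - psi κ (act ((symMat (glue b x true)).submatrix
              (Equiv.optionSubtypeNe i).symm (Equiv.optionSubtypeNe i).symm) N))) +
            (1 - p) * Real.exp (θ * (T * rk N - psi κ (act ((symMat (glue b x false)).submatrix
              (Equiv.optionSubtypeNe i).symm (Equiv.optionSubtypeNe i).symm) N))) ≤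
            B0 + (B0 * Real.exp (θ * T)) *
              (if x ∈ {x : β → Bool | psi κ ((act (symMat (glue b x true)) N1).map res0) <
                P0 + T} then 1 else 0) := by
          intro x
          have t1 := hterm x true
          have t2 := hterm x false
          rw [← hindep x] at t2
          have t3 : p * Real.exp (θ * (T * rk N - psi κ (act ((symMat (glue b x true)).submatrix
              (Equiv.optionSubtypeNe i).symm (Equiv.optionSubtypeNe i).symm) N))) +
            (1 - p) * Real.exp (θ * (T * rk N - psi κ (act ((symMat (glue b x false)).submatrix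
              (Equiv.optionSubtypeNe i).symm (Equiv.optionSubtypeNe i).symm) N))) ≤
              B0 * Real.exp (θ * (T + P0 -
                psi κ ((act (symMat (glue b x true)) N1).map res0))) := by
            have u1 := mul_le_mul_of_nonneg_left t1 hp0
            have u2 := mul_le_mul_of_nonneg_left t2 (by linarith : 0 ≤ 1 - p)
            linarith
          refine t3.trans ?_
          by_cases hx : psi κ ((act (symMat (glue b x true)) N1).map res0) < P0 + T
          · have hx' : x ∈ {x : β → Bool | psi κ ((act (symMat (glue b x true)) N1).map res0) <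
                P0 + T} := hx
            rw [if_pos hx', mul_one]
            have h5 : Real.exp (θ * (T + P0 -
                psi κ ((act (symMat (glue b x true)) N1).map res0))) ≤ Real.exp (θ * T) := by
              apply Real.exp_le_exp.2
              have := mul_le_mul_of_nonneg_left (hmono x true) hθ
              nlinarith
            have h6 := mul_le_mul_of_nonneg_left h5 hB0pos.le
            linarith
          · have hx' : x ∉ {x : β → Bool | psi κ ((act (symMat (glue b x true)) N1).map res0) <
                P0 + T} := hx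
            rw [if_neg hx', mul_zero, add_zero]
            have h5 : Real.exp (θ * (T + P0 -
                psi κ ((act (symMat (glue b x true)) N1).map res0))) ≤ 1 := by
              rw [Real.exp_le_one_iff]
              push Not at hx
              have := mul_le_mul_of_nonneg_left hx hθ
              nlinarith
            have h6 := mul_le_mul_of_nonneg_left h5 hB0pos.le
            linarith
        refine (ex_mono hp0 hp1 hle).trans ?_
        rw [ex_add, ex_const, ex_smul]
        have hPP : B0 * Real.exp (θ * T) * ex p (fun x : β → Bool =>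
            if x ∈ {x : β → Bool | psi κ ((act (symMat (glue b x true)) N1).map res0) <
                P0 + T} then (1:ℝ) else 0) ≤ B0 := by
          have h7 := mul_le_mul_of_nonneg_left hP (mul_pos hB0pos (Real.exp_pos (θ * T))).le
          have h8 : B0 * Real.exp (θ * T) * ε ≤ B0 := by
            have := mul_le_mul_of_nonneg_left hε hB0pos.le
            nlinarith
          exact h7.trans h8
        have h9 : 2 * B0 ≤ 2 * Real.exp (θ * (T / L) * (lc N - lc (sub0 N1))) * B0 := by
          nlinarith
        linarith
      · -- bad step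
        push Not at hgood
        have hle : ∀ x : β → Bool,
            p * Real.exp (θ * (T * rk N - psi κ (act ((symMat (glue b x true)).submatrix
              (Equiv.optionSubtypeNe i).symm (Equiv.optionSubtypeNe i).symm) N))) +
            (1 - p) * Real.exp (θ * (T * rk N - psi κ (act ((symMat (glue b x false)).submatrix
              (Equiv.optionSubtypeNe i).symm (Equiv.optionSubtypeNe i).symm) N))) ≤
            B0 * Real.exp (θ * T) := by
          intro x
          have hh : ∀ d, Real.exp (θ * (T * rk N - psi κ (act ((symMat (glue b x d)).submatrix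
              (Equiv.optionSubtypeNe i).symm (Equiv.optionSubtypeNe i).symm) N))) ≤
              B0 * Real.exp (θ * T) := by
            intro d
            refine (hterm x d).trans ?_
            refine mul_le_mul_of_nonneg_left ?_ hB0pos.le
            apply Real.exp_le_exp.2
            have := mul_le_mul_of_nonneg_left (hmono x d) hθ
            nlinarith
          have u1 := mul_le_mul_of_nonneg_left (hh true) hp0
          have u2 := mul_le_mul_of_nonneg_left (hh false) (by linarith : 0 ≤ 1 - p)
          linarith
        refine (ex_mono hp0 hp1 hle).trans ?_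
        rw [ex_const]
        have h10 : Real.exp (θ * T) ≤ Real.exp (θ * (T / L) * (lc N - lc (sub0 N1))) := by
          apply Real.exp_le_exp.2
          have h11 : L ≤ lc N - lc (sub0 N1) := by linarith
          have h12 := mul_le_mul_of_nonneg_left h11 hc
          have h13 : θ * (T / L) * L = θ * T := by
            rw [mul_assoc, div_mul_cancel₀ _ hL.ne']
          linarith
        have h14 := mul_le_mul_of_nonneg_left h10 hB0pos.le
        have h15 : 0 < Real.exp (θ * (T / L) * (lc N - lc (sub0 N1))) := Real.exp_pos _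
        nlinarith [mul_pos hB0pos h15]
    refine (ex_mono hp0 hp1 hstep).trans ?_
    rw [ex_smul]
    have hpos : 0 ≤ 2 * Real.exp (θ * (T / L) * (lc N - lc (sub0 N1))) := by positivity
    refine (mul_le_mul_of_nonneg_left hih hpos).trans (le_of_eq ?_)
    rw [pow_succ]
    have h16 : Real.exp (θ * (T / L) * lc N) =
        Real.exp (θ * (T / L) * (lc N - lc (sub0 N1))) *
          Real.exp (θ * (T / L) * lc (sub0 N1)) := by
      rw [← Real.exp_add]; congr 1; ring
    rw [h16]
    ring

end Crest.Agent.R152.LS
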