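import Crest.Agent.R152.Lat1

set_option autoImplicit false
set_option linter.unusedSectionVars false

/-!
# Row 152, module LAT (helper223), part 2: distances, adding a vector, submodularity
-/

namespace Crest.Agent.R152.Lat

open Matrix Module

section gram

variable {E : Type*} [NormedAddCommGroup E] [InnerProductSpace ℝ E]

/-- Gram determinant when a vector is added -/
theorem det_gram_sum {κ : Type*} [Fintype κ] [DecidableEq κ] (v : κ → E)
    (hv : LinearIndependent ℝ v) (y : E)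
    [(Submodule.span ℝ (Set.range v)).HasOrthogonalProjection] :
    (Matrix.gram ℝ (Sum.elim v (fun _ : Unit => y))).det =
      (Matrix.gram ℝ v).det * ‖y - (Submodule.span ℝ (Set.range v)).starProjection y‖ ^ 2 := by
  set A : Matrix κ κ ℝ := Matrix.gram ℝ v with hA
  have hdet : A.det ≠ 0 := det_gram_ne_zero_iff_linearIndependent.mpr hv
  letI : Invertible A := Matrix.invertibleOfIsUnitDet A (isUnit_iff_ne_zero.mpr hdet)
  set B : Matrix κ Unit ℝ := Matrix.of fun i _ => inner ℝ (v i) y with hB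
  set C : Matrix Unit κ ℝ := Matrix.of fun _ i => inner ℝ y (v i) with hC
  set D : Matrix Unit Unit ℝ := Matrix.of fun _ _ => inner ℝ y y with hD
  have hfb : Matrix.gram ℝ (Sum.elim v (fun _ : Unit => y)) = Matrix.fromBlocks A B C D := by
    ext i j
    rcases i with i | i <;> rcases j with j | j <;>
      simp [Matrix.gram_apply, Matrix.fromBlocks, hA, hB, hC, hD]
  rw [hfb, Matrix.det_fromBlocks₁₁]
  congr 1
  rw [Matrix.det_unique]
  set x : κ → ℝ := ⅟A *ᵥ (fun i => inner ℝ (v i) y) with hx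
  have hAx : A *ᵥ x = fun i => inner ℝ (v i) y := by
    rw [hx, Matrix.mulVec_mulVec, mul_invOf_self, Matrix.one_mulVec]
  set p : E := ∑ i, x i • v i with hp
  have horth : ∀ i, inner ℝ (v i) (y - p) = 0 := by
    intro i
    have h1 := congrFun hAx i
    simp only [Matrix.mulVec, dotProduct, hA, Matrix.gram_apply] at h1
    rw [inner_sub_right, hp, inner_sum, ← h1]
    simp only [inner_smul_right]
    rw [sub_eq_zero]
    exact Finset.sum_congr rfl fun j _ => by ring
  have hpmem : p ∈ Submodule.span ℝ (Set.range v) :=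
    Submodule.sum_mem _ fun i _ => Submodule.smul_mem _ _ (Submodule.subset_span ⟨i, rfl⟩)
  have horth2 : ∀ w ∈ Submodule.span ℝ (Set.range v), inner ℝ w (y - p) = 0 := by
    intro w hw
    induction hw using Submodule.span_induction with
    | mem w hw => obtain ⟨i, rfl⟩ := hw; exact horth i
    | zero => simp
    | add a b _ _ ha hb => rw [inner_add_left, ha, hb, add_zero]
    | smul c a _ ha => rw [inner_smul_left, ha]; simp
  have hproj : (Submodule.span ℝ (Set.range v)).starProjection y = p := by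
    apply Submodule.eq_starProjection_of_mem_of_inner_eq_zero hpmem
    intro w hw
    rw [real_inner_comm]
    exact horth2 w hw
  rw [hproj]
  have h3 : ‖y - p‖ ^ 2 = inner ℝ y (y - p) := by
    rw [← real_inner_self_eq_norm_sq, inner_sub_left, horth2 p hpmem, sub_zero]
  rw [h3, inner_sub_right]
  simp only [Matrix.sub_apply, hD, Matrix.of_apply]
  congr 1
  have h4 : (C * ⅟A * B) default default = ∑ i, inner ℝ y (v i) * x i := by
    rw [Matrix.mul_assoc, Matrix.mul_apply]
    refine Finset.sum_congr rfl fun i _ => ?_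
    congr 1
  rw [h4, hp, inner_sum]
  refine Finset.sum_congr rfl fun i _ => ?_
  rw [inner_smul_right]; ring

end gram

variable {ι : Type*} [Fintype ι]

/-- real span of a sublattice of `ι → ℤ` -/
noncomputable def rsp (L : Submodule ℤ (ι → ℤ)) : Submodule ℝ (EuclideanSpace ℝ ι) :=
  Submodule.span ℝ ((ev : (ι → ℤ) →ₗ[ℤ] EuclideanSpace ℝ ι) '' (L : Set (ι → ℤ)))

/-- distance of `y` to the real span of `L` -/
noncomputable def dst (L : Submodule ℤ (ι → ℤ)) (y : EuclideanSpace ℝ ι) : ℝ :=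
  ‖y - (rsp L).starProjection y‖

theorem rsp_mono {L M : Submodule ℤ (ι → ℤ)} (h : L ≤ M) : rsp L ≤ rsp M :=
  Submodule.span_mono (Set.image_mono h)

theorem ev_mem_rsp {L : Submodule ℤ (ι → ℤ)} {y : ι → ℤ} (h : y ∈ L) : ev y ∈ rsp L :=
  Submodule.subset_span ⟨y, h, rfl⟩

theorem dst_le_sub (L : Submodule ℤ (ι → ℤ)) (y : EuclideanSpace ℝ ι) {w : EuclideanSpace ℝ ι}
    (hw : w ∈ rsp L) : dst L y ≤ ‖y - w‖ := by
  unfold dst
  rw [Submodule.starProjection_minimal]
  exact ciInf_le ⟨0, by rintro _ ⟨x, rfl⟩; exact norm_nonneg _⟩ (⟨w, hw⟩ : rsp L)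

theorem dst_le_norm (L : Submodule ℤ (ι → ℤ)) (y : EuclideanSpace ℝ ι) : dst L y ≤ ‖y‖ := by
  simpa using dst_le_sub L y (Submodule.zero_mem _)

theorem dst_nonneg (L : Submodule ℤ (ι → ℤ)) (y : EuclideanSpace ℝ ι) : 0 ≤ dst L y :=
  norm_nonneg _

theorem dst_anti {L M : Submodule ℤ (ι → ℤ)} (h : L ≤ M) (y : EuclideanSpace ℝ ι) :
    dst M y ≤ dst L y :=
  dst_le_sub M y (rsp_mono h (Submodule.starProjection_apply_mem _ _))

theorem dst_pos {L : Submodule ℤ (ι → ℤ)} {y : EuclideanSpace ℝ ι} (h : y ∉ rsp L) :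
    0 < dst L y := by
  refine lt_of_le_of_ne (dst_nonneg L y) fun h0 => h ?_
  unfold dst at h0
  have := norm_eq_zero.mp h0.symm
  rw [sub_eq_zero] at this
  rw [this]
  exact Submodule.starProjection_apply_mem _ _

theorem rsp_eq_span {κ : Type*} {L : Submodule ℤ (ι → ℤ)} (b : Basis κ ℤ L) :
    rsp L = Submodule.span ℝ (Set.range fun i => ev (b i : ι → ℤ)) := by
  unfold rsp
  apply le_antisymm
  · rw [Submodule.span_le]
    rintro _ ⟨z, hz, rfl⟩
    have h1 : (⟨z, hz⟩ : L) ∈ Submodule.span ℤ (Set.range b) := by rw [b.span_eq]; trivial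
    have h2 : ∀ w : L, w ∈ Submodule.span ℤ (Set.range b) →
        ev (w : ι → ℤ) ∈ Submodule.span ℝ (Set.range fun i => ev (b i : ι → ℤ)) := by
      intro w hw
      induction hw using Submodule.span_induction with
      | mem w hw => obtain ⟨i, rfl⟩ := hw; exact Submodule.subset_span ⟨i, rfl⟩
      | zero => simp
      | add a c _ _ ha hc => 
        rw [Submodule.coe_add, map_add]; exact Submodule.add_mem _ ha hc
      | smul c a _ ha =>
        rw [Submodule.coe_smul, map_smul, ← Int.cast_smul_eq_zsmul ℝ]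
        exact Submodule.smul_mem _ _ ha
    exact h2 _ h1
  · apply Submodule.span_mono
    rintro _ ⟨i, rfl⟩
    exact ⟨_, (b i).2, rfl⟩

theorem finrank_rsp (L : Submodule ℤ (ι → ℤ)) : Module.finrank ℝ (rsp L) = rk L := by
  classical
  set b := Module.Free.chooseBasis ℤ L
  rw [rk_eq b, rsp_eq_span b]
  exact finrank_span_eq_card (linearIndependent_ev (basis_linearIndependent b))

/-- the extended family -/
theorem linearIndependent_sum_of_notMem {κ : Type*} {L : Submodule ℤ (ι → ℤ)} (b : Basis κ ℤ L)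
    {y : ι → ℤ} (hy : ∀ m : ℤ, m ≠ 0 → m • y ∉ L) :
    LinearIndependent ℤ (Sum.elim (fun i => (b i : ι → ℤ)) (fun _ : Unit => y)) := by
  apply LinearIndependent.sum_type (basis_linearIndependent b)
  · rw [linearIndependent_unique_iff]
    intro h0
    apply hy 1 one_ne_zero
    have : y = 0 := h0
    rw [this]; simp
  · rw [Submodule.disjoint_def]
    intro x hx hx2
    have hxL : x ∈ L := by
      have : Submodule.span ℤ (Set.range fun i => (b i : ι → ℤ)) ≤ L := by
        rw [Submodule.span_le]; rintro _ ⟨i, rfl⟩; exact (b i).2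
      exact this hx
    rw [Set.range_const, Submodule.mem_span_singleton] at hx2
    obtain ⟨m, rfl⟩ := hx2
    by_cases hm : m = 0
    · rw [hm, zero_smul]
    · exact absurd hxL (hy m hm)

theorem mem_rsp_iff {L : Submodule ℤ (ι → ℤ)} {y : ι → ℤ} :
    ev y ∈ rsp L ↔ ∃ m : ℤ, m ≠ 0 ∧ m • y ∈ L := by
  classical
  constructor
  · intro h
    by_contra hc
    push Not at hc
    set b := Module.Free.chooseBasis ℤ L
    have h1 := linearIndependent_ev (linearIndependent_sum_of_notMem b hc)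
    have h2 : (fun i => ev ((Sum.elim (fun i => (b i : ι → ℤ)) (fun _ : Unit => y)) i)) =
        Sum.elim (fun i => ev (b i : ι → ℤ)) (fun _ : Unit => ev y) := by
      funext i; rcases i with i | i <;> rfl
    rw [h2, linearIndependent_sum] at h1
    have h3 := h1.2.2
    rw [Submodule.disjoint_def] at h3
    have h4 := h3 (ev y) (by rw [rsp_eq_span b] at h; exact h)
      (Submodule.subset_span ⟨(), rfl⟩)
    have h5 : y = 0 := ev_injective (by rw [h4, map_zero])
    apply hc 1 one_ne_zero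
    rw [h5]; simp
  · rintro ⟨m, hm, hy⟩
    have h1 := ev_mem_rsp hy
    rw [map_smul, ← Int.cast_smul_eq_zsmul ℝ] at h1
    have h2 := Submodule.smul_mem _ ((m : ℝ)⁻¹) h1
    rwa [smul_smul, inv_mul_cancel₀ (by exact_mod_cast hm), one_smul] at h2

theorem sup_span_eq {κ : Type*} {L : Submodule ℤ (ι → ℤ)} (b : Basis κ ℤ L) (y : ι → ℤ) :
    Submodule.span ℤ (Set.range (Sum.elim (fun i => (b i : ι → ℤ)) (fun _ : Unit => y))) =
      L ⊔ Submodule.span ℤ {y} := by
  rw [Set.Sum.elim_range, Submodule.span_union, Set.range_const]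
  congr 1
  apply le_antisymm
  · rw [Submodule.span_le]; rintro _ ⟨i, rfl⟩; exact (b i).2
  · intro z hz
    have h1 : (⟨z, hz⟩ : L) ∈ Submodule.span ℤ (Set.range b) := by rw [b.span_eq]; trivial
    have h2 := Submodule.mem_map_of_mem (f := L.subtype) h1
    rw [Submodule.map_span, ← Set.range_comp] at h2
    exact h2

theorem dsc_span_range {κ : Type*} [Fintype κ] [DecidableEq κ] {f : κ → ι → ℤ}
    (hf : LinearIndependent ℤ f) : dsc (Submodule.span ℤ (Set.range f)) = (gm f).det := by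
  rw [dsc_eq (Basis.span hf)]
  have : (fun i => ((Basis.span hf i : Submodule.span ℤ (Set.range f)) : ι → ℤ)) = f := by
    funext i
    rw [Basis.span_apply]
  rw [this]

theorem rk_span_range {κ : Type*} [Fintype κ] {f : κ → ι → ℤ}
    (hf : LinearIndependent ℤ f) : rk (Submodule.span ℤ (Set.range f)) = Fintype.card κ :=
  rk_eq (Basis.span hf)

theorem starProj_congr {E : Type*} [NormedAddCommGroup E] [InnerProductSpace ℝ E]
    {K K' : Submodule ℝ E} [K.HasOrthogonalProjection] [K'.HasOrthogonalProjection] (h : K = K') :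
    K.starProjection = K'.starProjection := by
  subst h; rfl

theorem dst_eq {κ : Type*} {L : Submodule ℤ (ι → ℤ)} (b : Basis κ ℤ L)
    (y : EuclideanSpace ℝ ι) : dst L y = ‖y -
      (Submodule.span ℝ (Set.range fun i => ev (b i : ι → ℤ))).starProjection y‖ := by
  unfold dst
  rw [starProj_congr (rsp_eq_span b)]

theorem dsc_sup_span_aux {κ : Type*} [Fintype κ] [DecidableEq κ] {L : Submodule ℤ (ι → ℤ)}
    (b : Basis κ ℤ L) {y : ι → ℤ}
    (hli : LinearIndependent ℤ (Sum.elim (fun i => (b i : ι → ℤ)) (fun _ : Unit => y))) :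
    ((gm (Sum.elim (fun i => (b i : ι → ℤ)) (fun _ : Unit => y))).det : ℝ) =
      ((gm (fun i => (b i : ι → ℤ))).det : ℝ) * dst L (ev y) ^ 2 := by
  rw [det_gm_cast]
  have h2 : (fun i => ev ((Sum.elim (fun i => (b i : ι → ℤ)) (fun _ : Unit => y)) i)) =
      Sum.elim (fun i => ev (b i : ι → ℤ)) (fun _ : Unit => ev y) := by
    funext i; rcases i with i | i <;> rfl
  have h3 : LinearIndependent ℝ (fun i => ev (b i : ι → ℤ)) :=
    linearIndependent_ev (basis_linearIndependent b)
  have h4 := det_gram_sum (fun i => ev (b i : ι → ℤ)) h3 (ev y)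
  have h5 : ((gm (fun i => (b i : ι → ℤ))).det : ℝ) =
    (Matrix.gram ℝ (fun i => ev (b i : ι → ℤ))).det := det_gm_cast _
  have h6 := dst_eq b (ev y)
  rw [h2, h5, h6]
  exact h4

theorem dsc_sup_span {L : Submodule ℤ (ι → ℤ)} {y : ι → ℤ} (hy : ev y ∉ rsp L) :
    (dsc (L ⊔ Submodule.span ℤ {y}) : ℝ) = (dsc L : ℝ) * (dst L (ev y)) ^ 2 := by
  classical
  have hy' : ∀ m : ℤ, m ≠ 0 → m • y ∉ L := fun m hm h => hy (mem_rsp_iff.mpr ⟨m, hm, h⟩)
  have hli := linearIndependent_sum_of_notMem (Module.Free.chooseBasis ℤ L) hy'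
  have h1 := dsc_sup_span_aux (Module.Free.chooseBasis ℤ L) hli
  have h2 := dsc_span_range hli
  rw [sup_span_eq] at h2
  rw [h2, h1, dsc_eq (Module.Free.chooseBasis ℤ L)]

theorem rk_sup_span {L : Submodule ℤ (ι → ℤ)} {y : ι → ℤ} (hy : ev y ∉ rsp L) :
    rk (L ⊔ Submodule.span ℤ {y}) = rk L + 1 := by
  classical
  have hy' : ∀ m : ℤ, m ≠ 0 → m • y ∉ L := fun m hm h => hy (mem_rsp_iff.mpr ⟨m, hm, h⟩)
  set b := Module.Free.chooseBasis ℤ L with hb
  have hli := linearIndependent_sum_of_notMem b hy'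
  rw [← sup_span_eq b y, rk_eq (Basis.span hli), rk_eq b]
  simp

theorem rsp_sup (L M : Submodule ℤ (ι → ℤ)) : rsp (L ⊔ M) = rsp L ⊔ rsp M := by
  apply le_antisymm
  · unfold rsp
    rw [Submodule.span_le]
    rintro _ ⟨z, hz, rfl⟩
    obtain ⟨a, ha, c, hc, rfl⟩ := Submodule.mem_sup.mp hz
    rw [map_add]
    exact Submodule.add_mem_sup (ev_mem_rsp ha) (ev_mem_rsp hc)
  · exact sup_le (rsp_mono le_sup_left) (rsp_mono le_sup_right)

theorem rsp_span_singleton_le {L : Submodule ℤ (ι → ℤ)} {y : ι → ℤ} (hy : ev y ∈ rsp L) :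
    rsp (Submodule.span ℤ {y}) ≤ rsp L := by
  unfold rsp
  rw [Submodule.span_le]
  rintro _ ⟨z, hz, rfl⟩
  obtain ⟨m, rfl⟩ := Submodule.mem_span_singleton.mp hz
  rw [map_smul, ← Int.cast_smul_eq_zsmul ℝ]
  exact Submodule.smul_mem _ _ hy

theorem rk_sup_span_of_mem {L : Submodule ℤ (ι → ℤ)} {y : ι → ℤ} (hy : ev y ∈ rsp L) :
    rk (L ⊔ Submodule.span ℤ {y}) = rk L := by
  rw [← finrank_rsp, ← finrank_rsp, rsp_sup, sup_eq_left.mpr (rsp_span_singleton_le hy)]

theorem lc_sup_span {L : Submodule ℤ (ι → ℤ)} {y : ι → ℤ} (hy : ev y ∉ rsp L) :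
    lc (L ⊔ Submodule.span ℤ {y}) = lc L + Real.log (dst L (ev y)) := by
  unfold lc
  rw [dsc_sup_span hy]
  have h1 : (0 : ℝ) < dsc L := by exact_mod_cast dsc_pos L
  have h2 := dst_pos hy
  rw [Real.log_mul h1.ne' (by positivity), Real.log_pow]
  push_cast; ring

theorem lc_sup_span_of_mem {L : Submodule ℤ (ι → ℤ)} {y : ι → ℤ} (hy : ev y ∈ rsp L) :
    lc (L ⊔ Submodule.span ℤ {y}) = lc L - Real.log (ind L (L ⊔ Submodule.span ℤ {y})) := by
  have := lc_of_le (le_sup_left : L ≤ L ⊔ Submodule.span ℤ {y}) (rk_sup_span_of_mem hy).symm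
  linarith

theorem ind_sup (L M : Submodule ℤ (ι → ℤ)) : ind L (L ⊔ M) = ind L M := by
  unfold ind
  have : (L ⊔ M).toAddSubgroup = L.toAddSubgroup ⊔ M.toAddSubgroup := by
    ext x
    simp [Submodule.mem_sup, AddSubgroup.mem_sup]
  rw [this, AddSubgroup.relIndex_sup_left]

theorem ind_inf (L M : Submodule ℤ (ι → ℤ)) : ind (L ⊓ M) M = ind L M := by
  unfold ind
  have : (L ⊓ M).toAddSubgroup = L.toAddSubgroup ⊓ M.toAddSubgroup := rfl
  rw [this, AddSubgroup.inf_relIndex_right]

/-- adding one vector: diminishing returns -/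
theorem lc_diminish {L L2 : Submodule ℤ (ι → ℤ)} (h : L ≤ L2) (y : ι → ℤ)
    (hc : L2 ⊓ (L ⊔ Submodule.span ℤ {y}) ≤ L) :
    lc (L2 ⊔ Submodule.span ℤ {y}) - lc L2 ≤ lc (L ⊔ Submodule.span ℤ {y}) - lc L := by
  by_cases hy : ev y ∈ rsp L
  · have hy2 : ev y ∈ rsp L2 := rsp_mono h hy
    rw [lc_sup_span_of_mem hy, lc_sup_span_of_mem hy2, ind_sup, ind_sup, ← ind_inf L,
      ← ind_inf L2]
    have : L ⊓ Submodule.span ℤ {y} = L2 ⊓ Submodule.span ℤ {y} := by
      apply le_antisymm (inf_le_inf_right _ h)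
      exact le_inf (le_trans (inf_le_inf_left _ le_sup_right) hc) inf_le_right
    rw [this]
    linarith
  · have hy2 : ev y ∉ rsp L2 := by
      intro h2
      obtain ⟨m, hm, hmy⟩ := mem_rsp_iff.mp h2
      apply hy
      refine mem_rsp_iff.mpr ⟨m, hm, hc ⟨hmy, ?_⟩⟩
      exact Submodule.mem_sup_right (Submodule.smul_mem _ _ (Submodule.mem_span_singleton_self y))
    rw [lc_sup_span hy, lc_sup_span hy2]
    have := Real.log_le_log (dst_pos hy2) (dst_anti h (ev y))
    linarith

/-- **submodularity** of the log covolume -/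
theorem lc_submod (L M : Submodule ℤ (ι → ℤ)) : lc (L ⊔ M) + lc (L ⊓ M) ≤ lc L + lc M := by
  classical
  obtain ⟨t, ht⟩ := (IsNoetherian.noetherian M : M.FG)
  have key : ∀ s : Finset (ι → ℤ), (s : Set (ι → ℤ)) ⊆ M →
      lc (L ⊔ ((L ⊓ M) ⊔ Submodule.span ℤ (s : Set (ι → ℤ)))) - lc L ≤
        lc ((L ⊓ M) ⊔ Submodule.span ℤ (s : Set (ι → ℤ))) - lc (L ⊓ M) := by
    intro s
    induction s using Finset.induction_on with
    | empty =>
      intro _
      simp
    | insert y s hys ih =>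
      intro hs
      have hyM : y ∈ M := hs (by simp)
      have hsM : (s : Set (ι → ℤ)) ⊆ M := fun z hz => hs (by simp [hz])
      have ih' := ih hsM
      set N := (L ⊓ M) ⊔ Submodule.span ℤ (s : Set (ι → ℤ)) with hN
      have hNM : N ≤ M := sup_le inf_le_right (Submodule.span_le.mpr hsM)
      have e1 : (L ⊓ M) ⊔ Submodule.span ℤ ((insert y s : Finset (ι → ℤ)) : Set (ι → ℤ)) =
          N ⊔ Submodule.span ℤ {y} := by
        rw [Finset.coe_insert, Submodule.span_insert, hN, sup_assoc]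
        congr 1
        rw [sup_comm]
      rw [e1, ← sup_assoc]
      have hc : (L ⊔ N) ⊓ (N ⊔ Submodule.span ℤ {y}) ≤ N := by
        rintro z ⟨hz1, hz2⟩
        obtain ⟨l, hl, a, ha, rfl⟩ := Submodule.mem_sup.mp hz1
        have h2 : l + a ∈ M := (sup_le hNM (by
          rw [Submodule.span_le]; simpa using hyM)) hz2
        have h3 : l ∈ M := by
          have := M.sub_mem h2 (hNM ha)
          simpa using this
        exact N.add_mem (le_sup_left (a := L ⊓ M) ⟨hl, h3⟩) ha
      have h4 := lc_diminish (le_sup_right : N ≤ L ⊔ N) y hc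
      linarith
  have h1 := key t (by rw [← ht]; exact Submodule.subset_span)
  rw [ht, sup_eq_right.mpr (inf_le_right : L ⊓ M ≤ M)] at h1
  linarith

end Crest.Agent.R152.Lat
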