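import Mathlib
import Crest.Agent.R152.LS3
import Crest.Agent.R152.Lat2

set_option autoImplicit false
set_option linter.unusedSectionVars false

/-! Row 152, module LS (helper162's Lemma S), part 4: coordinate restriction facts. -/

open Crest.FinProb Crest.ProbabilityR.SignMatrix

namespace Crest.Agent.R152.LS

open Crest.Agent.R152.Base Crest.Agent.R152.Lat

section
variable {β : Type*} [Fintype β] [DecidableEq β]

theorem rsp_map_ext0_none (L : Submodule ℤ (β → ℤ)) {v : EuclideanSpace ℝ (Option β)}
    (hv : v ∈ rsp (L.map ext0)) : v none = 0 := by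
  have hle : rsp (L.map ext0) ≤ LinearMap.ker
      ((LinearMap.proj none : (Option β → ℝ) →ₗ[ℝ] ℝ) ∘ₗ
        (WithLp.linearEquiv 2 ℝ (Option β → ℝ)).toLinearMap) := by
    unfold rsp
    rw [Submodule.span_le]
    rintro _ ⟨z, hz, rfl⟩
    obtain ⟨y, hy, rfl⟩ := hz
    simp [LinearMap.mem_ker]
  have := hle hv
  rw [LinearMap.mem_ker] at this
  exact this

theorem le_dst_map_ext0 (L : Submodule ℤ (β → ℤ)) (y : Option β → ℤ) :
    |(y none : ℝ)| ≤ dst (L.map ext0) (ev y) := by
  unfold dst
  have h1 := rsp_map_ext0_none L ((rsp (L.map ext0)).starProjection_apply_mem (ev y))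
  have h2 := PiLp.norm_apply_le (ev y - (rsp (L.map ext0)).starProjection (ev y)) none
  rw [PiLp.sub_apply, h1, sub_zero, ev_apply, Real.norm_eq_abs] at h2
  exact h2

theorem ev_notMem_rsp_map_ext0 (L : Submodule ℤ (β → ℤ)) (y : Option β → ℤ) (hy : y none ≠ 0) :
    ev y ∉ rsp (L.map ext0) := by
  intro h
  have := rsp_map_ext0_none L h
  rw [ev_apply] at this
  exact hy (Int.cast_eq_zero.1 this)

theorem rk_sub0 (N : Submodule ℤ (Option β → ℤ)) (h : ∃ ν ∈ N, ν none ≠ 0) :
    rk N = rk (sub0 N) + 1 := by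
  obtain ⟨w, -, hw1, hw⟩ := exists_gen N h
  conv_lhs => rw [hw]
  rw [rk_sup_span (ev_notMem_rsp_map_ext0 _ w (by omega)), rk_map_ext0]

theorem lc_eq_sub0 (N : Submodule ℤ (Option β → ℤ)) {w : Option β → ℤ} (hw1 : 1 ≤ w none)
    (hw : N = (sub0 N).map ext0 ⊔ Submodule.span ℤ {w}) :
    lc N = lc (sub0 N) + Real.log (dst ((sub0 N).map ext0) (ev w)) := by
  conv_lhs => rw [hw]
  rw [lc_sup_span (ev_notMem_rsp_map_ext0 _ w (by omega)), lc_map_ext0]

theorem one_le_dst (L : Submodule ℤ (β → ℤ)) {w : Option β → ℤ} (hw1 : 1 ≤ w none) :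
    1 ≤ dst (L.map ext0) (ev w) := by
  refine le_trans ?_ (le_dst_map_ext0 L w)
  rw [abs_of_nonneg (by exact_mod_cast (by omega : 0 ≤ w none))]
  exact_mod_cast hw1

theorem lc_sub0_le (N : Submodule ℤ (Option β → ℤ)) : lc (sub0 N) ≤ lc N := by
  by_cases h : ∃ ν ∈ N, ν none ≠ 0
  · obtain ⟨w, -, hw1, hw⟩ := exists_gen N h
    rw [lc_eq_sub0 N hw1 hw]
    have := Real.log_nonneg (one_le_dst (sub0 N) hw1)
    linarith
  · push Not at h
    have hN : N = (sub0 N).map ext0 := by
      refine le_antisymm ?_ (map_sub0_le N)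
      intro y hy
      have he : ext0 (res0 y) = y := by
        funext o
        cases o with
        | none => rw [h y hy]; rfl
        | some i => rfl
      refine ⟨res0 y, ?_, he⟩
      show ext0 (res0 y) ∈ N
      rw [he]; exact hy
    conv_rhs => rw [hN]
    rw [lc_map_ext0]

/-- restriction to the old coordinates does not increase rank and covolume -/
theorem res_le (F : Submodule ℤ (Option β → ℤ)) :
    lc (F.map res0) ≤ lc F ∧ rk (F.map res0) ≤ rk F := by
  classical
  set e : Option β → ℤ := Pi.single none 1 with he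
  set E : Submodule ℤ (Option β → ℤ) := Submodule.span ℤ {e} with hE
  have hen : e none = 1 := by simp [he]
  have hsup : F ⊔ E = (F.map res0).map ext0 ⊔ Submodule.span ℤ {e} := by
    apply le_antisymm
    · refine sup_le ?_ le_sup_right
      intro y hy
      have h1 : y = ext0 (res0 y) + y none • e := by
        funext o
        cases o with
        | none => simp [hen]
        | some i => simp [he]
      rw [h1]
      exact Submodule.add_mem_sup
        (Submodule.mem_map_of_mem (Submodule.mem_map_of_mem hy))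
        (Submodule.smul_mem _ _ (Submodule.mem_span_singleton_self e))
    · refine sup_le ?_ le_sup_right
      rintro _ ⟨z, ⟨y, hy, rfl⟩, rfl⟩
      have h1 : ext0 (res0 y) = y - y none • e := by
        funext o
        cases o with
        | none => simp [hen]
        | some i => simp [he]
      rw [h1]
      exact Submodule.sub_mem _ (Submodule.mem_sup_left hy)
        (Submodule.mem_sup_right (Submodule.smul_mem _ _ (Submodule.mem_span_singleton_self e)))
  have hnot : ev e ∉ rsp ((F.map res0).map ext0) :=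
    ev_notMem_rsp_map_ext0 _ e (by rw [hen]; norm_num)
  have h1 : lc (F ⊔ E) = lc (F.map res0) + Real.log (dst ((F.map res0).map ext0) (ev e)) := by
    rw [hsup, lc_sup_span hnot, lc_map_ext0]
  have h2 : rk (F ⊔ E) = rk (F.map res0) + 1 := by
    rw [hsup, rk_sup_span hnot, rk_map_ext0]
  have h3 : 0 ≤ Real.log (dst ((F.map res0).map ext0) (ev e)) :=
    Real.log_nonneg (one_le_dst _ (by rw [hen]))
  -- the line `E`
  have hEbot : E = (⊥ : Submodule ℤ (β → ℤ)).map ext0 ⊔ Submodule.span ℤ {e} := by
    rw [Submodule.map_bot, bot_sup_eq]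
  have hnotE : ev e ∉ rsp ((⊥ : Submodule ℤ (β → ℤ)).map ext0) :=
    ev_notMem_rsp_map_ext0 _ e (by rw [hen]; norm_num)
  have h4 : rk E = 1 := by
    rw [hEbot, rk_sup_span hnotE, rk_map_ext0, rk_bot]
  have h5 : lc E ≤ 0 := by
    rw [hEbot, lc_sup_span hnotE, lc_map_ext0, lc_bot, zero_add]
    apply Real.log_nonpos (dst_nonneg _ _)
    refine (dst_le_norm _ _).trans ?_
    have : ‖ev e‖ ^ 2 = 1 := by
      rw [norm_ev_sq, he]
      simp
    nlinarith [norm_nonneg (ev e)]
  have h6 := lc_submod F E
  have h7 := rk_modular F E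
  have h8 := lc_nonneg (F ⊓ E)
  constructor
  · linarith
  · omega

end

theorem facts : Facts where
  proj β _ _ κ hκ F := by
    obtain ⟨h1, h2⟩ := res_le F
    have h3 : (rk (F.map res0) : ℝ) ≤ rk F := by exact_mod_cast h2
    have := mul_le_mul_of_nonneg_left h3 hκ
    linarith
  mono β _ _ N := lc_sub0_le N
  rank β _ _ N h := rk_sub0 N h

end Crest.Agent.R152.LS
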