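import Mathlib
import Crest.Agent.R152.LS4
import Crest.Agent.R152.Lat3

set_option autoImplicit false
set_option linter.unusedSectionVars false

/-! Row 152, module LS (helper162's Lemma S), part 5: operator norm bounds, covolume of `A N`. -/

open Crest.FinProb Crest.ProbabilityR.SignMatrix

namespace Crest.Agent.R152.LS

open Crest.Agent.R152.Base Crest.Agent.R152.Lat

section
variable {ι κ : Type*} [Fintype ι] [Fintype κ] [DecidableEq ι] [DecidableEq κ]

theorem psi_eq_Psi {K : ℝ} (hK : 0 ≤ K) (X : Submodule ℤ (ι → ℤ)) : psi K X = Psi K X := by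
  apply le_antisymm
  · exact psi_le hK (le_Fmin K X)
  · exact le_psi fun F hF => Psi_le hF

/-- real extension of an integer matrix -/
noncomputable def rm (B : Matrix κ ι ℤ) : EuclideanSpace ℝ ι →ₗ[ℝ] EuclideanSpace ℝ κ where
  toFun v := WithLp.toLp 2 (fun k => ∑ i, (B k i : ℝ) * v i)
  map_add' v w := by
    ext k
    simp only [PiLp.add_apply, mul_add, Finset.sum_add_distrib]
  map_smul' c v := by
    ext k
    simp only [PiLp.smul_apply, smul_eq_mul, RingHom.id_apply, Finset.mul_sum]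
    exact Finset.sum_congr rfl fun i _ => by ring

@[simp] theorem rm_apply (B : Matrix κ ι ℤ) (v : EuclideanSpace ℝ ι) (k : κ) :
    rm B v k = ∑ i, (B k i : ℝ) * v i := rfl

theorem rm_ev (B : Matrix κ ι ℤ) (z : ι → ℤ) : rm B (ev z) = ev (B.mulVec z) := by
  ext k
  rw [rm_apply, ev_apply, Matrix.mulVec, dotProduct]
  push_cast
  rfl

theorem norm_rm_le (B : Matrix κ ι ℤ) (hB : ∀ k i, |B k i| ≤ 1) (v : EuclideanSpace ℝ ι) :
    ‖rm B v‖ ≤ Real.sqrt (Fintype.card κ * Fintype.card ι) * ‖v‖ := by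
  have h1 : ‖rm B v‖ ^ 2 ≤ (Fintype.card κ * Fintype.card ι : ℝ) * ‖v‖ ^ 2 := by
    rw [EuclideanSpace.real_norm_sq_eq, EuclideanSpace.real_norm_sq_eq]
    have h2 : ∀ k : κ, (rm B v k) ^ 2 ≤ (Fintype.card ι : ℝ) * ∑ i, v i ^ 2 := by
      intro k
      rw [rm_apply]
      refine (Finset.sum_mul_sq_le_sq_mul_sq _ _ _).trans ?_
      have h3 : ∑ i, (B k i : ℝ) ^ 2 ≤ Fintype.card ι := by
        have h4 : ∀ i ∈ (Finset.univ : Finset ι), (B k i : ℝ) ^ 2 ≤ 1 := by
          intro i _
          have h5 : |(B k i : ℝ)| ≤ 1 := by exact_mod_cast hB k i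
          rw [← sq_abs]
          nlinarith [abs_nonneg (B k i : ℝ)]
        refine (Finset.sum_le_sum h4).trans ?_
        simp
      exact mul_le_mul_of_nonneg_right h3 (Finset.sum_nonneg fun i _ => sq_nonneg _)
    refine (Finset.sum_le_sum fun k _ => h2 k).trans ?_
    rw [Finset.sum_const, Finset.card_univ, nsmul_eq_mul]
    linarith [mul_assoc (Fintype.card κ : ℝ) (Fintype.card ι : ℝ) (∑ i, v i ^ 2)]
  have h2 := Real.sqrt_le_sqrt h1
  rw [Real.sqrt_sq (norm_nonneg _), Real.sqrt_mul (by positivity), Real.sqrt_sq (norm_nonneg _)]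
    at h2
  exact h2

theorem rsp_map_le {T : (ι → ℤ) →ₗ[ℤ] (κ → ℤ)} {S : EuclideanSpace ℝ ι →ₗ[ℝ] EuclideanSpace ℝ κ}
    (hS : ∀ z, S (ev z) = ev (T z)) (L : Submodule ℤ (ι → ℤ)) {v : EuclideanSpace ℝ ι}
    (hv : v ∈ rsp L) : S v ∈ rsp (L.map T) := by
  have h1 : rsp L ≤ (rsp (L.map T)).comap S := by
    unfold rsp
    rw [Submodule.span_le]
    rintro _ ⟨z, hz, rfl⟩
    show S (ev z) ∈ rsp (L.map T)
    rw [hS]
    exact Submodule.subset_span ⟨T z, Submodule.mem_map_of_mem hz, rfl⟩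
  exact h1 hv

theorem dst_map_le {T : (ι → ℤ) →ₗ[ℤ] (κ → ℤ)} {S : EuclideanSpace ℝ ι →ₗ[ℝ] EuclideanSpace ℝ κ}
    (hS : ∀ z, S (ev z) = ev (T z)) {M : ℝ} (hM : ∀ v, ‖S v‖ ≤ M * ‖v‖)
    (L : Submodule ℤ (ι → ℤ)) (v : EuclideanSpace ℝ ι) : dst (L.map T) (S v) ≤ M * dst L v := by
  have h1 := rsp_map_le hS L ((rsp L).starProjection_apply_mem v)
  refine (dst_le_sub (L.map T) (S v) h1).trans ?_
  rw [← map_sub]
  exact hM _

theorem notMem_rsp_of_li {α γ : Type*} [Fintype γ] {g : α → γ → ℤ} (hg : LinearIndependent ℤ g)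
    (s : Set α) {k : α} (hk : k ∉ s) : ev (g k) ∉ rsp (Submodule.span ℤ (g '' s)) := by
  intro hmem
  rw [mem_rsp_iff] at hmem
  obtain ⟨m, hm, hmk⟩ := hmem
  obtain ⟨l, hl, hlk⟩ := (Finsupp.mem_span_image_iff_linearCombination ℤ).1 hmk
  have h1 : Finsupp.linearCombination ℤ g (Finsupp.single k m) =
      Finsupp.linearCombination ℤ g l := by
    rw [hlk, Finsupp.linearCombination_single]
  have h2 := hg h1
  have h3 : l k = 0 := by
    by_contra h0
    exact hk ((Finsupp.mem_supported ℤ l).1 hl (Finsupp.mem_support_iff.2 h0))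
  rw [← h2, Finsupp.single_eq_same] at h3
  exact hm h3

/-- covolume of the image under an injective bounded map -/
theorem lc_map_le {T : (ι → ℤ) →ₗ[ℤ] (κ → ℤ)} (hT : Function.Injective T)
    {S : EuclideanSpace ℝ ι →ₗ[ℝ] EuclideanSpace ℝ κ}
    (hS : ∀ z, S (ev z) = ev (T z)) {M : ℝ} (hM0 : 0 < M) (hM : ∀ v, ‖S v‖ ≤ M * ‖v‖)
    (L : Submodule ℤ (ι → ℤ)) : lc (L.map T) ≤ lc L + rk L * Real.log M := by
  classical
  set b := Module.Free.chooseBasis ℤ L with hb
  set f : Module.Free.ChooseBasisIndex ℤ L → ι → ℤ := fun i => (b i : ι → ℤ) with hf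
  have hli : LinearIndependent ℤ f := basis_linearIndependent b
  have hli2 : LinearIndependent ℤ (T ∘ f) := hli.map' T (LinearMap.ker_eq_bot.2 hT)
  have key : ∀ s : Finset (Module.Free.ChooseBasisIndex ℤ L),
      lc (Submodule.span ℤ ((T ∘ f) '' (s : Set _))) ≤
        lc (Submodule.span ℤ (f '' (s : Set _))) + s.card * Real.log M := by
    intro s
    induction s using Finset.induction_on with
    | empty => simp
    | insert k s hk ih =>
      have e1 : Submodule.span ℤ (f '' ((insert k s : Finset _) : Set _)) =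
          Submodule.span ℤ (f '' (s : Set _)) ⊔ Submodule.span ℤ {f k} := by
        rw [Finset.coe_insert, Set.image_insert_eq, Submodule.span_insert, sup_comm]
      have e2 : Submodule.span ℤ ((T ∘ f) '' ((insert k s : Finset _) : Set _)) =
          Submodule.span ℤ ((T ∘ f) '' (s : Set _)) ⊔ Submodule.span ℤ {(T ∘ f) k} := by
        rw [Finset.coe_insert, Set.image_insert_eq, Submodule.span_insert, sup_comm]
      have e3 : Submodule.span ℤ ((T ∘ f) '' (s : Set _)) =
          (Submodule.span ℤ (f '' (s : Set _))).map T := by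
        rw [Submodule.map_span, Set.image_comp]
      have n1 := notMem_rsp_of_li hli (s : Set _) (k := k) (by simpa using hk)
      have n2 := notMem_rsp_of_li hli2 (s : Set _) (k := k) (by simpa using hk)
      rw [e1, e2, lc_sup_span n1, lc_sup_span n2, Finset.card_insert_of_notMem hk]
      have h1 : dst (Submodule.span ℤ ((T ∘ f) '' (s : Set _))) (ev ((T ∘ f) k)) ≤
          M * dst (Submodule.span ℤ (f '' (s : Set _))) (ev (f k)) := by
        rw [e3]
        have := dst_map_le hS hM (Submodule.span ℤ (f '' (s : Set _))) (ev (f k))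
        rwa [hS] at this
      have hp1 := dst_pos n2
      have hp2 := dst_pos n1
      have h2 := Real.log_le_log hp1 h1
      rw [Real.log_mul hM0.ne' hp2.ne'] at h2
      push_cast
      linarith
  have hspan : L = Submodule.span ℤ (f '' ((Finset.univ : Finset
      (Module.Free.ChooseBasisIndex ℤ L)) : Set (Module.Free.ChooseBasisIndex ℤ L))) := by
    rw [Finset.coe_univ, Set.image_univ]
    have h1 := b.span_eq
    have h2 := congrArg (Submodule.map L.subtype) h1
    rw [Submodule.map_span, Submodule.map_top, Submodule.range_subtype, ← Set.range_comp] at h2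
    exact h2.symm
  have h3 := key Finset.univ
  have h4 : Submodule.span ℤ ((T ∘ f) '' ((Finset.univ : Finset
      (Module.Free.ChooseBasisIndex ℤ L)) : Set (Module.Free.ChooseBasisIndex ℤ L))) =
      L.map T := by
    conv_rhs => rw [hspan]
    rw [Submodule.map_span, Set.image_comp]
  rw [h4, ← hspan, Finset.card_univ, ← rk_eq b] at h3
  exact h3

end

section
variable {ι : Type*} [Fintype ι] [DecidableEq ι]

theorem rsp_coord {γ : Type*} [Fintype γ] {L : Submodule ℤ (γ → ℤ)} {k : γ}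
    (hL : ∀ x ∈ L, x k = 0) {v : EuclideanSpace ℝ γ} (hv : v ∈ rsp L) : v k = 0 := by
  have hle : rsp L ≤ LinearMap.ker
      ((LinearMap.proj k : (γ → ℝ) →ₗ[ℝ] ℝ) ∘ₗ
        (WithLp.linearEquiv 2 ℝ (γ → ℝ)).toLinearMap) := by
    unfold rsp
    rw [Submodule.span_le]
    rintro _ ⟨z, hz, rfl⟩
    have := hL z hz
    simp [LinearMap.mem_ker, this]
  have := hle hv
  rw [LinearMap.mem_ker] at this
  exact this

theorem le_dst_of_coord {γ : Type*} [Fintype γ] {L : Submodule ℤ (γ → ℤ)} {k : γ}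
    (hL : ∀ x ∈ L, x k = 0) (y : γ → ℤ) : |(y k : ℝ)| ≤ dst L (ev y) := by
  unfold dst
  have h1 := rsp_coord hL ((rsp L).starProjection_apply_mem (ev y))
  have h2 := PiLp.norm_apply_le (ev y - (rsp L).starProjection (ev y)) k
  rw [PiLp.sub_apply, h1, sub_zero, ev_apply, Real.norm_eq_abs] at h2
  exact h2

/-- adding a vector which is the only one with a nonzero `k`-coordinate does not decrease `lc` -/
theorem lc_le_sup_of_coord {γ : Type*} [Fintype γ] {L : Submodule ℤ (γ → ℤ)} {k : γ}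
    (hL : ∀ x ∈ L, x k = 0) {y : γ → ℤ} (hy : y k ≠ 0) :
    lc L ≤ lc (L ⊔ Submodule.span ℤ {y}) := by
  have hn : ev y ∉ rsp L := by
    intro h
    have := rsp_coord hL h
    rw [ev_apply] at this
    exact hy (Int.cast_eq_zero.1 this)
  rw [lc_sup_span hn]
  have h1 : (1 : ℝ) ≤ |(y k : ℝ)| := by
    have : (1 : ℤ) ≤ |y k| := Int.one_le_abs hy
    exact_mod_cast this
  have := Real.log_nonneg (h1.trans (le_dst_of_coord hL y))
  linarith

/-- extension by zero to the second summand -/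
def inrM : (ι → ℤ) →ₗ[ℤ] (ι ⊕ ι → ℤ) where
  toFun x := Sum.elim 0 x
  map_add' x y := by funext o; cases o <;> simp
  map_smul' c x := by funext o; cases o <;> simp

@[simp] theorem inrM_inl (x : ι → ℤ) (i : ι) : inrM x (Sum.inl i) = 0 := rfl
@[simp] theorem inrM_inr (x : ι → ℤ) (i : ι) : inrM x (Sum.inr i) = x i := rfl

theorem inrM_injective : Function.Injective (inrM : (ι → ℤ) →ₗ[ℤ] (ι ⊕ ι → ℤ)) := by
  intro x y h
  funext i
  have := congrFun h (Sum.inr i)
  simpa using this

theorem lc_map_inrM (L : Submodule ℤ (ι → ℤ)) : lc (L.map inrM) = lc L := by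
  classical
  let b := Module.Free.chooseBasis ℤ L
  let e := Submodule.equivMapOfInjective inrM inrM_injective L
  unfold lc
  rw [dsc_eq b, dsc_eq (b.map e)]
  have : gm (fun i => ((b.map e i : L.map inrM) : ι ⊕ ι → ℤ)) =
      gm (fun i => (b i : ι → ℤ)) := by
    ext i j
    have h : ∀ i, ((b.map e i : L.map inrM) : ι ⊕ ι → ℤ) = inrM (b i : ι → ℤ) := by
      intro i
      simp [e, Submodule.coe_equivMapOfInjective_apply]
    rw [gm_apply, gm_apply, h, h]
    simp [dotProduct, Fintype.sum_sum_type]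
  rw [this]

/-- the lattice of the coordinates in `s` of the first summand -/
def Es (s : Finset ι) : Submodule ℤ (ι ⊕ ι → ℤ) :=
  Submodule.span ℤ ((fun k : ι => (Pi.single (Sum.inl k) 1 : ι ⊕ ι → ℤ)) '' (s : Set ι))

theorem Es_insert (s : Finset ι) (k : ι) : Es (insert k s) =
    Es s ⊔ Submodule.span ℤ {(Pi.single (Sum.inl k) 1 : ι ⊕ ι → ℤ)} := by
  unfold Es
  rw [Finset.coe_insert, Set.image_insert_eq, Submodule.span_insert, sup_comm]

theorem lc_sup_Es_le (Γ : Submodule ℤ (ι ⊕ ι → ℤ)) (s : Finset ι) : lc (Γ ⊔ Es s) ≤ lc Γ := by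
  induction s using Finset.induction_on with
  | empty => simp [Es]
  | insert k s hk ih =>
    rw [Es_insert, ← sup_assoc]
    have hne : (Pi.single (Sum.inl k) 1 : ι ⊕ ι → ℤ) ≠ 0 := by
      intro h
      have := congrFun h (Sum.inl k)
      simp at this
    refine (lc_sup_span_le _ hne).trans ?_
    have h1 : ‖ev (Pi.single (Sum.inl k) 1 : ι ⊕ ι → ℤ)‖ = 1 := by
      have h2 : ‖ev (Pi.single (Sum.inl k) 1 : ι ⊕ ι → ℤ)‖ ^ 2 = 1 := by
        rw [norm_ev_sq]; simp
      nlinarith [norm_nonneg (ev (Pi.single (Sum.inl k) 1 : ι ⊕ ι → ℤ))]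
    rw [h1, Real.log_one, add_zero]
    exact ih

theorem lc_le_sup_Es (L : Submodule ℤ (ι → ℤ)) (s : Finset ι) :
    lc L ≤ lc (L.map inrM ⊔ Es s) := by
  induction s using Finset.induction_on with
  | empty => simp [Es, lc_map_inrM]
  | insert k s hk ih =>
    rw [Es_insert, ← sup_assoc]
    refine ih.trans (lc_le_sup_of_coord (k := Sum.inl k) ?_ (by simp))
    intro x hx
    obtain ⟨a, ha, c, hc, rfl⟩ := Submodule.mem_sup.1 hx
    have h1 : a (Sum.inl k) = 0 := by
      obtain ⟨z, -, rfl⟩ := ha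
      rfl
    have h2 : c (Sum.inl k) = 0 := by
      have hle : Es s ≤ LinearMap.ker (LinearMap.proj (Sum.inl k) : (ι ⊕ ι → ℤ) →ₗ[ℤ] ℤ) := by
        unfold Es
        rw [Submodule.span_le]
        rintro _ ⟨j, hj, rfl⟩
        have hjk : j ≠ k := by
          rintro rfl
          exact hk (by simpa using hj)
        simp [LinearMap.mem_ker, hjk.symm]
      exact hle hc
    rw [Pi.add_apply, h1, h2, add_zero]

/-- covolume of `A N` for a matrix with small entries (possibly singular) -/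
theorem lc_act_le (A : Matrix ι ι ℤ) (hA : ∀ i j, |A i j| ≤ 1) (N : Submodule ℤ (ι → ℤ)) {m : ℝ}
    (hm0 : 0 < m) (hm : Real.sqrt (Fintype.card (ι ⊕ ι) * Fintype.card ι) ≤ m) :
    lc (act A N) ≤ lc N + rk N * Real.log m := by
  classical
  set B : Matrix (ι ⊕ ι) ι ℤ := Matrix.fromRows 1 A with hB
  have hTl : ∀ (z : ι → ℤ) (i : ι), B.mulVecLin z (Sum.inl i) = z i := by
    intro z i
    simp [hB, Matrix.mulVecLin_apply, Matrix.fromRows_mulVec]
  have hTr : ∀ (z : ι → ℤ) (i : ι), B.mulVecLin z (Sum.inr i) = A.mulVec z i := by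
    intro z i
    simp [hB, Matrix.mulVecLin_apply, Matrix.fromRows_mulVec]
  have hinj : Function.Injective B.mulVecLin := by
    intro x y h
    funext i
    rw [← hTl x i, ← hTl y i, h]
  have hBent : ∀ k i, |B k i| ≤ 1 := by
    intro k i
    cases k with
    | inl k =>
      show |(1 : Matrix ι ι ℤ) k i| ≤ 1
      rw [Matrix.one_apply]
      split_ifs <;> simp
    | inr k => exact hA k i
  have h1 := lc_map_le hinj (S := rm B) (fun z => rm_ev B z) hm0
    (fun v => (norm_rm_le B hBent v).trans (mul_le_mul_of_nonneg_right hm (norm_nonneg _))) N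
  refine le_trans ?_ h1
  refine (lc_le_sup_Es (act A N) Finset.univ).trans ?_
  have h2 : (act A N).map inrM ⊔ Es Finset.univ ≤ N.map B.mulVecLin ⊔ Es Finset.univ ∧
      N.map B.mulVecLin ⊔ Es Finset.univ ≤ (act A N).map inrM ⊔ Es Finset.univ := by
    have hE : ∀ x : ι ⊕ ι → ℤ, (∀ i, x (Sum.inr i) = 0) → x ∈ Es (Finset.univ : Finset ι) := by
      intro x hx
      have hx2 : x = ∑ k : ι, x (Sum.inl k) • (Pi.single (Sum.inl k) 1 : ι ⊕ ι → ℤ) := by
        funext o
        cases o with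
        | inl i => simp [Finset.sum_apply, Pi.single_apply]
        | inr i => simp [Finset.sum_apply, hx]
      rw [hx2]
      refine Submodule.sum_mem _ fun k _ => Submodule.smul_mem _ _ ?_
      exact Submodule.subset_span ⟨k, by simp, rfl⟩
    constructor
    · refine sup_le ?_ le_sup_right
      rintro _ ⟨_, ⟨z, hz, rfl⟩, rfl⟩
      have h3 : inrM (A.mulVecLin z) = B.mulVecLin z + (inrM (A.mulVecLin z) - B.mulVecLin z) := by
        abel
      rw [h3]
      refine Submodule.add_mem_sup (Submodule.mem_map_of_mem hz) (hE _ fun i => ?_)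
      rw [Pi.sub_apply, hTr, inrM_inr]
      simp
    · refine sup_le ?_ le_sup_right
      rintro _ ⟨z, hz, rfl⟩
      have h3 : B.mulVecLin z = inrM (A.mulVecLin z) + (B.mulVecLin z - inrM (A.mulVecLin z)) := by
        abel
      rw [h3]
      refine Submodule.add_mem_sup
        (Submodule.mem_map_of_mem (Submodule.mem_map_of_mem hz)) (hE _ fun i => ?_)
      rw [Pi.sub_apply, hTr, inrM_inr]
      simp
  rw [le_antisymm h2.1 h2.2]
  exact lc_sup_Es_le _ _

theorem rk_map_le {κ : Type*} [Fintype κ] (T : (ι → ℤ) →ₗ[ℤ] (κ → ℤ))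
    (N : Submodule ℤ (ι → ℤ)) : rk (N.map T) ≤ rk N := by
  unfold rk
  exact Submodule.finrank_map_le T N

end

end Crest.Agent.R152.LS
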