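import Mathlib
import Crest.Agent.R152.LS5

set_option autoImplicit false
set_option linter.unusedSectionVars false

/-! Row 152, module LS (helper162's Lemma S), part 6: Lemma S from the one-step claim. -/

open Crest.FinProb Crest.ProbabilityR.SignMatrix

namespace Crest.Agent.R152.LS

open Crest.Agent.R152.Base Crest.Agent.R152.Lat

/-- The one-step claim (helper344's module). -/
def OneStep (p c d K0 : ℝ) : Prop :=
  ∃ c2 : ℝ, 0 < c2 ∧ ∃ n0 : ℕ, ∀ n : ℕ, n0 ≤ n → ∀ K : ℝ, K0 ≤ K →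
    ∀ (β : Type) [Fintype β] [DecidableEq β], Fintype.card β ≤ n →
    ∀ X : Submodule ℤ (β → ℤ), rk X + c * n ≤ Fintype.card β → lc X ≤ 2 * n * Real.log n →
    ∀ (s0 : β → ℤ) (τ : ℤ), 1 ≤ τ →
    (∀ x : β → Bool, dst X (ev (s0 + τ • fun i => sg (x i))) ≤ (n : ℝ) ^ 3) →
    bernoulliProb p {x : β → Bool |
      Psi (K * Real.log n) (X ⊔ Submodule.span ℤ {s0 + τ • fun i => sg (x i)}) <
        Psi (K * Real.log n) X + (K + 1 / 2 - d) * Real.log n} ≤ Real.exp (-(c2 * n))

theorem abs_sg_le (c : Bool) : |sg c| ≤ 1 := by cases c <;> simp [sg]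

/-- the step hypothesis of the chain follows from the one-step claim -/
theorem stepOK_of {p c d K0 K c2 : ℝ} {n n0 k0 : ℕ} (hK : 0 ≤ K)
    (h1 : ∀ n : ℕ, n0 ≤ n → ∀ K : ℝ, K0 ≤ K →
    ∀ (β : Type) [Fintype β] [DecidableEq β], Fintype.card β ≤ n →
    ∀ X : Submodule ℤ (β → ℤ), rk X + c * n ≤ Fintype.card β → lc X ≤ 2 * n * Real.log n →
    ∀ (s0 : β → ℤ) (τ : ℤ), 1 ≤ τ →
    (∀ x : β → Bool, dst X (ev (s0 + τ • fun i => sg (x i))) ≤ (n : ℝ) ^ 3) →
    bernoulliProb p {x : β → Bool |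
      Psi (K * Real.log n) (X ⊔ Submodule.span ℤ {s0 + τ • fun i => sg (x i)}) <
        Psi (K * Real.log n) X + (K + 1 / 2 - d) * Real.log n} ≤ Real.exp (-(c2 * n)))
    (hn0 : n0 ≤ n) (hKK : K0 ≤ K) (hn4 : 4 ≤ n) (hk0 : c * n ≤ k0) {ε0 : ℝ} (hε : ε0 ≤ 1 / 2) :
    StepOK p (K * Real.log n) ((K + 1 / 2 - d) * Real.log n) (Real.exp (-(c2 * n)))
      (Real.log n) (ε0 * n * Real.log n) n k0 := by
  intro β _ _ N hcard hν hrk hlc hgood b dd
  have hn1 : (1 : ℝ) ≤ n := by exact_mod_cast (by omega : 1 ≤ n)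
  have hn4' : (4 : ℝ) ≤ n := by exact_mod_cast hn4
  have hL : 0 ≤ Real.log n := Real.log_nonneg hn1
  have hκ : 0 ≤ K * Real.log n := mul_nonneg hK hL
  obtain ⟨w, hwN, hw1, hw⟩ := exists_gen N hν
  set X := act (symMat b) (sub0 N) with hX
  have hA : ∀ i j, |symMat b i j| ≤ 1 := fun i j => abs_sg_le _
  have hrkX : rk X ≤ rk (sub0 N) := rk_map_le _ _
  have hcβ : (Fintype.card β : ℝ) + 1 ≤ n := by exact_mod_cast hcard
  have hlog4 : Real.log 2 ≤ Real.log n / 2 := by
    have e1 : Real.log 4 = 2 * Real.log 2 := by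
      rw [show (4 : ℝ) = 2 ^ 2 by norm_num, Real.log_pow]; norm_num
    have e2 := Real.log_le_log (by norm_num : (0:ℝ) < 4) hn4'
    linarith
  -- covolume of `X`
  have hlcX : lc X ≤ 2 * n * Real.log n := by
    have hm : Real.sqrt (Fintype.card (β ⊕ β) * Fintype.card β) ≤ 2 * n := by
      rw [Real.sqrt_le_left (by positivity)]
      have : (Fintype.card (β ⊕ β) : ℝ) = 2 * Fintype.card β := by
        rw [Fintype.card_sum]; push_cast; ring
      rw [this]
      have h0 : (0 : ℝ) ≤ Fintype.card β := Nat.cast_nonneg _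
      nlinarith
    have h2 := lc_act_le (symMat b) hA (sub0 N) (by positivity : (0 : ℝ) < 2 * n) hm
    have h3 := lc_sub0_le N
    have h4 : (rk (sub0 N) : ℝ) ≤ n := by
      have := rk_le_card (sub0 N)
      have h5 : (rk (sub0 N) : ℝ) ≤ Fintype.card β := by exact_mod_cast this
      linarith
    have h6 : Real.log (2 * n) = Real.log 2 + Real.log n :=
      Real.log_mul (by norm_num) (by positivity)
    have h7 : 0 ≤ Real.log (2 * (n : ℝ)) := Real.log_nonneg (by linarith)
    have h8 : (rk (sub0 N) : ℝ) * Real.log (2 * n) ≤ n * Real.log (2 * n) :=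
      mul_le_mul_of_nonneg_right h4 h7
    have h9 : ε0 * n * Real.log n ≤ 1 / 2 * n * Real.log n := by
      have := mul_le_mul_of_nonneg_right (mul_le_mul_of_nonneg_right hε
        (by positivity : (0:ℝ) ≤ n)) hL
      exact this
    have h10 : (n : ℝ) * Real.log (2 * n) ≤ n * (Real.log n / 2 + Real.log n) := by
      rw [h6]
      exact mul_le_mul_of_nonneg_left (by linarith) (by positivity)
    linarith
  -- distance
  have hdst : ∀ x : β → Bool,
      dst X (ev ((symMat b).mulVec (res0 w) + w none • fun i => sg (x i))) ≤ (n : ℝ) ^ 3 := by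
    intro x
    have hd1 : dst ((sub0 N).map ext0) (ev w) ≤ n := by
      have h2 := lc_eq_sub0 N hw1 hw
      have h3 : Real.log (dst ((sub0 N).map ext0) (ev w)) ≤ Real.log n := by linarith
      have h4 := one_le_dst (sub0 N) hw1
      exact (Real.log_le_log_iff (by linarith) (by linarith)).1 h3
    set B : Matrix β (Option β) ℤ := (symMat (glue b x true)).submatrix some id with hB
    have hBent : ∀ k i, |B k i| ≤ 1 := fun k i => abs_sg_le _
    have hBw : B.mulVec w = (symMat b).mulVec (res0 w) + w none • fun i => sg (x i) := by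
      funext i
      rw [Pi.add_apply, Pi.smul_apply, smul_eq_mul, ← sg_mulVec_glue b x true w i]
      rfl
    have hBX : ((sub0 N).map ext0).map B.mulVecLin = X := by
      rw [hX]
      unfold act
      rw [← Submodule.map_comp]
      congr 1
      refine LinearMap.ext fun y => ?_
      funext i
      simp only [LinearMap.comp_apply, Matrix.mulVecLin_apply]
      have h5 : B.mulVec (ext0 y) i = (symMat (glue b x true)).mulVec (ext0 y) (some i) := rfl
      rw [h5, sg_mulVec_glue]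
      simp only [ext0_none, zero_mul, add_zero]
      congr 1
    have h6 := dst_map_le (T := B.mulVecLin) (S := rm B) (fun z => rm_ev B z)
      (norm_rm_le B hBent) ((sub0 N).map ext0) (ev w)
    rw [hBX, rm_ev, hBw, Fintype.card_option] at h6
    refine h6.trans ?_
    have h7 : Real.sqrt ((Fintype.card β : ℝ) * ((Fintype.card β + 1 : ℕ) : ℝ)) ≤ n := by
      rw [Real.sqrt_le_left (by linarith)]
      push_cast
      have h0 : (0 : ℝ) ≤ Fintype.card β := Nat.cast_nonneg _
      nlinarith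
    have h8 : 0 ≤ dst ((sub0 N).map ext0) (ev w) := dst_nonneg _ _
    calc Real.sqrt ((Fintype.card β : ℝ) * ((Fintype.card β + 1 : ℕ) : ℝ)) *
          dst ((sub0 N).map ext0) (ev w) ≤ n * n := by gcongr
      _ ≤ (n : ℝ) ^ 3 := by nlinarith [mul_self_nonneg ((n : ℝ)), mul_nonneg (by linarith : (0:ℝ) ≤ n) (by linarith : (0:ℝ) ≤ n)]
  have hrkreal : (rk X : ℝ) + c * n ≤ Fintype.card β := by
    have h2 : (k0 : ℝ) + rk (sub0 N) ≤ Fintype.card β := by exact_mod_cast hrk
    have h3 : (rk X : ℝ) ≤ rk (sub0 N) := by exact_mod_cast hrkX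
    linarith
  have hfin := h1 n hn0 K hKK β (by omega) X hrkreal hlcX ((symMat b).mulVec (res0 w)) (w none)
    hw1 hdst
  have heq : {x : β → Bool | psi (K * Real.log n) ((act (symMat (glue b x dd)) N).map res0) <
      psi (K * Real.log n) X + (K + 1 / 2 - d) * Real.log n} =
      {x : β → Bool | Psi (K * Real.log n) (X ⊔ Submodule.span ℤ
        {(symMat b).mulVec (res0 w) + w none • fun i => sg (x i)}) <
        Psi (K * Real.log n) X + (K + 1 / 2 - d) * Real.log n} := by
    ext x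
    have e1 : psi (K * Real.log n) ((act (symMat (glue b x dd)) N).map res0) =
        Psi (K * Real.log n) (X ⊔ Submodule.span ℤ
          {(symMat b).mulVec (res0 w) + w none • fun i => sg (x i)}) := by
      rw [res_act b x dd N w hw, psi_eq_Psi hκ]
    have e2 : psi (K * Real.log n) X = Psi (K * Real.log n) X := psi_eq_Psi hκ X
    simp only [Set.mem_ofPred_eq, e1, e2]
  rw [heq]
  exact hfin

/-- **Lemma S** (for a fixed lattice `N`), from the one-step claim. -/
theorem lemmaS_of {p c K0 : ℝ} (hp0 : 0 ≤ p) (hp1 : p ≤ 1) (hK0 : 0 ≤ K0)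
    (hone : ∀ d : ℝ, 0 < d → OneStep p c d K0) {K η : ℝ} (hK : K0 ≤ K) (hη : 0 < η) :
    ∃ ε0 : ℝ, 0 < ε0 ∧ ∃ c1 : ℝ, 0 < c1 ∧ ∃ n0 : ℕ, ∀ n : ℕ, n0 ≤ n →
      ∀ (ι : Type) [Fintype ι] [DecidableEq ι], Fintype.card ι = n →
      ∀ N : Submodule ℤ (ι → ℤ), rk N + c * n ≤ n → lc N ≤ ε0 * n * Real.log n →
      bernoulliProb p {b : Sym2 ι → Bool | Psi (K * Real.log n) (act (symMat b) N) ≤
        ((K + 1 / 2) * rk N - η * n) * Real.log n} ≤ Real.exp (-(c1 * n ^ 2)) := by
  have hKpos : 0 ≤ K := hK0.trans hK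
  set η' : ℝ := min η 1 with hη'
  have hη'0 : 0 < η' := lt_min hη one_pos
  have hη'1 : η' ≤ 1 := min_le_right _ _
  have hη'η : η' ≤ η := min_le_left _ _
  obtain ⟨c2, hc2, n1, hstep⟩ := hone (η' / 4) (by positivity)
  have hK2 : 0 < K + 1 / 2 := by linarith
  set ε0 : ℝ := min (1 / 2) (η' / (4 * (K + 1 / 2))) with hε0
  have hε0pos : 0 < ε0 := lt_min (by norm_num) (by positivity)
  set c1 : ℝ := c2 * η' / (4 * (K + 1 / 2)) with hc1
  have hc1pos : 0 < c1 := by positivity
  obtain ⟨n2, hn2⟩ := exists_nat_ge (Real.log 2 / c1)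
  refine ⟨ε0, hε0pos, c1, hc1pos, max (max n1 4) n2, ?_⟩
  intro n hn ι _ _ hcard N hrk hlc
  have hnn1 : n1 ≤ n := (le_max_left _ _).trans ((le_max_left _ _).trans hn)
  have hn4 : 4 ≤ n := (le_max_right _ _).trans ((le_max_left _ _).trans hn)
  have hnn2 : n2 ≤ n := (le_max_right _ _).trans hn
  have hn4' : (4 : ℝ) ≤ n := by exact_mod_cast hn4
  have hLpos : 0 < Real.log n := Real.log_pos (by linarith)
  have hκ : 0 ≤ K * Real.log n := mul_nonneg hKpos hLpos.le
  have hTc : 0 < K + 1 / 2 - η' / 4 := by linarith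
  set T : ℝ := (K + 1 / 2 - η' / 4) * Real.log n with hT
  have hTpos : 0 < T := mul_pos hTc hLpos
  set θ : ℝ := c2 * n / T with hθ
  have hθpos : 0 < θ := by positivity
  have hθT : θ * T = c2 * n := by rw [hθ, div_mul_cancel₀ _ hTpos.ne']
  have hS := stepOK_of (p := p) (c := c) (d := η' / 4) (K0 := K0) (K := K) (c2 := c2) (n := n)
    (k0 := ⌈c * n⌉₊) (ε0 := ε0) hKpos hstep hnn1 hK hn4 (Nat.le_ceil _) (min_le_left _ _)
  have hk : ⌈c * (n : ℝ)⌉₊ + rk N ≤ Fintype.card ι := by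
    rw [hcard]
    have h1 : c * (n : ℝ) ≤ ((n - rk N : ℕ) : ℝ) := by
      have h2 : rk N ≤ n := by rw [← hcard]; exact rk_le_card N
      rw [Nat.cast_sub h2]
      linarith
    have h3 := Nat.ceil_le.2 h1
    have h2 : rk N ≤ n := by rw [← hcard]; exact rk_le_card N
    omega
  have hchain := chain facts hp0 hp1 hκ hTpos.le hLpos hθpos.le
    (by rw [hθT, ← Real.exp_add]; simp) hS (rk N) ι N rfl hcard.le hk hlc
  -- Markov
  set G : (Sym2 ι → Bool) → ℝ := fun b =>
    Real.exp (θ * (T * rk N - psi (K * Real.log n) (act (symMat b) N))) with hG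
  set t : ℝ := Real.exp (θ * (3 / 4 * η' * n * Real.log n)) with ht
  have hrkn : (rk N : ℝ) ≤ n := by
    have : rk N ≤ n := by rw [← hcard]; exact rk_le_card N
    exact_mod_cast this
  have hsub : {b : Sym2 ι → Bool | Psi (K * Real.log n) (act (symMat b) N) ≤
        ((K + 1 / 2) * rk N - η * n) * Real.log n} ⊆ {b | t ≤ G b} := by
    intro b hb
    have hb' : Psi (K * Real.log n) (act (symMat b) N) ≤
        ((K + 1 / 2) * rk N - η * n) * Real.log n := hb
    show t ≤ G b
    rw [ht, hG]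
    apply Real.exp_le_exp.2
    refine mul_le_mul_of_nonneg_left ?_ hθpos.le
    rw [psi_eq_Psi hκ, hT]
    have h1 : η' / 4 * rk N * Real.log n ≤ η' / 4 * n * Real.log n := by gcongr
    have h2 : η' * n * Real.log n ≤ η * n * Real.log n := by gcongr
    nlinarith
  refine (prob_mono hp0 hp1 hsub).trans ?_
  refine (markov hp0 hp1 (fun b => (Real.exp_pos _).le) (Real.exp_pos _)).trans ?_
  rw [div_le_iff₀ (Real.exp_pos _)]
  refine hchain.trans ?_
  -- numerics
  have e1 : θ * (T / Real.log n) * lc N ≤ c2 * ε0 * n ^ 2 := by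
    have h1 : θ * (T / Real.log n) = c2 * n / Real.log n := by
      rw [← mul_div_assoc, hθT]
    rw [h1]
    have h2 : c2 * n / Real.log n * lc N ≤ c2 * n / Real.log n * (ε0 * n * Real.log n) :=
      mul_le_mul_of_nonneg_left hlc (by positivity)
    refine h2.trans (le_of_eq ?_)
    field_simp
  have e2 : c2 * ε0 * n ^ 2 ≤ c1 * n ^ 2 := by
    have h1 : c2 * ε0 ≤ c1 := by
      rw [hc1, mul_div_assoc]
      exact mul_le_mul_of_nonneg_left (min_le_right _ _) hc2.le
    exact mul_le_mul_of_nonneg_right h1 (by positivity)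
  have e3 : 3 * c1 * n ^ 2 ≤ θ * (3 / 4 * η' * n * Real.log n) := by
    have h1 : θ * (3 / 4 * η' * n * Real.log n) =
        c2 * (3 / 4) * η' * n ^ 2 / (K + 1 / 2 - η' / 4) := by
      rw [hθ, hT]
      field_simp
    rw [h1, hc1, le_div_iff₀ hTc]
    have h2 : 3 * (c2 * η' / (4 * (K + 1 / 2))) * n ^ 2 * (K + 1 / 2 - η' / 4) ≤
        3 * (c2 * η' / (4 * (K + 1 / 2))) * n ^ 2 * (K + 1 / 2) := by
      apply mul_le_mul_of_nonneg_left (by linarith) (by positivity)
    refine h2.trans (le_of_eq ?_)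
    field_simp
  have e4 : Real.log 2 * n ≤ c1 * n ^ 2 := by
    have h1 : Real.log 2 / c1 ≤ n := hn2.trans (by exact_mod_cast hnn2)
    rw [div_le_iff₀ hc1pos] at h1
    nlinarith
  have e5 : (2 : ℝ) ^ (rk N) ≤ Real.exp (Real.log 2 * n) := by
    have h1 : (2 : ℝ) ^ (rk N) = Real.exp (Real.log 2 * rk N) := by
      rw [mul_comm, ← Real.rpow_natCast, Real.rpow_def_of_pos (by norm_num)]
      rw [mul_comm]
    rw [h1]
    apply Real.exp_le_exp.2
    exact mul_le_mul_of_nonneg_left hrkn (Real.log_nonneg (by norm_num))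
  calc (2 : ℝ) ^ (rk N) * Real.exp (θ * (T / Real.log n) * lc N)
      ≤ Real.exp (Real.log 2 * n) * Real.exp (θ * (T / Real.log n) * lc N) := by gcongr
    _ = Real.exp (Real.log 2 * n + θ * (T / Real.log n) * lc N) := by rw [Real.exp_add]
    _ ≤ Real.exp (-(c1 * n ^ 2) + θ * (3 / 4 * η' * n * Real.log n)) := by
        apply Real.exp_le_exp.2
        linarith
    _ = Real.exp (-(c1 * n ^ 2)) * t := by rw [Real.exp_add]

end Crest.Agent.R152.LS
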