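import Crest.Agent.R152.LemS4

set_option autoImplicit false
set_option linter.unusedSectionVars false

/-! Row 152, LEMMA S (note 11125), part 5: the one-step claim. -/

open Crest.FinProb Crest.ProbabilityR.SignMatrix

namespace Crest.Agent.R152.LemS

open Crest.Agent.R152.Base Crest.Agent.R152.Lat Module

universe u

set_option maxHeartbeats 2000000 in
/-- **The one-step claim of LEMMA S**: adding the row `s0 + τ x` (`x` a random sign vector) to a
lattice `X` of rank at most `card β - c n` raises the minimal potential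
`min_{F ≥ X} (lc F + K' log n * rk F)` by at least `(K' + 1/2 - d) log n`, outside probability
`exp (-c' n)`. -/
theorem one_step {p c d : ℝ} (hp0 : 0 < p) (hp1 : p < 1) (hc : 0 < c) (hd : 0 < d) :
    ∃ c' : ℝ, 0 < c' ∧ ∃ n0 : ℕ, ∀ n : ℕ, n0 ≤ n → ∀ (β : Type u) [Fintype β] [DecidableEq β],
      Fintype.card β ≤ n → ∀ K' : ℝ, 16 / c + 1 / 2 ≤ K' → ∀ X : Submodule ℤ (β → ℤ),
      (rk X : ℝ) + c * n ≤ Fintype.card β → lc X ≤ 2 * n * Real.log n →
      ∀ (s0 : β → ℤ) (τ : ℤ), 1 ≤ τ →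
      (∀ x : β → Bool, dst X (ev (s0 + τ • sgv x)) ≤ (n : ℝ) ^ 3) →
      bernoulliProb p {x : β → Bool | ∃ F' : Submodule ℤ (β → ℤ),
        X ⊔ Submodule.span ℤ {s0 + τ • sgv x} ≤ F' ∧ ∀ F, X ≤ F →
          pot (K' * Real.log n) F' < pot (K' * Real.log n) F + (K' + 1 / 2 - d) * Real.log n} ≤
      Real.exp (-c' * n) := by
  classical
  set q : ℝ := max p (1 - p) with hq
  have hpq : p ≤ q := le_max_left _ _
  have hpq' : 1 - p ≤ q := le_max_right _ _
  have hq1 : q < 1 := max_lt hp1 (by linarith)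
  have hq0 : 0 < q := hp0.trans_le hpq
  set ρ : ℝ := Real.sqrt (c / 4) with hρ
  have hρpos : 0 < ρ := Real.sqrt_pos.2 (by positivity)
  have hρ2 : ρ ^ 2 = c / 4 := Real.sq_sqrt (by positivity)
  set Q : ℝ := q + (1 - q) * Real.exp (-ρ ^ 2) with hQ
  have hE1 : Real.exp (-ρ ^ 2) < 1 := by
    rw [Real.exp_lt_one_iff]
    rw [hρ2]; linarith
  have hE0 := Real.exp_pos (-ρ ^ 2)
  have hQ1 : Q < 1 := by rw [hQ]; nlinarith
  have hqQ : q ≤ Q := by
    rw [hQ]
    have : 0 ≤ (1 - q) * Real.exp (-ρ ^ 2) := mul_nonneg (by linarith) hE0.le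
    linarith
  have hQ0 : 0 < Q := hq0.trans_le hqQ
  obtain ⟨c', hc', n0, hn0⟩ := asym (c := c) (d := d) (Q := Q) (k := 8 / c + 3) hc hd hQ0 hQ1
  refine ⟨c', hc', max n0 2, fun n hn β _ _ hβ K' hK' X hX hlX s0 τ hτ hdist => ?_⟩
  have hn2 : 2 ≤ n := (le_max_right _ _).trans hn
  have hnn0 : n0 ≤ n := (le_max_left _ _).trans hn
  have hnR : (2 : ℝ) ≤ n := by exact_mod_cast hn2
  have hnpos : (0 : ℝ) < n := by linarith
  set L : ℝ := Real.log n with hL
  have hLpos : 0 < L := Real.log_pos (by linarith)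
  set κ : ℝ := K' * L with hκ
  set κ1 : ℝ := 8 / c * L with hκ1
  set g : ℝ := (1 / 2 - d) * L with hg
  have hκ1pos : 0 < κ1 := by positivity
  have hκκ1 : κ + g ≤ 2 * (κ - κ1) := by
    have h1 : (16 / c + 1 / 2) * L ≤ K' * L := mul_le_mul_of_nonneg_right hK' hLpos.le
    have h2 : 0 ≤ d * L := by positivity
    rw [hκ, hκ1, hg]
    have h3 : 16 / c * L = 2 * (8 / c * L) := by ring
    nlinarith
  have hκ1κ : κ1 ≤ κ := by
    have h1 : (16 / c + 1 / 2) * L ≤ K' * L := mul_le_mul_of_nonneg_right hK' hLpos.le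
    have h3 : 16 / c * L = 2 * (8 / c * L) := by ring
    have h4 : 0 < 8 / c * L := hκ1pos
    rw [hκ, hκ1]
    nlinarith
  have hκpos : 0 ≤ κ := hκ1pos.le.trans hκ1κ
  -- minimisers
  obtain ⟨F, hF⟩ := exists_isMin hκpos X
  obtain ⟨F1, hF1⟩ := exists_isMin hκ1pos.le F
  set s : ℕ := ⌊c * n / 2⌋₊ with hs
  have hsle : (s : ℝ) ≤ c * n / 2 := Nat.floor_le (by positivity)
  have hrk : (rk F1 : ℝ) ≤ rk X + c * n / 4 := by
    have h1 := rk_le_of_isMin hκ1κ hF hF1
    have h2 : κ1 * rk F1 ≤ κ1 * (rk X + c * n / 4) := by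
      have h3 : κ1 * (c * n / 4) = 2 * n * L := by
        rw [hκ1]; field_simp; ring
      rw [mul_add, h3]
      linarith
    exact le_of_mul_le_mul_left h2 hκ1pos
  have hrk2 : (rk F1 : ℝ) + 3 * (c * n / 4) ≤ Fintype.card β := by linarith
  have hrks : rk F1 + s ≤ Fintype.card β := by
    have : (rk F1 : ℝ) + s ≤ Fintype.card β := by nlinarith
    exact_mod_cast this
  have hβn : (Fintype.card β : ℝ) ≤ n := by exact_mod_cast hβ
  -- events
  set R : ℝ := 2 * (n : ℝ) ^ (1 / 2 - d) with hR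
  have hR0 : 0 ≤ R := by positivity
  have hexpg : Real.exp g = (n : ℝ) ^ (1 / 2 - d) := by
    rw [Real.rpow_def_of_pos hnpos, hg, mul_comm]
  set M : ℤ := ⌊(n : ℝ) ^ (8 / c + 3)⌋ with hM
  have hM0 : 0 ≤ M := Int.floor_nonneg.2 (by positivity)
  have hsub : {x : β → Bool | ∃ F' : Submodule ℤ (β → ℤ),
        X ⊔ Submodule.span ℤ {s0 + τ • sgv x} ≤ F' ∧ ∀ F, X ≤ F →
          pot κ F' < pot κ F + (K' + 1 / 2 - d) * L} ⊆
      ({x : β → Bool | s0 + τ • sgv x ∈ F1} ∪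
        {x : β → Bool | dst F1 (ev (s0 + τ • sgv x)) ≤ τ * R}) ∪
        ⋃ m ∈ ((Finset.Icc (-M) M).filter fun m => 2 * τ < |m|),
          {x : β → Bool | ∃ u : β → ℤ, s0 + τ • sgv x - m • u ∈ F1} := by
    rintro x ⟨F'0, hXF', hF'0⟩
    obtain ⟨F'm, hF'm⟩ := exists_isMin hκpos (X ⊔ Submodule.span ℤ {s0 + τ • sgv x})
    have hF'' := IsMin.sup le_sup_left hF hF'm
    have h1 : pot κ (F'm ⊔ F) < pot κ F + κ + g := by
      have h2 := hF''.2 F'0 hXF'
      have h3 := hF'0 F hF.1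
      have h4 : (K' + 1 / 2 - d) * L = κ + g := by rw [hκ, hg]; ring
      linarith
    have hy : s0 + τ • sgv x ∈ F'm ⊔ F :=
      hF''.1 ((le_sup_right : _ ≤ X ⊔ Submodule.span ℤ {s0 + τ • sgv x})
        (Submodule.mem_span_singleton_self _))
    rcases det_step' hκ1κ hF hF1 hF''.sat le_sup_right hy h1 hκκ1 with h | ⟨u, m, hum, hm0, hlow,
      hup, hdst⟩
    · exact Or.inl (Or.inl h)
    · by_cases hmτ : 2 * τ < |m|
      · right
        have hmM : |m| ≤ M := by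
          rw [hM]
          apply Int.le_floor.2
          have h2 : |(m : ℝ)| * Real.exp (-κ1) ≤ (n : ℝ) ^ 3 := by
            calc |(m : ℝ)| * Real.exp (-κ1) ≤ |(m : ℝ)| * dst F1 (ev u) := by gcongr
              _ = dst F1 (ev (s0 + τ • sgv x)) := hdst.symm
              _ ≤ dst X (ev (s0 + τ • sgv x)) := dst_anti (hF.1.trans hF1.1) _
              _ ≤ (n : ℝ) ^ 3 := hdist x
          have h3 : |(m : ℝ)| ≤ (n : ℝ) ^ 3 * Real.exp κ1 := by
            have h4 := mul_le_mul_of_nonneg_right h2 (Real.exp_pos κ1).le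
            rwa [mul_assoc, ← Real.exp_add, neg_add_cancel, Real.exp_zero, mul_one] at h4
          have h5 : Real.exp κ1 = (n : ℝ) ^ (8 / c) := by
            rw [Real.rpow_def_of_pos hnpos, hκ1, mul_comm]
          rw [h5, mul_comm, ← Real.rpow_natCast, ← Real.rpow_add hnpos] at h3
          push_cast at h3 ⊢
          exact h3
        simp only [Set.mem_iUnion]
        refine ⟨m, ?_, u, hum⟩
        rw [Finset.mem_filter, Finset.mem_Icc]
        exact ⟨abs_le.1 hmM, hmτ⟩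
      · left; right
        show dst F1 (ev (s0 + τ • sgv x)) ≤ τ * R
        rw [hdst, hR, ← hexpg]
        have h2 : |(m : ℝ)| ≤ 2 * τ := by exact_mod_cast not_lt.1 hmτ
        have h3 := Real.exp_pos g
        have hτR : (1 : ℝ) ≤ τ := by exact_mod_cast hτ
        calc |(m : ℝ)| * dst F1 (ev u) ≤ (2 * τ) * Real.exp g := by
              apply mul_le_mul h2 hup.le (dst_nonneg _ _) (by linarith)
          _ = τ * (2 * Real.exp g) := by ring
  -- probabilities
  have hp0' := hp0.le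
  have hp1' := hp1.le
  have hqs0 : 0 ≤ q ^ s := by positivity
  have hP1 : bernoulliProb p {x : β → Bool | s0 + τ • sgv x ∈ F1} ≤ q ^ s :=
    prob_mem hp0' hp1' hpq hpq' F1 s hrks s0 hτ
  have hP2 : bernoulliProb p {x : β → Bool | dst F1 (ev (s0 + τ • sgv x)) ≤ τ * R} ≤
      Real.exp (R ^ 2) * Q ^ s := by
    apply prob_close hp0' hp1' hpq hpq' hq1.le hρpos s F1 _ s0 hτ hR0
    rw [hρ2]
    have h1 : c / 4 * Fintype.card β ≤ c / 4 * n := by gcongr
    nlinarith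
  have hP3 : bernoulliProb p (⋃ m ∈ ((Finset.Icc (-M) M).filter fun m => 2 * τ < |m|),
          {x : β → Bool | ∃ u : β → ℤ, s0 + τ • sgv x - m • u ∈ F1}) ≤
      (2 * (n : ℝ) ^ (8 / c + 3) + 1) * q ^ s := by
    refine (prob_biUnion_le hp0' hp1' _ _).trans ?_
    have h1 : ∑ m ∈ ((Finset.Icc (-M) M).filter fun m => 2 * τ < |m|),
        bernoulliProb p {x : β → Bool | ∃ u : β → ℤ, s0 + τ • sgv x - m • u ∈ F1} ≤
        ∑ _m ∈ ((Finset.Icc (-M) M).filter fun m => 2 * τ < |m|), q ^ s := by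
      refine Finset.sum_le_sum fun m hm => ?_
      rw [Finset.mem_filter] at hm
      exact prob_mod hp0' hp1' hpq hpq' F1 hF1.sat s hrks s0 hτ hm.2
    refine h1.trans ?_
    rw [Finset.sum_const, nsmul_eq_mul]
    refine mul_le_mul_of_nonneg_right ?_ hqs0
    have h2 : (((Finset.Icc (-M) M).filter fun m => 2 * τ < |m|).card : ℝ) ≤
        ((Finset.Icc (-M) M).card : ℝ) := by
      exact_mod_cast Finset.card_filter_le _ _
    refine h2.trans ?_
    rw [Int.card_Icc]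
    have h3 : (((M + 1 - -M).toNat : ℕ) : ℝ) = 2 * M + 1 := by
      have : (((M + 1 - -M).toNat : ℕ) : ℤ) = 2 * M + 1 := by
        rw [Int.toNat_of_nonneg (by linarith)]; ring
      exact_mod_cast this
    rw [h3]
    have h4 : (M : ℝ) ≤ (n : ℝ) ^ (8 / c + 3) := Int.floor_le _
    linarith
  refine (prob_mono hp0' hp1' hsub).trans ((prob_union_le hp0' hp1' _ _).trans ?_)
  refine (add_le_add ((prob_union_le hp0' hp1' _ _).trans (add_le_add hP1 hP2)) hP3).trans ?_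
  refine le_trans ?_ (hn0 n hnn0)
  have hqQs : q ^ s ≤ Q ^ s := by gcongr
  have hER : 1 ≤ Real.exp (R ^ 2) := Real.one_le_exp (sq_nonneg _)
  have hQs : 0 ≤ Q ^ s := by positivity
  have hnk : 0 ≤ (n : ℝ) ^ (8 / c + 3) := by positivity
  have h1 : q ^ s ≤ Real.exp (R ^ 2) * Q ^ s :=
    hqQs.trans (le_mul_of_one_le_left hQs hER)
  have h2 : (2 * (n : ℝ) ^ (8 / c + 3) + 1) * q ^ s ≤
      (2 * (n : ℝ) ^ (8 / c + 3) + 1) * (Real.exp (R ^ 2) * Q ^ s) := by gcongr
  calc q ^ s + Real.exp (R ^ 2) * Q ^ s + (2 * (n : ℝ) ^ (8 / c + 3) + 1) * q ^ s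
      ≤ Real.exp (R ^ 2) * Q ^ s + Real.exp (R ^ 2) * Q ^ s +
        (2 * (n : ℝ) ^ (8 / c + 3) + 1) * (Real.exp (R ^ 2) * Q ^ s) := by linarith
    _ = (3 + 2 * (n : ℝ) ^ (8 / c + 3)) * Real.exp (R ^ 2) * Q ^ s := by ring

end Crest.Agent.R152.LemS
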