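import Mathlib
import Crest.Agent.R152.LS6
import Crest.Agent.R152.LemS5

set_option autoImplicit false
set_option linter.unusedSectionVars false

/-! Row 152: **Lemma S** (helper162, note 11125), final form. -/

open Crest.FinProb Crest.ProbabilityR.SignMatrix

namespace Crest.Agent.R152.LS

open Crest.Agent.R152.Base Crest.Agent.R152.Lat

theorem oneStep {p c : ℝ} (hp0 : 0 < p) (hp1 : p < 1) (hc : 0 < c) {d : ℝ} (hd : 0 < d) :
    OneStep p c d (16 / c + 1 / 2) := by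
  obtain ⟨c2, hc2, n0, h⟩ := LemS.one_step.{0} hp0 hp1 hc hd
  refine ⟨c2, hc2, n0, ?_⟩
  intro n hn K hK β _ _ hcard X hrk hlc s0 τ hτ hdst
  have h1 := h n hn β hcard K hK X hrk hlc s0 τ hτ hdst
  have e : -(c2 * (n : ℝ)) = -c2 * n := by ring
  rw [e]
  refine (prob_mono hp0.le hp1.le ?_).trans h1
  intro x hx
  refine ⟨Fmin (K * Real.log n) (X ⊔ Submodule.span ℤ {s0 + τ • fun i => sg (x i)}),
    le_Fmin _ _, ?_⟩
  intro F hF
  have h2 : Psi (K * Real.log n) (X ⊔ Submodule.span ℤ {s0 + τ • fun i => sg (x i)}) <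
      Psi (K * Real.log n) X + (K + 1 / 2 - d) * Real.log n := hx
  have h3 : Psi (K * Real.log n) X ≤ LemS.pot (K * Real.log n) F := Psi_le hF
  have h4 : LemS.pot (K * Real.log n)
      (Fmin (K * Real.log n) (X ⊔ Submodule.span ℤ {s0 + τ • fun i => sg (x i)})) =
      Psi (K * Real.log n) (X ⊔ Submodule.span ℤ {s0 + τ • fun i => sg (x i)}) := rfl
  rw [h4]
  linarith

/-- **Lemma S**, general form: `K` is any constant at least `16 / c + 1 / 2`. -/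
theorem lemmaS {p c K η : ℝ} (hp0 : 0 < p) (hp1 : p < 1) (hc : 0 < c)
    (hK : 16 / c + 1 / 2 ≤ K) (hη : 0 < η) :
    ∃ ε0 : ℝ, 0 < ε0 ∧ ∃ c1 : ℝ, 0 < c1 ∧ ∃ n0 : ℕ, ∀ n : ℕ, n0 ≤ n →
      ∀ (ι : Type) [Fintype ι] [DecidableEq ι], Fintype.card ι = n →
      ∀ N : Submodule ℤ (ι → ℤ), rk N + c * n ≤ n → lc N ≤ ε0 * n * Real.log n →
      bernoulliProb p {b : Sym2 ι → Bool | Psi (K * Real.log n) (act (symMat b) N) ≤
        ((K + 1 / 2) * rk N - η * n) * Real.log n} ≤ Real.exp (-(c1 * n ^ 2)) :=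
  lemmaS_of hp0.le hp1.le (by positivity) (fun _ hd => oneStep hp0 hp1 hc hd) hK hη

/-- **Lemma S** for `Fin n`, in the form used by the module GLO. -/
theorem lemmaS_fin {p c K η : ℝ} (hp0 : 0 < p) (hp1 : p < 1) (hc : 0 < c)
    (hK : 16 / c + 1 / 2 ≤ K) (hη : 0 < η) :
    ∃ ε0 : ℝ, 0 < ε0 ∧ ∃ c1 : ℝ, 0 < c1 ∧ ∃ n0 : ℕ, ∀ n : ℕ, n0 ≤ n →
      ∀ N : Submodule ℤ (Fin n → ℤ), (rk N : ℝ) ≤ (1 - c) * n → lc N ≤ ε0 * n * Real.log n →
      symProb p {w : Sym2 (Fin n) → Bool | Psi (K * Real.log n) (N.map (symMat w).mulVecLin) ≤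
        ((K + 1 / 2) * rk N - η * n) * Real.log n} ≤ (2 : ℝ) ^ (-(c1 * (n : ℝ) ^ 2)) := by
  obtain ⟨ε0, hε0, c1, hc1, n0, h⟩ := lemmaS hp0 hp1 hc hK hη
  refine ⟨ε0, hε0, c1, hc1, n0, ?_⟩
  intro n hn N hrk hlc
  have h1 := h n hn (Fin n) (Fintype.card_fin n) N (by linarith) hlc
  unfold symProb
  refine h1.trans ?_
  rw [Real.rpow_def_of_pos (by norm_num)]
  apply Real.exp_le_exp.2
  have h2 : Real.log 2 ≤ 1 := by
    have := Real.log_two_lt_d9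
    linarith
  have h3 : 0 ≤ c1 * (n : ℝ) ^ 2 := by positivity
  nlinarith

end Crest.Agent.R152.LS
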