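import Crest.Agent.R152.Glo4
import Crest.Agent.R152.Cheap4
import Crest.Agent.R152.LS7

set_option autoImplicit false

/-!
# Row 152, module GLO, part 5: GLO holds for every `0 < p < 1`
-/

namespace Crest.Agent.R152.Glo

open Crest.Agent.R152.Lat Crest.Agent.R152.Base Crest.FinProb

theorem cheapFam : CheapFam := by
  intro θ κ ε hθ hκ hε
  obtain ⟨η, hη, hev⟩ := Cheap.family hθ hκ hε
  obtain ⟨n0, hn0⟩ := Filter.eventually_atTop.mp hev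
  refine ⟨η, hη, n0, fun n hn => ?_⟩
  obtain ⟨V, h1, h2, h3⟩ := hn0 n hn (Fin n) (Fintype.card_fin n)
  exact ⟨V, h1, h2, fun U S _ hS hs hR hlc => h3 S U hs hS hR hlc⟩

theorem oneStepAll {p : ℝ} (hp0 : 0 < p) (hp1 : p < 1) : OneStepAll p := fun c hc =>
  ⟨16 / c + 1 / 2, by positivity, fun _ hd => LS.oneStep hp0 hp1 hc hd⟩

/-- **GLO.** -/
theorem glo {p : ℝ} (hp0 : 0 < p) (hp1 : p < 1) : Asm.GLO p :=
  glo_of hp0 hp1 (oneStepAll hp0 hp1) cheapFam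

/-- GLO, any coset, failure `exp (-c n²)`. -/
theorem glo_strong {p : ℝ} (hp0 : 0 < p) (hp1 : p < 1) {d b : ℝ} (hd : 0 < d) (hb : 0 < b) :
    ∃ c0 : ℝ, 0 < c0 ∧ ∃ n0 : ℕ, ∀ n : ℕ, n0 ≤ n →
      bernoulliProb p (Bad n d b) ≤ Real.exp (-(c0 * (n : ℝ) ^ 2)) :=
  glo_gen hp0 hp1 (oneStepAll hp0 hp1) cheapFam hd hb

end Crest.Agent.R152.Glo
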