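import Mathlib

set_option autoImplicit false
set_option linter.unusedSectionVars false

/-! Row 152, module TOP, part B: the largest binomial weight is at most `4 / √(s p (1-p))`. -/

namespace Crest.Agent.R152.Top

/-- binomial weight -/
noncomputable def bw (s : ℕ) (p : ℝ) (r : ℕ) : ℝ := (s.choose r : ℝ) * (p ^ r * (1 - p) ^ (s - r))

theorem bw_nonneg {s : ℕ} {p : ℝ} (hp0 : 0 ≤ p) (hp1 : p ≤ 1) (r : ℕ) : 0 ≤ bw s p r := by
  unfold bw
  have : 0 ≤ 1 - p := by linarith
  positivity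

theorem bw_sum {s : ℕ} {p : ℝ} : ∑ r ∈ Finset.range (s + 1), bw s p r = 1 := by
  have h := (Commute.all p (1 - p)).add_pow s
  rw [show p + (1 - p) = 1 by ring, one_pow] at h
  rw [h]
  refine Finset.sum_congr rfl fun r _ => ?_
  unfold bw
  ring

theorem bw_zero {s : ℕ} {p : ℝ} {r : ℕ} (h : s < r) : bw s p r = 0 := by
  unfold bw
  rw [Nat.choose_eq_zero_of_lt h]
  simp

theorem bw_window {s : ℕ} {p : ℝ} (hp0 : 0 ≤ p) (hp1 : p ≤ 1) (r J : ℕ) :
    ∑ j ∈ Finset.range (J + 1), bw s p (r + j) ≤ 1 := by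
  rw [← bw_sum (s := s) (p := p)]
  have h1 : ∑ j ∈ Finset.range (J + 1), bw s p (r + j) =
      ∑ i ∈ (Finset.range (J + 1)).image (fun j => r + j), bw s p i := by
    rw [Finset.sum_image]
    intro a _ b _ h
    exact Nat.add_left_cancel h
  rw [h1]
  calc ∑ i ∈ (Finset.range (J + 1)).image (fun j => r + j), bw s p i
      ≤ ∑ i ∈ (Finset.range (J + 1)).image (fun j => r + j) ∪ Finset.range (s + 1), bw s p i :=
        Finset.sum_le_sum_of_subset_of_nonneg Finset.subset_union_left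
          fun i _ _ => bw_nonneg hp0 hp1 i
    _ = ∑ i ∈ Finset.range (s + 1), bw s p i := by
        symm
        refine Finset.sum_subset Finset.subset_union_right fun i _ hi => ?_
        refine bw_zero ?_
        rw [Finset.mem_range] at hi
        omega

theorem bw_succ {s : ℕ} {p : ℝ} {k : ℕ} (hk : k < s) :
    bw s p (k + 1) * ((k + 1 : ℝ) * (1 - p)) = bw s p k * (((s : ℝ) - k) * p) := by
  unfold bw
  have h1 : (s.choose (k + 1) : ℝ) * (k + 1) = (s.choose k : ℝ) * ((s : ℝ) - k) := by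
    have := Nat.choose_succ_right_eq s k
    have h2 : ((s.choose (k + 1) * (k + 1) : ℕ) : ℝ) = ((s.choose k * (s - k) : ℕ) : ℝ) := by
      rw [this]
    push_cast at h2
    rw [Nat.cast_sub hk.le] at h2
    exact h2
  have h3 : s - k = (s - (k + 1)) + 1 := by omega
  rw [h3, pow_succ, pow_succ]
  linear_combination (p ^ k * p * (1 - p) ^ (s - (k + 1)) * (1 - p)) * h1

theorem bw_step {s : ℕ} {p : ℝ} (hp0 : 0 < p) (hp1 : p < 1) {r i : ℕ} (hr : (r : ℝ) ≤ s * p)
    (hi : ((i : ℝ) + 1) ≤ s * p * (1 - p)) :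
    bw s p (r + i) * (1 - ((i : ℝ) + 1) / (s * p * (1 - p))) ≤ bw s p (r + i + 1) := by
  set X : ℝ := s * p * (1 - p) with hX
  have hq : 0 < 1 - p := by linarith
  have hX0 : 0 < X := by
    have : (0 : ℝ) ≤ i := Nat.cast_nonneg i
    linarith
  have hks : r + i < s := by
    by_contra hcon
    push Not at hcon
    have h1 : (s : ℝ) ≤ r + i := by exact_mod_cast hcon
    have h2 : (s : ℝ) * (1 - p) ≤ i := by nlinarith
    have h3 : X ≤ i := by
      have : X = p * (s * (1 - p)) := by rw [hX]; ring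
      rw [this]
      have hi0 : (0 : ℝ) ≤ i := Nat.cast_nonneg i
      nlinarith
    linarith
  have hb := bw_nonneg (s := s) hp0.le hp1.le (r + i)
  have hs := bw_succ (s := s) (p := p) hks
  push_cast at hs
  have hden : 0 < ((r : ℝ) + i + 1) * (1 - p) := by positivity
  have h4 : bw s p (r + i + 1) = bw s p (r + i) * ((((s : ℝ) - (r + i)) * p) / (((r : ℝ) + i + 1) * (1 - p))) := by
    field_simp
    linarith
  rw [h4]
  refine mul_le_mul_of_nonneg_left ?_ hb
  rw [le_div_iff₀ hden]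
  have hi0 : (0 : ℝ) ≤ i := Nat.cast_nonneg i
  have h5 : (s : ℝ) * (1 - p) ≤ s - r := by nlinarith
  have h6 : (s * (1 - p) - i) * p ≤ ((s : ℝ) - (r + i)) * p := by nlinarith
  have h7 : ((r : ℝ) + i + 1) * (1 - p) ≤ X + (i + 1) * (1 - p) := by
    rw [hX]; nlinarith
  have h8 : 0 ≤ 1 - ((i : ℝ) + 1) / X := by
    rw [sub_nonneg, div_le_one hX0]
    exact hi
  have h9 : (1 - ((i : ℝ) + 1) / X) * (X + (i + 1) * (1 - p)) ≤ (s * (1 - p) - i) * p := by
    have e1 : (1 - ((i : ℝ) + 1) / X) * (X + (i + 1) * (1 - p)) =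
        X - (i + 1) * p - ((i + 1) * (i + 1) * (1 - p)) / X := by
      field_simp
      ring
    have e2 : (s * (1 - p) - (i : ℝ)) * p = X - i * p := by rw [hX]; ring
    rw [e1, e2]
    have e3 : 0 ≤ (((i : ℝ) + 1) * (i + 1) * (1 - p)) / X := by positivity
    nlinarith
  calc (1 - ((i : ℝ) + 1) / X) * (((r : ℝ) + i + 1) * (1 - p))
      ≤ (1 - ((i : ℝ) + 1) / X) * (X + (i + 1) * (1 - p)) := mul_le_mul_of_nonneg_left h7 h8
    _ ≤ _ := h9.trans h6

theorem bw_low {s : ℕ} {p : ℝ} (hp0 : 0 < p) (hp1 : p < 1) {r : ℕ} (hr : (r : ℝ) ≤ s * p)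
    (j : ℕ) (hj : (j : ℝ) ≤ s * p * (1 - p)) (hX0 : 0 < s * p * (1 - p)) :
    bw s p r * (1 - (j * (j + 1) : ℝ) / (2 * (s * p * (1 - p)))) ≤ bw s p (r + j) := by
  induction j with
  | zero => simp
  | succ j ih =>
    push_cast at hj ⊢
    have h1 := ih (by linarith)
    have h2 := bw_step hp0 hp1 hr hj
    set X : ℝ := s * p * (1 - p)
    have hb := bw_nonneg (s := s) hp0.le hp1.le r
    have hj0 : (0 : ℝ) ≤ j := Nat.cast_nonneg j
    have h8 : 0 ≤ 1 - ((j : ℝ) + 1) / X := by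
      rw [sub_nonneg, div_le_one hX0]
      exact hj
    calc bw s p r * (1 - ((j : ℝ) + 1) * (j + 1 + 1) / (2 * X))
        ≤ bw s p r * ((1 - j * (j + 1) / (2 * X)) * (1 - ((j : ℝ) + 1) / X)) := by
          refine mul_le_mul_of_nonneg_left ?_ hb
          have e : (1 - (j : ℝ) * (j + 1) / (2 * X)) * (1 - ((j : ℝ) + 1) / X) =
            1 - ((j : ℝ) + 1) * (j + 1 + 1) / (2 * X) + (j * (j + 1) / (2 * X)) * ((j + 1) / X) := by
            field_simp
            ring
          rw [e]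
          have : 0 ≤ ((j : ℝ) * (j + 1) / (2 * X)) * ((j + 1) / X) := by positivity
          linarith
      _ = (bw s p r * (1 - j * (j + 1) / (2 * X))) * (1 - ((j : ℝ) + 1) / X) := by ring
      _ ≤ bw s p (r + j) * (1 - ((j : ℝ) + 1) / X) := mul_le_mul_of_nonneg_right h1 h8
      _ ≤ _ := h2

theorem bw_le_aux {s : ℕ} {p : ℝ} (hp0 : 0 < p) (hp1 : p < 1) (hs : 0 < s) {r : ℕ}
    (hr : (r : ℝ) ≤ s * p) : bw s p r ≤ 4 / √(s * p * (1 - p)) := by
  set X : ℝ := s * p * (1 - p) with hX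
  have hq : 0 < 1 - p := by linarith
  have hs' : (0 : ℝ) < s := by exact_mod_cast hs
  have hX0 : 0 < X := by positivity
  have hsq : 0 < √X := Real.sqrt_pos.2 hX0
  have hsqX : √X * √X = X := Real.mul_self_sqrt hX0.le
  have hb1 : bw s p r ≤ 1 := by
    have := bw_window (s := s) hp0.le hp1.le r 0
    simpa using this
  by_cases hX1 : X < 1
  · refine hb1.trans ?_
    rw [le_div_iff₀ hsq]
    nlinarith
  push Not at hX1
  have hsq1 : 1 ≤ √X := by rw [Real.one_le_sqrt]; exact hX1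
  set J := ⌊√X / 2⌋₊ with hJ
  have hJ1 : (J : ℝ) ≤ √X / 2 := Nat.floor_le (by positivity)
  have hJ2 : √X / 2 < J + 1 := Nat.lt_floor_add_one _
  have hb := bw_nonneg (s := s) hp0.le hp1.le r
  have h1 : ∀ j ∈ Finset.range (J + 1), bw s p r * (1 / 2) ≤ bw s p (r + j) := by
    intro j hj
    have hj' : (j : ℝ) ≤ J := by
      exact_mod_cast Nat.lt_succ_iff.1 (Finset.mem_range.1 hj)
    have hj0 : (0 : ℝ) ≤ j := Nat.cast_nonneg j
    have h2 := bw_low hp0 hp1 hr j (by nlinarith) hX0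
    refine le_trans (mul_le_mul_of_nonneg_left ?_ hb) h2
    have h3 : (j * (j + 1) : ℝ) / (2 * X) ≤ 1 / 2 := by
      rw [div_le_iff₀ (by positivity)]
      nlinarith
    linarith
  have h2 := Finset.sum_le_sum h1
  rw [Finset.sum_const, Finset.card_range, nsmul_eq_mul] at h2
  have h3 := h2.trans (bw_window (s := s) hp0.le hp1.le r J)
  push_cast at h3
  rw [le_div_iff₀ hsq]
  nlinarith

/-- **Largest binomial weight.** -/
theorem bw_le {s : ℕ} {p : ℝ} (hp0 : 0 < p) (hp1 : p < 1) (hs : 0 < s) (r : ℕ) (hr : r ≤ s) :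
    bw s p r ≤ 4 / √(s * p * (1 - p)) := by
  by_cases h : (r : ℝ) ≤ s * p
  · exact bw_le_aux hp0 hp1 hs h
  · push Not at h
    have h1 : bw s p r = bw s (1 - p) (s - r) := by
      unfold bw
      rw [Nat.choose_symm hr, Nat.sub_sub_self hr]
      ring
    have h2 := bw_le_aux (s := s) (p := 1 - p) (by linarith) (by linarith) hs (r := s - r) (by
      rw [Nat.cast_sub hr]; linarith)
    rw [h1]
    have h3 : (s : ℝ) * (1 - p) * (1 - (1 - p)) = s * p * (1 - p) := by ring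
    rw [h3] at h2
    exact h2

end Crest.Agent.R152.Top
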