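import Mathlib
import Crest.Agent.R152.Base3
import Crest.Agent.R152.LS1

set_option autoImplicit false
set_option linter.unusedSectionVars false

/-! Row 152, module TOP, part P: probability tools (marginals, independent rows, determined coins). -/

open Crest.FinProb Crest.ProbabilityR.SignMatrix

namespace Crest.Agent.R152.Top

open Crest.Agent.R152.Base

variable {ι κ : Type*} [Fintype ι] [DecidableEq ι] [Fintype κ] [DecidableEq κ]

/-- Marginals: a function of the coins read through an injection. -/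
theorem ex_inj {g : κ → ι} (hg : Function.Injective g) (p : ℝ) (F : (κ → Bool) → ℝ) :
    ex p (fun ω : ι → Bool => F (ω ∘ g)) = ex p F := by
  classical
  let e : ι ≃ κ ⊕ {i // i ∉ Set.range g} :=
    ((Equiv.Set.sumCompl (Set.range g)).symm).trans
      (Equiv.sumCongr (Equiv.ofInjective g hg).symm (Equiv.refl _))
  have he : ∀ k, e (g k) = Sum.inl k := by
    intro k
    have h1 : (Equiv.Set.sumCompl (Set.range g)).symm (g k) =
        Sum.inl ⟨g k, Set.mem_range_self k⟩ := by
      rw [Equiv.symm_apply_eq]; rfl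
    simp only [e, Equiv.trans_apply, h1, Equiv.sumCongr_apply, Sum.map_inl]
    congr 1
    exact (Equiv.ofInjective g hg).symm_apply_apply k
  rw [ex_comp e, ex_sumType]
  refine ex_congr p fun a => ?_
  have h2 : ∀ b : {i // i ∉ Set.range g} → Bool, ((Sum.elim a b) ∘ e) ∘ g = a := by
    intro b
    funext k
    simp [he]
  simp only [h2]
  exact ex_const p _

theorem prob_inj {g : κ → ι} (hg : Function.Injective g) (p : ℝ) (E : Set (κ → Bool)) :
    bernoulliProb p {ω : ι → Bool | ω ∘ g ∈ E} = bernoulliProb p E := by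
  classical
  rw [prob_eq_ex, prob_eq_ex, ← ex_inj hg p]
  rfl

/-- Independent rows. -/
theorem ex_rows (p : ℝ) (F : ι → (κ → Bool) → ℝ) :
    ex p (fun ω : ι × κ → Bool => ∏ j, F j (fun t => ω (j, t))) = ∏ j, ex p (F j) := by
  classical
  unfold ex
  have h := Finset.prod_univ_sum (fun _ : ι => (Finset.univ : Finset (κ → Bool)))
    (fun j x => bernoulliWeight p x * F j x)
  rw [h, Fintype.piFinset_univ]
  refine Fintype.sum_equiv (Equiv.curry ι κ Bool) _ _ fun ω => ?_
  rw [Finset.prod_mul_distrib]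
  congr 1
  unfold bernoulliWeight
  rw [Fintype.prod_prod_type]
  rfl

/-- The probability that each row lies in a set. -/
theorem prob_rows {p c : ℝ} (hp0 : 0 ≤ p) (hp1 : p ≤ 1) (V : ι → Set (κ → Bool))
    (hV : ∀ j, bernoulliProb p (V j) ≤ c) :
    bernoulliProb p {ω : ι × κ → Bool | ∀ j, (fun t => ω (j, t)) ∈ V j} ≤ c ^ Fintype.card ι := by
  classical
  have h1 : bernoulliProb p {ω : ι × κ → Bool | ∀ j, (fun t => ω (j, t)) ∈ V j} =
      ∏ j, bernoulliProb p (V j) := by
    rw [prob_eq_ex]
    have h2 : ∀ j, bernoulliProb p (V j) = ex p (fun x => if x ∈ V j then (1 : ℝ) else 0) :=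
      fun j => prob_eq_ex p (V j)
    simp only [h2]
    rw [← ex_rows]
    refine ex_congr p fun ω => ?_
    by_cases h : ∀ j, (fun t => ω (j, t)) ∈ V j
    · rw [if_pos (by exact h)]
      exact (Finset.prod_eq_one fun j _ => by rw [if_pos (h j)]).symm
    · rw [if_neg (by exact h)]
      push Not at h
      obtain ⟨j, hj⟩ := h
      exact (Finset.prod_eq_zero (Finset.mem_univ j) (by rw [if_neg hj])).symm
  rw [h1]
  calc ∏ j, bernoulliProb p (V j) ≤ ∏ _j : ι, c :=
        Finset.prod_le_prod (fun j _ => prob_nonneg hp0 hp1 _) fun j _ => hV j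
    _ = c ^ Fintype.card ι := by simp

/-- Coins in `T` that are determined by the other coins. -/
theorem prob_determined {p M : ℝ} (hp0 : 0 ≤ p) (hp1 : p ≤ 1) (hM : p ≤ M) (hM' : 1 - p ≤ M)
    (T : Finset ι) (E : Set (ι → Bool))
    (h : ∀ ω ∈ E, ∀ ω' ∈ E, (∀ i, i ∉ T → ω i = ω' i) → ω = ω') :
    bernoulliProb p E ≤ M ^ T.card := by
  classical
  have hM0 : 0 ≤ M := hp0.trans hM
  unfold bernoulliProb
  have hw : ∀ ω : ι → Bool, bernoulliWeight p ω ≤
      M ^ T.card * bernoulliWeight p (fun i : {i // i ∉ T} => ω i) := by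
    intro ω
    unfold bernoulliWeight
    rw [← Finset.prod_mul_prod_compl T]
    have h1 : ∏ i ∈ T, (if ω i then p else 1 - p) ≤ M ^ T.card := by
      rw [← Finset.prod_const]
      refine Finset.prod_le_prod (fun i _ => ?_) fun i _ => ?_
      · split_ifs <;> linarith
      · split_ifs <;> assumption
    have h2 : ∏ i ∈ Tᶜ, (if ω i then p else 1 - p) =
        ∏ i : {i // i ∉ T}, (if ω i then p else 1 - p) :=
      Finset.prod_subtype Tᶜ (fun x => by simp) (fun i => if ω i then p else 1 - p)
    rw [h2]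
    refine mul_le_mul_of_nonneg_right h1 (Finset.prod_nonneg fun i _ => ?_)
    split_ifs <;> linarith
  refine (Finset.sum_le_sum fun ω _ => hw ω).trans ?_
  rw [← Finset.mul_sum]
  have h3 : ∑ ω ∈ Finset.univ.filter (· ∈ E),
      bernoulliWeight p (fun i : {i // i ∉ T} => ω i) ≤ 1 := by
    rw [← sum_weight (ι := {i // i ∉ T}) p]
    rw [← Finset.sum_image (f := fun η : {i // i ∉ T} → Bool => bernoulliWeight p η)
      (g := fun ω : ι → Bool => fun i : {i // i ∉ T} => ω i)]
    · exact Finset.sum_le_sum_of_subset_of_nonneg (Finset.subset_univ _)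
        fun η _ _ => weight_nonneg hp0 hp1 η
    · intro ω hω ω' hω' hEq
      have hω1 : ω ∈ E := by simpa using hω
      have hω2 : ω' ∈ E := by simpa using hω'
      refine h ω hω1 ω' hω2 fun i hi => ?_
      exact congrFun hEq ⟨i, hi⟩
  calc M ^ T.card * _ ≤ M ^ T.card * 1 := mul_le_mul_of_nonneg_left h3 (by positivity)
    _ = M ^ T.card := mul_one _

end Crest.Agent.R152.Top
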