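import Mathlib
import Crest.Agent.R152.TopP
import Crest.Agent.R152.TopB

set_option autoImplicit false
set_option linter.unusedSectionVars false

/-! Row 152, module TOP, part A: anticoncentration for biased signs (two coordinates: `rate p`;
many coordinates of the same sign: LYM). -/

open Crest.FinProb Crest.ProbabilityR.SignMatrix

namespace Crest.Agent.R152.Top

open Crest.Agent.R152.Base

variable {ι : Type*} [Fintype ι] [DecidableEq ι]

theorem rate_ge (p : ℝ) : 2 * p * (1 - p) ≤ rate p := by
  unfold rate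
  nlinarith [sq_nonneg (p - (1 - p))]

/-- Two coordinates whose flips leave the event: probability at most `p²+(1-p)²`. -/
theorem two_coord {p : ℝ} (hp0 : 0 ≤ p) (hp1 : p ≤ 1) (V : Set (ι → Bool)) {s t : ι} (hst : s ≠ t)
    (hs : ∀ ω : ι → Bool, Function.update ω s true ∈ V → Function.update ω s false ∉ V)
    (ht : ∀ ω : ι → Bool, Function.update ω t true ∈ V → Function.update ω t false ∉ V) :
    bernoulliProb p V ≤ rate p := by
  classical
  rw [prob_eq_ex, LS.ex_update p s, LS.ex_update p t]
  rw [← ex_const (ι := ι) p (rate p)]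
  refine ex_mono hp0 hp1 fun ω => ?_
  set f : Bool → Bool → ℝ := fun a b =>
    if Function.update (Function.update ω t b) s a ∈ V then (1 : ℝ) else 0 with hf
  have h1 : ∀ b, f true b = 0 ∨ f false b = 0 := by
    intro b
    by_cases h : Function.update (Function.update ω t b) s true ∈ V
    · right
      simp only [hf]
      rw [if_neg (hs _ h)]
    · left
      simp only [hf]
      rw [if_neg h]
  have h2 : ∀ a, f a true = 0 ∨ f a false = 0 := by
    intro a
    by_cases h : Function.update (Function.update ω t true) s a ∈ V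
    · right
      simp only [hf]
      rw [Function.update_comm hst.symm] at h
      rw [Function.update_comm hst.symm]
      rw [if_neg (ht _ h)]
    · left
      simp only [hf]
      rw [if_neg h]
  have h3 : ∀ a b, f a b = 0 ∨ f a b = 1 := by
    intro a b
    simp only [hf]
    split_ifs <;> simp
  change p * (p * f true true + (1 - p) * f false true) +
    (1 - p) * (p * f true false + (1 - p) * f false false) ≤ rate p
  have hq : 0 ≤ 1 - p := by linarith
  have hpq : 0 ≤ p * (1 - p) := mul_nonneg hp0 hq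
  have hr := rate_ge p
  have hr2 : rate p = p ^ 2 + (1 - p) ^ 2 := rfl
  have hr1 : p ^ 2 ≤ rate p := by rw [hr2]; nlinarith [sq_nonneg (1 - p)]
  have hr3 : (1 - p) ^ 2 ≤ rate p := by rw [hr2]; nlinarith [sq_nonneg p]
  rcases h3 true true with e1 | e1 <;> rcases h3 true false with e2 | e2 <;>
    rcases h3 false true with e3 | e3 <;> rcases h3 false false with e4 | e4 <;>
    rw [e1, e2, e3, e4] <;>
    first
    | (exfalso; rcases h1 true with h | h <;> linarith)
    | (exfalso; rcases h1 false with h | h <;> linarith)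
    | (exfalso; rcases h2 true with h | h <;> linarith)
    | (exfalso; rcases h2 false with h | h <;> linarith)
    | nlinarith

/-- LYM for biased coins: an antichain has probability at most the largest binomial weight. -/
theorem antichain_prob {p B : ℝ} (_hp0 : 0 ≤ p) (hp1 : p ≤ 1) (V : Set (ι → Bool))
    (hV : ∀ x ∈ V, ∀ y ∈ V, (∀ i, x i = true → y i = true) → x = y)
    (hB : ∀ r ≤ Fintype.card ι,
      ((Fintype.card ι).choose r : ℝ) * (p ^ r * (1 - p) ^ (Fintype.card ι - r)) ≤ B) :
    bernoulliProb p V ≤ B := by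
  classical
  set s := Fintype.card ι with hs
  let g : (ι → Bool) → Finset ι := fun x => Finset.univ.filter fun i => x i = true
  have hg : Function.Injective g := by
    intro x y h
    funext i
    have h1 : i ∈ g x ↔ i ∈ g y := by rw [h]
    simp only [g, Finset.mem_filter, Finset.mem_univ, true_and] at h1
    cases hx : x i <;> cases hy : y i <;> simp_all
  let VV : Finset (ι → Bool) := Finset.univ.filter (· ∈ V)
  let 𝒜 : Finset (Finset ι) := VV.image g
  have hw : ∀ x : ι → Bool, bernoulliWeight p x = p ^ (g x).card * (1 - p) ^ (s - (g x).card) := by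
    intro x
    unfold bernoulliWeight
    rw [Finset.prod_ite, Finset.prod_const, Finset.prod_const]
    congr 2
    have h1 := Finset.card_filter_add_card_filter_not (s := (Finset.univ : Finset ι)) (fun i => x i = true)
    rw [Finset.card_univ] at h1
    simp only [g]
    omega
  have hanti : IsAntichain (· ⊆ ·) (𝒜 : Set (Finset ι)) := by
    intro a ha b hb hab hsub
    simp only [𝒜, VV, Finset.coe_image, Set.mem_image, Finset.mem_coe, Finset.mem_filter,
      Finset.mem_univ, true_and] at ha hb
    obtain ⟨x, hx, rfl⟩ := ha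
    obtain ⟨y, hy, rfl⟩ := hb
    refine hab ?_
    rw [hV x hx y hy ?_]
    intro i hi
    have : i ∈ g y := hsub (by simp [g, hi])
    simpa [g] using this
  have hlym := Finset.lubell_yamamoto_meshalkin_inequality_sum_card_div_choose (𝕜 := ℝ) hanti
  have hP : bernoulliProb p V = ∑ a ∈ 𝒜, p ^ a.card * (1 - p) ^ (s - a.card) := by
    unfold bernoulliProb
    rw [Finset.sum_image (fun x _ y _ h => hg h)]
    exact Finset.sum_congr (by ext; simp [VV]) fun x _ => hw x
  have hP2 : ∑ a ∈ 𝒜, p ^ a.card * (1 - p) ^ (s - a.card) =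
      ∑ r ∈ Finset.range (s + 1), ((𝒜.slice r).card : ℝ) * (p ^ r * (1 - p) ^ (s - r)) := by
    rw [← Finset.sum_fiberwise_of_maps_to (t := Finset.range (s + 1)) (g := fun a => a.card)]
    · refine Finset.sum_congr rfl fun r _ => ?_
      have h1 : (𝒜.filter fun a => a.card = r) = 𝒜.slice r := by
        ext a
        simp [Finset.mem_slice]
      rw [h1, ← nsmul_eq_mul, ← Finset.sum_const]
      refine Finset.sum_congr rfl fun a ha => ?_
      rw [(Finset.mem_slice.1 ha).2]
    · intro a _
      rw [Finset.mem_range, hs]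
      exact Nat.lt_succ_of_le (Finset.card_le_univ a)
  rw [hP, hP2]
  have hB0 : 0 ≤ B := le_trans (by have : 0 ≤ 1 - p := by linarith
                                   positivity) (hB 0 (Nat.zero_le _))
  calc ∑ r ∈ Finset.range (s + 1), ((𝒜.slice r).card : ℝ) * (p ^ r * (1 - p) ^ (s - r))
      ≤ ∑ r ∈ Finset.range (s + 1), ((𝒜.slice r).card : ℝ) / (s.choose r : ℝ) * B := by
        refine Finset.sum_le_sum fun r hr => ?_
        have hr' : r ≤ s := Nat.lt_succ_iff.1 (Finset.mem_range.1 hr)
        have hc : (0 : ℝ) < (s.choose r : ℝ) := by exact_mod_cast Nat.choose_pos hr'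
        have := hB r hr'
        rw [div_mul_eq_mul_div, le_div_iff₀ hc]
        have h5 : ((𝒜.slice r).card : ℝ) * (p ^ r * (1 - p) ^ (s - r)) * (s.choose r : ℝ) =
          ((𝒜.slice r).card : ℝ) * ((s.choose r : ℝ) * (p ^ r * (1 - p) ^ (s - r))) := by ring
        rw [h5]
        exact mul_le_mul_of_nonneg_left this (by positivity)
    _ = (∑ r ∈ Finset.range (s + 1), ((𝒜.slice r).card : ℝ) / (s.choose r : ℝ)) * B := by
        rw [Finset.sum_mul]
    _ ≤ 1 * B := mul_le_mul_of_nonneg_right hlym hB0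
    _ = B := one_mul B

/-- Antichain in the coordinates of `S`, for every choice of the others. -/
theorem many_coord {p : ℝ} (hp0 : 0 < p) (hp1 : p < 1) (V : Set (ι → Bool)) (S : Finset ι)
    (hS : 0 < S.card)
    (hV : ∀ x ∈ V, ∀ y ∈ V, (∀ i, i ∉ S → x i = y i) → (∀ i ∈ S, x i = true → y i = true) → x = y) :
    bernoulliProb p V ≤ 4 / √(S.card * p * (1 - p)) := by
  classical
  let e : ι ≃ {i // i ∉ S} ⊕ {i // i ∈ S} :=
    (Equiv.sumCompl (· ∈ S)).symm.trans (Equiv.sumComm _ _)
  have he1 : ∀ i (h : i ∈ S), e i = Sum.inr ⟨i, h⟩ := by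
    intro i h
    simp [e, Equiv.sumCompl_symm_apply_of_pos h]
  have he2 : ∀ i (h : i ∉ S), e i = Sum.inl ⟨i, h⟩ := by
    intro i h
    simp [e, Equiv.sumCompl_symm_apply_of_neg h]
  rw [prob_eq_ex, ex_comp e, ex_sumType]
  rw [← ex_const (ι := {i // i ∉ S}) p (4 / √(S.card * p * (1 - p)))]
  refine ex_mono hp0.le hp1.le fun a => ?_
  have h1 : ex p (fun b : {i // i ∈ S} → Bool => if (Sum.elim a b ∘ e) ∈ V then (1 : ℝ) else 0) =
      bernoulliProb p {b : {i // i ∈ S} → Bool | (Sum.elim a b ∘ e) ∈ V} := by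
    rw [prob_eq_ex]
    rfl
  rw [h1]
  have hcard : Fintype.card {i // i ∈ S} = S.card := Fintype.card_coe S
  refine antichain_prob hp0.le hp1.le _ ?_ ?_
  · intro x hx y hy hxy
    have h2 := hV _ hx _ hy (fun i hi => by simp [he2 i hi])
      (fun i hi => by simpa [he1 i hi] using hxy ⟨i, hi⟩)
    funext i
    have h3 := congrFun h2 i.1
    simpa [he1 i.1 i.2] using h3
  · intro r hr
    rw [hcard] at hr ⊢
    exact bw_le hp0 hp1 hS r hr

/-- linear form in the signs -/
noncomputable def lf (z : ι → ℝ) (x : ι → Bool) : ℝ := ∑ i, (sg (x i) : ℝ) * z i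

theorem lf_update (z : ι → ℝ) (x : ι → Bool) (t : ι) (c : Bool) :
    lf z (Function.update x t c) = lf z x + ((sg c : ℝ) - sg (x t)) * z t := by
  unfold lf
  rw [← Finset.add_sum_erase Finset.univ _ (Finset.mem_univ t),
    ← Finset.add_sum_erase Finset.univ (fun i => (sg (x i) : ℝ) * z i) (Finset.mem_univ t)]
  have h : ∑ i ∈ Finset.univ.erase t, (sg (Function.update x t c i) : ℝ) * z i =
      ∑ i ∈ Finset.univ.erase t, (sg (x i) : ℝ) * z i := by
    refine Finset.sum_congr rfl fun i hi => ?_
    rw [Function.update_of_ne (Finset.ne_of_mem_erase hi)]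
  rw [h, Function.update_self]
  ring

theorem lf_excl {z : ι → ℝ} {c L : ℝ} {t : ι} (ht : L ≤ |z t|) (ω : ι → Bool)
    (h1 : Function.update ω t true ∈ {x | |lf z x - c| < L}) :
    Function.update ω t false ∉ {x | |lf z x - c| < L} := by
  intro h2
  have h1' : |lf z (Function.update ω t true) - c| < L := h1
  have h2' : |lf z (Function.update ω t false) - c| < L := h2
  rw [lf_update] at h1' h2'
  have e1 : (sg true : ℝ) = 1 := by simp [sg]
  have e2 : (sg false : ℝ) = -1 := by simp [sg]
  rw [e1] at h1'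
  rw [e2] at h2'
  rw [abs_lt] at h1' h2'
  rcases abs_cases (z t) with ⟨h, _⟩ | ⟨h, _⟩ <;> rw [h] at ht <;> nlinarith

/-- two coordinates of size at least `L`: probability at most `p²+(1-p)²` -/
theorem lf_two {p : ℝ} (hp0 : 0 ≤ p) (hp1 : p ≤ 1) (z : ι → ℝ) (c : ℝ) {L : ℝ} {s t : ι}
    (hst : s ≠ t) (hs : L ≤ |z s|) (ht : L ≤ |z t|) :
    bernoulliProb p {x | |lf z x - c| < L} ≤ rate p :=
  two_coord hp0 hp1 _ hst (fun ω => lf_excl hs ω) (fun ω => lf_excl ht ω)

theorem lf_pos {p : ℝ} (hp0 : 0 < p) (hp1 : p < 1) (z : ι → ℝ) (c : ℝ) {L : ℝ} (hL : 0 < L)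
    (S : Finset ι) (hS : 0 < S.card) (hz : ∀ i ∈ S, L ≤ z i) :
    bernoulliProb p {x | |lf z x - c| < L} ≤ 4 / √(S.card * p * (1 - p)) := by
  classical
  refine many_coord hp0 hp1 _ S hS ?_
  intro x hx y hy hoff hon
  by_contra hne
  have hx' : |lf z x - c| < L := hx
  have hy' : |lf z y - c| < L := hy
  obtain ⟨i, hi⟩ := Function.ne_iff.1 hne
  have hiS : i ∈ S := by
    by_contra h
    exact hi (hoff i h)
  have hxi : x i = false := by
    cases hxi : x i
    · rfl
    · exact absurd (hxi.trans (hon i hiS hxi).symm) hi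
  have hyi : y i = true := by
    cases hyi : y i
    · exact absurd (hxi.trans hyi.symm) hi
    · rfl
  have hdiff : lf z y - lf z x = ∑ j, ((sg (y j) : ℝ) - sg (x j)) * z j := by
    unfold lf
    rw [← Finset.sum_sub_distrib]
    exact Finset.sum_congr rfl fun j _ => by ring
  have hterm : ∀ j, 0 ≤ ((sg (y j) : ℝ) - sg (x j)) * z j := by
    intro j
    by_cases hj : j ∈ S
    · have hzj : 0 ≤ z j := hL.le.trans (hz j hj)
      refine mul_nonneg ?_ hzj
      cases hxj : x j
      · cases hyj : y j <;> simp [sg]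
      · rw [hon j hj hxj]; simp
    · rw [hoff j hj]; simp
  have hge : ((sg (y i) : ℝ) - sg (x i)) * z i ≤ ∑ j, ((sg (y j) : ℝ) - sg (x j)) * z j :=
    Finset.single_le_sum (f := fun j => ((sg (y j) : ℝ) - sg (x j)) * z j)
      (fun j _ => hterm j) (Finset.mem_univ i)
  rw [hxi, hyi] at hge
  have e1 : (sg true : ℝ) = 1 := by simp [sg]
  have e2 : (sg false : ℝ) = -1 := by simp [sg]
  rw [e1, e2, ← hdiff] at hge
  have := hz i hiS
  rw [abs_lt] at hx' hy'
  linarith

theorem lf_neg (z : ι → ℝ) (x : ι → Bool) : lf (fun i => - z i) x = - lf z x := by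
  unfold lf
  rw [← Finset.sum_neg_distrib]
  exact Finset.sum_congr rfl fun i _ => by ring

/-- `2m` coordinates of size at least `L`. -/
theorem lf_many {p : ℝ} (hp0 : 0 < p) (hp1 : p < 1) (z : ι → ℝ) (c : ℝ) {L : ℝ} (hL : 0 < L)
    (S : Finset ι) {m : ℕ} (hm : 0 < m) (hS : 2 * m ≤ S.card) (hz : ∀ i ∈ S, L ≤ |z i|) :
    bernoulliProb p {x | |lf z x - c| < L} ≤ 4 / √(m * p * (1 - p)) := by
  classical
  have hq : 0 < 1 - p := by linarith
  have key : ∀ T : Finset ι, m ≤ T.card →
      4 / √(T.card * p * (1 - p)) ≤ 4 / √(m * p * (1 - p)) := by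
    intro T hT
    have hm' : (0 : ℝ) < m := by exact_mod_cast hm
    have h1 : 0 < √(m * p * (1 - p)) := Real.sqrt_pos.2 (by positivity)
    refine div_le_div_of_nonneg_left (by norm_num) h1 (Real.sqrt_le_sqrt ?_)
    have : (m : ℝ) ≤ T.card := by exact_mod_cast hT
    gcongr
  set Sp := S.filter (fun i => 0 ≤ z i) with hSp
  set Sn := S.filter (fun i => ¬ 0 ≤ z i) with hSn
  have hsum : Sp.card + Sn.card = S.card := Finset.card_filter_add_card_filter_not _
  by_cases h : m ≤ Sp.card
  · refine (lf_pos hp0 hp1 z c hL Sp (by omega) ?_).trans (key Sp h)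
    intro i hi
    rw [hSp, Finset.mem_filter] at hi
    have := hz i hi.1
    rwa [abs_of_nonneg hi.2] at this
  · have h' : m ≤ Sn.card := by omega
    have h2 : {x : ι → Bool | |lf z x - c| < L} = {x | |lf (fun i => - z i) x - (-c)| < L} := by
      ext x
      simp only [Set.mem_ofPred_eq]
      rw [lf_neg, ← abs_neg (lf z x - c)]
      ring_nf
    rw [h2]
    refine (lf_pos hp0 hp1 (fun i => - z i) (-c) hL Sn (by omega) ?_).trans (key Sn h')
    intro i hi
    rw [hSn, Finset.mem_filter] at hi
    have h3 := hz i hi.1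
    rwa [abs_of_neg (not_le.1 hi.2)] at h3

end Crest.Agent.R152.Top
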