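import Mathlib
import Crest.Agent.R152.TopA

set_option autoImplicit false
set_option linter.unusedSectionVars false

/-! Row 152, module TOP, part N1: the grid lemma. -/

open Crest.FinProb Crest.ProbabilityR.SignMatrix

namespace Crest.Agent.R152.Top

open Crest.Agent.R152.Base

variable {ι : Type*} [Fintype ι] [DecidableEq ι]

/-- the probability that one fresh row nearly kills `z` -/
noncomputable def rowp (p : ℝ) (z : ι → ℤ) (L : ℝ) : ℝ :=
  bernoulliProb p {x : {i // z i ≠ 0} → Bool | |lf (fun i => (z i.1 : ℝ)) x - 0| < L}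

theorem mulVec_eq_lf (w : Sym2 ι → Bool) (z : ι → ℤ) (j : ι) :
    (((symMat w).mulVec z j : ℤ) : ℝ) =
      lf (fun i : {i // z i ≠ 0} => (z i.1 : ℝ)) (fun i => w s(j, i.1)) := by
  classical
  unfold lf Matrix.mulVec dotProduct
  push_cast
  have h : ∀ i, (symMat w j i : ℝ) * (z i : ℝ) = (sg (w s(j, i)) : ℝ) * z i := fun i => rfl
  simp only [h]
  have h1 : ∑ i, (sg (w s(j, i)) : ℝ) * z i =
      ∑ i ∈ Finset.univ.filter (fun i => z i ≠ 0), (sg (w s(j, i)) : ℝ) * z i := by
    symm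
    refine Finset.sum_filter_of_ne fun i _ hi h0 => hi ?_
    rw [h0]
    simp
  rw [h1]
  exact Finset.sum_subtype _ (fun x => by simp) (fun i => (sg (w s(j, i)) : ℝ) * z i)

theorem prob_kill {p : ℝ} (hp0 : 0 ≤ p) (hp1 : p ≤ 1) (z : ι → ℤ) (L : ℝ) :
    bernoulliProb p {w : Sym2 ι → Bool | ∀ j, |(((symMat w).mulVec z j : ℤ) : ℝ)| < L} ≤
      rowp p z L ^ (Fintype.card ι - (Finset.univ.filter fun i => z i ≠ 0).card) := by
  classical
  let g : {i // ¬ z i ≠ 0} × {i // z i ≠ 0} → Sym2 ι := fun q => s(q.1.1, q.2.1)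
  have hg : Function.Injective g := by
    rintro ⟨a, b⟩ ⟨c, d⟩ h
    simp only [g, Sym2.eq_iff] at h
    rcases h with ⟨h1, h2⟩ | ⟨h1, h2⟩
    · exact Prod.ext (Subtype.ext h1) (Subtype.ext h2)
    · exact absurd (h1 ▸ d.2) a.2
  have hsub : {w : Sym2 ι → Bool | ∀ j, |(((symMat w).mulVec z j : ℤ) : ℝ)| < L} ⊆
      {w : Sym2 ι → Bool | (w ∘ g) ∈ {ω : {i // ¬ z i ≠ 0} × {i // z i ≠ 0} → Bool | ∀ j,
        (fun t => ω (j, t)) ∈ {x : {i // z i ≠ 0} → Bool |
          |lf (fun i => (z i.1 : ℝ)) x - 0| < L}}} := by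
    intro w hw j
    have h1 := hw j.1
    rw [mulVec_eq_lf] at h1
    change |lf (fun i : {i // z i ≠ 0} => (z i.1 : ℝ)) (fun i => w s(j.1, i.1)) - 0| < L
    rwa [sub_zero]
  refine (prob_mono hp0 hp1 hsub).trans ?_
  rw [prob_inj hg]
  have hcard : Fintype.card {i // ¬ z i ≠ 0} =
      Fintype.card ι - (Finset.univ.filter fun i => z i ≠ 0).card := by
    rw [Fintype.card_subtype_compl, Fintype.card_subtype]
  rw [← hcard]
  exact prob_rows hp0 hp1 (fun _ => {x : {i // z i ≠ 0} → Bool |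
    |lf (fun i => (z i.1 : ℝ)) x - 0| < L}) fun j => le_refl _

/-- the grid: integer vectors with at most `m` nonzero entries, all at most `Z` -/
noncomputable def gr (ι : Type*) [Fintype ι] [DecidableEq ι] (Z : ℕ) : ℕ → Finset (ι → ℤ)
  | 0 => {0}
  | m + 1 => (gr ι Z m ×ˢ ((Finset.univ : Finset ι) ×ˢ Finset.Icc (-(Z : ℤ)) Z)).image
      fun q => Function.update q.1 q.2.1 q.2.2

theorem card_gr (Z m : ℕ) : (gr ι Z m).card ≤ (Fintype.card ι * (2 * Z + 1)) ^ m := by
  induction m with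
  | zero => simp [gr]
  | succ m ih =>
    rw [gr]
    refine Finset.card_image_le.trans ?_
    rw [Finset.card_product, Finset.card_product, Finset.card_univ, Int.card_Icc, pow_succ]
    refine Nat.mul_le_mul ih (Nat.mul_le_mul_left _ ?_)
    omega

theorem zero_mem_gr [Nonempty ι] (Z m : ℕ) : (0 : ι → ℤ) ∈ gr ι Z m := by
  induction m with
  | zero => simp [gr]
  | succ m ih =>
    rw [gr, Finset.mem_image]
    obtain ⟨i⟩ := ‹Nonempty ι›
    refine ⟨(0, i, 0), ?_, ?_⟩
    · simp only [Finset.mem_product, Finset.mem_univ, true_and, Finset.mem_Icc]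
      exact ⟨ih, by omega, by omega⟩
    · simp

theorem mem_gr [Nonempty ι] {Z : ℕ} (m : ℕ) (z : ι → ℤ) (hz : ∀ i, |z i| ≤ Z)
    (hm : (Finset.univ.filter fun i => z i ≠ 0).card ≤ m) : z ∈ gr ι Z m := by
  induction m generalizing z with
  | zero =>
    have h0 : z = 0 := by
      funext i
      by_contra h
      have h1 : i ∈ Finset.univ.filter fun i => z i ≠ 0 := by
        rw [Finset.mem_filter]; exact ⟨Finset.mem_univ _, h⟩
      rw [Finset.card_eq_zero.1 (Nat.le_zero.1 hm)] at h1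
      simp at h1
    rw [h0]
    exact zero_mem_gr Z 0
  | succ m ih =>
    by_cases h0 : z = 0
    · rw [h0]; exact zero_mem_gr Z _
    · obtain ⟨i, hi⟩ := Function.ne_iff.1 h0
      rw [gr, Finset.mem_image]
      refine ⟨(Function.update z i 0, i, z i), ?_, ?_⟩
      · simp only [Finset.mem_product, Finset.mem_univ, true_and, Finset.mem_Icc]
        refine ⟨ih _ ?_ ?_, abs_le.1 (hz i)⟩
        · intro j
          by_cases hj : j = i
          · subst hj; simp
          · rw [Function.update_of_ne hj]; exact hz j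
        · have h2 : (Finset.univ.filter fun j => Function.update z i 0 j ≠ 0) ⊆
              (Finset.univ.filter fun j => z j ≠ 0).erase i := by
            intro j hj
            rw [Finset.mem_filter] at hj
            rw [Finset.mem_erase, Finset.mem_filter]
            have hji : j ≠ i := by
              rintro rfl
              simp at hj
            rw [Function.update_of_ne hji] at hj
            exact ⟨hji, Finset.mem_univ _, hj.2⟩
          have h3 := Finset.card_le_card h2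
          rw [Finset.card_erase_of_mem (by rw [Finset.mem_filter]; exact ⟨Finset.mem_univ _, hi⟩)] at h3
          omega
      · simp

/-- **Grid lemma.** -/
theorem grid [Nonempty ι] {p α : ℝ} (hp0 : 0 ≤ p) (hp1 : p ≤ 1) (hα0 : 0 ≤ α) (hα1 : α ≤ 1)
    (m Z : ℕ) (L : ℝ) :
    bernoulliProb p {w : Sym2 ι → Bool | ∃ z : ι → ℤ,
      (Finset.univ.filter fun i => z i ≠ 0).card ≤ m ∧ (∀ i, |z i| ≤ Z) ∧ rowp p z L ≤ α ∧
      ∀ j, |(((symMat w).mulVec z j : ℤ) : ℝ)| < L} ≤
    ((Fintype.card ι : ℝ) * (2 * Z + 1)) ^ m * α ^ (Fintype.card ι - m) := by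
  classical
  set G := (gr ι Z m).filter fun z =>
    (Finset.univ.filter fun i => z i ≠ 0).card ≤ m ∧ rowp p z L ≤ α with hG
  have hsub : {w : Sym2 ι → Bool | ∃ z : ι → ℤ,
      (Finset.univ.filter fun i => z i ≠ 0).card ≤ m ∧ (∀ i, |z i| ≤ Z) ∧ rowp p z L ≤ α ∧
      ∀ j, |(((symMat w).mulVec z j : ℤ) : ℝ)| < L} ⊆
      ⋃ z ∈ G, {w : Sym2 ι → Bool | ∀ j, |(((symMat w).mulVec z j : ℤ) : ℝ)| < L} := by
    rintro w ⟨z, h1, h2, h3, h4⟩
    rw [Set.mem_iUnion₂]
    refine ⟨z, ?_, h4⟩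
    rw [hG, Finset.mem_filter]
    exact ⟨mem_gr m z h2 h1, h1, h3⟩
  refine (prob_mono hp0 hp1 hsub).trans ((prob_biUnion_le hp0 hp1 _ _).trans ?_)
  have hterm : ∀ z ∈ G, bernoulliProb p
      {w : Sym2 ι → Bool | ∀ j, |(((symMat w).mulVec z j : ℤ) : ℝ)| < L} ≤
      α ^ (Fintype.card ι - m) := by
    intro z hz
    rw [hG, Finset.mem_filter] at hz
    refine (prob_kill hp0 hp1 z L).trans ?_
    have h1 : 0 ≤ rowp p z L := prob_nonneg hp0 hp1 _
    calc rowp p z L ^ (Fintype.card ι - (Finset.univ.filter fun i => z i ≠ 0).card)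
        ≤ α ^ (Fintype.card ι - (Finset.univ.filter fun i => z i ≠ 0).card) :=
          pow_le_pow_left₀ h1 hz.2.2 _
      _ ≤ α ^ (Fintype.card ι - m) := by
          refine pow_le_pow_of_le_one hα0 hα1 ?_
          have := hz.2.1
          omega
  refine (Finset.sum_le_sum hterm).trans ?_
  rw [Finset.sum_const, nsmul_eq_mul]
  refine mul_le_mul_of_nonneg_right ?_ (by positivity)
  have h5 : G.card ≤ (Fintype.card ι * (2 * Z + 1)) ^ m :=
    (Finset.card_filter_le _ _).trans (card_gr Z m)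
  calc (G.card : ℝ) ≤ (((Fintype.card ι * (2 * Z + 1)) ^ m : ℕ) : ℝ) := by exact_mod_cast h5
    _ = _ := by push_cast; ring

end Crest.Agent.R152.Top
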