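import Mathlib
import Crest.Agent.R152.TopN1

set_option autoImplicit false
set_option linter.unusedSectionVars false

/-! Row 152, module TOP, part N2: the two events covering the failure of near-maximality. -/

open Crest.FinProb Crest.ProbabilityR.SignMatrix

namespace Crest.Agent.R152.Top

open Crest.Agent.R152.Base

variable {n : ℕ}

theorem abs_sgR (c : Bool) : |(sg c : ℝ)| = 1 := by cases c <;> simp [sg]

/-- rounding a kernel vector -/
theorem round_small (w : Sym2 (Fin n) → Bool) (k : Fin n → ℝ)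
    (hk : ((symMat w).map (Int.cast : ℤ → ℝ)).mulVec k = 0) (G : ℝ) (j : Fin n) :
    |(((symMat w).mulVec (fun i => round (G * k i)) j : ℤ) : ℝ)| ≤ n / 2 := by
  have h1 : (((symMat w).mulVec (fun i => round (G * k i)) j : ℤ) : ℝ) =
      ∑ i, (symMat w j i : ℝ) * ((round (G * k i) : ℝ) - G * k i) := by
    have h2 : ∑ i, (symMat w j i : ℝ) * k i = 0 := by
      have := congrFun hk j
      simpa [Matrix.mulVec, dotProduct] using this
    have h3 : ∑ i, (symMat w j i : ℝ) * ((round (G * k i) : ℝ) - G * k i) =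
        ∑ i, (symMat w j i : ℝ) * (round (G * k i) : ℝ) - G * ∑ i, (symMat w j i : ℝ) * k i := by
      rw [Finset.mul_sum, ← Finset.sum_sub_distrib]
      exact Finset.sum_congr rfl fun i _ => by ring
    rw [h3, h2, mul_zero, sub_zero]
    simp [Matrix.mulVec, dotProduct]
  rw [h1]
  refine (Finset.abs_sum_le_sum_abs _ _).trans ?_
  have h4 : ∀ i ∈ (Finset.univ : Finset (Fin n)),
      |(symMat w j i : ℝ) * ((round (G * k i) : ℝ) - G * k i)| ≤ 1 / 2 := by
    intro i _
    rw [abs_mul]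
    have e1 : |(symMat w j i : ℝ)| = 1 := abs_sgR _
    rw [e1, one_mul, abs_sub_comm]
    exact abs_sub_round _
  refine (Finset.sum_le_sum h4).trans ?_
  rw [Finset.sum_const, Finset.card_univ, Fintype.card_fin, nsmul_eq_mul]
  linarith

theorem round_le {x : ℝ} {G : ℕ} (h : |x| ≤ G) : |round x| ≤ ((G + 1 : ℕ) : ℤ) := by
  have h1 := abs_sub_round x
  have h2 : |(round x : ℝ)| ≤ G + 1 := by
    have := abs_sub_abs_le_abs_sub (round x : ℝ) x
    rw [abs_sub_comm] at this
    linarith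
  have h3 : ((|round x| : ℤ) : ℝ) ≤ (((G + 1 : ℕ) : ℤ) : ℝ) := by
    push_cast
    exact h2
  exact_mod_cast h3

theorem round_ge {x : ℝ} : |x| - 1 / 2 ≤ |(round x : ℝ)| := by
  have h1 := abs_sub_round x
  have := abs_sub_abs_le_abs_sub x (round x : ℝ)
  linarith

theorem round_ne {G x : ℝ} (hG : 0 < G) (h : round (G * x) ≠ 0) : 1 / (2 * G) ≤ |x| := by
  by_contra hcon
  push Not at hcon
  apply h
  have h1 : |G * x| < 1 / 2 := by
    rw [abs_mul, abs_of_pos hG]
    rw [lt_div_iff₀ (by positivity)] at hcon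
    linarith
  rw [abs_lt] at h1
  exact round_eq_zero_iff.2 ⟨by linarith, by linarith⟩

/-- event A: few entries of size `≥ 1/(2n²)` -/
theorem eventA {p : ℝ} (hp0 : 0 < p) (hp1 : p < 1) (hn : 1 ≤ n) (w : Sym2 (Fin n) → Bool)
    (k : Fin n → ℝ) (hk : ((symMat w).map (Int.cast : ℤ → ℝ)).mulVec k = 0)
    (hk1 : ∀ i, |k i| ≤ 1) (i0 : Fin n) (hi0 : |k i0| = 1) (m : ℕ)
    (hm : (Finset.univ.filter fun i => 1 / (2 * (n : ℝ) ^ 2) ≤ |k i|).card ≤ m) :
    ∃ z : Fin n → ℤ, (Finset.univ.filter fun i => z i ≠ 0).card ≤ m ∧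
      (∀ i, |z i| ≤ ((n ^ 2 + 1 : ℕ) : ℤ)) ∧ rowp p z n ≤ rate p ∧
      ∀ j, |(((symMat w).mulVec z j : ℤ) : ℝ)| < n := by
  classical
  have hn' : (1 : ℝ) ≤ n := by exact_mod_cast hn
  have hn2 : (0 : ℝ) < (n : ℝ) ^ 2 := by positivity
  set z : Fin n → ℤ := fun i => round ((n : ℝ) ^ 2 * k i) with hz
  have hsmall : ∀ j, |(((symMat w).mulVec z j : ℤ) : ℝ)| < n := by
    intro j
    have := round_small w k hk ((n : ℝ) ^ 2) j
    linarith
  have hbig : |(z i0 : ℝ)| = (n : ℝ) ^ 2 := by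
    simp only [hz]
    rcases abs_eq (by norm_num : (0 : ℝ) ≤ 1) |>.1 hi0 with h | h
    · rw [h, mul_one]
      have : round ((n : ℝ) ^ 2) = ((n ^ 2 : ℕ) : ℤ) := by
        have e : ((n : ℝ) ^ 2) = (((n ^ 2 : ℕ) : ℤ) : ℝ) := by push_cast; ring
        rw [e, round_intCast]
      rw [this]
      push_cast
      exact abs_of_pos hn2
    · rw [h]
      have : round ((n : ℝ) ^ 2 * -1) = -((n ^ 2 : ℕ) : ℤ) := by
        have e : ((n : ℝ) ^ 2 * -1) = ((-((n ^ 2 : ℕ) : ℤ) : ℤ) : ℝ) := by push_cast; ring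
        rw [e, round_intCast]
      rw [this]
      push_cast
      rw [abs_neg]
      exact abs_of_pos hn2
  -- a second large coordinate
  obtain ⟨i1, hi1, hi1'⟩ : ∃ i1, i1 ≠ i0 ∧ (n : ℝ) ≤ |(z i1 : ℝ)| := by
    by_contra hcon
    push Not at hcon
    have h1 := hsmall i0
    have h2 : (((symMat w).mulVec z i0 : ℤ) : ℝ) =
        (symMat w i0 i0 : ℝ) * z i0 + ∑ i ∈ Finset.univ.erase i0, (symMat w i0 i : ℝ) * z i := by
      rw [Finset.add_sum_erase Finset.univ (fun i => (symMat w i0 i : ℝ) * z i) (Finset.mem_univ i0)]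
      simp [Matrix.mulVec, dotProduct]
    have h3 : |∑ i ∈ Finset.univ.erase i0, (symMat w i0 i : ℝ) * z i| ≤ ((n : ℝ) - 1) * n := by
      refine (Finset.abs_sum_le_sum_abs _ _).trans ?_
      have h4 : ∀ i ∈ Finset.univ.erase i0, |(symMat w i0 i : ℝ) * z i| ≤ n := by
        intro i hi
        rw [abs_mul]
        have e1 : |(symMat w i0 i : ℝ)| = 1 := abs_sgR _
        rw [e1, one_mul]
        exact (hcon i (Finset.ne_of_mem_erase hi)).le
      refine (Finset.sum_le_sum h4).trans ?_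
      rw [Finset.sum_const, Finset.card_erase_of_mem (Finset.mem_univ i0), Finset.card_univ,
        Fintype.card_fin, nsmul_eq_mul, Nat.cast_sub hn, Nat.cast_one]
    have h5 : |(symMat w i0 i0 : ℝ) * z i0| = (n : ℝ) ^ 2 := by
      rw [abs_mul]
      have e1 : |(symMat w i0 i0 : ℝ)| = 1 := abs_sgR _
      rw [e1, one_mul, hbig]
    rw [h2] at h1
    set a := (symMat w i0 i0 : ℝ) * z i0
    set b := ∑ i ∈ Finset.univ.erase i0, (symMat w i0 i : ℝ) * z i
    have h6 : |a| - |b| ≤ |a + b| := by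
      have := abs_sub_abs_le_abs_sub a (-b)
      rwa [abs_neg, sub_neg_eq_add] at this
    nlinarith
  refine ⟨z, ?_, ?_, ?_, hsmall⟩
  · refine (Finset.card_le_card ?_).trans hm
    intro i hi
    rw [Finset.mem_filter] at hi ⊢
    exact ⟨Finset.mem_univ _, round_ne hn2 hi.2⟩
  · intro i
    refine round_le ?_
    rw [abs_mul, abs_of_pos hn2]
    push_cast
    have := hk1 i
    nlinarith
  · have hz0 : z i0 ≠ 0 := by
      intro h
      rw [h] at hbig
      simp at hbig
      nlinarith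
    have hz1 : z i1 ≠ 0 := by
      intro h
      rw [h] at hi1'
      simp at hi1'
      have : n = 0 := by exact_mod_cast hi1'
      omega
    refine lf_two hp0.le hp1.le _ 0 (s := ⟨i0, hz0⟩) (t := ⟨i1, hz1⟩) ?_ ?_ ?_
    · intro h
      exact hi1 (Subtype.ext_iff.1 h).symm
    · change (n : ℝ) ≤ |(z i0 : ℝ)|
      rw [hbig]
      nlinarith
    · exact hi1'

/-- event B: many entries of size `≥ 1/(2n²)` -/
theorem eventB {p : ℝ} (hp0 : 0 < p) (hp1 : p < 1) (hn : 1 ≤ n) (w : Sym2 (Fin n) → Bool)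
    (k : Fin n → ℝ) (hk : ((symMat w).map (Int.cast : ℤ → ℝ)).mulVec k = 0)
    (hk1 : ∀ i, |k i| ≤ 1) (s m : ℕ) (hs : 0 < s)
    (hs2 : 2 * s ≤ (Finset.univ.filter fun i => 1 / (2 * (n : ℝ) ^ 2) ≤ |k i|).card)
    (hm : (Finset.univ.filter fun i => 1 / (2 * (2 * (n : ℝ) ^ 2 * (n + 1))) ≤ |k i|).card ≤ m) :
    ∃ z : Fin n → ℤ, (Finset.univ.filter fun i => z i ≠ 0).card ≤ m ∧
      (∀ i, |z i| ≤ ((2 * n ^ 2 * (n + 1) + 1 : ℕ) : ℤ)) ∧
      rowp p z n ≤ 4 / √(s * p * (1 - p)) ∧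
      ∀ j, |(((symMat w).mulVec z j : ℤ) : ℝ)| < n := by
  classical
  have hn' : (1 : ℝ) ≤ n := by exact_mod_cast hn
  have hn2 : (0 : ℝ) < 2 * (n : ℝ) ^ 2 * (n + 1) := by positivity
  set z : Fin n → ℤ := fun i => round (2 * (n : ℝ) ^ 2 * (n + 1) * k i) with hz
  have hsmall : ∀ j, |(((symMat w).mulVec z j : ℤ) : ℝ)| < n := by
    intro j
    have := round_small w k hk (2 * (n : ℝ) ^ 2 * (n + 1)) j
    linarith
  have hlarge : ∀ i, 1 / (2 * (n : ℝ) ^ 2) ≤ |k i| → (n : ℝ) ≤ |(z i : ℝ)| := by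
    intro i hi
    have h1 := round_ge (x := 2 * (n : ℝ) ^ 2 * (n + 1) * k i)
    rw [abs_mul, abs_of_pos hn2] at h1
    have h2 : (n : ℝ) + 1 ≤ 2 * (n : ℝ) ^ 2 * (n + 1) * |k i| := by
      rw [div_le_iff₀ (by positivity)] at hi
      nlinarith
    simp only [hz]
    linarith
  refine ⟨z, ?_, ?_, ?_, hsmall⟩
  · refine (Finset.card_le_card ?_).trans hm
    intro i hi
    rw [Finset.mem_filter] at hi ⊢
    exact ⟨Finset.mem_univ _, round_ne hn2 hi.2⟩
  · intro i
    refine round_le ?_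
    rw [abs_mul, abs_of_pos hn2]
    push_cast
    have := hk1 i
    nlinarith
  · set S : Finset {i // z i ≠ 0} :=
      Finset.univ.filter fun i => 1 / (2 * (n : ℝ) ^ 2) ≤ |k i.1| with hS
    refine lf_many hp0 hp1 _ 0 (by linarith) S hs ?_ ?_
    · refine hs2.trans ?_
      have h1 : (Finset.univ.filter fun i => 1 / (2 * (n : ℝ) ^ 2) ≤ |k i|) ⊆
          S.map (Function.Embedding.subtype _) := by
        intro i hi
        rw [Finset.mem_filter] at hi
        rw [Finset.mem_map]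
        have h2 := hlarge i hi.2
        have h3 : z i ≠ 0 := by
          intro h
          rw [h] at h2
          simp at h2
          have : n = 0 := by exact_mod_cast h2
          omega
        exact ⟨⟨i, h3⟩, by rw [hS, Finset.mem_filter]; exact ⟨Finset.mem_univ _, hi.2⟩, rfl⟩
      have := Finset.card_le_card h1
      rwa [Finset.card_map] at this
    · intro i hi
      rw [hS, Finset.mem_filter] at hi
      exact hlarge i.1 hi.2

end Crest.Agent.R152.Top
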