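import Mathlib
import Crest.Agent.R152.TopN2

set_option autoImplicit false
set_option linter.unusedSectionVars false

/-! Row 152, module TOP, part N3: near-maximal coordinates of kernel vectors. -/

open Crest.FinProb Crest.ProbabilityR.SignMatrix Filter

namespace Crest.Agent.R152.Top

open Crest.Agent.R152.Base

theorem ev_log_sqrt {K c : ℝ} (hK : 0 ≤ K) (hc : 0 < c) :
    ∀ᶠ n : ℕ in atTop, K * (√n * Real.log n) + K * √n + K ≤ c * n := by
  have h1 : ∀ᶠ x : ℝ in atTop, |Real.log x| ≤ (c / (3 * (K + 1))) * |x ^ (1 / 2 : ℝ)| := by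
    have := (isLittleO_log_rpow_atTop (by norm_num : (0 : ℝ) < 1 / 2)).def
      (by positivity : 0 < c / (3 * (K + 1)))
    simpa using this
  have h2 := tendsto_natCast_atTop_atTop (R := ℝ) |>.eventually h1
  have h3 : ∀ᶠ n : ℕ in atTop, (3 * K / c) ^ 2 ≤ (n : ℝ) :=
    tendsto_natCast_atTop_atTop.eventually (eventually_ge_atTop _)
  have h4 : ∀ᶠ n : ℕ in atTop, (3 * K / c) ≤ (n : ℝ) :=
    tendsto_natCast_atTop_atTop.eventually (eventually_ge_atTop _)
  filter_upwards [h2, h3, h4, eventually_ge_atTop 1] with n e2 e3 e4 hn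
  have hn' : (1 : ℝ) ≤ n := by exact_mod_cast hn
  have hlog : 0 ≤ Real.log n := Real.log_nonneg hn'
  have hsq : 0 ≤ √(n : ℝ) := Real.sqrt_nonneg _
  have hsq2 : √(n : ℝ) * √n = n := Real.mul_self_sqrt (by linarith)
  rw [abs_of_nonneg hlog, ← Real.sqrt_eq_rpow, abs_of_nonneg hsq] at e2
  have e5 : 3 * K / c ≤ √n := Real.le_sqrt_of_sq_le e3
  have hK1 : K / (3 * (K + 1)) ≤ 1 / 3 := by
    rw [div_le_div_iff₀ (by positivity) (by norm_num)]
    linarith
  have a1 : K * (√n * Real.log n) ≤ c / 3 * n := by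
    calc K * (√n * Real.log n) ≤ K * (√n * (c / (3 * (K + 1)) * √n)) := by gcongr
      _ = (K / (3 * (K + 1))) * c * (√n * √n) := by ring
      _ = (K / (3 * (K + 1))) * c * n := by rw [hsq2]
      _ ≤ (1 / 3) * c * n := by gcongr
      _ = c / 3 * n := by ring
  have a2 : K * √n ≤ c / 3 * n := by
    rw [div_le_iff₀ hc] at e5
    calc K * √n ≤ (√n * c / 3) * √n := by nlinarith
      _ = c / 3 * (√n * √n) := by ring
      _ = c / 3 * n := by rw [hsq2]
  have a3 : K ≤ c / 3 * n := by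
    rw [div_le_iff₀ hc] at e4
    linarith
  linarith

theorem ev_log {K c : ℝ} : ∀ᶠ n : ℕ in atTop, K ≤ c * Real.log n ∨ c ≤ 0 := by
  by_cases hc : c ≤ 0
  · exact Eventually.of_forall fun n => Or.inr hc
  · push Not at hc
    have h1 : Tendsto (fun n : ℕ => Real.log n) atTop atTop :=
      Real.tendsto_log_atTop.comp tendsto_natCast_atTop_atTop
    filter_upwards [h1.eventually (eventually_ge_atTop (K / c))] with n hn
    left
    rw [div_le_iff₀ hc] at hn
    linarith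

theorem asymA {p ε : ℝ} (hp0 : 0 < p) (hp1 : p < 1) (hε : 0 < ε) :
    ∀ᶠ n : ℕ in atTop,
      ((n : ℝ) * (2 * ((n ^ 2 + 1 : ℕ) : ℝ) + 1)) ^ (2 * Nat.sqrt n) *
        rate p ^ (n - 2 * Nat.sqrt n) ≤ (rate p + ε) ^ n / 2 := by
  have hr := rate_pos p
  have hr1 := rate_le_one hp0.le hp1.le
  have hrh := half_le_rate p
  filter_upwards [ev_log_sqrt (K := 20) (by norm_num) (Real.log_pos (by linarith : 1 < 1 + ε)),
    eventually_ge_atTop 16] with n h1 hn
  have hn' : (16 : ℝ) ≤ n := by exact_mod_cast hn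
  have hlog : 0 ≤ Real.log n := Real.log_nonneg (by linarith)
  set s := Nat.sqrt n with hs
  have hsn : 2 * s ≤ n := by
    have h2 : s * s ≤ n := Nat.sqrt_le n
    have h3 : 4 ≤ s := by
      rw [hs, Nat.le_sqrt]; omega
    nlinarith
  have hs1 : (s : ℝ) ≤ √n := by
    rw [Real.le_sqrt (by positivity) (by positivity)]
    have : s * s ≤ n := Nat.sqrt_le n
    have h2 : ((s * s : ℕ) : ℝ) ≤ n := by exact_mod_cast this
    push_cast at h2
    nlinarith
  have hbase : (n : ℝ) * (2 * ((n ^ 2 + 1 : ℕ) : ℝ) + 1) ≤ (n : ℝ) ^ 4 := by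
    push_cast
    have h3 : (n : ℝ) * (2 * ((n : ℝ) ^ 2 + 1) + 1) = 2 * (n : ℝ) ^ 3 + 3 * n := by ring
    rw [h3]
    have h4 : (n : ℝ) ^ 4 = n * (n : ℝ) ^ 3 := by ring
    have h5 : 16 * (n : ℝ) ^ 3 ≤ (n : ℝ) ^ 4 := by rw [h4]; gcongr
    have h6 : (n : ℝ) ^ 3 = n * (n * n) := by ring
    have h7 : 3 * (n : ℝ) ≤ (n : ℝ) ^ 3 := by rw [h6]; nlinarith
    have h8 : 0 ≤ (n : ℝ) ^ 3 := by positivity
    linarith
  have e1 : ((n : ℝ) * (2 * ((n ^ 2 + 1 : ℕ) : ℝ) + 1)) ^ (2 * s) ≤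
      Real.exp (8 * (√n * Real.log n)) := by
    calc ((n : ℝ) * (2 * ((n ^ 2 + 1 : ℕ) : ℝ) + 1)) ^ (2 * s) ≤ ((n : ℝ) ^ 4) ^ (2 * s) :=
          pow_le_pow_left₀ (by positivity) hbase _
      _ = Real.exp (8 * (s * Real.log n)) := by
          rw [← pow_mul, ← Real.exp_log (by linarith : (0 : ℝ) < n), ← Real.exp_nat_mul,
            Real.log_exp]
          congr 1
          push_cast
          ring
      _ ≤ _ := by
          apply Real.exp_le_exp.2
          have := mul_le_mul_of_nonneg_right hs1 hlog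
          linarith
  have e2 : rate p ^ (n - 2 * s) ≤ rate p ^ n * Real.exp (2 * √n) := by
    have h2 : rate p ^ n = rate p ^ (n - 2 * s) * rate p ^ (2 * s) := by
      rw [← pow_add]; congr 1; omega
    have h3 : 1 ≤ rate p ^ (2 * s) * Real.exp (2 * √n) := by
      have h4 : Real.exp (-(1 : ℝ)) ≤ rate p := by
        refine le_trans ?_ hrh
        rw [Real.exp_neg, inv_eq_one_div, div_le_div_iff_of_pos_left (by norm_num) (Real.exp_pos _)
          (by norm_num)]
        have := Real.add_one_le_exp (1 : ℝ)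
        linarith
      calc (1 : ℝ) ≤ Real.exp (-(2 * s : ℝ) + 2 * √n) := by
            rw [← Real.exp_zero]
            apply Real.exp_le_exp.2
            linarith
        _ = Real.exp (-(1 : ℝ)) ^ (2 * s) * Real.exp (2 * √n) := by
            rw [← Real.exp_nat_mul, ← Real.exp_add]
            congr 1
            push_cast
            ring
        _ ≤ _ := by gcongr
    rw [h2, mul_assoc]
    have h5 : 0 ≤ rate p ^ (n - 2 * s) := by positivity
    nlinarith
  have e3 : rate p ^ n * Real.exp (Real.log (1 + ε) * n) ≤ (rate p + ε) ^ n := by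
    have h2 : Real.exp (Real.log (1 + ε) * n) = (1 + ε) ^ n := by
      rw [mul_comm, Real.exp_nat_mul, Real.exp_log (by linarith)]
    rw [h2, ← mul_pow]
    refine pow_le_pow_left₀ (by positivity) ?_ _
    nlinarith
  have e4 : Real.exp (8 * (√n * Real.log n)) * Real.exp (2 * √n) * 2 ≤
      Real.exp (Real.log (1 + ε) * n) := by
    have h2 : (2 : ℝ) ≤ Real.exp 1 := by
      have := Real.add_one_le_exp (1 : ℝ)
      linarith
    calc Real.exp (8 * (√n * Real.log n)) * Real.exp (2 * √n) * 2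
        ≤ Real.exp (8 * (√n * Real.log n)) * Real.exp (2 * √n) * Real.exp 1 := by gcongr
      _ = Real.exp (8 * (√n * Real.log n) + 2 * √n + 1) := by
          rw [Real.exp_add, Real.exp_add]
      _ ≤ _ := by
          apply Real.exp_le_exp.2
          have : 0 ≤ √(n : ℝ) := Real.sqrt_nonneg _
          have h3 : 0 ≤ √(n : ℝ) * Real.log n := by positivity
          linarith
  have hpos : 0 ≤ rate p ^ n := by positivity
  calc _ ≤ Real.exp (8 * (√n * Real.log n)) * (rate p ^ n * Real.exp (2 * √n)) := by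
        gcongr
    _ = rate p ^ n * (Real.exp (8 * (√n * Real.log n)) * Real.exp (2 * √n) * 2) / 2 := by ring
    _ ≤ rate p ^ n * Real.exp (Real.log (1 + ε) * n) / 2 := by gcongr
    _ ≤ _ := by gcongr

theorem asymB {p : ℝ} (hp0 : 0 < p) (hp1 : p < 1) :
    ∀ᶠ n : ℕ in atTop, 4 / √(Nat.sqrt n * p * (1 - p)) ≤ 1 ∧
      ((n : ℝ) * (2 * ((2 * n ^ 2 * (n + 1) + 1 : ℕ) : ℝ) + 1)) ^ (n / 40) *
        (4 / √(Nat.sqrt n * p * (1 - p))) ^ (n - n / 40) ≤ (1 / 2) ^ n / 2 := by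
  have hq : 0 < 1 - p := by linarith
  set c0 : ℝ := Real.log (32 / (p * (1 - p))) with hc0
  have hlogat : Tendsto (fun n : ℕ => Real.log n) atTop atTop :=
    Real.tendsto_log_atTop.comp tendsto_natCast_atTop_atTop
  filter_upwards [hlogat.eventually (eventually_ge_atTop (2 * |c0|)),
    hlogat.eventually (eventually_ge_atTop ((160 / 19) * (|c0| + 2))),
    eventually_ge_atTop 64] with n h1 h2 hn
  have hn' : (64 : ℝ) ≤ n := by exact_mod_cast hn
  set s := Nat.sqrt n with hs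
  have hs8 : 8 ≤ s := by rw [hs, Nat.le_sqrt]; omega
  have hs8' : (8 : ℝ) ≤ s := by exact_mod_cast hs8
  have hs1 : √n / 2 ≤ (s : ℝ) := by
    have h3 : n < (s + 1) * (s + 1) := Nat.lt_succ_sqrt n
    have h4 : (n : ℝ) < (s + 1) * (s + 1) := by exact_mod_cast h3
    have h5 : √n ≤ s + 1 := by
      rw [Real.sqrt_le_left (by positivity)]
      nlinarith
    linarith
  have hsqn : 0 < √(n : ℝ) := Real.sqrt_pos.2 (by linarith)
  set β : ℝ := 4 / √(s * p * (1 - p)) with hβ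
  have hX : 0 < s * p * (1 - p) := by positivity
  have hβ0 : 0 < β := by
    rw [hβ]
    have := Real.sqrt_pos.2 hX
    positivity
  have hβlog : Real.log β ≤ |c0| / 2 - Real.log n / 4 := by
    have h3 : Real.log β = Real.log 4 - Real.log (s * p * (1 - p)) / 2 := by
      rw [hβ, Real.log_div (by norm_num) (Real.sqrt_pos.2 hX).ne', Real.log_sqrt hX.le]
    have h4 : Real.log (√n / 2 * (p * (1 - p))) ≤ Real.log (s * p * (1 - p)) := by
      apply Real.log_le_log (by positivity)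
      have : 0 < p * (1 - p) := by positivity
      nlinarith
    have h5 : Real.log (√n / 2 * (p * (1 - p))) = Real.log n / 2 - Real.log 2 + Real.log (p * (1 - p)) := by
      rw [Real.log_mul (by positivity) (by positivity), Real.log_div (by positivity) (by norm_num),
        Real.log_sqrt (by positivity)]
    have h6 : c0 = 5 * Real.log 2 - Real.log (p * (1 - p)) := by
      rw [hc0, Real.log_div (by norm_num) (by positivity)]
      congr 1
      rw [show (32 : ℝ) = 2 ^ 5 by norm_num, Real.log_pow]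
      norm_num
    have h7 : Real.log 4 = 2 * Real.log 2 := by
      rw [show (4 : ℝ) = 2 ^ 2 by norm_num, Real.log_pow]
      norm_num
    have h8 := le_abs_self c0
    linarith
  have habs : 0 ≤ |c0| := abs_nonneg _
  have hβ1' : Real.log β ≤ 0 := by linarith
  have hβ1 : β ≤ 1 := by
    rw [← Real.exp_log hβ0, ← Real.exp_zero]
    exact Real.exp_le_exp.2 hβ1'
  refine ⟨hβ1, ?_⟩
  have hlog : 0 ≤ Real.log n := Real.log_nonneg (by linarith)
  have hdiv : ((n / 40 : ℕ) : ℝ) ≤ n / 40 := Nat.cast_div_le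
  have hbase : (n : ℝ) * (2 * ((2 * n ^ 2 * (n + 1) + 1 : ℕ) : ℝ) + 1) ≤ (n : ℝ) ^ 5 := by
    push_cast
    have h3 : (n : ℝ) * (2 * (2 * (n : ℝ) ^ 2 * (n + 1) + 1) + 1) =
      4 * (n : ℝ) ^ 4 + 4 * (n : ℝ) ^ 3 + 3 * n := by ring
    rw [h3]
    have h4 : (n : ℝ) ^ 5 = n * (n : ℝ) ^ 4 := by ring
    have h5 : (n : ℝ) ^ 4 = n * (n : ℝ) ^ 3 := by ring
    have h6 : (n : ℝ) ^ 3 = n * (n * n) := by ring
    have h7 : 64 * (n : ℝ) ^ 4 ≤ (n : ℝ) ^ 5 := by rw [h4]; gcongr
    have h8 : 64 * (n : ℝ) ^ 3 ≤ (n : ℝ) ^ 4 := by rw [h5]; gcongr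
    have h9 : 3 * (n : ℝ) ≤ (n : ℝ) ^ 3 := by rw [h6]; nlinarith
    have h10 : 0 ≤ (n : ℝ) ^ 3 := by positivity
    have h11 : 0 ≤ (n : ℝ) ^ 4 := by positivity
    linarith
  have e1 : ((n : ℝ) * (2 * ((2 * n ^ 2 * (n + 1) + 1 : ℕ) : ℝ) + 1)) ^ (n / 40) ≤
      Real.exp (n * Real.log n / 8) := by
    calc _ ≤ ((n : ℝ) ^ 5) ^ (n / 40) := pow_le_pow_left₀ (by positivity) hbase _
      _ = Real.exp (5 * (((n / 40 : ℕ) : ℝ) * Real.log n)) := by
          rw [← pow_mul]
          nth_rewrite 1 [← Real.exp_log (by linarith : (0 : ℝ) < n)]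
          rw [← Real.exp_nat_mul]
          congr 1
          push_cast
          ring
      _ ≤ _ := by
          apply Real.exp_le_exp.2
          have := mul_le_mul_of_nonneg_right hdiv hlog
          linarith
  have hN : (39 / 40 : ℝ) * n ≤ ((n - n / 40 : ℕ) : ℝ) := by
    rw [Nat.cast_sub (Nat.div_le_self _ _)]
    linarith
  have e2 : β ^ (n - n / 40) ≤ Real.exp ((39 / 40 : ℝ) * n * (|c0| / 2 - Real.log n / 4)) := by
    calc β ^ (n - n / 40) = Real.exp (((n - n / 40 : ℕ) : ℝ) * Real.log β) := by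
          rw [Real.exp_nat_mul, Real.exp_log hβ0]
      _ ≤ _ := by
          apply Real.exp_le_exp.2
          have h3 : ((n - n / 40 : ℕ) : ℝ) * Real.log β ≤ (39 / 40 : ℝ) * n * Real.log β :=
            mul_le_mul_of_nonpos_right hN hβ1'
          have h4 : (39 / 40 : ℝ) * n * Real.log β ≤
              (39 / 40 : ℝ) * n * (|c0| / 2 - Real.log n / 4) :=
            mul_le_mul_of_nonneg_left hβlog (by positivity)
          linarith
  have e3 : Real.exp (-(2 : ℝ) * n) ≤ (1 / 2 : ℝ) ^ n / 2 := by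
    have h3 : Real.exp (-(1 : ℝ)) ≤ 1 / 2 := by
      rw [Real.exp_neg, inv_eq_one_div, div_le_div_iff_of_pos_left (by norm_num) (Real.exp_pos _)
        (by norm_num)]
      have := Real.add_one_le_exp (1 : ℝ)
      linarith
    calc Real.exp (-(2 : ℝ) * n) ≤ Real.exp (-(n : ℝ) + -1) := by
          apply Real.exp_le_exp.2
          linarith
      _ = Real.exp (-(1 : ℝ)) ^ n * Real.exp (-(1 : ℝ)) := by
          rw [← Real.exp_nat_mul, ← Real.exp_add]
          congr 1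
          ring
      _ ≤ (1 / 2) ^ n * (1 / 2) := by gcongr
      _ = _ := by ring
  calc _ ≤ Real.exp (n * Real.log n / 8) *
        Real.exp ((39 / 40 : ℝ) * n * (|c0| / 2 - Real.log n / 4)) := by gcongr
    _ = Real.exp (n * Real.log n / 8 + (39 / 40 : ℝ) * n * (|c0| / 2 - Real.log n / 4)) := by
        rw [Real.exp_add]
    _ ≤ Real.exp (-(2 : ℝ) * n) := by
        apply Real.exp_le_exp.2
        have h3 : n * Real.log n / 8 + (39 / 40 : ℝ) * n * (|c0| / 2 - Real.log n / 4) =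
          n * ((39 / 80) * |c0| - (19 / 160) * Real.log n) := by ring
        rw [h3]
        have h4 : (39 / 80 : ℝ) * |c0| - (19 / 160) * Real.log n ≤ -2 := by linarith
        nlinarith
    _ ≤ _ := e3

/-- **Near-maximal coordinates**, explicit form. -/
theorem nearmax' {p : ℝ} (hp0 : 0 < p) (hp1 : p < 1) {ε : ℝ} (hε : 0 < ε) :
    ∀ᶠ n : ℕ in atTop, bernoulliProb p {w : Sym2 (Fin n) → Bool | ∃ k : Fin n → ℝ, k ≠ 0 ∧
      ((symMat w).map (Int.cast : ℤ → ℝ)).mulVec k = 0 ∧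
      (Nat.card {i // ∀ j, |k j| ≤ (n : ℝ) ^ 4 * |k i|} : ℝ) < n / 40} ≤ (rate p + ε) ^ n := by
  classical
  filter_upwards [asymA hp0 hp1 hε, asymB hp0 hp1, eventually_ge_atTop 16] with n hA hB hn
  have hn' : (16 : ℝ) ≤ n := by exact_mod_cast hn
  have _hne : Nonempty (Fin n) := ⟨⟨0, by omega⟩⟩
  set s := Nat.sqrt n with hs
  have hs0 : 0 < s := by
    have : 4 ≤ s := by rw [hs, Nat.le_sqrt]; omega
    omega
  set EA : Set (Sym2 (Fin n) → Bool) := {w | ∃ z : Fin n → ℤ,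
      (Finset.univ.filter fun i => z i ≠ 0).card ≤ 2 * s ∧
      (∀ i, |z i| ≤ ((n ^ 2 + 1 : ℕ) : ℤ)) ∧ rowp p z n ≤ rate p ∧
      ∀ j, |(((symMat w).mulVec z j : ℤ) : ℝ)| < n} with hEA
  set EB : Set (Sym2 (Fin n) → Bool) := {w | ∃ z : Fin n → ℤ,
      (Finset.univ.filter fun i => z i ≠ 0).card ≤ n / 40 ∧
      (∀ i, |z i| ≤ ((2 * n ^ 2 * (n + 1) + 1 : ℕ) : ℤ)) ∧
      rowp p z n ≤ 4 / √(s * p * (1 - p)) ∧
      ∀ j, |(((symMat w).mulVec z j : ℤ) : ℝ)| < n} with hEB
  have hsub : {w : Sym2 (Fin n) → Bool | ∃ k : Fin n → ℝ, k ≠ 0 ∧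
      ((symMat w).map (Int.cast : ℤ → ℝ)).mulVec k = 0 ∧
      (Nat.card {i // ∀ j, |k j| ≤ (n : ℝ) ^ 4 * |k i|} : ℝ) < n / 40} ⊆ EA ∪ EB := by
    rintro w ⟨k, hk0, hk, hcard⟩
    obtain ⟨i0, -, hi0⟩ := Finset.exists_max_image Finset.univ (fun i => |k i|)
      (Finset.univ_nonempty)
    have hK : 0 < |k i0| := by
      obtain ⟨i, hi⟩ := Function.ne_iff.1 hk0
      exact lt_of_lt_of_le (abs_pos.2 hi) (hi0 i (Finset.mem_univ i))
    set k' : Fin n → ℝ := fun i => k i / |k i0| with hk'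
    have hk1 : ∀ i, |k' i| ≤ 1 := by
      intro i
      rw [hk', abs_div, abs_abs, div_le_one hK]
      exact hi0 i (Finset.mem_univ i)
    have hi01 : |k' i0| = 1 := by
      rw [hk', abs_div, abs_abs, div_self hK.ne']
    have hker : ((symMat w).map (Int.cast : ℤ → ℝ)).mulVec k' = 0 := by
      have : k' = (1 / |k i0|) • k := by
        funext i
        simp only [hk', Pi.smul_apply, smul_eq_mul]
        ring
      rw [this, Matrix.mulVec_smul, hk, smul_zero]
    by_cases hc : (Finset.univ.filter fun i => 1 / (2 * (n : ℝ) ^ 2) ≤ |k' i|).card ≤ 2 * s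
    · left
      exact eventA hp0 hp1 (by omega) w k' hker hk1 i0 hi01 (2 * s) hc
    · right
      refine eventB hp0 hp1 (by omega) w k' hker hk1 s (n / 40) hs0 (by omega) ?_
      have h1 : (Finset.univ.filter fun i =>
          1 / (2 * (2 * (n : ℝ) ^ 2 * (n + 1))) ≤ |k' i|).card ≤
          Nat.card {i // ∀ j, |k j| ≤ (n : ℝ) ^ 4 * |k i|} := by
        rw [Nat.card_eq_fintype_card, Fintype.card_subtype]
        refine Finset.card_le_card fun i hi => ?_
        rw [Finset.mem_filter] at hi ⊢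
        refine ⟨Finset.mem_univ _, fun j => ?_⟩
        have h2 := hi.2
        rw [hk', abs_div, abs_abs, div_le_div_iff₀ (by positivity) hK] at h2
        have h3 := hi0 j (Finset.mem_univ j)
        have h4 : 2 * (2 * (n : ℝ) ^ 2 * (n + 1)) ≤ (n : ℝ) ^ 4 := by
          have h5 : (n : ℝ) ^ 4 = n ^ 2 * (n * n) := by ring
          rw [h5]
          have h6 : 2 * (2 * (n : ℝ) ^ 2 * (n + 1)) = (n : ℝ) ^ 2 * (4 * (n + 1)) := by ring
          rw [h6]
          refine mul_le_mul_of_nonneg_left ?_ (by positivity)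
          nlinarith
        have h7 : 0 ≤ |k i| := abs_nonneg _
        nlinarith
      have h2 : (Finset.univ.filter fun i =>
          1 / (2 * (2 * (n : ℝ) ^ 2 * (n + 1))) ≤ |k' i|).card * 40 < n := by
        have h3 : ((Finset.univ.filter fun i =>
          1 / (2 * (2 * (n : ℝ) ^ 2 * (n + 1))) ≤ |k' i|).card : ℝ) ≤
          Nat.card {i // ∀ j, |k j| ≤ (n : ℝ) ^ 4 * |k i|} := by exact_mod_cast h1
        have h4 : (((Finset.univ.filter fun i =>
          1 / (2 * (2 * (n : ℝ) ^ 2 * (n + 1))) ≤ |k' i|).card * 40 : ℕ) : ℝ) < n := by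
          push_cast
          linarith
        exact_mod_cast h4
      omega
  refine (prob_mono hp0.le hp1.le hsub).trans ((prob_union_le hp0.le hp1.le _ _).trans ?_)
  have hPA := grid (ι := Fin n) hp0.le hp1.le (rate_pos p).le (rate_le_one hp0.le hp1.le) (2 * s)
    (n ^ 2 + 1) n
  have hPB := grid (ι := Fin n) (α := 4 / √(s * p * (1 - p))) hp0.le hp1.le (by positivity) hB.1
    (n / 40) (2 * n ^ 2 * (n + 1) + 1) n
  rw [Fintype.card_fin] at hPA hPB
  have hA' := hPA.trans hA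
  have hB' := hPB.trans hB.2
  have hle : (1 / 2 : ℝ) ^ n ≤ (rate p + ε) ^ n :=
    pow_le_pow_left₀ (by norm_num) (by have := half_le_rate p; linarith) _
  linarith

/-- **Near-maximal coordinates** (interface form). -/
theorem nearmax {p : ℝ} (hp0 : 0 < p) (hp1 : p < 1) : ∀ ε : ℝ, 0 < ε → ∃ δ : ℝ, 0 < δ ∧ ∃ C : ℕ,
    ∀ᶠ n : ℕ in atTop, bernoulliProb p {w : Sym2 (Fin n) → Bool | ∃ k : Fin n → ℝ, k ≠ 0 ∧
      ((symMat w).map (Int.cast : ℤ → ℝ)).mulVec k = 0 ∧
      (Nat.card {i // ∀ j, |k j| ≤ (n : ℝ) ^ C * |k i|} : ℝ) < δ * n} ≤ (rate p + ε) ^ n := by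
  intro ε hε
  refine ⟨1 / 40, by norm_num, 4, ?_⟩
  filter_upwards [nearmax' hp0 hp1 hε] with n hn
  have : (1 / 40 : ℝ) * n = n / 40 := by ring
  rw [this]
  exact hn

/-- **Near-maximal coordinates** for integer kernel vectors. -/
theorem nearmaxZ {p : ℝ} (hp0 : 0 < p) (hp1 : p < 1) {ε : ℝ} (hε : 0 < ε) :
    ∀ᶠ n : ℕ in atTop, bernoulliProb p {w : Sym2 (Fin n) → Bool | ∃ k : Fin n → ℤ, k ≠ 0 ∧
      (symMat w).mulVec k = 0 ∧
      (Nat.card {i // ∀ j, |k j| ≤ (n : ℤ) ^ 4 * |k i|} : ℝ) < n / 40} ≤ (rate p + ε) ^ n := by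
  filter_upwards [nearmax' hp0 hp1 hε] with n hn
  refine (prob_mono hp0.le hp1.le ?_).trans hn
  rintro w ⟨k, hk0, hk, hcard⟩
  refine ⟨fun i => (k i : ℝ), ?_, ?_, ?_⟩
  · intro h
    apply hk0
    funext i
    have := congrFun h i
    simpa using this
  · funext j
    have h1 := congrFun hk j
    have h2 : ((((symMat w).mulVec k j : ℤ)) : ℝ) = 0 := by rw [h1]; simp
    simpa [Matrix.mulVec, dotProduct] using h2
  · refine lt_of_le_of_lt ?_ hcard
    have h1 : ∀ i, (∀ j, |(k j : ℝ)| ≤ (n : ℝ) ^ 4 * |(k i : ℝ)|) ↔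
        ∀ j, |k j| ≤ (n : ℤ) ^ 4 * |k i| := by
      intro i
      refine forall_congr' fun j => ?_
      have h3 : ((|k j| : ℤ) : ℝ) ≤ (((n : ℤ) ^ 4 * |k i| : ℤ) : ℝ) ↔ |k j| ≤ (n : ℤ) ^ 4 * |k i| :=
        Int.cast_le
      rw [← h3]
      push_cast
      rfl
    simp only [h1]
    exact le_refl _

end Crest.Agent.R152.Top
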