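import Mathlib
import Crest.Agent.R152.TopN3
import Crest.Agent.R152.Asm5

set_option autoImplicit false
set_option linter.unusedSectionVars false

/-! Row 152, module TOP, part N4: near-maximality in the form used by the assembly. -/

open Crest.FinProb Crest.ProbabilityR.SignMatrix Filter

namespace Crest.Agent.R152.Top

open Crest.Agent.R152.Base

/-- the interface form -/
theorem nmz {p : ℝ} (hp0 : 0 < p) (hp1 : p < 1) : Asm.NMZ p := by
  classical
  intro ε hε
  obtain ⟨n0, hn0⟩ := eventually_atTop.1 (nearmaxZ hp0 hp1 hε)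
  refine ⟨1 / 40, by norm_num, 4, n0, fun n hn => ?_⟩
  refine (prob_mono hp0.le hp1.le ?_).trans (hn0 n hn)
  rintro w ⟨k, hk0, hk, hcard⟩
  refine ⟨k, hk0, hk, ?_⟩
  rw [Nat.card_eq_fintype_card, Fintype.card_subtype]
  have h1 : (1 / 40 : ℝ) * n = n / 40 := by ring
  rw [h1] at hcard
  convert hcard using 3

end Crest.Agent.R152.Top
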