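import Mathlib
import Crest.Agent.R152.TopP
import Crest.Agent.R152.Crk2

set_option autoImplicit false
set_option linter.unusedSectionVars false

/-! Row 152, module TOP, part X1: typical rows and exchangeability. -/

open Crest.FinProb Crest.ProbabilityR.SignMatrix Filter

namespace Crest.Agent.R152.Top

open Crest.Agent.R152.Base Crest.Agent.R152.Asm

/-- coins of the row `i` without its diagonal entry -/
def rowB {n : ℕ} (w : Sym2 (Fin (n + 1)) → Bool) (i : Fin (n + 1)) : Fin n → Bool :=
  fun j => w s(i, i.succAbove j)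

theorem row_eq {n : ℕ} (w : Sym2 (Fin (n + 1)) → Bool) (i : Fin (n + 1)) :
    row (symMat w) i = sv (rowB w i) := rfl

theorem sv_injective {ι : Type*} : Function.Injective (sv : (ι → Bool) → ι → ℤ) := by
  intro x y h
  funext i
  exact sg_injective (congrFun h i)

/-- a single random row is atypical with small probability -/
theorem prob_atyp {κ : Type*} [Fintype κ] [DecidableEq κ] {p θ : ℝ} (hp0 : 0 ≤ p) (hp1 : p ≤ 1)
    (hθ : 0 < θ) : bernoulliProb p {x : κ → Bool | θ < bernoulliWeight p x} ≤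
      rate p ^ Fintype.card κ / θ := by
  rw [← ex_weight p (α := κ)]
  refine (prob_mono hp0 hp1 (fun x hx => ?_)).trans
    (markov hp0 hp1 (fun x => weight_nonneg hp0 hp1 x) hθ)
  exact le_of_lt (show θ < bernoulliWeight p x from hx)

/-- the weight of a row is at most the weight of a part of it -/
theorem weight_rowB_le {n : ℕ} {p : ℝ} (hp0 : 0 ≤ p) (hp1 : p ≤ 1)
    (w : Sym2 (Fin (n + 1)) → Bool) (S : Finset (Fin (n + 1))) {i : Fin (n + 1)} (hi : i ∈ S) :
    bernoulliWeight p (rowB w i) ≤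
      bernoulliWeight p (fun j : {j // j ∉ S} => w s(i, (j : Fin (n + 1)))) := by
  classical
  set f : Fin (n + 1) → ℝ := fun j => if w s(i, j) then p else 1 - p with hf
  have hf0 : ∀ j, 0 ≤ f j := by intro j; simp only [hf]; split_ifs <;> linarith
  have hf1 : ∀ j, f j ≤ 1 := by intro j; simp only [hf]; split_ifs <;> linarith
  have h1 : bernoulliWeight p (rowB w i) = ∏ j ∈ Finset.univ.erase i, f j := by
    unfold bernoulliWeight rowB
    have h2 : (Finset.univ.erase i : Finset (Fin (n + 1))) =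
        Finset.univ.image i.succAbove := by
      ext j
      simp only [Finset.mem_erase, Finset.mem_univ, and_true, Finset.mem_image, true_and]
      constructor
      · intro h
        exact Fin.exists_succAbove_eq h
      · rintro ⟨t, rfl⟩
        exact Fin.succAbove_ne i t
    rw [h2, Finset.prod_image (fun a _ b _ h => Fin.succAbove_right_injective h)]
  have h3 : bernoulliWeight p (fun j : {j // j ∉ S} => w s(i, (j : Fin (n + 1)))) =
      ∏ j ∈ Sᶜ, f j := by
    unfold bernoulliWeight
    exact (Finset.prod_subtype Sᶜ (fun x => by simp) f).symm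
  rw [h1, h3]
  have hsub : Sᶜ ⊆ Finset.univ.erase i := by
    intro j hj
    rw [Finset.mem_compl] at hj
    refine Finset.mem_erase.2 ⟨?_, Finset.mem_univ _⟩
    rintro rfl
    exact hj hi
  rw [← Finset.prod_sdiff hsub]
  refine mul_le_of_le_one_left (Finset.prod_nonneg fun j _ => hf0 j) ?_
  exact Finset.prod_le_one (fun j _ => hf0 j) (fun j _ => hf1 j)

theorem prob_rows_atyp {n : ℕ} {p θ : ℝ} (hp0 : 0 ≤ p) (hp1 : p ≤ 1) (hθ : 0 < θ)
    (S : Finset (Fin (n + 1))) :
    bernoulliProb p {w : Sym2 (Fin (n + 1)) → Bool | ∀ i ∈ S,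
      θ < bernoulliWeight p (rowB w i)} ≤ (rate p ^ (n + 1 - S.card) / θ) ^ S.card := by
  classical
  let g : {i // i ∈ S} × {j // j ∉ S} → Sym2 (Fin (n + 1)) := fun ij => s((ij.1 : Fin (n + 1)), ij.2)
  have hg : Function.Injective g := by
    rintro ⟨i, j⟩ ⟨i', j'⟩ h
    simp only [g, Sym2.eq_iff] at h
    rcases h with ⟨h1, h2⟩ | ⟨h1, h2⟩
    · exact Prod.ext (Subtype.ext h1) (Subtype.ext h2)
    · exact absurd i.2 (by rw [h1]; exact j'.2)
  have h1 : bernoulliProb p {w : Sym2 (Fin (n + 1)) → Bool | ∀ i ∈ S,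
      θ < bernoulliWeight p (rowB w i)} ≤
      bernoulliProb p {w : Sym2 (Fin (n + 1)) → Bool | w ∘ g ∈
        {ω : {i // i ∈ S} × {j // j ∉ S} → Bool | ∀ i, (fun t => ω (i, t)) ∈
          {x : {j // j ∉ S} → Bool | θ < bernoulliWeight p x}}} := by
    refine prob_mono hp0 hp1 fun w hw i => ?_
    exact lt_of_lt_of_le (hw i i.2) (weight_rowB_le hp0 hp1 w S i.2)
  refine h1.trans ?_
  rw [prob_inj hg]
  have h2 := prob_rows (ι := {i // i ∈ S}) (κ := {j // j ∉ S}) hp0 hp1
    (fun _ => {x : {j // j ∉ S} → Bool | θ < bernoulliWeight p x})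
    (c := rate p ^ Fintype.card {j // j ∉ S} / θ) (fun _ => prob_atyp hp0 hp1 hθ)
  have hc1 : Fintype.card {j // j ∉ S} = n + 1 - S.card := by
    rw [Fintype.card_subtype_compl, Fintype.card_fin]
    simp
  have hc2 : Fintype.card {i // i ∈ S} = S.card := by simp
  rw [hc1, hc2] at h2
  exact h2

/-- many atypical rows -/
theorem prob_many_atyp {n : ℕ} {p θ : ℝ} (hp0 : 0 ≤ p) (hp1 : p ≤ 1) (hθ : 0 < θ) (J : ℕ) :
    bernoulliProb p {w : Sym2 (Fin (n + 1)) → Bool |
      J ≤ Set.ncard {i | θ < bernoulliWeight p (rowB w i)}} ≤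
      (n + 1 : ℝ) ^ J * (rate p ^ (n + 1 - J) / θ) ^ J := by
  classical
  have h1 : {w : Sym2 (Fin (n + 1)) → Bool |
      J ≤ Set.ncard {i | θ < bernoulliWeight p (rowB w i)}} ⊆
      ⋃ S ∈ (Finset.univ : Finset (Fin (n + 1))).powersetCard J,
        {w : Sym2 (Fin (n + 1)) → Bool | ∀ i ∈ S, θ < bernoulliWeight p (rowB w i)} := by
    intro w hw
    have hw' : J ≤ Set.ncard {i | θ < bernoulliWeight p (rowB w i)} := hw
    rw [Set.ncard_eq_toFinset_card'] at hw'
    obtain ⟨S, hS1, hS2⟩ := Finset.exists_subset_card_eq hw'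
    simp only [Set.mem_iUnion]
    refine ⟨S, Finset.mem_powersetCard.2 ⟨Finset.subset_univ _, hS2⟩, ?_⟩
    intro i hi
    have := hS1 hi
    simpa using this
  refine (prob_mono hp0 hp1 h1).trans ((prob_biUnion_le hp0 hp1 _ _).trans ?_)
  have h2 : ∀ S ∈ (Finset.univ : Finset (Fin (n + 1))).powersetCard J,
      bernoulliProb p {w : Sym2 (Fin (n + 1)) → Bool | ∀ i ∈ S,
        θ < bernoulliWeight p (rowB w i)} ≤ (rate p ^ (n + 1 - J) / θ) ^ J := by
    intro S hS
    have hc := (Finset.mem_powersetCard.1 hS).2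
    have := prob_rows_atyp hp0 hp1 hθ S
    rwa [hc] at this
  refine (Finset.sum_le_card_nsmul _ _ _ h2).trans ?_
  rw [nsmul_eq_mul, Finset.card_powersetCard, Finset.card_univ, Fintype.card_fin]
  have h3 : ((n + 1).choose J : ℝ) ≤ (n + 1 : ℝ) ^ J := by
    exact_mod_cast Nat.choose_le_pow (n + 1) J
  have hr := rate_pos p
  exact mul_le_mul_of_nonneg_right h3 (by positivity)

/-- deleting the index `i`: product structure, for an event about the minor and the row -/
theorem prob_minor_row {n : ℕ} (p : ℝ) (i : Fin (n + 1))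
    (Q : Matrix (Fin n) (Fin n) ℤ → (Fin n → Bool) → Prop) :
    bernoulliProb p {w : Sym2 (Fin (n + 1)) → Bool | Q (del (symMat w) i) (rowB w i)} =
      ex p (fun b : Sym2 (Fin n) → Bool => bernoulliProb p {x : Fin n → Bool | Q (symMat b) x}) := by
  classical
  let e : Fin (n + 1) ≃ Option (Fin n) := finSuccEquiv' i
  rw [prob_comp (symEquiv e), prob_eq_ex, ex_glue]
  refine ex_congr p fun b => ?_
  rw [prob_eq_ex]
  refine ex_congr p fun x => ?_
  have h1 : ∀ d : Bool, del (symMat ((glue b x d) ∘ (symEquiv e))) i = symMat b := by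
    intro d
    ext j k
    simp only [del, Matrix.submatrix_apply, symMat_apply, Function.comp, coe_symEquiv, Sym2.map_mk,
      e, finSuccEquiv'_succAbove, glue_some]
  have h2 : ∀ d : Bool, rowB ((glue b x d) ∘ (symEquiv e)) i = x := by
    intro d
    funext j
    simp only [rowB, Function.comp, coe_symEquiv, Sym2.map_mk, e, finSuccEquiv'_succAbove,
      finSuccEquiv'_at, glue_none_some]
  simp only [Set.mem_ofPred_eq, h1, h2]
  split_ifs <;> ring

end Crest.Agent.R152.Top
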