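import Mathlib
import Crest.Agent.R152.TopX1

set_option autoImplicit false
set_option linter.unusedSectionVars false

/-! Row 152, module TOP, part X2: the top assembly. -/

open Crest.FinProb Crest.ProbabilityR.SignMatrix Filter

namespace Crest.Agent.R152.Top

open Crest.Agent.R152.Base Crest.Agent.R152.Asm Crest.Agent.R152.Crk
open Crest.Agent.R152.FixV (ind ind_of ind_not ind_nonneg ind_le_one ind_mono prob_ind)

/-- exponential comparison -/
theorem ev_exp {a b : ℝ} (ha : 0 ≤ a) (hab : a < b) (K : ℝ) (J : ℕ) :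
    ∀ᶠ n : ℕ in atTop, K * (n + 1 : ℝ) ^ J * a ^ n ≤ b ^ n := by
  have hb : 0 < b := lt_of_le_of_lt ha hab
  have hr0 : 0 ≤ a / b := by positivity
  have hr1 : a / b < 1 := (div_lt_one hb).2 hab
  have h1 : Tendsto (fun n : ℕ => (n : ℝ) ^ J * (a / b) ^ n) atTop (nhds 0) :=
    tendsto_pow_const_mul_const_pow_of_abs_lt_one J (by rwa [abs_of_nonneg hr0])
  have h2 : Tendsto (fun n : ℕ => |K| * 2 ^ J * ((n : ℝ) ^ J * (a / b) ^ n)) atTop (nhds 0) := by
    simpa using h1.const_mul (|K| * 2 ^ J)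
  filter_upwards [h2.eventually (gt_mem_nhds (show (0 : ℝ) < 1 by norm_num)),
    eventually_ge_atTop 1] with n hn hn1
  have hn1' : (1 : ℝ) ≤ n := by exact_mod_cast hn1
  have h3 : ((n : ℝ) + 1) ^ J ≤ 2 ^ J * (n : ℝ) ^ J := by
    rw [← mul_pow]
    exact pow_le_pow_left₀ (by positivity) (by linarith) J
  have h4 : K * ((n : ℝ) + 1) ^ J * (a / b) ^ n ≤ 1 := by
    have h5 : K * ((n : ℝ) + 1) ^ J ≤ |K| * (2 ^ J * (n : ℝ) ^ J) :=
      mul_le_mul (le_abs_self K) h3 (by positivity) (abs_nonneg K)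
    have h6 := mul_le_mul_of_nonneg_right h5 (pow_nonneg hr0 n)
    nlinarith
  have h7 : a ^ n = (a / b) ^ n * b ^ n := by rw [div_pow, div_mul_cancel₀ _ (by positivity)]
  rw [h7, ← mul_assoc]
  have hbn : 0 ≤ b ^ n := by positivity
  nlinarith

/-- the set of good indices -/
def gi {n : ℕ} (R : Matrix (Fin n) (Fin n) ℤ → Set (Fin n → Bool))
    (M : Matrix (Fin (n + 1)) (Fin (n + 1)) ℤ) : Set (Fin (n + 1)) :=
  {i | (del M i).det ≠ 0 ∧ ∃ x ∈ R (del M i), row M i = sv x}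

theorem ncard_eq_sum_ind {α : Type*} [Fintype α] (P : α → Prop) :
    (Set.ncard {i | P i} : ℝ) = ∑ i, ind (P i) := by
  classical
  unfold ind
  rw [Finset.sum_boole, Set.ncard_eq_toFinset_card']
  congr 2
  ext i
  simp

/-- Markov over the deleted index -/
theorem prob_good {n : ℕ} {p θ m B : ℝ} (hp0 : 0 ≤ p) (hp1 : p ≤ 1) (hm : 0 < m) (hB : 0 ≤ B)
    (hθ : 0 ≤ θ) (R : Matrix (Fin n) (Fin n) ℤ → Set (Fin n → Bool)) :
    bernoulliProb p {w : Sym2 (Fin (n + 1)) → Bool |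
      m ≤ (Set.ncard {i | i ∈ gi R (symMat w) ∧ bernoulliWeight p (rowB w i) ≤ θ} : ℝ)} ≤
      (n + 1) / m * (bernoulliProb p {w : Sym2 (Fin n) → Bool | (symMat w).det ≠ 0 ∧
        B < (Set.ncard (R (symMat w)) : ℝ)} + B * θ) := by
  set Q : Matrix (Fin n) (Fin n) ℤ → (Fin n → Bool) → Prop :=
    fun A x => A.det ≠ 0 ∧ x ∈ R A ∧ bernoulliWeight p x ≤ θ with hQ
  -- rewrite the count as a sum of indicators
  have hiff : ∀ (w : Sym2 (Fin (n + 1)) → Bool) (i : Fin (n + 1)),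
      (i ∈ gi R (symMat w) ∧ bernoulliWeight p (rowB w i) ≤ θ) ↔
      Q (del (symMat w) i) (rowB w i) := by
    intro w i
    constructor
    · rintro ⟨⟨h1, x, hx, hxe⟩, h2⟩
      rw [row_eq] at hxe
      have := sv_injective hxe
      rw [this] at h2 ⊢
      exact ⟨h1, hx, h2⟩
    · rintro ⟨h1, h2, h3⟩
      exact ⟨⟨h1, _, h2, row_eq w i⟩, h3⟩
  have hcount : ∀ w : Sym2 (Fin (n + 1)) → Bool,
      (Set.ncard {i | i ∈ gi R (symMat w) ∧ bernoulliWeight p (rowB w i) ≤ θ} : ℝ) =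
      ∑ i : Fin (n + 1), ind (Q (del (symMat w) i) (rowB w i)) := by
    intro w
    rw [ncard_eq_sum_ind]
    refine Finset.sum_congr rfl fun i _ => ?_
    rw [propext (hiff w i)]
  have hmk := markov hp0 hp1 (F := fun w : Sym2 (Fin (n + 1)) → Bool =>
    ∑ i : Fin (n + 1), ind (Q (del (symMat w) i) (rowB w i)))
    (fun w => Finset.sum_nonneg fun i _ => ind_nonneg _) hm
  have hset : {w : Sym2 (Fin (n + 1)) → Bool |
      m ≤ (Set.ncard {i | i ∈ gi R (symMat w) ∧ bernoulliWeight p (rowB w i) ≤ θ} : ℝ)} =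
      {w | m ≤ ∑ i : Fin (n + 1), ind (Q (del (symMat w) i) (rowB w i))} := by
    ext w
    simp only [Set.mem_ofPred_eq, hcount w]
  rw [hset]
  refine hmk.trans ?_
  rw [ex_sum]
  -- each term
  have hterm : ∀ i ∈ (Finset.univ : Finset (Fin (n + 1))),
      ex p (fun w : Sym2 (Fin (n + 1)) → Bool => ind (Q (del (symMat w) i) (rowB w i))) ≤
      bernoulliProb p {w : Sym2 (Fin n) → Bool | (symMat w).det ≠ 0 ∧
        B < (Set.ncard (R (symMat w)) : ℝ)} + B * θ := by
    intro i _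
    rw [← prob_ind, prob_minor_row]
    rw [prob_ind, ← ex_const (ι := Sym2 (Fin n)) p (B * θ), ← ex_add]
    refine ex_mono hp0 hp1 fun b => ?_
    by_cases hb : (symMat b).det ≠ 0 ∧ B < (Set.ncard (R (symMat b)) : ℝ)
    · rw [ind_of hb]
      have h2 := prob_le_one hp0 hp1 {x : Fin n → Bool | Q (symMat b) x}
      have h3 : 0 ≤ B * θ := mul_nonneg hB hθ
      linarith
    · rw [ind_not hb, zero_add]
      by_cases hdet : (symMat b).det = 0
      · have h2 : {x : Fin n → Bool | Q (symMat b) x} = ∅ := by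
          ext x
          simp [hQ, hdet]
        rw [h2, prob_empty]
        exact mul_nonneg hB hθ
      · have h3 : (Set.ncard (R (symMat b)) : ℝ) ≤ B := by
          by_contra h4
          push Not at h4
          exact hb ⟨hdet, h4⟩
        rw [prob_ind]
        unfold ex
        have h5 : ∀ x : Fin n → Bool, bernoulliWeight p x * ind (Q (symMat b) x) ≤
            ind (x ∈ R (symMat b)) * θ := by
          intro x
          by_cases hx : Q (symMat b) x
          · rw [ind_of hx, mul_one, ind_of hx.2.1, one_mul]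
            exact hx.2.2
          · rw [ind_not hx, mul_zero]
            exact mul_nonneg (ind_nonneg _) hθ
        refine (Finset.sum_le_sum fun x _ => h5 x).trans ?_
        rw [← Finset.sum_mul]
        have h6 := ncard_eq_sum_ind (fun x : Fin n → Bool => x ∈ R (symMat b))
        rw [← h6]
        exact mul_le_mul_of_nonneg_right h3 hθ
  have hsum := Finset.sum_le_card_nsmul _ _ _ hterm
  rw [nsmul_eq_mul, Finset.card_univ, Fintype.card_fin] at hsum
  rw [div_mul_eq_mul_div]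
  refine div_le_div_of_nonneg_right ?_ hm.le
  push_cast at hsum
  exact hsum

/-- the hypothesis of the top assembly -/
def TopHyp (p : ℝ) : Prop :=
  ∀ ε : ℝ, 0 < ε → ∃ δ : ℝ, 0 < δ ∧ ∃ R : (n : ℕ) → Matrix (Fin n) (Fin n) ℤ →
    Set (Fin n → Bool),
    (∀ᶠ n : ℕ in atTop, bernoulliProb p {w : Sym2 (Fin (n + 1)) → Bool |
      CorankOne (symMat w) ∧ (Set.ncard (gi (R n) (symMat w)) : ℝ) < δ * n} ≤
        (rate p + ε) ^ n) ∧
    (∀ᶠ n : ℕ in atTop, bernoulliProb p {w : Sym2 (Fin n) → Bool | (symMat w).det ≠ 0 ∧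
      (1 + ε) ^ n < (Set.ncard (R n (symMat w)) : ℝ)} ≤ (rate p + ε) ^ n)

set_option maxHeartbeats 1000000 in
theorem top_c1 {p : ℝ} (hp0 : 0 < p) (hp1 : p < 1) (H : TopHyp p) :
    ∀ ε : ℝ, 0 < ε → ∀ᶠ n : ℕ in atTop, c1 n p ≤ (rate p + ε) ^ n := by
  intro ε hε
  have hr := rate_pos p
  have hr2 := half_le_rate p
  have hr1 : rate p < 1 := rate_lt_one hp0 hp1
  -- small parameters
  set ε2 : ℝ := ε / 4 with hε2
  set ε1 : ℝ := min (ε / 4) (ε / (8 * (1 + ε))) with hε1
  have hε2pos : 0 < ε2 := by positivity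
  have hε1pos : 0 < ε1 := by positivity
  have hε1a : ε1 ≤ ε / 4 := min_le_left _ _
  have hε1b : ε1 ≤ ε / (8 * (1 + ε)) := min_le_right _ _
  have hmix : (1 + ε1) * (rate p + ε2) < rate p + ε := by
    have h1 : ε1 * (rate p + ε2) ≤ ε / (8 * (1 + ε)) * (1 + ε) := by
      refine mul_le_mul hε1b ?_ (by positivity) (by positivity)
      linarith
    have h2 : ε / (8 * (1 + ε)) * (1 + ε) = ε / 8 := by field_simp
    nlinarith
  obtain ⟨δ, hδ, R, hR1, hR2⟩ := H ε1 hε1pos
  -- the number of atypical rows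
  set r : ℝ := rate p / (rate p + ε2) with hrdef
  have hrpos : 0 < r := by positivity
  have hrlt : r < 1 := by
    rw [hrdef, div_lt_one (by positivity)]
    linarith
  obtain ⟨J, hJ⟩ := exists_pow_lt_of_lt_one (show (0 : ℝ) < 1 / 8 by norm_num) hrlt
  -- eventual inequalities
  have e1 := ev_exp (a := rate p + ε1) (b := rate p + ε) (by positivity) (by linarith) 4 0
  have e2 := ev_exp (a := 1 / 8) (b := 1 / 4) (by norm_num) (by norm_num)
    ((rate p ^ (1 - (J : ℤ))) ^ J) J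
  have e3 := ev_exp (a := 1 / 4) (b := rate p + ε) (by norm_num) (by linarith) 4 0
  have e4 := ev_exp (a := rate p + ε1) (b := rate p + ε) (by positivity) (by linarith)
    (16 / δ) 0
  have e5 := ev_exp (a := (1 + ε1) * (rate p + ε2)) (b := rate p + ε) (by positivity) hmix
    (16 / δ) 0
  have e6 : ∀ᶠ n : ℕ in atTop, 2 * (J : ℝ) / δ ≤ n := by
    obtain ⟨N, hN⟩ := exists_nat_ge (2 * (J : ℝ) / δ)
    filter_upwards [eventually_ge_atTop N] with n hn
    exact hN.trans (by exact_mod_cast hn)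
  filter_upwards [hR1, hR2, e1, e2, e3, e4, e5, e6, eventually_ge_atTop 1,
    eventually_ge_atTop J] with n h1 h2 g1 g2 g3 g4 g5 g6 hn1 hnJ
  have hn1' : (1 : ℝ) ≤ n := by exact_mod_cast hn1
  rw [pow_zero, mul_one] at g1 g3 g4 g5
  set θ : ℝ := (rate p + ε2) ^ n with hθ
  have hθpos : 0 < θ := by positivity
  set m : ℝ := δ * n / 2 with hm
  have hmpos : 0 < m := by positivity
  -- event decomposition
  have hsub : {w : Sym2 (Fin (n + 1)) → Bool | CorankOne (symMat w)} ⊆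
      ({w : Sym2 (Fin (n + 1)) → Bool |
        CorankOne (symMat w) ∧ (Set.ncard (gi (R n) (symMat w)) : ℝ) < δ * n} ∪
      {w : Sym2 (Fin (n + 1)) → Bool |
        J ≤ Set.ncard {i | θ < bernoulliWeight p (rowB w i)}}) ∪
      {w : Sym2 (Fin (n + 1)) → Bool |
        m ≤ (Set.ncard {i | i ∈ gi (R n) (symMat w) ∧
          bernoulliWeight p (rowB w i) ≤ θ} : ℝ)} := by
    intro w hw
    by_cases ha : (Set.ncard (gi (R n) (symMat w)) : ℝ) < δ * n
    · exact Or.inl (Or.inl ⟨hw, ha⟩)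
    by_cases hb : J ≤ Set.ncard {i | θ < bernoulliWeight p (rowB w i)}
    · exact Or.inl (Or.inr hb)
    right
    push Not at ha hb
    show m ≤ _
    have hc : gi (R n) (symMat w) ⊆
        {i | i ∈ gi (R n) (symMat w) ∧ bernoulliWeight p (rowB w i) ≤ θ} ∪
        {i | θ < bernoulliWeight p (rowB w i)} := by
      intro i hi
      by_cases hd : bernoulliWeight p (rowB w i) ≤ θ
      · exact Or.inl ⟨hi, hd⟩
      · exact Or.inr (not_le.1 hd)
    have hd := (Set.ncard_le_ncard hc (Set.toFinite _)).trans (Set.ncard_union_le _ _)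
    have hd' : (Set.ncard (gi (R n) (symMat w)) : ℝ) ≤
        Set.ncard {i | i ∈ gi (R n) (symMat w) ∧ bernoulliWeight p (rowB w i) ≤ θ} +
        Set.ncard {i | θ < bernoulliWeight p (rowB w i)} := by exact_mod_cast hd
    have hb' : (Set.ncard {i | θ < bernoulliWeight p (rowB w i)} : ℝ) ≤ J := by
      exact_mod_cast hb.le
    have hJn : (J : ℝ) ≤ δ * n / 2 := by
      rw [div_le_iff₀ hδ] at g6
      linarith
    linarith
  unfold c1
  refine (prob_mono hp0.le hp1.le hsub).trans ?_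
  refine (prob_union_le hp0.le hp1.le _ _).trans ?_
  have hu := prob_union_le hp0.le hp1.le {w : Sym2 (Fin (n + 1)) → Bool |
        CorankOne (symMat w) ∧ (Set.ncard (gi (R n) (symMat w)) : ℝ) < δ * n}
      {w : Sym2 (Fin (n + 1)) → Bool |
        J ≤ Set.ncard {i | θ < bernoulliWeight p (rowB w i)}}
  -- atypical rows
  have hA := prob_many_atyp (n := n) hp0.le hp1.le hθpos J
  have hA2 : (n + 1 : ℝ) ^ J * (rate p ^ (n + 1 - J) / θ) ^ J ≤ (1 / 4) ^ n := by
    refine le_trans ?_ g2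
    have h3 : rate p ^ (n + 1 - J) / θ = rate p ^ (1 - (J : ℤ)) * r ^ n := by
      rw [hrdef, div_pow, hθ, ← mul_div_assoc]
      congr 1
      rw [← zpow_natCast (rate p) (n + 1 - J), ← zpow_natCast (rate p) n, ← zpow_add₀ hr.ne']
      congr 1
      omega
    rw [h3, mul_pow, ← pow_mul, mul_comm n J, pow_mul]
    have h4 : (r ^ J) ^ n ≤ (1 / 8 : ℝ) ^ n := pow_le_pow_left₀ (by positivity) hJ.le n
    have h5 : 0 ≤ (rate p ^ (1 - (J : ℤ))) ^ J := by positivity
    calc (n + 1 : ℝ) ^ J * ((rate p ^ (1 - (J : ℤ))) ^ J * (r ^ J) ^ n)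
        ≤ (n + 1 : ℝ) ^ J * ((rate p ^ (1 - (J : ℤ))) ^ J * (1 / 8) ^ n) := by gcongr
      _ = (rate p ^ (1 - (J : ℤ))) ^ J * (n + 1 : ℝ) ^ J * (1 / 8) ^ n := by ring
  -- good rows
  have hG := prob_good (n := n) (B := (1 + ε1) ^ n) hp0.le hp1.le hmpos (by positivity)
    hθpos.le (R n)
  have hG2 : (n + 1 : ℝ) / m ≤ 4 / δ := by
    rw [hm, div_le_div_iff₀ (by positivity) hδ]
    nlinarith
  have hP0 := prob_nonneg hp0.le hp1.le {w : Sym2 (Fin n) → Bool | (symMat w).det ≠ 0 ∧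
        (1 + ε1) ^ n < (Set.ncard (R n (symMat w)) : ℝ)}
  have hG3 : (n + 1 : ℝ) / m * (bernoulliProb p {w : Sym2 (Fin n) → Bool |
      (symMat w).det ≠ 0 ∧ (1 + ε1) ^ n < (Set.ncard (R n (symMat w)) : ℝ)} +
      (1 + ε1) ^ n * θ) ≤ 4 / δ * ((rate p + ε1) ^ n + (1 + ε1) ^ n * θ) := by
    refine mul_le_mul hG2 (by linarith) (by positivity) (by positivity)
  have hθ2 : (1 + ε1) ^ n * θ = ((1 + ε1) * (rate p + ε2)) ^ n := by rw [hθ, mul_pow]
  have e16 : 16 / δ = 4 * (4 / δ) := by ring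
  have k4 : 4 / δ * (rate p + ε1) ^ n ≤ (rate p + ε) ^ n / 4 := by
    rw [e16, mul_assoc] at g4
    linarith only [g4]
  have k5 : 4 / δ * ((1 + ε1) * (rate p + ε2)) ^ n ≤ (rate p + ε) ^ n / 4 := by
    rw [e16, mul_assoc] at g5
    linarith only [g5]
  rw [hθ2] at hG3 hG
  have t3 := hG.trans hG3
  rw [mul_add] at t3
  have t1 := h1
  have t2 := hA.trans hA2
  clear hG hG3 hA hA2 hsub h2 hP0
  set PA := bernoulliProb p {w : Sym2 (Fin (n + 1)) → Bool |
        CorankOne (symMat w) ∧ (Set.ncard (gi (R n) (symMat w)) : ℝ) < δ * n}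
  set PB := bernoulliProb p {w : Sym2 (Fin (n + 1)) → Bool |
        J ≤ Set.ncard {i | θ < bernoulliWeight p (rowB w i)}}
  linarith only [hu, t1, t2, t3, k4, k5, g1, g3]

/-- **Top assembly**: the sharp exponential rate from the two counting hypotheses. -/
theorem top {p : ℝ} (hp0 : 0 < p) (hp1 : p < 1) (H : TopHyp p) :
    ∀ ε : ℝ, 0 < ε → ∀ᶠ n : ℕ in atTop, singularProb n p ≤ (rate p + ε) ^ n :=
  corank_red hp0 hp1 (top_c1 hp0 hp1 H)

end Crest.Agent.R152.Top
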