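import Crest.Agent.R152.AsmF
import Crest.Agent.R152.Glo5
import Crest.Agent.R152.TopN4
import Crest.Agent.R152.TopX2

set_option autoImplicit false

/-! Row 152, ASM part Z: the upper bound for the singularity probability. -/

open Crest.FinProb Crest.ProbabilityR.SignMatrix Crest.Agent.R152.Base Filter Topology

namespace Crest.Agent.R152.Asm

theorem topHyp {p : ℝ} (hp0 : 0 < p) (hp1 : p < 1) : Top.TopHyp p :=
  top_hyp hp0 hp1 (Glo.glo hp0 hp1) (Top.nmz hp0 hp1)

/-- **Upper bound.** -/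
theorem upper {p : ℝ} (hp0 : 0 < p) (hp1 : p < 1) :
    ∀ ε : ℝ, 0 < ε → ∀ᶠ n : ℕ in atTop, singularProb n p ≤ (rate p + ε) ^ n :=
  Top.top hp0 hp1 (topHyp hp0 hp1)

end Crest.Agent.R152.Asm
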