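import Mathlib
import Crest.Agent.Lib.PrekopaLeindler

set_option autoImplicit false

open MeasureTheory Set
open scoped ENNReal

namespace Crest.Agent.R152

/-- Anderson's inequality for the Gaussian weight on a symmetric convex set (from Prekopa–Leindler). -/
lemma anderson_gauss {m : ℕ} {W : Set (EuclideanSpace ℝ (Fin m))} (hWm : MeasurableSet W)
    (hWc : Convex ℝ W) (hWs : ∀ x ∈ W, -x ∈ W) {c : ℝ} (hc : 0 < c)
    (p : EuclideanSpace ℝ (Fin m)) :
    ∫⁻ x in W, ENNReal.ofReal (Real.exp (-c * ‖x - p‖ ^ 2)) ≤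
      ∫⁻ x in W, ENNReal.ofReal (Real.exp (-c * ‖x‖ ^ 2)) := by
  have hmf : ∀ q : EuclideanSpace ℝ (Fin m),
      Measurable fun x : EuclideanSpace ℝ (Fin m) => ENNReal.ofReal (Real.exp (-c * ‖x - q‖ ^ 2)) := by
    intro q; fun_prop
  set f : EuclideanSpace ℝ (Fin m) → ℝ≥0∞ :=
    W.indicator (fun x => ENNReal.ofReal (Real.exp (-c * ‖x - p‖ ^ 2))) with hf
  set g : EuclideanSpace ℝ (Fin m) → ℝ≥0∞ :=
    W.indicator (fun x => ENNReal.ofReal (Real.exp (-c * ‖x - (-p)‖ ^ 2))) with hg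
  set h : EuclideanSpace ℝ (Fin m) → ℝ≥0∞ :=
    W.indicator (fun x => ENNReal.ofReal (Real.exp (-c * ‖x‖ ^ 2))) with hh
  have hfm : Measurable f := (hmf p).indicator hWm
  have hgm : Measurable g := (hmf (-p)).indicator hWm
  have hhm : Measurable h := by
    have := hmf 0
    simp only [sub_zero] at this
    exact this.indicator hWm
  have hint_f : ∫⁻ x, f x = ∫⁻ x in W, ENNReal.ofReal (Real.exp (-c * ‖x - p‖ ^ 2)) :=
    lintegral_indicator hWm _
  have hint_h : ∫⁻ x, h x = ∫⁻ x in W, ENNReal.ofReal (Real.exp (-c * ‖x‖ ^ 2)) :=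
    lintegral_indicator hWm _
  have hfg : ∫⁻ x, g x = ∫⁻ x, f x := by
    rw [← lintegral_neg_eq_self (μ := volume) f]
    apply lintegral_congr
    intro x
    simp only [hf, hg, indicator]
    by_cases hx : x ∈ W
    · rw [if_pos hx, if_pos (hWs x hx)]
      congr 3
      rw [show -x - p = -(x - -p) by abel, norm_neg]
    · have : -x ∉ W := fun h' => hx (by simpa using hWs _ h')
      rw [if_neg hx, if_neg this]
  have hPL := Crest.Agent.Lib.PrekopaLeindler.PL_euclidean m (1 / 2) (by norm_num) (by norm_num)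
    f g h hfm hgm hhm ?_
  · rw [hfg] at hPL
    rw [← hint_f, ← hint_h]
    have e : (1 - 1 / 2 : ℝ) = 1 / 2 := by norm_num
    rw [e, ← ENNReal.rpow_add_of_nonneg _ _ (by norm_num) (by norm_num)] at hPL
    norm_num at hPL
    exact hPL
  · intro x y
    by_cases hx : x ∈ W
    · by_cases hy : y ∈ W
      · have hxy : (1 - 1 / 2 : ℝ) • x + (1 / 2 : ℝ) • y ∈ W :=
          hWc hx hy (by norm_num) (by norm_num) (by norm_num)
        simp only [hf, hg, hh, indicator_of_mem hx, indicator_of_mem hy, indicator_of_mem hxy]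
        rw [ENNReal.ofReal_rpow_of_pos (Real.exp_pos _), ENNReal.ofReal_rpow_of_pos (Real.exp_pos _),
          ← ENNReal.ofReal_mul (by positivity)]
        apply ENNReal.ofReal_le_ofReal
        rw [← Real.exp_mul, ← Real.exp_mul, ← Real.exp_add]
        apply Real.exp_le_exp.2
        have hpar := parallelogram_law_with_norm ℝ (x - p) (y - -p)
        have e1 : (1 - 1 / 2 : ℝ) • x + (1 / 2 : ℝ) • y = (1 / 2 : ℝ) • ((x - p) + (y - -p)) := by
          module
        rw [e1, norm_smul]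
        simp only [Real.norm_eq_abs]
        rw [abs_of_pos (by norm_num : (0:ℝ) < 1 / 2)]
        have h0 : 0 ≤ ‖(x - p) - (y - -p)‖ * ‖(x - p) - (y - -p)‖ := by positivity
        nlinarith [sq_nonneg ‖(x - p) + (y - -p)‖]
      · have : g y = 0 := by simp [hg, hy]
        rw [this, ENNReal.zero_rpow_of_pos (by norm_num), mul_zero]
        exact bot_le
    · have : f x = 0 := by simp [hf, hx]
      rw [this, ENNReal.zero_rpow_of_pos (by norm_num), zero_mul]
      exact bot_le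


/-- integrability of the Gaussian weight. -/
lemma integrable_gauss {m : ℕ} {c : ℝ} (hc : 0 < c) :
    Integrable (fun x : EuclideanSpace ℝ (Fin m) => Real.exp (-c * ‖x‖ ^ 2)) := by
  have h := GaussianFourier.integrable_cexp_neg_mul_sq_norm_add
    (V := EuclideanSpace ℝ (Fin m)) (b := (c : ℂ)) (by simpa using hc) 0 0
  have h2 := h.norm
  refine h2.congr (Filter.Eventually.of_forall fun x => ?_)
  simp only [Complex.norm_exp]
  congr 1
  have : (-(c:ℂ) * (‖x‖:ℂ) ^ 2 + 0 * ((inner ℝ (0 : EuclideanSpace ℝ (Fin m)) x : ℝ) : ℂ)) =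
      ((-c * ‖x‖ ^ 2 : ℝ) : ℂ) := by push_cast; ring
  rw [this, Complex.ofReal_re]

lemma lintegral_gauss_ne_top {m : ℕ} {c : ℝ} (hc : 0 < c) (W : Set (EuclideanSpace ℝ (Fin m))) :
    ∫⁻ x in W, ENNReal.ofReal (Real.exp (-c * ‖x‖ ^ 2)) ≠ ∞ := by
  have h : ∫⁻ x in W, ENNReal.ofReal (Real.exp (-c * ‖x‖ ^ 2)) ≤
      ∫⁻ x, ENNReal.ofReal (Real.exp (-c * ‖x‖ ^ 2)) := setLIntegral_le_lintegral _ _
  exact ne_top_of_le_ne_top (integrable_gauss hc).lintegral_lt_top.ne h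

lemma two_add_sq_le_exp_add_exp_neg (z : ℝ) : 2 + z ^ 2 ≤ Real.exp z + Real.exp (-z) := by
  have h1 : (z / 2) ^ 2 ≤ (Real.sinh (z / 2)) ^ 2 := by
    rcases le_total 0 (z / 2) with h | h
    · exact pow_le_pow_left₀ h (Real.self_le_sinh_iff.2 h) 2
    · have h2 : 0 ≤ -(z / 2) := by linarith
      have h3 := pow_le_pow_left₀ h2 (Real.self_le_sinh_iff.2 h2) 2
      rw [Real.sinh_neg] at h3
      linarith [neg_sq (z / 2), neg_sq (Real.sinh (z / 2)), h3]
  have h4 : Real.exp z + Real.exp (-z) = 2 + 4 * (Real.sinh (z / 2)) ^ 2 := by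
    rw [Real.sinh_eq]
    have e1 : Real.exp z = Real.exp (z / 2) ^ 2 := by rw [← Real.exp_nat_mul]; congr 1; push_cast; ring
    have e2 : Real.exp (-z) = Real.exp (-(z / 2)) ^ 2 := by
      rw [← Real.exp_nat_mul]; congr 1; push_cast; ring
    have e3 : Real.exp (z / 2) * Real.exp (-(z / 2)) = 1 := by rw [← Real.exp_add]; simp
    rw [e1, e2]
    linear_combination 2 * e3
  rw [h4]
  nlinarith

/-- directional variance of the Gaussian restricted to a symmetric convex set. -/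
theorem gauss_dir_var {m : ℕ} {W : Set (EuclideanSpace ℝ (Fin m))} (hWm : MeasurableSet W)
    (hWc : Convex ℝ W) (hWs : ∀ x ∈ W, -x ∈ W) {c : ℝ} (hc : 0 < c)
    (a : EuclideanSpace ℝ (Fin m)) :
    ∫⁻ x in W, ENNReal.ofReal ((inner ℝ a x) ^ 2 * Real.exp (-c * ‖x‖ ^ 2)) ≤
      ENNReal.ofReal (‖a‖ ^ 2 / (2 * c)) *
        ∫⁻ x in W, ENNReal.ofReal (Real.exp (-c * ‖x‖ ^ 2)) := by
  set I := ∫⁻ x in W, ENNReal.ofReal (Real.exp (-c * ‖x‖ ^ 2)) with hI
  set J := ∫⁻ x in W, ENNReal.ofReal ((inner ℝ a x) ^ 2 * Real.exp (-c * ‖x‖ ^ 2)) with hJ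
  have hIt : I ≠ ∞ := lintegral_gauss_ne_top hc W
  have hmG : Measurable fun x : EuclideanSpace ℝ (Fin m) => ENNReal.ofReal (Real.exp (-c * ‖x‖ ^ 2)) := by
    fun_prop
  have hmJ : Measurable fun x : EuclideanSpace ℝ (Fin m) =>
      ENNReal.ofReal ((inner ℝ a x) ^ 2 * Real.exp (-c * ‖x‖ ^ 2)) := by
    fun_prop
  -- the key inequality for each r > 0
  have key : ∀ r : ℝ, 0 < r →
      J ≤ ENNReal.ofReal ((Real.exp (c * r ^ 2 * ‖a‖ ^ 2) - 1) / (2 * c ^ 2 * r ^ 2)) * I := by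
    intro r hr
    have h1 := anderson_gauss hWm hWc hWs hc (r • a)
    have h2 := anderson_gauss hWm hWc hWs hc (-(r • a))
    have h3 : ∫⁻ x in W, (ENNReal.ofReal (Real.exp (-c * ‖x - r • a‖ ^ 2)) +
        ENNReal.ofReal (Real.exp (-c * ‖x - -(r • a)‖ ^ 2))) ≤ 2 * I := by
      rw [lintegral_add_left (by fun_prop), two_mul]
      exact add_le_add h1 h2
    have h4 : ∫⁻ x in W, ENNReal.ofReal (2 * Real.exp (-(c * r ^ 2 * ‖a‖ ^ 2))) *
        (ENNReal.ofReal (Real.exp (-c * ‖x‖ ^ 2)) + ENNReal.ofReal (2 * c ^ 2 * r ^ 2) *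
          ENNReal.ofReal ((inner ℝ a x) ^ 2 * Real.exp (-c * ‖x‖ ^ 2))) ≤ 2 * I := by
      refine le_trans (lintegral_mono fun x => ?_) h3
      rw [← ENNReal.ofReal_mul (by positivity), ← ENNReal.ofReal_add (by positivity) (by positivity),
        ← ENNReal.ofReal_mul (by positivity), ← ENNReal.ofReal_add (by positivity) (by positivity)]
      apply ENNReal.ofReal_le_ofReal
      have e1 : ‖x - r • a‖ ^ 2 = ‖x‖ ^ 2 - 2 * (r * inner ℝ a x) + r ^ 2 * ‖a‖ ^ 2 := by
        rw [norm_sub_sq_real, norm_smul, inner_smul_right, real_inner_comm, mul_pow, Real.norm_eq_abs,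
          sq_abs]
      have e2 : ‖x - -(r • a)‖ ^ 2 = ‖x‖ ^ 2 + 2 * (r * inner ℝ a x) + r ^ 2 * ‖a‖ ^ 2 := by
        rw [sub_neg_eq_add, norm_add_sq_real, norm_smul, inner_smul_right, real_inner_comm, mul_pow,
          Real.norm_eq_abs, sq_abs]
      have e3 : Real.exp (-c * ‖x - r • a‖ ^ 2) =
          Real.exp (-(c * r ^ 2 * ‖a‖ ^ 2)) * Real.exp (-c * ‖x‖ ^ 2) *
            Real.exp (2 * c * r * inner ℝ a x) := by
        rw [← Real.exp_add, ← Real.exp_add, e1]; congr 1; ring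
      have e4 : Real.exp (-c * ‖x - -(r • a)‖ ^ 2) =
          Real.exp (-(c * r ^ 2 * ‖a‖ ^ 2)) * Real.exp (-c * ‖x‖ ^ 2) *
            Real.exp (-(2 * c * r * inner ℝ a x)) := by
        rw [← Real.exp_add, ← Real.exp_add, e2]; congr 1; ring
      rw [e3, e4]
      have hcosh : 2 + (2 * c * r * inner ℝ a x) ^ 2 ≤
          Real.exp (2 * c * r * inner ℝ a x) + Real.exp (-(2 * c * r * inner ℝ a x)) := by
        exact two_add_sq_le_exp_add_exp_neg _
      have hpos : 0 < Real.exp (-(c * r ^ 2 * ‖a‖ ^ 2)) * Real.exp (-c * ‖x‖ ^ 2) := by positivity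
      nlinarith [mul_le_mul_of_nonneg_left hcosh hpos.le]
    rw [lintegral_const_mul _ (by fun_prop), lintegral_add_left hmG,
      lintegral_const_mul _ hmJ] at h4
    -- pass to reals
    have hJt : J ≠ ∞ := by
      intro hJ'
      rw [← hJ, hJ', ENNReal.mul_top (by simp; positivity), add_top, ENNReal.mul_top (by simp; positivity)] at h4
      exact (ENNReal.mul_ne_top (by simp) hIt) (top_le_iff.1 h4)
    rw [← hJ, ← hI] at h4
    have hr1 := ENNReal.toReal_mono (ENNReal.mul_ne_top (by simp) hIt) h4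
    rw [ENNReal.toReal_mul, ENNReal.toReal_mul, ENNReal.toReal_add hIt (ENNReal.mul_ne_top (by simp) hJt),
      ENNReal.toReal_mul, ENNReal.toReal_ofReal (by positivity), ENNReal.toReal_ofReal (by positivity)] at hr1
    simp only [ENNReal.toReal_ofNat] at hr1
    have hE : Real.exp (-(c * r ^ 2 * ‖a‖ ^ 2)) * Real.exp (c * r ^ 2 * ‖a‖ ^ 2) = 1 := by
      rw [← Real.exp_add]; simp
    have hr2 : (2 * c ^ 2 * r ^ 2) * J.toReal ≤ (Real.exp (c * r ^ 2 * ‖a‖ ^ 2) - 1) * I.toReal := by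
      have hp := Real.exp_pos (c * r ^ 2 * ‖a‖ ^ 2)
      have := mul_le_mul_of_nonneg_right hr1 hp.le
      have e : 2 * Real.exp (-(c * r ^ 2 * ‖a‖ ^ 2)) * (I.toReal + 2 * c ^ 2 * r ^ 2 * J.toReal) *
          Real.exp (c * r ^ 2 * ‖a‖ ^ 2) = 2 * (I.toReal + 2 * c ^ 2 * r ^ 2 * J.toReal) := by
        linear_combination (2 * (I.toReal + 2 * c ^ 2 * r ^ 2 * J.toReal)) * hE
      rw [e] at this
      linarith
    have hr3 : J.toReal ≤ (Real.exp (c * r ^ 2 * ‖a‖ ^ 2) - 1) / (2 * c ^ 2 * r ^ 2) * I.toReal := by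
      rw [div_mul_eq_mul_div, le_div_iff₀ (by positivity)]
      linarith
    have hk : 0 ≤ (Real.exp (c * r ^ 2 * ‖a‖ ^ 2) - 1) / (2 * c ^ 2 * r ^ 2) := by
      apply div_nonneg _ (by positivity)
      have := Real.one_le_exp (show (0:ℝ) ≤ c * r ^ 2 * ‖a‖ ^ 2 by positivity)
      linarith
    rw [← ENNReal.ofReal_toReal hJt, ← ENNReal.ofReal_toReal hIt, ← ENNReal.ofReal_mul hk]
    exact ENNReal.ofReal_le_ofReal hr3
  -- limit r → 0
  have hlim : Filter.Tendsto (fun r : ℝ => (Real.exp (c * r ^ 2 * ‖a‖ ^ 2) - 1) / (2 * c ^ 2 * r ^ 2))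
      (nhdsWithin 0 (Ioi 0)) (nhds (‖a‖ ^ 2 / (2 * c))) := by
    have hd : HasDerivAt (fun z : ℝ => Real.exp (c * z * ‖a‖ ^ 2)) (c * ‖a‖ ^ 2) 0 := by
      have := ((hasDerivAt_id (0:ℝ)).const_mul c).mul_const (‖a‖ ^ 2) |>.exp
      simpa using this
    rw [hasDerivAt_iff_tendsto_slope] at hd
    have hsq : Filter.Tendsto (fun r : ℝ => r ^ 2) (nhdsWithin 0 (Ioi 0)) (nhdsWithin 0 {0}ᶜ) := by
      apply tendsto_nhdsWithin_of_tendsto_nhds_of_eventually_within
      · have : Filter.Tendsto (fun r : ℝ => r ^ 2) (nhds 0) (nhds (0 ^ 2)) :=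
          (continuous_pow 2).tendsto 0
        simp only [ne_eq, OfNat.ofNat_ne_zero, not_false_eq_true, zero_pow] at this
        exact this.mono_left nhdsWithin_le_nhds
      · filter_upwards [self_mem_nhdsWithin] with r hr
        have : (0:ℝ) < r := hr
        simp [this.ne']
    have h5 := (hd.comp hsq).div_const (2 * c ^ 2)
    have e : c * ‖a‖ ^ 2 / (2 * c ^ 2) = ‖a‖ ^ 2 / (2 * c) := by field_simp
    rw [e] at h5
    refine h5.congr' ?_
    filter_upwards [self_mem_nhdsWithin] with r hr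
    have hr0 : r ≠ 0 := ne_of_gt hr
    simp only [Function.comp, slope, vsub_eq_sub, sub_zero, smul_eq_mul, mul_zero, zero_mul,
      Real.exp_zero]
    field_simp
  have hlim2 : Filter.Tendsto (fun r : ℝ => ENNReal.ofReal
      ((Real.exp (c * r ^ 2 * ‖a‖ ^ 2) - 1) / (2 * c ^ 2 * r ^ 2)) * I)
      (nhdsWithin 0 (Ioi 0)) (nhds (ENNReal.ofReal (‖a‖ ^ 2 / (2 * c)) * I)) :=
    ENNReal.Tendsto.mul_const (ENNReal.tendsto_ofReal hlim) (Or.inr hIt)
  refine ge_of_tendsto hlim2 ?_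
  filter_upwards [self_mem_nhdsWithin] with r hr using key r hr

end Crest.Agent.R152
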