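import Crest.Agent.R152.Base3

set_option autoImplicit false
set_option linter.unusedSectionVars false

/-! Row 152, BinMax (helper904): the Erdős–Littlewood–Offord bound for independent `p`-coins
(from Sperner's theorem, by writing a `p`-coin as a mixture with a fair coin). -/

open Crest.FinProb Crest.ProbabilityR.SignMatrix Crest.Agent.R152.Base

namespace Crest.Agent.R152.BinMax

/-! ### the middle binomial coefficient -/

theorem central_sq (n : ℕ) : (2 * n + 1) * (Nat.centralBinom n) ^ 2 ≤ 16 ^ n := by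
  induction n with
  | zero => simp
  | succ n ih =>
    have h := Nat.succ_mul_centralBinom_succ n
    have h1 : (n + 1) ^ 2 * ((2 * (n + 1) + 1) * (n + 1).centralBinom ^ 2) =
        (2 * n + 3) * (2 * (2 * n + 1) * n.centralBinom) ^ 2 := by
      rw [← h]; ring
    have h2 : (2 * n + 3) * (2 * (2 * n + 1) * n.centralBinom) ^ 2 ≤
        (n + 1) ^ 2 * 16 ^ (n + 1) := by
      calc (2 * n + 3) * (2 * (2 * n + 1) * n.centralBinom) ^ 2
          = 4 * ((2 * n + 3) * (2 * n + 1)) * ((2 * n + 1) * n.centralBinom ^ 2) := by ring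
        _ ≤ 4 * (4 * (n + 1) ^ 2) * 16 ^ n := by
            refine Nat.mul_le_mul (Nat.mul_le_mul le_rfl ?_) ih
            nlinarith
        _ = (n + 1) ^ 2 * 16 ^ (n + 1) := by ring
    rw [← h1] at h2
    exact Nat.le_of_mul_le_mul_left h2 (by positivity)

theorem middle_sq (k : ℕ) : (k + 1) * (k.choose (k / 2)) ^ 2 ≤ 4 ^ k := by
  rcases Nat.even_or_odd' k with ⟨n, rfl | rfl⟩
  · have h := central_sq n
    rw [Nat.centralBinom_eq_two_mul_choose] at h
    rw [Nat.mul_div_cancel_left n (by norm_num), pow_mul]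
    norm_num
    exact h
  · have h := central_sq (n + 1)
    rw [Nat.centralBinom_eq_two_mul_choose] at h
    have h1 : (2 * (n + 1)).choose (n + 1) = 2 * (2 * n + 1).choose n := by
      rw [show 2 * (n + 1) = (2 * n + 1) + 1 by ring, Nat.choose_succ_succ,
        ← Nat.choose_symm_half n]
      ring
    have h2 : (2 * n + 1) / 2 = n := by omega
    rw [h1] at h
    rw [h2]
    have h3 : (16 : ℕ) ^ (n + 1) = 4 * 4 ^ (2 * n + 1) := by
      rw [show (16 : ℕ) = 4 ^ 2 by norm_num, ← pow_mul]; ring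
    rw [h3] at h
    nlinarith

theorem middle_real (k : ℕ) : ((k.choose (k / 2) : ℝ) / 2 ^ k) ^ 2 ≤ 1 / (k + 1) := by
  have h : ((k : ℝ) + 1) * (k.choose (k / 2) : ℝ) ^ 2 ≤ 4 ^ k := by exact_mod_cast middle_sq k
  rw [div_pow, ← pow_mul, mul_comm k 2, pow_mul, div_le_div_iff₀ (by positivity) (by positivity)]
  norm_num
  linarith

/-! ### the binomial average -/

theorem avg_inv {ι : Type*} {a : ℝ} (ha : 0 < a) (ha1 : a ≤ 1) (S : Finset ι) :
    ∑ T ∈ S.powerset, a ^ T.card * (1 - a) ^ (S.card - T.card) * (1 / (T.card + 1 : ℝ)) ≤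
      1 / (a * (S.card + 1)) := by
  set s := S.card with hs
  have h1 : ∑ T ∈ S.powerset, a ^ T.card * (1 - a) ^ (s - T.card) * (1 / (T.card + 1 : ℝ)) =
      ∑ k ∈ Finset.range (s + 1), (s.choose k : ℝ) * (a ^ k * (1 - a) ^ (s - k) * (1 / (k + 1 : ℝ))) := by
    rw [Finset.sum_powerset_apply_card
      (fun k => a ^ k * (1 - a) ^ (s - k) * (1 / (k + 1 : ℝ)))]
    simp only [nsmul_eq_mul, hs]
  rw [h1, le_div_iff₀ (by positivity), Finset.sum_mul]
  have h2 : ∀ k ∈ Finset.range (s + 1),
      (s.choose k : ℝ) * (a ^ k * (1 - a) ^ (s - k) * (1 / (k + 1 : ℝ))) * (a * (s + 1)) =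
        a ^ (k + 1) * (1 - a) ^ ((s + 1) - (k + 1)) * ((s + 1).choose (k + 1) : ℝ) := by
    intro k hk
    have h3 : ((s : ℝ) + 1) * (s.choose k : ℝ) = ((s + 1).choose (k + 1) : ℝ) * (k + 1) := by
      have := Nat.add_one_mul_choose_eq s k
      exact_mod_cast this
    have h4 : (s + 1) - (k + 1) = s - k := by omega
    rw [h4]
    have h5 : (k : ℝ) + 1 ≠ 0 := by positivity
    field_simp
    rw [pow_succ]
    linear_combination (a ^ k * a * (1 - a) ^ (s - k)) * h3
  rw [Finset.sum_congr rfl h2]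
  have h6 := add_pow a (1 - a) (s + 1)
  rw [Finset.sum_range_succ'] at h6
  have h7 : (a + (1 - a)) ^ (s + 1) = 1 := by rw [add_sub_cancel, one_pow]
  rw [h7] at h6
  have h8 : 0 ≤ a ^ 0 * (1 - a) ^ (s + 1 - 0) * ((s + 1).choose 0 : ℝ) := by
    have : 0 ≤ 1 - a := by linarith
    positivity
  linarith

theorem avg_middle {ι : Type*} {a : ℝ} (ha : 0 < a) (ha1 : a ≤ 1) (S : Finset ι) :
    ∑ T ∈ S.powerset, a ^ T.card * (1 - a) ^ (S.card - T.card) *
        ((T.card.choose (T.card / 2) : ℝ) / 2 ^ T.card) ≤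
      1 / Real.sqrt (a * (S.card + 1)) := by
  have h0 : 0 < a * ((S.card : ℝ) + 1) := by positivity
  set t : ℝ := 1 / Real.sqrt (a * (S.card + 1)) with ht
  have hsq : 0 < Real.sqrt (a * (S.card + 1)) := Real.sqrt_pos.2 h0
  have htp : 0 < t := by positivity
  have ht2 : t * t = 1 / (a * (S.card + 1)) := by
    rw [ht, div_mul_div_comm, one_mul, Real.mul_self_sqrt h0.le]
  have hw : ∀ T : Finset ι, 0 ≤ a ^ T.card * (1 - a) ^ (S.card - T.card) := fun T => by
    have : 0 ≤ 1 - a := by linarith
    positivity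
  have h1 : ∀ T ∈ S.powerset, a ^ T.card * (1 - a) ^ (S.card - T.card) *
        ((T.card.choose (T.card / 2) : ℝ) / 2 ^ T.card) ≤
      (t / 2) * (a ^ T.card * (1 - a) ^ (S.card - T.card)) + (1 / (2 * t)) *
        (a ^ T.card * (1 - a) ^ (S.card - T.card) * (1 / (T.card + 1 : ℝ))) := by
    intro T _
    have h2 := middle_real T.card
    set c : ℝ := (T.card.choose (T.card / 2) : ℝ) / 2 ^ T.card with hc
    have h3 : c ≤ t / 2 + (1 / (2 * t)) * (1 / (T.card + 1 : ℝ)) := by
      have h4 : c ≤ t / 2 + (1 / (2 * t)) * c ^ 2 := by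
        have h5 : 0 ≤ (t - c) ^ 2 := sq_nonneg _
        have h6 : t / 2 + (1 / (2 * t)) * c ^ 2 - c = (t - c) ^ 2 / (2 * t) := by
          field_simp
          ring
        have h7 : 0 ≤ (t - c) ^ 2 / (2 * t) := by positivity
        linarith
      have h8 : (1 / (2 * t)) * c ^ 2 ≤ (1 / (2 * t)) * (1 / (T.card + 1 : ℝ)) :=
        mul_le_mul_of_nonneg_left h2 (by positivity)
      linarith
    calc _ ≤ (a ^ T.card * (1 - a) ^ (S.card - T.card)) *
          (t / 2 + (1 / (2 * t)) * (1 / (T.card + 1 : ℝ))) := mul_le_mul_of_nonneg_left h3 (hw T)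
      _ = _ := by ring
  refine (Finset.sum_le_sum h1).trans ?_
  rw [Finset.sum_add_distrib, ← Finset.mul_sum, ← Finset.mul_sum]
  have h9 : ∑ T ∈ S.powerset, a ^ T.card * (1 - a) ^ (S.card - T.card) = 1 := by
    rw [Finset.sum_pow_mul_eq_add_pow, add_sub_cancel, one_pow]
  have h10 := avg_inv ha ha1 S
  rw [h9, mul_one]
  have h11 : (1 / (2 * t)) * ∑ T ∈ S.powerset,
      a ^ T.card * (1 - a) ^ (S.card - T.card) * (1 / (T.card + 1 : ℝ)) ≤ (1 / (2 * t)) * (t * t) := by
    rw [ht2]
    exact mul_le_mul_of_nonneg_left h10 (by positivity)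
  have h12 : (1 / (2 * t)) * (t * t) = t / 2 := by
    field_simp
  linarith

/-! ### Sperner -/

variable {ι : Type*} [Fintype ι] [DecidableEq ι]

/-- Changing only coins in `T ⊆ S`, where the weights are `≥ L` in absolute value on `S`, an open
window of length `2L` is hit at most `C(|T|, |T|/2)` times. -/
theorem count_window (v : ι → ℝ) {L : ℝ} (T : Finset ι) (hv : ∀ i ∈ T, L ≤ |v i|) (hL : 0 < L)
    (a : ℝ) (b : ι → Bool) :
    (Finset.univ.filter (fun x : ι → Bool => |∑ i, v i * (sg (x i) : ℝ) - a| < L ∧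
      ∀ i, i ∉ T → x i = b i)).card ≤ T.card.choose (T.card / 2) := by
  classical
  set X := Finset.univ.filter (fun x : ι → Bool => |∑ i, v i * (sg (x i) : ℝ) - a| < L ∧
      ∀ i, i ∉ T → x i = b i) with hX
  let g : (ι → Bool) → Finset {i // i ∈ T} := fun x =>
    Finset.univ.filter (fun i => x i.1 = decide (0 < v i.1))
  have hinj : Set.InjOn g X := by
    intro x hx y hy hxy
    have hx' := (Finset.mem_filter.1 hx).2
    have hy' := (Finset.mem_filter.1 hy).2
    funext i
    by_cases hi : i ∈ T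
    · have h1 : (⟨i, hi⟩ : {i // i ∈ T}) ∈ g x ↔ (⟨i, hi⟩ : {i // i ∈ T}) ∈ g y := by rw [hxy]
      simp only [g, Finset.mem_filter, Finset.mem_univ, true_and] at h1
      revert h1
      cases x i <;> cases y i <;> cases decide (0 < v i) <;> simp
    · rw [hx'.2 i hi, hy'.2 i hi]
  have hanti : IsAntichain (· ⊆ ·) (SetLike.coe (X.image g)) := by
    intro A hA B hB hAB hsub
    rw [Finset.coe_image] at hA hB
    obtain ⟨x, hx, rfl⟩ := hA
    obtain ⟨y, hy, rfl⟩ := hB
    have hx' := (Finset.mem_filter.1 hx).2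
    have hy' := (Finset.mem_filter.1 hy).2
    -- termwise monotone
    have hterm : ∀ i, v i * (sg (x i) : ℝ) ≤ v i * (sg (y i) : ℝ) := by
      intro i
      by_cases hi : i ∈ T
      · have h1 : (⟨i, hi⟩ : {i // i ∈ T}) ∈ g x → (⟨i, hi⟩ : {i // i ∈ T}) ∈ g y := fun h => hsub h
        simp only [g, Finset.mem_filter, Finset.mem_univ, true_and] at h1
        by_cases h0 : 0 < v i
        · rw [decide_eq_true h0] at h1
          cases hxi : x i
          · cases hyi : y i <;> simp [sg] <;> linarith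
          · rw [h1 hxi]
        · rw [decide_eq_false h0] at h1
          have h0' : v i ≤ 0 := not_lt.1 h0
          cases hxi : x i
          · rw [h1 hxi]
          · cases hyi : y i <;> simp [sg] <;> linarith
      · rw [hx'.2 i hi, hy'.2 i hi]
    -- a strict difference
    have hne : ∃ i ∈ T, x i ≠ y i := by
      by_contra hcon
      push Not at hcon
      apply hAB
      have : x = y := by
        funext i
        by_cases hi : i ∈ T
        · exact hcon i hi
        · rw [hx'.2 i hi, hy'.2 i hi]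
      rw [this]
    obtain ⟨i0, hi0, hne0⟩ := hne
    have hstrict : v i0 * (sg (x i0) : ℝ) + 2 * L ≤ v i0 * (sg (y i0) : ℝ) := by
      have h1 := hterm i0
      have h2 := hv i0 hi0
      cases hxi : x i0 <;> cases hyi : y i0
      · rw [hxi, hyi] at hne0; exact absurd rfl hne0
      · rw [hxi, hyi] at h1
        simp only [sg, if_true, Bool.false_eq_true, if_false] at h1 ⊢
        push_cast at h1 ⊢
        have h3 : 0 ≤ v i0 := by linarith
        rw [abs_of_nonneg h3] at h2
        linarith
      · rw [hxi, hyi] at h1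
        simp only [sg, if_true, Bool.false_eq_true, if_false] at h1 ⊢
        push_cast at h1 ⊢
        have h3 : v i0 ≤ 0 := by linarith
        rw [abs_of_nonpos h3] at h2
        linarith
      · rw [hxi, hyi] at hne0; exact absurd rfl hne0
    have hsum : ∑ i, v i * (sg (x i) : ℝ) + 2 * L ≤ ∑ i, v i * (sg (y i) : ℝ) := by
      rw [← Finset.add_sum_erase _ _ (Finset.mem_univ i0),
        ← Finset.add_sum_erase _ (fun i => v i * (sg (y i) : ℝ)) (Finset.mem_univ i0)]
      have h4 : ∑ i ∈ Finset.univ.erase i0, v i * (sg (x i) : ℝ) ≤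
          ∑ i ∈ Finset.univ.erase i0, v i * (sg (y i) : ℝ) :=
        Finset.sum_le_sum fun i _ => hterm i
      linarith
    have h5 := abs_lt.1 hx'.1
    have h6 := abs_lt.1 hy'.1
    linarith [h5.1, h6.2]
  have hcard := hanti.sperner
  rw [Finset.card_image_of_injOn hinj, Fintype.card_coe] at hcard
  exact hcard

/-! ### mixtures -/

/-- Sum over the coins outside `T`. -/
theorem sum_fiber_le (T : Finset ι) (h : ι → Bool → ℝ) (hh : ∀ i b, 0 ≤ h i b)
    (X : Finset (ι → Bool)) (K : ℕ)
    (hK : ∀ b : ι → Bool, (X.filter (fun x => ∀ i, i ∉ T → x i = b i)).card ≤ K) :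
    ∑ x ∈ X, ∏ i ∈ Finset.univ \ T, h i (x i) ≤
      K * ∏ i ∈ Finset.univ \ T, (h i true + h i false) := by
  classical
  have hprod : ∀ (F : ι → ℝ), ∏ i ∈ Finset.univ \ T, F i = ∏ i : {i // i ∉ T}, F i := fun F =>
    Finset.prod_subtype (Finset.univ \ T) (fun x => by simp) F
  simp only [hprod]
  let π : (ι → Bool) → ({i // i ∉ T} → Bool) := fun x i => x i
  have h1 : ∑ x ∈ X, ∏ i : {i // i ∉ T}, h i (x i) =
      ∑ η : {i // i ∉ T} → Bool, ∑ x ∈ X with π x = η, ∏ i : {i // i ∉ T}, h i (x i) :=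
    (Finset.sum_fiberwise X π _).symm
  rw [h1]
  have h2 : ∀ η : {i // i ∉ T} → Bool, ∑ x ∈ X with π x = η, ∏ i : {i // i ∉ T}, h i (x i) ≤
      K * ∏ i : {i // i ∉ T}, h i (η i) := by
    intro η
    have h3 : ∑ x ∈ X with π x = η, ∏ i : {i // i ∉ T}, h i (x i) =
        ((X.filter (fun x => π x = η)).card : ℝ) * ∏ i : {i // i ∉ T}, h i (η i) := by
      rw [← nsmul_eq_mul, ← Finset.sum_const]
      refine Finset.sum_congr rfl fun x hx => ?_
      have hx' := (Finset.mem_filter.1 hx).2
      refine Finset.prod_congr rfl fun i _ => ?_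
      rw [← hx']
    rw [h3]
    refine mul_le_mul_of_nonneg_right ?_ (Finset.prod_nonneg fun i _ => hh _ _)
    have h4 := hK (fun i => if hi : i ∉ T then η ⟨i, hi⟩ else true)
    have h5 : X.filter (fun x => π x = η) =
        X.filter (fun x => ∀ i, i ∉ T → x i = (fun i => if hi : i ∉ T then η ⟨i, hi⟩ else true) i) := by
      refine Finset.filter_congr fun x _ => ?_
      constructor
      · intro hx i hi
        simp only [dif_pos hi]
        rw [← hx]
      · intro hx
        funext i
        have := hx i.1 i.2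
        simp only [dif_pos i.2] at this
        exact this
    rw [h5]
    exact_mod_cast h4
  refine (Finset.sum_le_sum fun η _ => h2 η).trans ?_
  rw [← Finset.mul_sum, sum_weight_prod (fun (i : {i // i ∉ T}) (b : Bool) => h i b)]

/-- **Erdős–Littlewood–Offord for `p`-coins.** -/
theorem elo {p lam : ℝ} (hl : 0 < lam) (hp : lam ≤ p) (hq : lam ≤ 1 - p)
    (v : ι → ℝ) {L : ℝ} (hL : 0 < L) (S : Finset ι) (hv : ∀ i ∈ S, L ≤ |v i|) (a : ℝ) :
    bernoulliProb p {x : ι → Bool | |∑ i, v i * (sg (x i) : ℝ) - a| < L} ≤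
      1 / Real.sqrt (2 * lam * (S.card + 1)) := by
  classical
  set X := Finset.univ.filter (fun x : ι → Bool => |∑ i, v i * (sg (x i) : ℝ) - a| < L) with hX
  let w : Bool → ℝ := fun b => if b then p else 1 - p
  have hwl : ∀ b, lam ≤ w b := by
    intro b; cases b <;> simp [w] <;> linarith
  have hw0 : ∀ b, 0 ≤ w b := fun b => hl.le.trans (hwl b)
  let h : ι → Bool → ℝ := fun i b => if i ∈ S then w b - lam else w b
  have hh : ∀ i b, 0 ≤ h i b := by
    intro i b
    by_cases hi : i ∈ S
    · simp only [h, if_pos hi]; linarith [hwl b]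
    · simp only [h, if_neg hi]; exact hw0 b
  have h1 : bernoulliProb p {x : ι → Bool | |∑ i, v i * (sg (x i) : ℝ) - a| < L} =
      ∑ x ∈ X, ∏ i, w (x i) := by
    unfold bernoulliProb bernoulliWeight
    refine Finset.sum_congr ?_ fun x _ => rfl
    ext x; simp [hX]
  -- expand the product over `S`
  have h2 : ∀ x : ι → Bool, ∏ i, w (x i) =
      ∑ T ∈ S.powerset, lam ^ T.card * ∏ i ∈ Finset.univ \ T, h i (x i) := by
    intro x
    have h3 : ∏ i, w (x i) = (∏ i ∈ S, w (x i)) * ∏ i ∈ Sᶜ, w (x i) :=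
      (Finset.prod_mul_prod_compl S _).symm
    have h4 : ∏ i ∈ S, w (x i) = ∏ i ∈ S, (lam + (w (x i) - lam)) :=
      Finset.prod_congr rfl fun i _ => by ring
    rw [h3, h4, Finset.prod_add, Finset.sum_mul]
    refine Finset.sum_congr rfl fun T hT => ?_
    have hTS : T ⊆ S := Finset.mem_powerset.1 hT
    rw [Finset.prod_const, mul_assoc]
    congr 1
    have h5 : Finset.univ \ T = (S \ T) ∪ Sᶜ := by
      ext i
      simp only [Finset.mem_sdiff, Finset.mem_univ, true_and, Finset.mem_union, Finset.mem_compl]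
      constructor
      · intro hi
        by_cases hS : i ∈ S
        · exact Or.inl ⟨hS, hi⟩
        · exact Or.inr hS
      · rintro (hi | hi)
        · exact hi.2
        · exact fun hiT => hi (hTS hiT)
    have h6 : Disjoint (S \ T) Sᶜ := by
      rw [Finset.disjoint_left]
      intro i hi hi'
      exact (Finset.mem_compl.1 hi') (Finset.mem_sdiff.1 hi).1
    rw [h5, Finset.prod_union h6]
    congr 1
    · refine Finset.prod_congr rfl fun i hi => ?_
      simp only [h, if_pos (Finset.mem_sdiff.1 hi).1]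
    · refine Finset.prod_congr rfl fun i hi => ?_
      simp only [h, if_neg (Finset.mem_compl.1 hi)]
  rw [h1]
  simp only [h2]
  rw [Finset.sum_comm]
  -- bound for each `T`
  have h7 : ∀ T ∈ S.powerset, ∑ x ∈ X, lam ^ T.card * ∏ i ∈ Finset.univ \ T, h i (x i) ≤
      (2 * lam) ^ T.card * (1 - 2 * lam) ^ (S.card - T.card) *
        ((T.card.choose (T.card / 2) : ℝ) / 2 ^ T.card) := by
    intro T hT
    have hTS : T ⊆ S := Finset.mem_powerset.1 hT
    rw [← Finset.mul_sum]
    have h8 := sum_fiber_le T h hh X (T.card.choose (T.card / 2)) (fun b => by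
      have := count_window v T (fun i hi => hv i (hTS hi)) hL a b
      rw [hX, Finset.filter_filter]
      exact this)
    have h9 : ∏ i ∈ Finset.univ \ T, (h i true + h i false) = (1 - 2 * lam) ^ (S.card - T.card) := by
      have h10 : ∀ i, h i true + h i false = if i ∈ S then 1 - 2 * lam else 1 := by
        intro i
        by_cases hi : i ∈ S
        · simp only [h, if_pos hi, w, if_true, Bool.false_eq_true, if_false]; ring
        · simp only [h, if_neg hi, w, if_true, Bool.false_eq_true, if_false]; ring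
      simp only [h10]
      rw [Finset.prod_ite, Finset.prod_const_one, mul_one, Finset.prod_const]
      congr 1
      rw [← Finset.card_sdiff_of_subset hTS]
      congr 1
      ext i
      simp [and_comm]
    rw [h9] at h8
    calc lam ^ T.card * ∑ x ∈ X, ∏ i ∈ Finset.univ \ T, h i (x i)
        ≤ lam ^ T.card * ((T.card.choose (T.card / 2) : ℕ) * (1 - 2 * lam) ^ (S.card - T.card)) :=
          mul_le_mul_of_nonneg_left h8 (by positivity)
      _ = _ := by
          rw [mul_pow]
          field_simp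
  refine (Finset.sum_le_sum h7).trans ?_
  exact avg_middle (by positivity) (by linarith) S

end Crest.Agent.R152.BinMax
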