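import Crest.Agent.R152.WRM3d

set_option autoImplicit false

/-!
# Row 152, module CHEAP, part 1: short bases of positive definite forms

If all sublattices have determinant at least `det G / T`, there is a basis with all
`qf ≤ 4 m^2 T`.
-/

namespace Crest.Agent.R152.Cheap

open Matrix Crest.Agent.R152.WRM Crest.Agent.R152.WRM3

theorem gr_smul {α β : Type*} [Fintype α] (c : ℝ) (G : Matrix α α ℝ) (Z : Matrix α β ℤ) :
    gr (c • G) Z = c • gr G Z := by
  unfold gr
  rw [Matrix.mul_smul, Matrix.smul_mul]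

theorem exists_short_first' {m : ℕ} {G : Matrix (Fin (m+1)) (Fin (m+1)) ℝ} (hG : G.PosDef)
    {T : ℝ} (hT : 1 ≤ T) (hdet : G.det ≤ T) :
    ∃ U : Matrix (Fin (m+1)) (Fin (m+1)) ℤ, IsUnit U.det ∧ gr G U 0 0 ≤ 4 * (m + 1) * T := by
  have hT0 : 0 < T := by linarith
  have hTi : 0 < T⁻¹ := inv_pos.2 hT0
  have hTi1 : T⁻¹ ≤ 1 := inv_le_one_of_one_le₀ hT
  have h1 : (T⁻¹ • G).PosDef := hG.smul hTi
  have h2 : (T⁻¹ • G).det ≤ 1 := by
    rw [det_smul, Fintype.card_fin, pow_succ]
    have h3 : (T⁻¹) ^ m ≤ 1 := pow_le_one₀ hTi.le hTi1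
    have h4 : T⁻¹ * G.det ≤ 1 := by
      rw [inv_mul_le_iff₀ hT0]; linarith
    have h5 : 0 ≤ T⁻¹ * G.det := mul_nonneg hTi.le hG.det_pos.le
    calc T⁻¹ ^ m * T⁻¹ * G.det = T⁻¹ ^ m * (T⁻¹ * G.det) := by ring
      _ ≤ 1 * 1 := mul_le_mul h3 h4 h5 zero_le_one
      _ = 1 := by norm_num
  obtain ⟨U, hU, h⟩ := exists_short_first h1 h2
  refine ⟨U, hU, ?_⟩
  rw [gr_smul, Matrix.smul_apply, smul_eq_mul, inv_mul_le_iff₀ hT0] at h
  linarith

theorem gr_ext1_ss {m k : ℕ} (G : Matrix (Fin (m+1)) (Fin (m+1)) ℝ) (h0 : G 0 0 ≠ 0)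
    (t : Fin k → ℤ) (U : Matrix (Fin m) (Fin k) ℤ) (j : Fin k) :
    gr G (ext1 t U) j.succ j.succ = gr (WRM3.schur G) U j j
      + gr G (ext1 t U) j.succ 0 * gr G (ext1 t U) 0 j.succ / G 0 0 := by
  have h := congrFun (congrFun (schur_gr_ext1 G h0 t U) j) j
  rw [← h]
  simp only [WRM3.schur, Matrix.of_apply, gr_ext1_00]
  ring

/-- **short basis** -/
theorem short_basis : ∀ (m : ℕ) (T : ℝ), 1 ≤ T → ∀ G : Matrix (Fin m) (Fin m) ℝ, G.PosDef →
    DetGe (G.det / T) G → ∃ U : Matrix (Fin m) (Fin m) ℤ, IsUnit U.det ∧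
      ∀ j, gr G U j j ≤ 4 * (m : ℝ) ^ 2 * T := by
  intro m
  induction m with
  | zero =>
    intro T _ G _ _
    exact ⟨1, by simp, fun j => j.elim0⟩
  | succ m ih =>
    intro T hT G hG hd
    have hT0 : 0 < T := by linarith
    have hdet1 : G.det ≤ T := by
      have := hd 0 (Matrix.of fun _ (j : Fin 0) => j.elim0) (by simp)
      rw [div_le_iff₀ hT0] at this
      simpa using this
    obtain ⟨U, hU, hU0⟩ := exists_short_first' hG hT hdet1
    set G' := gr G U with hG'
    have hGp : G'.PosDef := gr_posDef_unit hG hU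
    have h0 : 0 < G' 0 0 := posDef_diag hGp 0
    have hd' : DetGe (G'.det / T) G' := by
      rw [hG', det_gr_unit G hU]; exact hd.gr U
    have hd2 : DetGe ((WRM3.schur G').det / T) (WRM3.schur G') := by
      have h1 := hd'.schur h0
      have h2 : G'.det / T / G' 0 0 = (WRM3.schur G').det / T := by
        rw [det_schur G' h0.ne']
        field_simp
      rwa [h2] at h1
    obtain ⟨V, hV, hVj⟩ := ih T hT (WRM3.schur G') (WRM3.schur_posDef hGp) hd2
    set c : Fin m → ℝ := fun j => ∑ l : Fin m, G' 0 l.succ * V l j with hc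
    set t : Fin m → ℤ := fun j => - round (c j / G' 0 0) with ht
    refine ⟨U * ext1 t V, ?_, ?_⟩
    · rw [Matrix.det_mul, det_ext1]
      exact hU.mul hV
    · intro j
      rw [gr_mul, ← hG']
      have hm : (0 : ℝ) ≤ m := Nat.cast_nonneg m
      refine Fin.cases ?_ (fun j => ?_) j
      · rw [gr_ext1_00]
        push_cast
        have : (m : ℝ) + 1 ≤ ((m : ℝ) + 1) ^ 2 := by nlinarith
        nlinarith
      · rw [gr_ext1_ss G' h0.ne', gr_ext1_s0, gr_ext1_0s]
        have hs : ∑ l : Fin m, G' l.succ 0 * (V l j : ℝ) = c j := by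
          rw [hc]
          refine Finset.sum_congr rfl fun l _ => ?_
          rw [posDef_symm hGp l.succ 0]
        have hs' : ∑ l : Fin m, G' 0 l.succ * (V l j : ℝ) = c j := rfl
        rw [hs, hs']
        have h5 : |G' 0 0 * (t j : ℝ) + c j| ≤ G' 0 0 / 2 := by
          have h6 := abs_sub_round (c j / G' 0 0)
          have h7 : G' 0 0 * (t j : ℝ) + c j
              = G' 0 0 * (c j / G' 0 0 - (round (c j / G' 0 0) : ℝ)) := by
            rw [ht]; push_cast; field_simp; ring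
          rw [h7, abs_mul, abs_of_pos h0]
          nlinarith
        have h8 : (G' 0 0 * (t j : ℝ) + c j) * (G' 0 0 * (t j : ℝ) + c j) / G' 0 0
            ≤ G' 0 0 / 4 := by
          rw [div_le_iff₀ h0]
          have h9 := abs_le.1 h5
          nlinarith [h9.1, h9.2]
        have h10 := hVj j
        push_cast
        nlinarith

end Crest.Agent.R152.Cheap
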