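import Crest.Agent.R152.Rel2
import Crest.Agent.R152.Lat2

set_option autoImplicit false
set_option linter.unusedSectionVars false

/-!
# Row 152, module CHEAP, part 2: potentials, closed lattices, cheap supersets, greedy step
-/

namespace Crest.Agent.R152.Cheap

open Matrix Module Crest.Agent.R152.Lat Crest.Agent.R152.Rel

variable {ι : Type*} [Fintype ι]

/-- potential `Φ(L) = log covol L + lam * rank L` -/
noncomputable def Phi (lam : ℝ) (L : Submodule ℤ (ι → ℤ)) : ℝ := lc L + lam * rk L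

/-- `F` minimises the potential among its supersets -/
def Closed (lam : ℝ) (F : Submodule ℤ (ι → ℤ)) : Prop :=
  ∀ M : Submodule ℤ (ι → ℤ), F ≤ M → Phi lam F ≤ Phi lam M

theorem Phi_submod (lam : ℝ) (L M : Submodule ℤ (ι → ℤ)) :
    Phi lam (L ⊔ M) + Phi lam (L ⊓ M) ≤ Phi lam L + Phi lam M := by
  have h1 := lc_submod L M
  have h2 : (rk (L ⊔ M) : ℝ) + rk (L ⊓ M) = rk L + rk M := by exact_mod_cast rk_modular L M
  unfold Phi
  have h3 : lam * (rk (L ⊔ M) : ℝ) + lam * rk (L ⊓ M) = lam * rk L + lam * rk M := by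
    rw [← mul_add, h2, mul_add]
  linarith

/-- existence of minimisers of the potential in any nonempty family -/
theorem exists_min (lam : ℝ) (P : Submodule ℤ (ι → ℤ) → Prop) (hP : ∃ L, P L) :
    ∃ L, P L ∧ ∀ M, P M → Phi lam L ≤ Phi lam M := by
  classical
  set T : Finset ℕ := (Finset.range (Fintype.card ι + 1)).filter (fun r => ∃ L, P L ∧ rk L = r)
    with hT
  have h1 : ∀ r ∈ T, ∃ L, (P L ∧ rk L = r) ∧ ∀ M, P M → rk M = r → dsc L ≤ dsc M := by
    intro r hr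
    obtain ⟨L0, hL0⟩ := (Finset.mem_filter.1 hr).2
    obtain ⟨L, hL, hmin⟩ := WellFounded.has_min
      (measure (fun L : Submodule ℤ (ι → ℤ) => (dsc L).toNat)).wf
      {L | P L ∧ rk L = r} ⟨L0, hL0⟩
    refine ⟨L, hL, fun M hM hr' => ?_⟩
    have h2 := hmin M ⟨hM, hr'⟩
    have h3 : ¬ ((dsc M).toNat < (dsc L).toNat) := h2
    have h4 := dsc_pos M
    have h5 := dsc_pos L
    omega
  choose! Lr hLr hmin using h1
  obtain ⟨L0, hL0⟩ := hP
  have hmem : ∀ M, P M → rk M ∈ T := by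
    intro M hM
    rw [hT, Finset.mem_filter]
    refine ⟨Finset.mem_range.2 ?_, M, hM, rfl⟩
    have := rk_le_card M
    omega
  obtain ⟨r, hr, hrmin⟩ := T.exists_min_image (fun r => Phi lam (Lr r)) ⟨_, hmem L0 hL0⟩
  refine ⟨Lr r, (hLr r hr).1, fun M hM => ?_⟩
  refine (hrmin (rk M) (hmem M hM)).trans ?_
  have h2 := hmin (rk M) (hmem M hM) M hM rfl
  have h3 := (hLr (rk M) (hmem M hM)).2
  unfold Phi
  rw [h3]
  have h4 : lc (Lr (rk M)) ≤ lc M := by
    unfold lc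
    have h5 : (0 : ℝ) < dsc (Lr (rk M)) := by exact_mod_cast dsc_pos _
    have h6 : ((dsc (Lr (rk M)) : ℤ) : ℝ) ≤ dsc M := by exact_mod_cast h2
    have := Real.log_le_log h5 h6
    linarith
  linarith

theorem Closed.sat {lam : ℝ} {F : Submodule ℤ (ι → ℤ)} (hF : Closed lam F)
    (M : Submodule ℤ (ι → ℤ)) : Sat F M := by
  intro z _ k hk hkz
  have h1 : ev z ∈ rsp F := mem_rsp_iff.2 ⟨k, hk, hkz⟩
  have h2 := rk_sup_span_of_mem h1
  have h3 := hF (F ⊔ Submodule.span ℤ {z}) le_sup_left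
  unfold Phi at h3
  rw [h2, lc_sup_span_of_mem h1] at h3
  have h4 := ind_pos (le_sup_left : F ≤ F ⊔ Submodule.span ℤ {z}) h2.symm
  have h5 : Real.log (ind F (F ⊔ Submodule.span ℤ {z})) ≤ 0 := by linarith
  have h6 : ind F (F ⊔ Submodule.span ℤ {z}) = 1 := by
    by_contra h7
    have h8 : (1 : ℝ) < ind F (F ⊔ Submodule.span ℤ {z}) := by
      have : 1 < ind F (F ⊔ Submodule.span ℤ {z}) := by omega
      exact_mod_cast this
    have := Real.log_pos h8
    linarith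
  unfold ind at h6
  rw [AddSubgroup.relIndex_eq_one] at h6
  exact h6 (Submodule.mem_sup_right (Submodule.mem_span_singleton_self z))

theorem Closed.lower {lam : ℝ} {F : Submodule ℤ (ι → ℤ)} (hF : Closed lam F)
    {L : Submodule ℤ (ι → ℤ)} (h : F ≤ L) : -lam * ((rk L : ℝ) - rk F) ≤ lc L - lc F := by
  have := hF L h
  unfold Phi at this
  linarith

/-- cheap supersets -/
def cheapSet (lam : ℝ) (F : Submodule ℤ (ι → ℤ)) (K0 : ℝ) (Δ : ℕ) :
    Set (Submodule ℤ (ι → ℤ)) :=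
  {M | F ≤ M ∧ Phi lam M ≤ Phi lam F + K0 ∧ rk M ≤ rk F + Δ}

theorem cls_zero_mem (F M : Submodule ℤ (ι → ℤ)) {r : ℝ} (hr : 0 ≤ r) : (0 : (ι → ℤ) ⧸ F) ∈ cls F M r := by
  refine ⟨0, M.zero_mem, by simp, ?_⟩
  unfold nq
  simpa using hr

theorem cheap_gens {lam : ℝ} (hlam : 0 ≤ lam) {F : Submodule ℤ (ι → ℤ)} (hF : Closed lam F)
    {K0 : ℝ} (hK0 : 0 ≤ K0) {Δ : ℕ} {M : Submodule ℤ (ι → ℤ)} (hM : M ∈ cheapSet lam F K0 Δ) :
    ∃ q : Fin Δ → (ι → ℤ) ⧸ F, (∀ j, q j ∈ cls F ⊤ (4 * (Δ : ℝ) ^ 2 * Real.exp (2 * K0))) ∧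
      M = (Submodule.span ℤ (Set.range q)).comap F.mkQ := by
  obtain ⟨h1, h2, h3⟩ := hM
  have hlow : ∀ L : Submodule ℤ (ι → ℤ), F ≤ L → L ≤ M → lc M - K0 ≤ lc L := by
    intro L hFL hLM
    have h4 := hF.lower hFL
    unfold Phi at h2
    have h5 : (rk L : ℝ) ≤ rk M := by exact_mod_cast rk_mono hLM
    nlinarith
  have hsg := exists_short_gens h1 (hF.sat M) hK0 hlow
  have hk : rk M - rk F ≤ Δ := by omega
  generalize rk M - rk F = k at hsg hk
  obtain ⟨c, hcM, hspan, hc⟩ := hsg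
  set R : ℝ := 4 * (Δ : ℝ) ^ 2 * Real.exp (2 * K0) with hR
  have hR0 : 0 ≤ R := by positivity
  refine ⟨fun j => if h : (j : ℕ) < k then F.mkQ (c ⟨j, h⟩) else 0, ?_, ?_⟩
  · intro j
    by_cases h : (j : ℕ) < k
    · simp only [h, dif_pos]
      refine ⟨c ⟨j, h⟩, Submodule.mem_top, rfl, (hc _).trans ?_⟩
      rw [hR]
      have : (k : ℝ) ≤ Δ := by exact_mod_cast hk
      gcongr
    · simp only [h, dif_neg, not_false_eq_true]
      exact cls_zero_mem F ⊤ hR0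
  · have hcomap : M = (M.map F.mkQ).comap F.mkQ := by
      rw [Submodule.comap_map_eq, Submodule.ker_mkQ, sup_eq_left.2 h1]
    rw [hcomap]
    congr 1
    conv_lhs => rw [← hspan, Submodule.map_sup]
    have hz : F.map F.mkQ = ⊥ := by
      exact Submodule.mkQ_map_self F
    rw [hz, bot_sup_eq, Submodule.map_span]
    apply le_antisymm
    · rw [Submodule.span_le]
      rintro _ ⟨_, ⟨j, rfl⟩, rfl⟩
      apply Submodule.subset_span
      refine ⟨⟨j, lt_of_lt_of_le j.2 hk⟩, ?_⟩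
      simp
    · rw [Submodule.span_le]
      rintro _ ⟨j, rfl⟩
      by_cases h : (j : ℕ) < k
      · simp only [h, dif_pos]
        exact Submodule.subset_span ⟨_, ⟨_, rfl⟩, rfl⟩
      · simp only [h, dif_neg, not_false_eq_true]
        exact Submodule.zero_mem _

theorem cheap_card {lam : ℝ} (hlam : 0 ≤ lam) {F : Submodule ℤ (ι → ℤ)} (hF : Closed lam F)
    {K0 : ℝ} (hK0 : 0 ≤ K0) {Δ : ℕ}
    (hfin : (cls F ⊤ (4 * (Δ : ℝ) ^ 2 * Real.exp (2 * K0))).Finite) :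
    (cheapSet lam F K0 Δ).Finite ∧ (cheapSet lam F K0 Δ).ncard ≤
      (cls F ⊤ (4 * (Δ : ℝ) ^ 2 * Real.exp (2 * K0))).ncard ^ Δ := by
  classical
  set T := hfin.toFinset with hT
  set I : Finset (Submodule ℤ (ι → ℤ)) := (Fintype.piFinset (fun _ : Fin Δ => T)).image
    (fun q => (Submodule.span ℤ (Set.range q)).comap F.mkQ) with hI
  have hsub : cheapSet lam F K0 Δ ⊆ (I : Set (Submodule ℤ (ι → ℤ))) := by
    intro M hM
    obtain ⟨q, hq, hMq⟩ := cheap_gens hlam hF hK0 hM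
    rw [hI, Finset.coe_image]
    refine ⟨q, ?_, hMq.symm⟩
    rw [Finset.mem_coe, Fintype.mem_piFinset]
    intro j
    rw [hT, Set.Finite.mem_toFinset]
    exact hq j
  refine ⟨I.finite_toSet.subset hsub, ?_⟩
  calc (cheapSet lam F K0 Δ).ncard ≤ (I : Set (Submodule ℤ (ι → ℤ))).ncard :=
        Set.ncard_le_ncard hsub I.finite_toSet
    _ = I.card := Set.ncard_coe_finset I
    _ ≤ (Fintype.piFinset (fun _ : Fin Δ => T)).card := Finset.card_image_le
    _ = T.card ^ Δ := by rw [Fintype.card_piFinset_const]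
    _ = _ := by rw [hT, ← Set.ncard_eq_toFinset_card _ hfin]

open Classical in
/-- robustness of a finite set relative to `U` -/
def Robust (θ : ℝ) (U : Submodule ℤ (ι → ℤ)) (S : Finset (ι → ℤ)) : Prop :=
  (∀ x ∈ S, ∀ y ∈ S, x - y ∈ U) ∧ ∀ (L : Submodule ℤ (ι → ℤ)), ∀ x0 ∈ S,
    ((S.filter (fun x => x - x0 ∈ L)).card : ℝ) ≤
      (2 : ℝ) ^ (-θ * ((rk U : ℝ) - rk (L ⊓ U))) * S.card

theorem rk_inf_le {F M : Submodule ℤ (ι → ℤ)} (h : F ≤ M) (U : Submodule ℤ (ι → ℤ)) :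
    rk (M ⊓ U) + rk F ≤ rk (F ⊓ U) + rk M := by
  have h1 := rk_modular M U
  have h2 := rk_modular F U
  have h3 := rk_mono (sup_le_sup_right h U)
  omega

/-- the greedy step -/
theorem exists_step {lam K0 θ N : ℝ} {Δ D : ℕ} (hθ : 0 ≤ θ) {F U : Submodule ℤ (ι → ℤ)}
    {S : Finset (ι → ℤ)} {x0 : ι → ℤ} (hS : Robust θ U S) (hx0 : x0 ∈ S)
    (hfin : (cheapSet lam F K0 Δ).Finite) (hN : ((cheapSet lam F K0 Δ).ncard : ℝ) ≤ N)
    (hD : rk (F ⊓ U) + D ≤ rk U) (hlt : N * (2 : ℝ) ^ (-θ * ((D : ℝ) - Δ)) < 1) :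
    ∃ x ∈ S, ∀ M, F ≤ M → x - x0 ∈ M → Phi lam F + K0 < Phi lam M ∨ rk F + Δ < rk M := by
  classical
  by_contra hcon
  push Not at hcon
  have hSpos : (0 : ℝ) < S.card := by
    have : 0 < S.card := Finset.card_pos.2 ⟨x0, hx0⟩
    exact_mod_cast this
  set C := hfin.toFinset with hC
  have hcover : S ⊆ C.biUnion (fun M => S.filter (fun x => x - x0 ∈ M)) := by
    intro x hx
    obtain ⟨M, hFM, hxM, h1, h2⟩ := hcon x hx
    rw [Finset.mem_biUnion]
    refine ⟨M, ?_, ?_⟩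
    · rw [hC, Set.Finite.mem_toFinset]
      exact ⟨hFM, h1, h2⟩
    · rw [Finset.mem_filter]; exact ⟨hx, hxM⟩
  have hbound : ∀ M ∈ C, ((S.filter (fun x => x - x0 ∈ M)).card : ℝ) ≤
      (2 : ℝ) ^ (-θ * ((D : ℝ) - Δ)) * S.card := by
    intro M hM
    rw [hC, Set.Finite.mem_toFinset] at hM
    have h1 := hS.2 M x0 hx0
    refine h1.trans ?_
    have h2 := rk_inf_le hM.1 U
    have h3 := hM.2.2
    have h4 : (D : ℝ) - Δ ≤ (rk U : ℝ) - rk (M ⊓ U) := by
      have : rk (M ⊓ U) + D ≤ rk U + Δ := by omega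
      have : ((rk (M ⊓ U) + D : ℕ) : ℝ) ≤ ((rk U + Δ : ℕ) : ℝ) := by exact_mod_cast this
      push_cast at this
      linarith
    have h5 : (2 : ℝ) ^ (-θ * ((rk U : ℝ) - rk (M ⊓ U))) ≤ (2 : ℝ) ^ (-θ * ((D : ℝ) - Δ)) := by
      apply Real.rpow_le_rpow_of_exponent_le (by norm_num)
      nlinarith
    exact mul_le_mul_of_nonneg_right h5 hSpos.le
  have h1 : (S.card : ℝ) ≤ N * ((2 : ℝ) ^ (-θ * ((D : ℝ) - Δ)) * S.card) := by
    calc (S.card : ℝ) ≤ ((C.biUnion (fun M => S.filter (fun x => x - x0 ∈ M))).card : ℝ) := by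
          exact_mod_cast Finset.card_le_card hcover
      _ ≤ ∑ M ∈ C, ((S.filter (fun x => x - x0 ∈ M)).card : ℝ) := by
          exact_mod_cast Finset.card_biUnion_le
      _ ≤ ∑ M ∈ C, (2 : ℝ) ^ (-θ * ((D : ℝ) - Δ)) * S.card := Finset.sum_le_sum hbound
      _ = C.card * ((2 : ℝ) ^ (-θ * ((D : ℝ) - Δ)) * S.card) := by
          rw [Finset.sum_const, nsmul_eq_mul]
      _ ≤ N * ((2 : ℝ) ^ (-θ * ((D : ℝ) - Δ)) * S.card) := by
          have h6 : (C.card : ℝ) ≤ N := by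
            rw [hC, ← Set.ncard_eq_toFinset_card _ hfin]; exact hN
          exact mul_le_mul_of_nonneg_right h6 (by positivity)
  have h2 : N * ((2 : ℝ) ^ (-θ * ((D : ℝ) - Δ)) * S.card) < S.card := by
    calc N * ((2 : ℝ) ^ (-θ * ((D : ℝ) - Δ)) * S.card)
        = (N * (2 : ℝ) ^ (-θ * ((D : ℝ) - Δ))) * S.card := by ring
      _ < 1 * S.card := mul_lt_mul_of_pos_right hlt hSpos
      _ = S.card := one_mul _
  linarith

/-! ### closures of samples -/

/-- closure of a list of samples (differences with `x0`) -/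
noncomputable def cl (lam : ℝ) (x0 : ι → ℤ) : List (ι → ℤ) → Submodule ℤ (ι → ℤ)
  | [] => (exists_min lam (fun _ => True) ⟨⊥, trivial⟩).choose
  | x :: l => (exists_min lam (fun L => cl lam x0 l ≤ L ∧ x - x0 ∈ L)
      ⟨⊤, le_top, Submodule.mem_top⟩).choose

theorem cl_cons_spec (lam : ℝ) (x0 x : ι → ℤ) (l : List (ι → ℤ)) :
    (cl lam x0 l ≤ cl lam x0 (x :: l) ∧ x - x0 ∈ cl lam x0 (x :: l)) ∧
    ∀ M, (cl lam x0 l ≤ M ∧ x - x0 ∈ M) → Phi lam (cl lam x0 (x :: l)) ≤ Phi lam M :=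
  (exists_min lam (fun L => cl lam x0 l ≤ L ∧ x - x0 ∈ L)
      ⟨⊤, le_top, Submodule.mem_top⟩).choose_spec

theorem cl_nil_spec (lam : ℝ) (x0 : ι → ℤ) (M : Submodule ℤ (ι → ℤ)) :
    Phi lam (cl lam x0 []) ≤ Phi lam M :=
  (exists_min lam (fun _ : Submodule ℤ (ι → ℤ) => True) ⟨⊥, trivial⟩).choose_spec.2 M trivial

theorem mem_cl (lam : ℝ) (x0 : ι → ℤ) (l : List (ι → ℤ)) : ∀ y ∈ l, y - x0 ∈ cl lam x0 l := by
  induction l with
  | nil => intro y hy; simp at hy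
  | cons x l ih =>
    intro y hy
    obtain ⟨⟨h1, h2⟩, _⟩ := cl_cons_spec lam x0 x l
    rcases List.mem_cons.1 hy with rfl | hy
    · exact h2
    · exact h1 (ih y hy)

/-- the closure minimises the potential over all lattices containing the samples -/
theorem cl_min (lam : ℝ) (x0 : ι → ℤ) (l : List (ι → ℤ)) : ∀ L : Submodule ℤ (ι → ℤ),
    (∀ y ∈ l, y - x0 ∈ L) → Phi lam (cl lam x0 l) ≤ Phi lam L := by
  induction l with
  | nil => intro L _; exact cl_nil_spec lam x0 L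
  | cons x l ih =>
    intro L hL
    obtain ⟨_, h3⟩ := cl_cons_spec lam x0 x l
    have h4 := h3 (L ⊔ cl lam x0 l) ⟨le_sup_right, Submodule.mem_sup_left (hL x (by simp))⟩
    have h5 := Phi_submod lam L (cl lam x0 l)
    have h6 := ih (L ⊓ cl lam x0 l) (fun y hy =>
      ⟨hL y (List.mem_cons_of_mem _ hy), mem_cl lam x0 l y hy⟩)
    linarith

theorem cl_closed (lam : ℝ) (x0 : ι → ℤ) (l : List (ι → ℤ)) : Closed lam (cl lam x0 l) :=
  fun M hM => cl_min lam x0 l M fun y hy => hM (mem_cl lam x0 l y hy)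

theorem Phi_top (lam : ℝ) : Phi lam (⊤ : Submodule ℤ (ι → ℤ)) = lam * Fintype.card ι := by
  simp [Phi]

theorem Phi_cl_le (lam : ℝ) (x0 : ι → ℤ) (l : List (ι → ℤ)) :
    Phi lam (cl lam x0 l) ≤ lam * Fintype.card ι := by
  rw [← Phi_top]; exact cl_closed lam x0 l ⊤ le_top

theorem Phi_cl_mono (lam : ℝ) (x0 x : ι → ℤ) (l : List (ι → ℤ)) :
    Phi lam (cl lam x0 l) ≤ Phi lam (cl lam x0 (x :: l)) :=
  cl_closed lam x0 l _ (cl_cons_spec lam x0 x l).1.1

/-- **two-sided control, upper side** -/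
theorem rk_cl_le {lam : ℝ} (hlam : 0 < lam) (x0 : ι → ℤ) (l : List (ι → ℤ))
    (U : Submodule ℤ (ι → ℤ)) (hU : ∀ y ∈ l, y - x0 ∈ U) :
    (rk (cl lam x0 l) : ℝ) ≤ rk (cl lam x0 l ⊓ U) + lc U / lam := by
  set F := cl lam x0 l with hF
  have h1 := cl_min lam x0 l (F ⊓ U) (fun y hy => ⟨mem_cl lam x0 l y hy, hU y hy⟩)
  have h2 := Phi_submod lam F U
  have h3 : Phi lam (F ⊔ U) ≤ Phi lam U := by linarith
  unfold Phi at h3
  have h4 := lc_nonneg (F ⊔ U)
  have h5 : (rk (F ⊔ U) : ℝ) + rk (F ⊓ U) = rk F + rk U := by exact_mod_cast rk_modular F U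
  have h6 : lam * ((rk F : ℝ) - rk (F ⊓ U)) ≤ lc U := by nlinarith
  have h7 : (rk F : ℝ) - rk (F ⊓ U) ≤ lc U / lam := by
    rw [le_div_iff₀ hlam]; linarith
  linarith

/-- **the greedy algorithm** -/
theorem greedy {lam K0 θ N : ℝ} {Δ D : ℕ} (hlam : 0 ≤ lam) (hK0 : 0 < K0) (hΔ : 0 < Δ)
    (hθ : 0 ≤ θ)
    {U : Submodule ℤ (ι → ℤ)} {S : Finset (ι → ℤ)} {x0 : ι → ℤ} (hS : Robust θ U S)
    (hx0 : x0 ∈ S)
    (hN : ∀ F : Submodule ℤ (ι → ℤ), Closed lam F → (cheapSet lam F K0 Δ).Finite ∧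
      ((cheapSet lam F K0 Δ).ncard : ℝ) ≤ N)
    (hlt : N * (2 : ℝ) ^ (-θ * ((D : ℝ) - Δ)) < 1) (m : ℕ) :
    ∃ l : List (ι → ℤ), l.length = m ∧ (∀ y ∈ l, y ∈ S) ∧
      (rk U < rk (cl lam x0 l ⊓ U) + D ∨
        (m : ℝ) ≤ Phi lam (cl lam x0 l) / K0 + rk (cl lam x0 l) / Δ) := by
  have hΔ' : (0 : ℝ) < Δ := by exact_mod_cast hΔ
  induction m with
  | zero =>
    refine ⟨[], rfl, by simp, Or.inr ?_⟩
    have h1 : 0 ≤ Phi lam (cl lam x0 []) := by
      unfold Phi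
      have := lc_nonneg (cl lam x0 [])
      positivity
    push_cast
    positivity
  | succ m ih =>
    obtain ⟨l, hl, hlS, hor⟩ := ih
    set F := cl lam x0 l with hF
    have hmono : ∀ x, rk (F ⊓ U) ≤ rk (cl lam x0 (x :: l) ⊓ U) := fun x =>
      rk_mono (inf_le_inf_right _ (cl_cons_spec lam x0 x l).1.1)
    by_cases hcase : rk U < rk (F ⊓ U) + D
    · refine ⟨x0 :: l, by simp [hl], ?_, Or.inl ?_⟩
      · intro y hy
        rcases List.mem_cons.1 hy with rfl | hy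
        · exact hx0
        · exact hlS y hy
      · have := hmono x0
        omega
    · obtain ⟨hfin, hcard⟩ := hN F (cl_closed lam x0 l)
      obtain ⟨x, hxS, hx⟩ := exists_step hθ hS hx0 hfin hcard (by omega) hlt
      refine ⟨x :: l, by simp [hl], ?_, ?_⟩
      · intro y hy
        rcases List.mem_cons.1 hy with rfl | hy
        · exact hxS
        · exact hlS y hy
      · right
        have hm : (m : ℝ) ≤ Phi lam F / K0 + rk F / Δ := by
          rcases hor with h | h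
          · exact absurd h hcase
          · exact h
        obtain ⟨⟨h1, h2⟩, _⟩ := cl_cons_spec lam x0 x l
        have h3 := Phi_cl_mono lam x0 x l
        have h4 : (rk F : ℝ) ≤ rk (cl lam x0 (x :: l)) := by exact_mod_cast rk_mono h1
        push_cast
        rcases hx _ h1 h2 with h5 | h5
        · have h6 : Phi lam F / K0 + 1 ≤ Phi lam (cl lam x0 (x :: l)) / K0 := by
            rw [le_div_iff₀ hK0]
            have : (Phi lam F / K0 + 1) * K0 = Phi lam F + K0 := by field_simp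
            rw [this]; exact h5.le
          have h7 : (rk F : ℝ) / Δ ≤ rk (cl lam x0 (x :: l)) / Δ := by gcongr
          linarith
        · have h6 : (rk F : ℝ) / Δ + 1 ≤ rk (cl lam x0 (x :: l)) / Δ := by
            rw [le_div_iff₀ hΔ']
            have h8 : ((rk F : ℝ) / Δ + 1) * Δ = rk F + Δ := by field_simp
            rw [h8]
            exact_mod_cast h5.le
          have h7 : Phi lam F / K0 ≤ Phi lam (cl lam x0 (x :: l)) / K0 := by gcongr
          linarith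

end Crest.Agent.R152.Cheap
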