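import Mathlib
import Crest.Agent.R152.Base2

set_option autoImplicit false

/-! Row 152, ROD part 1: robust Odlyzko lemma (exponential moment version). -/

open Crest.FinProb Crest.Agent.R152.Base Module
open scoped InnerProductSpace

namespace Crest.Agent.R152.ROD

section Resample
variable {ι : Type*} [Fintype ι] [DecidableEq ι]

/-- resampling one coordinate -/
theorem ex_update (p : ℝ) (i : ι) (F : (ι → Bool) → ℝ) :
    ex p F = ex p (fun x => p * F (Function.update x i true) +
      (1 - p) * F (Function.update x i false)) := by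
  have e := (Equiv.optionSubtypeNe i).symm
  have key : ∀ (b c : Bool) (a : {j // j ≠ i} → Bool),
      Function.update ((fun o : Option {j // j ≠ i} => o.elim b a) ∘
        (Equiv.optionSubtypeNe i).symm) i c =
      (fun o : Option {j // j ≠ i} => o.elim c a) ∘ (Equiv.optionSubtypeNe i).symm := by
    intro b c a
    funext j
    by_cases hj : j = i
    · subst hj
      simp
    · rw [Function.update_of_ne hj]
      simp [Equiv.optionSubtypeNe_symm_of_ne hj]
  rw [ex_comp (Equiv.optionSubtypeNe i).symm p F, ex_option,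
    ex_comp (Equiv.optionSubtypeNe i).symm p
      (fun x => p * F (Function.update x i true) + (1 - p) * F (Function.update x i false)),
    ex_option]
  refine ex_congr p fun a => ?_
  simp only [key]
  ring

end Resample

section Proj
variable {ι : Type*} [Fintype ι] [DecidableEq ι]

/-- the real sign vector -/
noncomputable def sgE (z : ι → Bool) : EuclideanSpace ℝ ι :=
  WithLp.toLp 2 (fun i => ((sg (z i) : ℤ) : ℝ))

theorem sum_proj (V : Submodule ℝ (EuclideanSpace ℝ ι)) :
    ∑ i, ‖V.starProjection (EuclideanSpace.single i (1 : ℝ))‖ ^ 2 = (finrank ℝ V : ℝ) := by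
  have h1 : LinearMap.trace ℝ _ (V.starProjection : EuclideanSpace ℝ ι →ₗ[ℝ] EuclideanSpace ℝ ι) =
      (finrank ℝ V : ℝ) := by
    refine LinearMap.IsProj.trace ⟨?_, ?_⟩
    · intro x
      exact V.starProjection_apply_mem x
    · intro x hx
      exact Submodule.starProjection_eq_self_iff.2 hx
  rw [← h1, LinearMap.trace_eq_sum_inner _ (EuclideanSpace.basisFun ι ℝ)]
  refine Finset.sum_congr rfl fun i _ => ?_
  have h2 : V.starProjection (V.starProjection (EuclideanSpace.single i (1 : ℝ))) =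
      V.starProjection (EuclideanSpace.single i (1 : ℝ)) :=
    Submodule.starProjection_eq_self_iff.2 (V.starProjection_apply_mem _)
  rw [← real_inner_self_eq_norm_sq]
  rw [Submodule.inner_starProjection_left_eq_right, h2]
  simp

theorem exists_coord (V : Submodule ℝ (EuclideanSpace ℝ ι)) {e : ℝ} (he : 0 < e)
    (h : e * Fintype.card ι ≤ finrank ℝ V) (hV : 0 < finrank ℝ V) :
    ∃ i, e ≤ ‖V.starProjection (EuclideanSpace.single i (1 : ℝ))‖ ^ 2 := by
  by_contra hcon
  push_neg at hcon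
  have hne : Nonempty ι := by
    by_contra hemp
    rw [not_nonempty_iff] at hemp
    have : finrank ℝ V = 0 := by
      have h1 : finrank ℝ V ≤ finrank ℝ (EuclideanSpace ℝ ι) := Submodule.finrank_le V
      rw [finrank_euclideanSpace, Fintype.card_eq_zero] at h1
      omega
    omega
  have h3 : ∑ i, ‖V.starProjection (EuclideanSpace.single i (1 : ℝ))‖ ^ 2 < ∑ _i : ι, e :=
    Finset.sum_lt_sum_of_nonempty Finset.univ_nonempty fun i _ => hcon i
  rw [sum_proj, Finset.sum_const, Finset.card_univ, nsmul_eq_mul] at h3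
  nlinarith

theorem proj_step (V : Submodule ℝ (EuclideanSpace ℝ ι)) (i : ι) (y : EuclideanSpace ℝ ι)
    (hu : 0 < ‖V.starProjection (EuclideanSpace.single i (1 : ℝ))‖ ^ 2) :
    ‖(V ⊓ (Submodule.span ℝ {EuclideanSpace.single i (1 : ℝ)})ᗮ).starProjection y‖ ^ 2 +
      ⟪V.starProjection (EuclideanSpace.single i (1 : ℝ)), y⟫_ℝ ^ 2 /
        ‖V.starProjection (EuclideanSpace.single i (1 : ℝ))‖ ^ 2 ≤ ‖V.starProjection y‖ ^ 2 := by
  set V' := V ⊓ (Submodule.span ℝ {EuclideanSpace.single i (1 : ℝ)})ᗮ with hV'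
  set u := V.starProjection (EuclideanSpace.single i (1 : ℝ)) with hu'
  set a := V.starProjection y with ha
  set b := V'.starProjection y with hb
  have haV : a ∈ V := V.starProjection_apply_mem y
  have hbV' : b ∈ V' := V'.starProjection_apply_mem y
  have hbV : b ∈ V := (Submodule.mem_inf.1 hbV').1
  have huV : u ∈ V := V.starProjection_apply_mem _
  have hbi : ⟪EuclideanSpace.single i (1 : ℝ), b⟫_ℝ = 0 := by
    have := (Submodule.mem_inf.1 hbV').2
    rw [Submodule.mem_orthogonal_singleton_iff_inner_right] at this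
    exact this
  -- ⟪u, b⟫ = 0
  have hub : ⟪u, b⟫_ℝ = 0 := by
    rw [hu', Submodule.inner_starProjection_left_eq_right,
      Submodule.starProjection_eq_self_iff.2 hbV]
    exact hbi
  have hua : ⟪u, a⟫_ℝ = ⟪u, y⟫_ℝ := by
    rw [ha, ← Submodule.inner_starProjection_left_eq_right,
      Submodule.starProjection_eq_self_iff.2 huV]
  -- a - b orthogonal to b
  have hyb : ⟪y - b, b⟫_ℝ = 0 := Submodule.starProjection_inner_eq_zero y b hbV'
  have hya : ⟪y - a, b⟫_ℝ = 0 := Submodule.starProjection_inner_eq_zero y b hbV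
  have hab : ⟪a - b, b⟫_ℝ = 0 := by
    have : a - b = (y - b) - (y - a) := by abel
    rw [this, inner_sub_left, hyb, hya, sub_zero]
  have hsq : ‖a‖ ^ 2 = ‖b‖ ^ 2 + ‖a - b‖ ^ 2 := by
    have h1 : a = b + (a - b) := by abel
    have h2 : ‖b + (a - b)‖ ^ 2 = ‖b‖ ^ 2 + 2 * ⟪b, a - b⟫_ℝ + ‖a - b‖ ^ 2 := by
      rw [@norm_add_sq_real]
    rw [← h1] at h2
    rw [h2, real_inner_comm, hab]
    ring
  have hug : ⟪u, a - b⟫_ℝ = ⟪u, y⟫_ℝ := by
    rw [inner_sub_right, hub, hua, sub_zero]
  have hcs : ⟪u, a - b⟫_ℝ ^ 2 ≤ ‖u‖ ^ 2 * ‖a - b‖ ^ 2 := by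
    have := abs_real_inner_le_norm u (a - b)
    have h0 : 0 ≤ |⟪u, a - b⟫_ℝ| := abs_nonneg _
    calc ⟪u, a - b⟫_ℝ ^ 2 = |⟪u, a - b⟫_ℝ| ^ 2 := (sq_abs _).symm
      _ ≤ (‖u‖ * ‖a - b‖) ^ 2 := by gcongr
      _ = _ := by ring
  rw [hug] at hcs
  have : ⟪u, y⟫_ℝ ^ 2 / ‖u‖ ^ 2 ≤ ‖a - b‖ ^ 2 := by
    rw [div_le_iff₀ hu]
    linarith
  rw [hsq]
  linarith

theorem finrank_step (V : Submodule ℝ (EuclideanSpace ℝ ι)) (i : ι) :
    finrank ℝ V ≤
      finrank ℝ (V ⊓ (Submodule.span ℝ {EuclideanSpace.single i (1 : ℝ)})ᗮ : Submodule ℝ _) + 1 := by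
  have h1 := Submodule.finrank_sup_add_finrank_inf_eq V
    (Submodule.span ℝ {EuclideanSpace.single i (1 : ℝ)})ᗮ
  have h2 := Submodule.finrank_add_finrank_orthogonal
    (Submodule.span ℝ {(EuclideanSpace.single i (1 : ℝ) : EuclideanSpace ℝ ι)})
  have h3 : finrank ℝ (Submodule.span ℝ {(EuclideanSpace.single i (1 : ℝ) : EuclideanSpace ℝ ι)}) ≤ 1 := by
    have := finrank_span_le_card (R := ℝ) ({(EuclideanSpace.single i (1 : ℝ) : EuclideanSpace ℝ ι)} : Set _)
    simpa using this
  have h4 := Submodule.finrank_le (V ⊔ (Submodule.span ℝ {EuclideanSpace.single i (1 : ℝ)})ᗮ :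
    Submodule ℝ (EuclideanSpace ℝ ι))
  omega

/-- projections orthogonal to `e_i` do not see the `i`-th coordinate -/
theorem proj_indep (V : Submodule ℝ (EuclideanSpace ℝ ι)) (i : ι)
    (z : ι → Bool) (b : Bool) (x0 : EuclideanSpace ℝ ι) :
    (V ⊓ (Submodule.span ℝ {EuclideanSpace.single i (1 : ℝ)})ᗮ).starProjection
      (sgE (Function.update z i b) - x0) =
    (V ⊓ (Submodule.span ℝ {EuclideanSpace.single i (1 : ℝ)})ᗮ).starProjection (sgE z - x0) := by
  set V' := V ⊓ (Submodule.span ℝ {EuclideanSpace.single i (1 : ℝ)})ᗮ with hV'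
  have h1 : sgE (Function.update z i b) - x0 = (sgE z - x0) +
      (((sg b : ℤ) : ℝ) - ((sg (z i) : ℤ) : ℝ)) • EuclideanSpace.single i (1 : ℝ) := by
    ext j
    by_cases hj : j = i
    · subst hj
      simp [sgE]
    · simp [sgE, hj]
  have h2 : V'.starProjection (EuclideanSpace.single i (1 : ℝ)) = 0 := by
    rw [Submodule.starProjection_apply_eq_zero_iff]
    rw [Submodule.mem_orthogonal]
    intro v hv
    have := (Submodule.mem_inf.1 hv).2
    rw [Submodule.mem_orthogonal_singleton_iff_inner_left] at this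
    exact this
  rw [h1, map_add, map_smul, h2, smul_zero, add_zero]

end Proj

end Crest.Agent.R152.ROD
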