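import Mathlib
import Crest.Agent.R152.ROD1

set_option autoImplicit false

/-! Row 152, ROD part 2: robust Odlyzko lemma, final forms. -/

open Crest.FinProb Crest.Agent.R152.Base Module
open scoped InnerProductSpace

namespace Crest.Agent.R152.ROD

section Moment
variable {ι : Type*} [Fintype ι] [DecidableEq ι]

theorem inner_diff (V : Submodule ℝ (EuclideanSpace ℝ ι)) (i : ι)
    (z : ι → Bool) (x0 : EuclideanSpace ℝ ι) :
    ⟪V.starProjection (EuclideanSpace.single i (1 : ℝ)), sgE (Function.update z i true) - x0⟫_ℝ -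
    ⟪V.starProjection (EuclideanSpace.single i (1 : ℝ)), sgE (Function.update z i false) - x0⟫_ℝ =
    2 * ‖V.starProjection (EuclideanSpace.single i (1 : ℝ))‖ ^ 2 := by
  have h1 : sgE (Function.update z i true) - x0 =
      (sgE (Function.update z i false) - x0) + (2 : ℝ) • EuclideanSpace.single i (1 : ℝ) := by
    ext j
    by_cases hj : j = i
    · subst hj
      simp [sgE, sg]
      ring
    · simp [sgE, hj]
  have h2 : V.starProjection (V.starProjection (EuclideanSpace.single i (1 : ℝ))) =
      V.starProjection (EuclideanSpace.single i (1 : ℝ)) :=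
    Submodule.starProjection_eq_self_iff.2 (V.starProjection_apply_mem _)
  have h3 : ⟪V.starProjection (EuclideanSpace.single i (1 : ℝ)),
      EuclideanSpace.single i (1 : ℝ)⟫_ℝ =
      ‖V.starProjection (EuclideanSpace.single i (1 : ℝ))‖ ^ 2 := by
    rw [← real_inner_self_eq_norm_sq]
    conv_rhs => rw [Submodule.inner_starProjection_left_eq_right, h2]
    rw [Submodule.inner_starProjection_left_eq_right]
  rw [h1, inner_add_right, inner_smul_right, h3]
  ring

theorem coord_sum_le {p M lam e : ℝ} (hp0 : 0 ≤ p) (hp1 : p ≤ 1) (hpM : p ≤ M) (hqM : 1 - p ≤ M)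
    (hlam : 0 ≤ lam) (he : 0 < e)
    (V : Submodule ℝ (EuclideanSpace ℝ ι)) (i : ι)
    (hi : e ≤ ‖V.starProjection (EuclideanSpace.single i (1 : ℝ))‖ ^ 2)
    (z : ι → Bool) (x0 : EuclideanSpace ℝ ι) :
    p * Real.exp (-lam * ‖V.starProjection (sgE (Function.update z i true) - x0)‖ ^ 2) +
      (1 - p) * Real.exp (-lam * ‖V.starProjection (sgE (Function.update z i false) - x0)‖ ^ 2) ≤
    (M + Real.exp (-lam * e)) * Real.exp (-lam *
      ‖(V ⊓ (Submodule.span ℝ {EuclideanSpace.single i (1 : ℝ)})ᗮ).starProjection (sgE z - x0)‖ ^ 2) := by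
  have hD0 : 0 < ‖V.starProjection (EuclideanSpace.single i (1 : ℝ))‖ ^ 2 := lt_of_lt_of_le he hi
  have ht := proj_step V i (sgE (Function.update z i true) - x0) hD0
  have hf := proj_step V i (sgE (Function.update z i false) - x0) hD0
  rw [proj_indep V i z true x0] at ht
  rw [proj_indep V i z false x0] at hf
  set D := ‖V.starProjection (EuclideanSpace.single i (1 : ℝ))‖ ^ 2 with hD
  have hdiff := inner_diff V i z x0
  rw [← hD] at hdiff
  set α := ⟪V.starProjection (EuclideanSpace.single i (1 : ℝ)),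
    sgE (Function.update z i true) - x0⟫_ℝ with hα
  set β := ⟪V.starProjection (EuclideanSpace.single i (1 : ℝ)),
    sgE (Function.update z i false) - x0⟫_ℝ with hβ
  set Q := ‖(V ⊓ (Submodule.span ℝ {EuclideanSpace.single i (1 : ℝ)})ᗮ).starProjection
    (sgE z - x0)‖ ^ 2 with hQ
  set X := ‖V.starProjection (sgE (Function.update z i true) - x0)‖ ^ 2 with hX
  set Y := ‖V.starProjection (sgE (Function.update z i false) - x0)‖ ^ 2 with hY
  have hα0 : 0 ≤ α ^ 2 / D := by positivity
  have hβ0 : 0 ≤ β ^ 2 / D := by positivity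
  have hXQ : Real.exp (-lam * X) ≤ Real.exp (-lam * Q) := by
    apply Real.exp_le_exp.2; nlinarith
  have hYQ : Real.exp (-lam * Y) ≤ Real.exp (-lam * Q) := by
    apply Real.exp_le_exp.2; nlinarith
  have hM0 : 0 ≤ M := le_trans hp0 hpM
  have hEQ : 0 < Real.exp (-lam * Q) := Real.exp_pos _
  have hEe : 0 < Real.exp (-lam * e) := Real.exp_pos _
  by_cases hcase : D ≤ |α|
  · have h1 : e ≤ α ^ 2 / D := by
      rw [le_div_iff₀ hD0]
      have : D ^ 2 ≤ α ^ 2 := by
        rw [← sq_abs α]
        gcongr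
      nlinarith
    have h2 : Real.exp (-lam * X) ≤ Real.exp (-lam * e) * Real.exp (-lam * Q) := by
      rw [← Real.exp_add]
      apply Real.exp_le_exp.2
      nlinarith
    calc p * Real.exp (-lam * X) + (1 - p) * Real.exp (-lam * Y)
        ≤ 1 * (Real.exp (-lam * e) * Real.exp (-lam * Q)) + M * Real.exp (-lam * Q) :=
          add_le_add (mul_le_mul hp1 h2 (Real.exp_pos _).le zero_le_one)
            (mul_le_mul hqM hYQ (Real.exp_pos _).le hM0)
      _ = _ := by ring
  · have hβ1 : D ≤ |β| := by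
      push Not at hcase
      have := abs_lt.1 hcase
      have hb : β = α - 2 * D := by linarith
      rw [hb, abs_sub_comm]
      exact le_trans (by linarith) (le_abs_self _)
    have h1 : e ≤ β ^ 2 / D := by
      rw [le_div_iff₀ hD0]
      have : D ^ 2 ≤ β ^ 2 := by
        rw [← sq_abs β]
        gcongr
      nlinarith
    have h2 : Real.exp (-lam * Y) ≤ Real.exp (-lam * e) * Real.exp (-lam * Q) := by
      rw [← Real.exp_add]
      apply Real.exp_le_exp.2
      nlinarith
    calc p * Real.exp (-lam * X) + (1 - p) * Real.exp (-lam * Y)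
        ≤ M * Real.exp (-lam * Q) + 1 * (Real.exp (-lam * e) * Real.exp (-lam * Q)) :=
          add_le_add (mul_le_mul hpM hXQ (Real.exp_pos _).le hM0)
            (mul_le_mul (by linarith) h2 (Real.exp_pos _).le zero_le_one)
      _ = _ := by ring

/-- exponential moment bound -/
theorem moment {p M lam e : ℝ} (hp0 : 0 ≤ p) (hp1 : p ≤ 1) (hpM : p ≤ M) (hqM : 1 - p ≤ M)
    (hlam : 0 ≤ lam) (he : 0 < e) (x0 : EuclideanSpace ℝ ι) :
    ∀ (t : ℕ) (V : Submodule ℝ (EuclideanSpace ℝ ι)), t ≤ finrank ℝ V →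
      (t : ℝ) + e * Fintype.card ι ≤ finrank ℝ V + 1 →
      ex p (fun z => Real.exp (-lam * ‖V.starProjection (sgE z - x0)‖ ^ 2)) ≤
        (M + Real.exp (-lam * e)) ^ t := by
  intro t
  induction t with
  | zero =>
    intro V _ _
    rw [pow_zero]
    calc ex p (fun z => Real.exp (-lam * ‖V.starProjection (sgE z - x0)‖ ^ 2))
        ≤ ex p (fun _ : ι → Bool => (1 : ℝ)) := by
          refine ex_mono hp0 hp1 fun z => ?_
          rw [Real.exp_le_one_iff]
          have : 0 ≤ ‖V.starProjection (sgE z - x0)‖ ^ 2 := by positivity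
          nlinarith
      _ = 1 := ex_const p 1
  | succ t ih =>
    intro V h1 h2
    obtain ⟨i, hi⟩ := exists_coord V he (by push_cast at h2; linarith [Nat.cast_nonneg (α := ℝ) t])
      (by omega)
    have h3 := finrank_step V i
    set V' := V ⊓ (Submodule.span ℝ {EuclideanSpace.single i (1 : ℝ)})ᗮ with hV'
    have h4 := ih V' (by omega) (by
      have : (finrank ℝ V : ℝ) ≤ finrank ℝ V' + 1 := by exact_mod_cast h3
      push_cast at h2
      linarith)
    have hM0 : 0 ≤ M := le_trans hp0 hpM
    rw [ex_update p i]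
    calc ex p (fun z => p * Real.exp (-lam * ‖V.starProjection
            (sgE (Function.update z i true) - x0)‖ ^ 2) +
          (1 - p) * Real.exp (-lam * ‖V.starProjection
            (sgE (Function.update z i false) - x0)‖ ^ 2))
        ≤ ex p (fun z => (M + Real.exp (-lam * e)) *
            Real.exp (-lam * ‖V'.starProjection (sgE z - x0)‖ ^ 2)) := by
          refine ex_mono hp0 hp1 fun z => ?_
          exact coord_sum_le hp0 hp1 hpM hqM hlam he V i hi z x0
      _ = (M + Real.exp (-lam * e)) *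
            ex p (fun z => Real.exp (-lam * ‖V'.starProjection (sgE z - x0)‖ ^ 2)) := by
          rw [ex_smul]
      _ ≤ (M + Real.exp (-lam * e)) * (M + Real.exp (-lam * e)) ^ t := by
          gcongr
      _ = _ := by ring

/-- Chernoff form -/
theorem prob_le {p M lam e R : ℝ} (hp0 : 0 ≤ p) (hp1 : p ≤ 1) (hpM : p ≤ M) (hqM : 1 - p ≤ M)
    (hlam : 0 ≤ lam) (he : 0 < e) (x0 : EuclideanSpace ℝ ι)
    (t : ℕ) (V : Submodule ℝ (EuclideanSpace ℝ ι)) (ht : t ≤ finrank ℝ V)
    (ht' : (t : ℝ) + e * Fintype.card ι ≤ finrank ℝ V + 1) :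
    bernoulliProb p {z : ι → Bool | ‖V.starProjection (sgE z - x0)‖ ≤ R} ≤
      Real.exp (lam * R ^ 2) * (M + Real.exp (-lam * e)) ^ t := by
  have h1 := moment hp0 hp1 hpM hqM hlam he x0 t V ht ht'
  rw [prob_eq_ind]
  calc _ ≤ ex p (fun z => Real.exp (lam * R ^ 2) *
        Real.exp (-lam * ‖V.starProjection (sgE z - x0)‖ ^ 2)) := by
        refine ex_mono hp0 hp1 fun z => ?_
        simp only [Set.indicator]
        split_ifs with hz
        · rw [← Real.exp_add]
          have hz' : ‖V.starProjection (sgE z - x0)‖ ≤ R := hz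
          have : ‖V.starProjection (sgE z - x0)‖ ^ 2 ≤ R ^ 2 := by gcongr
          rw [Real.one_le_exp_iff]
          nlinarith
        · positivity
    _ = Real.exp (lam * R ^ 2) * ex p (fun z =>
        Real.exp (-lam * ‖V.starProjection (sgE z - x0)‖ ^ 2)) := by
        rw [ex_smul]
    _ ≤ _ := by gcongr

end Moment

end Crest.Agent.R152.ROD
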