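import Mathlib
import Crest.Agent.R152.ROD2
import Crest.Agent.R152.ROD3

set_option autoImplicit false
set_option linter.unusedSectionVars false
set_option linter.unusedVariables false
set_option linter.deprecated false

/-! Row 152, ROD part 4: asymptotic form of the robust Odlyzko lemma. -/

open Crest.FinProb Crest.Agent.R152.Base Module Filter Topology
open scoped InnerProductSpace

namespace Crest.Agent.R152.ROD

theorem asym {M d e : ℝ} (hM0 : 0 < M) (hM1 : M < 1) (hd : 0 < d) (he : 0 < e) :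
    ∃ n0 : ℕ, ∀ n : ℕ, n0 ≤ n → 1 ≤ n ∧
      (n : ℝ) ^ (1 - d) + n * (Real.exp (-(n : ℝ) ^ d * e) / M) + Real.log (1 / M) ≤
        e * n * Real.log (1 / M) := by
  have hL : 0 < Real.log (1 / M) := by
    apply Real.log_pos
    rw [lt_div_iff₀ hM0]
    linarith
  have t1 : Tendsto (fun n : ℕ => (n : ℝ) ^ (-d)) atTop (𝓝 0) :=
    (tendsto_rpow_neg_atTop hd).comp tendsto_natCast_atTop_atTop
  have t2 : Tendsto (fun n : ℕ => Real.exp (-(n : ℝ) ^ d * e)) atTop (𝓝 0) := by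
    have h1 : Tendsto (fun n : ℕ => (n : ℝ) ^ d) atTop atTop :=
      (tendsto_rpow_atTop hd).comp tendsto_natCast_atTop_atTop
    have h2 : Tendsto (fun n : ℕ => (n : ℝ) ^ d * e) atTop atTop :=
      h1.atTop_mul_const he
    have h3 := Real.tendsto_exp_neg_atTop_nhds_zero.comp h2
    refine h3.congr fun n => ?_
    simp [Function.comp]
  have t3 : Tendsto (fun n : ℕ => Real.log (1 / M) / (n : ℝ)) atTop (𝓝 0) :=
    tendsto_const_nhds.div_atTop tendsto_natCast_atTop_atTop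
  have t4 : Tendsto (fun n : ℕ => (n : ℝ) ^ (-d) + Real.exp (-(n : ℝ) ^ d * e) / M +
      Real.log (1 / M) / (n : ℝ)) atTop (𝓝 0) := by
    have := (t1.add (t2.div_const M)).add t3
    simpa using this
  have h5 : ∀ᶠ n : ℕ in atTop, (n : ℝ) ^ (-d) + Real.exp (-(n : ℝ) ^ d * e) / M +
      Real.log (1 / M) / (n : ℝ) < e * Real.log (1 / M) :=
    t4.eventually_lt_const (by positivity)
  obtain ⟨n0, hn0⟩ := eventually_atTop.1 (h5.and (eventually_ge_atTop 1))
  refine ⟨n0, fun n hn => ?_⟩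
  obtain ⟨h6, h7⟩ := hn0 n hn
  refine ⟨h7, ?_⟩
  have hn : (0 : ℝ) < n := by exact_mod_cast h7
  have h8 : (n : ℝ) ^ (1 - d) = n * (n : ℝ) ^ (-d) := by
    rw [sub_eq_add_neg, Real.rpow_add hn, Real.rpow_one]
  have h9 : Real.log (1 / M) = n * (Real.log (1 / M) / n) := by
    field_simp
  calc (n : ℝ) ^ (1 - d) + n * (Real.exp (-(n : ℝ) ^ d * e) / M) + Real.log (1 / M)
      = n * ((n : ℝ) ^ (-d) + Real.exp (-(n : ℝ) ^ d * e) / M + Real.log (1 / M) / n) := by
        rw [h8]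
        field_simp
    _ ≤ n * (e * Real.log (1 / M)) := by gcongr
    _ = _ := by ring

universe u

/-- **Robust Odlyzko**, projection form: `V` plays the role of `Wᗮ`. -/
theorem rod_proj {M d ε : ℝ} (hM0 : 0 < M) (hM1 : M < 1) (hd : 0 < d) (hε : 0 < ε) :
    ∃ n0 : ℕ, ∀ n : ℕ, n0 ≤ n → ∀ (ι : Type u) [Fintype ι] [DecidableEq ι],
      Fintype.card ι ≤ n → ∀ p : ℝ, 0 ≤ p → p ≤ 1 → p ≤ M → 1 - p ≤ M →
      ∀ (V : Submodule ℝ (EuclideanSpace ℝ ι)) (x0 : EuclideanSpace ℝ ι),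
      bernoulliProb p {z : ι → Bool | ‖V.starProjection (sgE z - x0)‖ ≤ (n : ℝ) ^ (1 / 2 - d)} ≤
        M ^ ((finrank ℝ V : ℝ) - ε * n) := by
  obtain ⟨n0, hn0⟩ := asym hM0 hM1 hd (e := ε / 2) (by positivity)
  refine ⟨n0, fun n hn ι _ _ hι p hp0 hp1 hpM hqM V x0 => ?_⟩
  obtain ⟨hn1, hn2⟩ := hn0 n hn
  have hn' : (0 : ℝ) < n := by exact_mod_cast hn1
  have hL : 0 < Real.log (1 / M) := by
    apply Real.log_pos
    rw [lt_div_iff₀ hM0]
    linarith
  by_cases hs : (finrank ℝ V : ℝ) ≤ ε * n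
  · calc _ ≤ 1 := prob_le_one hp0 hp1 _
      _ ≤ M ^ ((finrank ℝ V : ℝ) - ε * n) :=
        Real.one_le_rpow_of_pos_of_le_one_of_nonpos hM0 hM1.le (by linarith)
  · push Not at hs
    set s := finrank ℝ V with hs'
    set m := Fintype.card ι with hm
    set e := ε / 2 with he'
    have he : 0 < e := by positivity
    have hmn : (m : ℝ) ≤ n := by exact_mod_cast hι
    have hem : e * m ≤ e * n := by gcongr
    have hsm : 0 ≤ (s : ℝ) - e * m := by nlinarith
    set t := ⌊(s : ℝ) - e * m⌋₊ with ht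
    have ht1 : (t : ℝ) ≤ (s : ℝ) - e * m := Nat.floor_le hsm
    have ht2 : (s : ℝ) - e * m < t + 1 := Nat.lt_floor_add_one _
    have hts : t ≤ s := by
      have : (t : ℝ) ≤ s := by
        have : 0 ≤ e * m := by positivity
        linarith
      exact_mod_cast this
    have hP := prob_le (lam := (n : ℝ) ^ d) (e := e) (R := (n : ℝ) ^ (1 / 2 - d)) hp0 hp1 hpM hqM
      (by positivity) he x0 t V hts (by rw [← hs', ← hm]; linarith)
    refine le_trans hP ?_
    have e1 : (n : ℝ) ^ d * ((n : ℝ) ^ (1 / 2 - d)) ^ 2 = (n : ℝ) ^ (1 - d) := by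
      rw [← Real.rpow_natCast ((n : ℝ) ^ (1 / 2 - d)) 2, ← Real.rpow_mul hn'.le,
        ← Real.rpow_add hn']
      congr 1
      push_cast
      ring
    rw [e1]
    have e2 : (M + Real.exp (-(n : ℝ) ^ d * e)) ^ t ≤
        M ^ t * Real.exp (n * (Real.exp (-(n : ℝ) ^ d * e) / M)) := by
      have h1 : M + Real.exp (-(n : ℝ) ^ d * e) = M * (1 + Real.exp (-(n : ℝ) ^ d * e) / M) := by
        field_simp
      rw [h1, mul_pow]
      have h2 : (1 + Real.exp (-(n : ℝ) ^ d * e) / M) ≤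
          Real.exp (Real.exp (-(n : ℝ) ^ d * e) / M) := by
        rw [add_comm]
        exact Real.add_one_le_exp _
      have h3 : (1 + Real.exp (-(n : ℝ) ^ d * e) / M) ^ t ≤
          Real.exp (t * (Real.exp (-(n : ℝ) ^ d * e) / M)) := by
        rw [Real.exp_nat_mul]
        gcongr
      have h4 : Real.exp (t * (Real.exp (-(n : ℝ) ^ d * e) / M)) ≤
          Real.exp (n * (Real.exp (-(n : ℝ) ^ d * e) / M)) := by
        apply Real.exp_le_exp.2
        gcongr
        have h5 : (t : ℝ) ≤ m := by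
          have : s ≤ m := by
            have := Submodule.finrank_le V
            rw [finrank_euclideanSpace] at this
            exact this
          exact_mod_cast le_trans hts this
        exact_mod_cast h5.trans hmn
      gcongr
      exact h3.trans h4
    have e3 : M ^ t ≤ Real.exp (-((s : ℝ) - e * n - 1) * Real.log (1 / M)) := by
      rw [← Real.rpow_natCast, Real.rpow_def_of_pos hM0]
      apply Real.exp_le_exp.2
      have : Real.log (1 / M) = - Real.log M := by rw [one_div, Real.log_inv]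
      rw [this] at hL ⊢
      nlinarith
    have e4 : M ^ ((s : ℝ) - ε * n) = Real.exp (-((s : ℝ) - ε * n) * Real.log (1 / M)) := by
      rw [Real.rpow_def_of_pos hM0]
      congr 1
      rw [one_div, Real.log_inv]
      ring
    calc Real.exp ((n : ℝ) ^ (1 - d)) * (M + Real.exp (-(n : ℝ) ^ d * e)) ^ t
        ≤ Real.exp ((n : ℝ) ^ (1 - d)) * (Real.exp (-((s : ℝ) - e * n - 1) * Real.log (1 / M)) *
            Real.exp (n * (Real.exp (-(n : ℝ) ^ d * e) / M))) := by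
          gcongr
          exact e2.trans (by gcongr)
      _ = Real.exp ((n : ℝ) ^ (1 - d) + (-((s : ℝ) - e * n - 1) * Real.log (1 / M) +
            n * (Real.exp (-(n : ℝ) ^ d * e) / M))) := by
          rw [Real.exp_add, Real.exp_add]
      _ ≤ M ^ ((s : ℝ) - ε * n) := by
          rw [e4]
          apply Real.exp_le_exp.2
          have : ε = 2 * e := by rw [he']; ring
          rw [this]
          nlinarith

/-- **Robust Odlyzko**, subspace form on plain functions. -/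
theorem rod {M d ε : ℝ} (hM0 : 0 < M) (hM1 : M < 1) (hd : 0 < d) (hε : 0 < ε) :
    ∃ n0 : ℕ, ∀ n : ℕ, n0 ≤ n → ∀ (ι : Type u) [Fintype ι] [DecidableEq ι],
      Fintype.card ι ≤ n → ∀ p : ℝ, 0 ≤ p → p ≤ 1 → p ≤ M → 1 - p ≤ M →
      ∀ (W : Submodule ℝ (ι → ℝ)) (x0 : ι → ℝ),
      bernoulliProb p {z : ι → Bool | ∃ w ∈ W,
          ∑ i, (((sg (z i) : ℤ) : ℝ) - x0 i - w i) ^ 2 ≤ ((n : ℝ) ^ (1 / 2 - d)) ^ 2} ≤
        M ^ ((Fintype.card ι : ℝ) - finrank ℝ W - ε * n) := by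
  obtain ⟨n0, hn0⟩ := rod_proj.{u} hM0 hM1 hd hε
  refine ⟨n0, fun n hn ι _ _ hι p hp0 hp1 hpM hqM W x0 => ?_⟩
  set L := (WithLp.linearEquiv 2 ℝ (ι → ℝ)).symm with hL
  set W' : Submodule ℝ (EuclideanSpace ℝ ι) := W.map (L : (ι → ℝ) →ₗ[ℝ] EuclideanSpace ℝ ι) with hW'
  have hfin : finrank ℝ W' = finrank ℝ W := LinearEquiv.finrank_map_eq L W
  have h1 := hn0 n hn ι hι p hp0 hp1 hpM hqM W'ᗮ (WithLp.toLp 2 x0)
  have h2 := Submodule.finrank_add_finrank_orthogonal W'
  rw [finrank_euclideanSpace, hfin] at h2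
  have h3 : ((finrank ℝ W'ᗮ : ℕ) : ℝ) = (Fintype.card ι : ℝ) - finrank ℝ W := by
    have : ((finrank ℝ W + finrank ℝ W'ᗮ : ℕ) : ℝ) = (Fintype.card ι : ℕ) := by exact_mod_cast h2
    push_cast at this
    linarith
  rw [h3] at h1
  refine le_trans (prob_mono hp0 hp1 ?_) h1
  rintro z ⟨w, hwW, hw⟩
  change ‖W'ᗮ.starProjection (sgE z - WithLp.toLp 2 x0)‖ ≤ (n : ℝ) ^ (1 / 2 - d)
  have hw' : (WithLp.toLp 2 w : EuclideanSpace ℝ ι) ∈ W' := Submodule.mem_map_of_mem hwW
  have h4 : W'ᗮ.starProjection (WithLp.toLp 2 w : EuclideanSpace ℝ ι) = 0 := by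
    rw [Submodule.starProjection_apply_eq_zero_iff]
    exact Submodule.le_orthogonal_orthogonal W' hw'
  have h5 : W'ᗮ.starProjection (sgE z - WithLp.toLp 2 x0) =
      W'ᗮ.starProjection (sgE z - WithLp.toLp 2 x0 - WithLp.toLp 2 w) := by
    rw [map_sub _ _ (WithLp.toLp 2 w), h4, sub_zero]
  rw [h5]
  refine le_trans (Submodule.norm_starProjection_apply_le _ _) ?_
  have h6 : ‖sgE z - WithLp.toLp 2 x0 - WithLp.toLp 2 w‖ ^ 2 ≤ ((n : ℝ) ^ (1 / 2 - d)) ^ 2 := by
    rw [EuclideanSpace.norm_sq_eq]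
    refine le_trans (le_of_eq ?_) hw
    refine Finset.sum_congr rfl fun i _ => ?_
    simp [sgE]
  exact (pow_le_pow_iff_left₀ (norm_nonneg _) (by positivity) two_ne_zero).1 h6

theorem prob_half_eq {ι : Type*} [Fintype ι] [DecidableEq ι] (s : Finset (ι → Bool)) :
    bernoulliProb (1 / 2) (s : Set (ι → Bool)) = (s.card : ℝ) / 2 ^ Fintype.card ι := by
  classical
  have hw : ∀ z : ι → Bool, bernoulliWeight (1 / 2) z = (1 / 2) ^ Fintype.card ι := by
    intro z
    unfold bernoulliWeight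
    rw [Finset.prod_congr rfl (g := fun _ => (1 / 2 : ℝ))]
    · rw [Finset.prod_const, Finset.card_univ]
    · intro i _
      split_ifs <;> norm_num
  rw [prob_eq_ex]
  unfold ex
  simp only [hw, Finset.mem_coe, mul_ite, mul_one, mul_zero]
  rw [Finset.sum_ite_mem, Finset.univ_inter, Finset.sum_const, nsmul_eq_mul, one_div, inv_pow]
  rfl

/-- **Robust Odlyzko**, counting form. -/
theorem rod_count {d ε : ℝ} (hd : 0 < d) (hε : 0 < ε) :
    ∃ n0 : ℕ, ∀ n : ℕ, n0 ≤ n → ∀ (ι : Type u) [Fintype ι] [DecidableEq ι],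
      Fintype.card ι ≤ n → ∀ (W : Submodule ℝ (ι → ℝ)) (x0 : ι → ℝ) (s : Finset (ι → Bool)),
      (∀ z ∈ s, ∃ w ∈ W,
          ∑ i, (((sg (z i) : ℤ) : ℝ) - x0 i - w i) ^ 2 ≤ ((n : ℝ) ^ (1 / 2 - d)) ^ 2) →
        (s.card : ℝ) ≤ 2 ^ ((finrank ℝ W : ℝ) + ε * n) := by
  obtain ⟨n0, hn0⟩ := rod.{u} (M := 1 / 2) (by norm_num) (by norm_num) hd hε
  refine ⟨n0, fun n hn ι _ _ hι W x0 s hs => ?_⟩
  have h1 := hn0 n hn ι hι (1 / 2) (by norm_num) (by norm_num) (by norm_num) (by norm_num) W x0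
  have h2 : bernoulliProb (1 / 2) (s : Set (ι → Bool)) ≤
      (1 / 2 : ℝ) ^ ((Fintype.card ι : ℝ) - finrank ℝ W - ε * n) :=
    le_trans (prob_mono (by norm_num) (by norm_num) fun z hz => hs z hz) h1
  rw [prob_half_eq, div_le_iff₀ (by positivity)] at h2
  refine le_trans h2 (le_of_eq ?_)
  rw [one_div, Real.inv_rpow (by norm_num), ← Real.rpow_neg (by norm_num),
    ← Real.rpow_natCast 2, ← Real.rpow_add (by norm_num)]
  congr 1
  ring

end Crest.Agent.R152.ROD
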