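import Mathlib

set_option autoImplicit false

/-!
# Row 152, weak reverse Minkowski theorem (helper254, note 9813): shared definitions

Lattices are given by Gram matrices `G : Matrix ι ι ℝ` (positive definite): the lattice is `ℤ^ι`
with the quadratic form `qf G x = xᵀ G x`.  A sublattice of rank `k` is an integral `ι × k` matrix
`Z` with `det (Zᵀ G Z) ≠ 0`.
-/

namespace Crest.Agent.R152.WRM

open Matrix MeasureTheory

variable {ι : Type*} [Fintype ι]

/-- the quadratic form of a Gram matrix -/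
noncomputable def qf (G : Matrix ι ι ℝ) (x : ι → ℝ) : ℝ := x ⬝ᵥ (G *ᵥ x)

/-- integer vectors as real vectors -/
def iv (z : ι → ℤ) : ι → ℝ := fun i => (z i : ℝ)

/-- integer matrices as real matrices -/
def im {κ : Type*} (Z : Matrix ι κ ℤ) : Matrix ι κ ℝ := Z.map (fun a => (a : ℝ))

/-- Gaussian sum of the lattice `G` -/
noncomputable def rho (s : ℝ) (G : Matrix ι ι ℝ) : ℝ :=
  ∑' z : ι → ℤ, Real.exp (-(Real.pi / s ^ 2) * qf G (iv z))

/-- squared distance to the lattice -/
noncomputable def dsq (G : Matrix ι ι ℝ) (x : ι → ℝ) : ℝ := ⨅ z : ι → ℤ, qf G (x - iv z)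

/-- the half open unit cube -/
def cube (ι : Type*) : Set (ι → ℝ) := Set.univ.pi (fun _ => Set.Ico (0 : ℝ) 1)

/-- `f(L)`: Gaussian measure (density `s^{-m} exp(-π|x|²/s²)`) of the Voronoi cell of the lattice
`G`, written as an integral over the unit cube. -/
noncomputable def fV [DecidableEq ι] (s : ℝ) (G : Matrix ι ι ℝ) : ℝ :=
  (Real.sqrt G.det / s ^ Fintype.card ι) *
    ∫ x in cube ι, Real.exp (-(Real.pi / s ^ 2) * dsq G x)

/-- all nonzero sublattices have determinant at least one -/
def SubDet (G : Matrix ι ι ℝ) : Prop :=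
  ∀ (k : ℕ) (Z : Matrix ι (Fin k) ℤ), ((im Z)ᵀ * G * im Z).det ≠ 0 →
    1 ≤ ((im Z)ᵀ * G * im Z).det

/-- stable lattices -/
structure Stable [DecidableEq ι] (G : Matrix ι ι ℝ) : Prop where
  posDef : G.PosDef
  det_eq : G.det = 1
  sub : SubDet G

end Crest.Agent.R152.WRM
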