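import Mathlib
import Crest.Agent.R152.WRMDefs

set_option autoImplicit false

/-!
# Row 152, WRM-1: periodic integrals, Gaussian integrals

`unfold_lint` : `∫⁻ f = ∫⁻_{cube} ∑_z f (x + z)`;  `periodic_lint` : translation invariance of the
integral of a periodic function over the cube; `lint_gauss` : the Gaussian integral.
-/

namespace Crest.Agent.R152.WRM

open Matrix MeasureTheory ENNReal

variable {ι : Type*}

theorem iv_add (z w : ι → ℤ) : iv (z + w) = iv z + iv w := by
  funext i; simp [iv]

theorem iv_neg (z : ι → ℤ) : iv (-z) = -iv z := by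
  funext i; simp [iv]

theorem iv_sub (z w : ι → ℤ) : iv (z - w) = iv z - iv w := by
  funext i; simp [iv]

@[simp] theorem iv_zero : iv (0 : ι → ℤ) = 0 := by
  funext i; simp [iv]

theorem iv_injective : Function.Injective (iv : (ι → ℤ) → ι → ℝ) := by
  intro z w h
  funext i
  have := congrFun h i
  simpa [iv] using this

theorem mem_cube {x : ι → ℝ} : x ∈ cube ι ↔ ∀ i, 0 ≤ x i ∧ x i < 1 := by
  simp [cube]

/-- integer part -/
noncomputable def fl (x : ι → ℝ) : ι → ℤ := fun i => ⌊x i⌋

theorem sub_fl_mem (x : ι → ℝ) : x - iv (fl x) ∈ cube ι := by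
  rw [mem_cube]
  intro i
  simp only [iv, fl, Pi.sub_apply]
  constructor
  · have := Int.floor_le (x i); linarith
  · have := Int.lt_floor_add_one (x i); linarith

theorem mem_cube_iff_fl {x : ι → ℝ} {z : ι → ℤ} : x - iv z ∈ cube ι ↔ z = fl x := by
  constructor
  · intro h
    rw [mem_cube] at h
    funext i
    have := h i
    simp only [iv, Pi.sub_apply] at this
    simp only [fl]
    exact (Int.floor_eq_iff.2 ⟨by linarith, by linarith⟩).symm
  · rintro rfl
    exact sub_fl_mem x

variable [Fintype ι]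

theorem measurableSet_cube : MeasurableSet (cube ι) :=
  MeasurableSet.univ_pi fun _ => measurableSet_Ico

theorem volume_cube : volume (cube ι) = 1 := by
  rw [cube, volume_pi_pi]
  simp

/-- unfolding of an integral over `ℝ^ι` -/
theorem unfold_lint (f : (ι → ℝ) → ℝ≥0∞) (hf : Measurable f) :
    ∫⁻ x, f x = ∫⁻ x in cube ι, ∑' z : ι → ℤ, f (x + iv z) := by
  classical
  rw [lintegral_tsum (f := fun (z : ι → ℤ) (x : ι → ℝ) => f (x + iv z))
    (fun z => (hf.comp (measurable_id.add_const _)).aemeasurable)]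
  have hU : (⋃ z : ι → ℤ, {x : ι → ℝ | x - iv z ∈ cube ι}) = Set.univ := by
    apply Set.eq_univ_of_forall
    intro x
    exact Set.mem_iUnion.2 ⟨fl x, sub_fl_mem x⟩
  have hm : ∀ z : ι → ℤ, MeasurableSet {x : ι → ℝ | x - iv z ∈ cube ι} := fun z =>
    measurableSet_cube.preimage (measurable_id.sub_const _)
  have h1 : ∫⁻ x, f x = ∑' z : ι → ℤ, ∫⁻ x in {x : ι → ℝ | x - iv z ∈ cube ι}, f x := by
    rw [← lintegral_iUnion hm, hU, Measure.restrict_univ]
    intro z w hzw
    rw [Function.onFun, Set.disjoint_left]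
    intro x hx hx'
    exact hzw ((mem_cube_iff_fl.1 hx).trans (mem_cube_iff_fl.1 hx').symm)
  rw [h1]
  apply tsum_congr
  intro z
  rw [← lintegral_indicator (hm z), ← lintegral_indicator measurableSet_cube,
    ← lintegral_add_right_eq_self (fun x => Set.indicator {x : ι → ℝ | x - iv z ∈ cube ι} f x)
      (iv z)]
  apply lintegral_congr
  intro x
  by_cases hx : x ∈ cube ι
  · rw [Set.indicator_of_mem hx, Set.indicator_of_mem]
    simpa using hx
  · rw [Set.indicator_of_notMem hx, Set.indicator_of_notMem]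
    simpa using hx

/-- translation invariance of the integral of a periodic function -/
theorem periodic_lint (h : (ι → ℝ) → ℝ≥0∞) (hm : Measurable h)
    (hp : ∀ x (z : ι → ℤ), h (x + iv z) = h x) (t : ι → ℝ) :
    ∫⁻ x in cube ι, h (x + t) = ∫⁻ x in cube ι, h x := by
  classical
  have hmt : MeasurableSet {x : ι → ℝ | x - t ∈ cube ι} :=
    measurableSet_cube.preimage (measurable_id.sub_const _)
  have h1 : ∫⁻ x in cube ι, h (x + t) =
      ∫⁻ x, Set.indicator {x : ι → ℝ | x - t ∈ cube ι} h x := by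
    rw [← lintegral_indicator measurableSet_cube,
      ← lintegral_add_right_eq_self
        (fun x => Set.indicator {x : ι → ℝ | x - t ∈ cube ι} h x) t]
    apply lintegral_congr
    intro x
    by_cases hx : x ∈ cube ι
    · rw [Set.indicator_of_mem hx, Set.indicator_of_mem]
      simpa using hx
    · rw [Set.indicator_of_notMem hx, Set.indicator_of_notMem]
      simpa using hx
  rw [h1, unfold_lint _ (hm.indicator hmt)]
  apply lintegral_congr
  intro x
  -- exactly one `z` with `x + z - t ∈ cube`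
  rw [tsum_eq_single (-(fl (x - t)))]
  · rw [Set.indicator_of_mem, hp]
    change x + iv (-(fl (x - t))) - t ∈ cube ι
    rw [iv_neg]
    have := sub_fl_mem (x - t)
    convert this using 1
    abel
  · intro z hz
    rw [Set.indicator_of_notMem]
    intro hx
    apply hz
    change x + iv z - t ∈ cube ι at hx
    have h2 : (x - t) - iv (-z) ∈ cube ι := by
      rw [iv_neg]
      convert hx using 1
      abel
    have := mem_cube_iff_fl.1 h2
    rw [← this, neg_neg]

theorem qf_def (G : Matrix ι ι ℝ) (x : ι → ℝ) : qf G x = x ⬝ᵥ (G *ᵥ x) := rfl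

theorem qf_neg (G : Matrix ι ι ℝ) (x : ι → ℝ) : qf G (-x) = qf G x := by
  simp [qf, mulVec_neg]

@[simp] theorem qf_zero (G : Matrix ι ι ℝ) : qf G 0 = 0 := by simp [qf]

theorem qf_smul (G : Matrix ι ι ℝ) (a : ℝ) (x : ι → ℝ) : qf G (a • x) = a ^ 2 * qf G x := by
  simp [qf, mulVec_smul, pow_two, mul_assoc]

theorem qf_smul_mat (G : Matrix ι ι ℝ) (a : ℝ) (x : ι → ℝ) : qf (a • G) x = a * qf G x := by
  simp [qf, smul_mulVec]

/-- the parallelogram law -/
theorem qf_add_sub (G : Matrix ι ι ℝ) (x y : ι → ℝ) :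
    qf G (x + y) + qf G (x - y) = 2 * qf G x + 2 * qf G y := by
  simp only [qf, mulVec_add, mulVec_sub, dotProduct_add, dotProduct_sub, add_dotProduct,
    sub_dotProduct]
  ring

theorem continuous_qf (G : Matrix ι ι ℝ) : Continuous (qf G) := by
  unfold qf
  fun_prop

theorem measurable_qf (G : Matrix ι ι ℝ) : Measurable (qf G) := (continuous_qf G).measurable

theorem qf_nonneg {G : Matrix ι ι ℝ} (hG : G.PosSemidef) (x : ι → ℝ) : 0 ≤ qf G x := by
  have := hG.dotProduct_mulVec_nonneg x
  simpa [qf] using this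

theorem qf_pos {G : Matrix ι ι ℝ} (hG : G.PosDef) {x : ι → ℝ} (hx : x ≠ 0) : 0 < qf G x := by
  have := hG.dotProduct_mulVec_pos hx
  simpa [qf] using this

theorem qf_add_le {G : Matrix ι ι ℝ} (hG : G.PosSemidef) (x y : ι → ℝ) :
    qf G (x + y) ≤ 2 * qf G x + 2 * qf G y := by
  rw [← qf_add_sub]
  linarith [qf_nonneg hG (x - y)]

theorem qf_transpose_mul (A : Matrix ι ι ℝ) (x : ι → ℝ) :
    qf (Aᵀ * A) x = ∑ i, (A *ᵥ x) i ^ 2 := by
  rw [qf, ← mulVec_mulVec, dotProduct_mulVec, vecMul_transpose, dotProduct]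
  exact Finset.sum_congr rfl fun i _ => by ring

end Crest.Agent.R152.WRM
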