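import Mathlib
import Crest.Agent.R152.WRM1a

set_option autoImplicit false

/-!
# Row 152, WRM-1 (continued): Gaussian integral, summability, theta function in `ℝ≥0∞`
-/

namespace Crest.Agent.R152.WRM

open Matrix MeasureTheory ENNReal

variable {ι : Type*} [Fintype ι]

section factor

open scoped MatrixOrder ComplexOrder

theorem exists_factor [DecidableEq ι] {G : Matrix ι ι ℝ} (hG : G.PosDef) :
    ∃ A : Matrix ι ι ℝ, G = Aᵀ * A ∧ A.det ≠ 0 := by
  obtain ⟨B, hB⟩ := CStarAlgebra.nonneg_iff_eq_star_mul_self.mp hG.posSemidef.nonneg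
  have hB' : G = Bᵀ * B := by
    rw [hB, star_eq_conjTranspose, conjTranspose_eq_transpose_of_trivial]
  refine ⟨B, hB', ?_⟩
  intro h
  have := hG.det_pos
  rw [hB', det_mul, det_transpose, h] at this
  simp at this

end factor

theorem sqrt_det_factor [DecidableEq ι] {G A : Matrix ι ι ℝ} (h : G = Aᵀ * A) :
    Real.sqrt G.det = |A.det| := by
  rw [h, det_mul, det_transpose, Real.sqrt_mul_self_eq_abs]

/-- Gaussian kernel -/
noncomputable def gE (c : ℝ) (G : Matrix ι ι ℝ) (x : ι → ℝ) : ℝ≥0∞ :=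
  ENNReal.ofReal (Real.exp (-c * qf G x))

theorem measurable_gE (c : ℝ) (G : Matrix ι ι ℝ) : Measurable (gE c G) := by
  unfold gE
  exact ENNReal.measurable_ofReal.comp
    (Real.measurable_exp.comp ((measurable_qf G).const_mul _))

theorem lint_gauss_one {c : ℝ} (hc : 0 < c) :
    ∫⁻ x : ι → ℝ, ENNReal.ofReal (Real.exp (-c * ∑ i, x i ^ 2)) =
      ENNReal.ofReal (Real.sqrt (Real.pi / c) ^ Fintype.card ι) := by
  have h1 : ∀ x : ι → ℝ, Real.exp (-c * ∑ i, x i ^ 2) = ∏ i, Real.exp (-c * x i ^ 2) := by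
    intro x
    rw [← Real.exp_sum, Finset.mul_sum]
  simp_rw [h1]
  rw [← ofReal_integral_eq_lintegral_ofReal]
  · rw [integral_fintype_prod_volume_eq_pow (fun x : ℝ => Real.exp (-c * x ^ 2)),
      integral_gaussian]
  · exact Integrable.fintype_prod (f := fun _ (x : ℝ) => Real.exp (-c * x ^ 2))
      (fun _ => integrable_exp_neg_mul_sq hc)
  · exact Filter.Eventually.of_forall fun x => Finset.prod_nonneg fun i _ => (Real.exp_pos _).le

/-- the Gaussian integral -/
theorem lint_gauss [DecidableEq ι] {c : ℝ} (hc : 0 < c) {G : Matrix ι ι ℝ} (hG : G.PosDef) :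
    ∫⁻ x : ι → ℝ, gE c G x =
      ENNReal.ofReal (Real.sqrt (Real.pi / c) ^ Fintype.card ι / Real.sqrt G.det) := by
  obtain ⟨A, hA, hdet⟩ := exists_factor hG
  have hf : Measurable (fun x : ι → ℝ => ENNReal.ofReal (Real.exp (-c * ∑ i, x i ^ 2))) := by
    fun_prop
  have h1 : ∀ x, gE c G x =
      (fun x : ι → ℝ => ENNReal.ofReal (Real.exp (-c * ∑ i, x i ^ 2))) (toLin' A x) := by
    intro x
    simp only [gE, toLin'_apply, hA, qf_transpose_mul]
  simp_rw [h1]
  rw [← lintegral_map (f := fun x : ι → ℝ => ENNReal.ofReal (Real.exp (-c * ∑ i, x i ^ 2))) hf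
      (LinearMap.continuous_of_finiteDimensional _).measurable,
    Real.map_matrix_volume_pi_eq_smul_volume_pi hdet, lintegral_smul_measure,
    lint_gauss_one hc, smul_eq_mul, ← ENNReal.ofReal_mul (abs_nonneg _), sqrt_det_factor hA]
  congr 1
  rw [abs_inv]
  ring

theorem lint_gauss_lt_top [DecidableEq ι] {c : ℝ} (hc : 0 < c) {G : Matrix ι ι ℝ}
    (hG : G.PosDef) : ∫⁻ x : ι → ℝ, gE c G x < ∞ := by
  rw [lint_gauss hc hG]
  exact ENNReal.ofReal_lt_top

/-- the theta function -/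
noncomputable def Th (c : ℝ) (G : Matrix ι ι ℝ) (x : ι → ℝ) : ℝ≥0∞ :=
  ∑' z : ι → ℤ, gE c G (x + iv z)

theorem measurable_Th (c : ℝ) (G : Matrix ι ι ℝ) : Measurable (Th c G) :=
  Measurable.tsum fun _ => (measurable_gE c G).comp (measurable_id.add_const _)

theorem Th_add (c : ℝ) (G : Matrix ι ι ℝ) (x : ι → ℝ) (w : ι → ℤ) :
    Th c G (x + iv w) = Th c G x := by
  unfold Th
  rw [← (Equiv.addLeft w).tsum_eq (fun z => gE c G (x + iv z))]
  apply tsum_congr
  intro z
  rw [Equiv.coe_addLeft, iv_add, add_assoc]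

theorem gE_neg (c : ℝ) (G : Matrix ι ι ℝ) (x : ι → ℝ) : gE c G (-x) = gE c G x := by
  simp [gE, qf_neg]

theorem Th_neg (c : ℝ) (G : Matrix ι ι ℝ) (x : ι → ℝ) : Th c G (-x) = Th c G x := by
  unfold Th
  rw [← (Equiv.neg (ι → ℤ)).tsum_eq (fun z => gE c G (-x + iv z))]
  apply tsum_congr
  intro z
  rw [Equiv.neg_apply, iv_neg, ← neg_add, gE_neg]

theorem lint_Th [DecidableEq ι] {c : ℝ} (hc : 0 < c) {G : Matrix ι ι ℝ} (hG : G.PosDef) :
    ∫⁻ x in cube ι, Th c G x =
      ENNReal.ofReal (Real.sqrt (Real.pi / c) ^ Fintype.card ι / Real.sqrt G.det) := by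
  rw [← lint_gauss hc hG, unfold_lint _ (measurable_gE c G)]
  rfl

/-- the theta series converges -/
theorem Th_zero_lt_top [DecidableEq ι] {c : ℝ} (hc : 0 < c) {G : Matrix ι ι ℝ}
    (hG : G.PosDef) : Th c G 0 < ∞ := by
  -- some point of the cube where `Th (c/2)` is finite
  have h1 : ∫⁻ x in cube ι, Th (c / 2) G x < ∞ := by
    rw [lint_Th (by positivity) hG]; exact ENNReal.ofReal_lt_top
  obtain ⟨x, hx⟩ : ∃ x, Th (c / 2) G x < ∞ := by
    by_contra hcon
    push Not at hcon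
    have h2 : ∀ x, Th (c / 2) G x = ∞ := fun x => top_le_iff.1 (hcon x)
    simp_rw [h2] at h1
    rw [lintegral_const, Measure.restrict_apply_univ, volume_cube] at h1
    simp at h1
  have h3 : Th c G 0 ≤ ENNReal.ofReal (Real.exp (c * qf G x)) * Th (c / 2) G x := by
    unfold Th
    rw [← ENNReal.tsum_mul_left]
    apply ENNReal.tsum_le_tsum
    intro z
    unfold gE
    rw [← ENNReal.ofReal_mul (Real.exp_pos _).le, ← Real.exp_add]
    apply ENNReal.ofReal_le_ofReal
    apply Real.exp_le_exp.2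
    have h4 : qf G (x + iv z) ≤ 2 * qf G x + 2 * qf G (iv z) := qf_add_le hG.posSemidef x (iv z)
    rw [zero_add]
    nlinarith
  exact lt_of_le_of_lt h3 (ENNReal.mul_lt_top ENNReal.ofReal_lt_top hx)

/-- **the theta function is maximal at `0`** -/
theorem Th_le [DecidableEq ι] {c : ℝ} (hc : 0 < c) {G : Matrix ι ι ℝ} (hG : G.PosDef)
    (x : ι → ℝ) : Th c G x ≤ Th c G 0 := by
  -- `C * gE c G u = ∫ gE (2c) (u - t) * gE (2c) t`
  have hC : (∫⁻ t : ι → ℝ, gE (4 * c) G t) ≠ ∞ := (lint_gauss_lt_top (by positivity) hG).ne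
  have hC0 : (∫⁻ t : ι → ℝ, gE (4 * c) G t) ≠ 0 := by
    rw [lint_gauss (by positivity) hG]
    have h1 : 0 < Real.sqrt (Real.pi / (4 * c)) := by positivity
    have h2 : 0 < Real.sqrt G.det := Real.sqrt_pos.2 hG.det_pos
    rw [Ne, ENNReal.ofReal_eq_zero, not_le]
    positivity
  have key : ∀ u : ι → ℝ, (∫⁻ t : ι → ℝ, gE (4 * c) G t) * gE c G u =
      ∫⁻ t, gE (2 * c) G (u - t) * gE (2 * c) G t := by
    intro u
    rw [← lintegral_mul_const _ (measurable_gE _ _),
      ← lintegral_sub_right_eq_self (fun t => gE (4 * c) G t * gE c G u) ((1 / 2 : ℝ) • u)]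
    apply lintegral_congr
    intro t
    unfold gE
    rw [← ENNReal.ofReal_mul (Real.exp_pos _).le, ← ENNReal.ofReal_mul (Real.exp_pos _).le,
      ← Real.exp_add, ← Real.exp_add]
    congr 2
    have h1 := qf_add_sub G ((1 / 2 : ℝ) • u) (t - (1 / 2 : ℝ) • u)
    have h2 : (1 / 2 : ℝ) • u + (t - (1 / 2 : ℝ) • u) = t := by abel
    have h3 : (1 / 2 : ℝ) • u - (t - (1 / 2 : ℝ) • u) = u - t := by
      have : (1 / 2 : ℝ) • u + (1 / 2 : ℝ) • u = u := by
        rw [← add_smul]; norm_num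
      calc (1 / 2 : ℝ) • u - (t - (1 / 2 : ℝ) • u)
          = ((1 / 2 : ℝ) • u + (1 / 2 : ℝ) • u) - t := by abel
        _ = u - t := by rw [this]
    rw [h2, h3, qf_smul] at h1
    have h4 : qf G (t - (1 / 2 : ℝ) • u) = (qf G t + qf G (u - t) - 2 * ((1 / 2) ^ 2 * qf G u)) / 2 := by
      linarith
    rw [h4]
    ring
  have key2 : ∀ x : ι → ℝ, (∫⁻ t : ι → ℝ, gE (4 * c) G t) * Th c G x =
      ∫⁻ t in cube ι, Th (2 * c) G (x - t) * Th (2 * c) G t := by
    intro x
    have e1 : (∫⁻ t : ι → ℝ, gE (4 * c) G t) * Th c G x =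
        ∑' z : ι → ℤ, ∫⁻ t, gE (2 * c) G (x + iv z - t) * gE (2 * c) G t := by
      rw [Th, ← ENNReal.tsum_mul_left]
      exact tsum_congr fun z => key _
    have hm : ∀ y : ι → ℝ, Measurable (fun t : ι → ℝ => gE (2 * c) G (y - t)) := fun y =>
      (measurable_gE _ _).comp (measurable_id.const_sub y)
    have e2 : ∑' z : ι → ℤ, ∫⁻ t, gE (2 * c) G (x + iv z - t) * gE (2 * c) G t =
        ∫⁻ t, Th (2 * c) G (x - t) * gE (2 * c) G t := by
      rw [← lintegral_tsum (f := fun (z : ι → ℤ) (t : ι → ℝ) =>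
        gE (2 * c) G (x + iv z - t) * gE (2 * c) G t)
        (fun z => ((hm _).mul (measurable_gE _ _)).aemeasurable)]
      apply lintegral_congr
      intro t
      rw [ENNReal.tsum_mul_right]
      congr 1
      unfold Th
      apply tsum_congr
      intro z
      congr 1
      abel
    have hm2 : Measurable (fun t : ι → ℝ => Th (2 * c) G (x - t) * gE (2 * c) G t) :=
      ((measurable_Th _ _).comp (measurable_id.const_sub x)).mul (measurable_gE _ _)
    rw [e1, e2, unfold_lint _ hm2]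
    apply lintegral_congr
    intro t
    have e3 : ∀ z : ι → ℤ, Th (2 * c) G (x - (t + iv z)) = Th (2 * c) G (x - t) := by
      intro z
      have : x - (t + iv z) = (x - t) + iv (-z) := by rw [iv_neg]; abel
      rw [this, Th_add]
    simp_rw [e3]
    rw [ENNReal.tsum_mul_left]
    rfl
  have h0 := key2 0
  have hx := key2 x
  have hmT : Measurable (fun t : ι → ℝ => Th (2 * c) G (x - t)) :=
    (measurable_Th _ _).comp (measurable_id.const_sub x)
  -- `∫ Th(x - t)^2 = ∫ Th(t)^2`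
  have hper : ∫⁻ t in cube ι, Th (2 * c) G (x - t) ^ 2 = ∫⁻ t in cube ι, Th (2 * c) G t ^ 2 := by
    have e4 : ∀ t, Th (2 * c) G (x - t) ^ 2 = (fun t => Th (2 * c) G t ^ 2) (t + -x) := by
      intro t
      change _ = Th (2 * c) G (t + -x) ^ 2
      rw [← Th_neg]
      congr 2
      abel
    simp_rw [e4]
    rw [periodic_lint (fun t => Th (2 * c) G t ^ 2) ((measurable_Th _ _).pow_const 2)
      (fun t z => by simp only [Th_add])]
  have hle : ∫⁻ t in cube ι, Th (2 * c) G (x - t) * Th (2 * c) G t ≤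
      ∫⁻ t in cube ι, Th (2 * c) G (0 - t) * Th (2 * c) G t := by
    have e5 : ∀ t, Th (2 * c) G (0 - t) * Th (2 * c) G t = Th (2 * c) G t ^ 2 := by
      intro t
      rw [zero_sub, Th_neg, sq]
    simp_rw [e5]
    have hab : ∀ a b : ℝ≥0∞, 2 * (a * b) ≤ a ^ 2 + b ^ 2 := by
      intro a b
      rcases eq_or_ne a ∞ with ha | ha
      · subst ha
        simp
      rcases eq_or_ne b ∞ with hb | hb
      · subst hb
        simp
      lift a to NNReal using ha
      lift b to NNReal using hb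
      norm_cast
      have := two_mul_le_add_sq (a : ℝ) b
      rw [← NNReal.coe_le_coe]
      push_cast
      linarith
    have h2 : 2 * ∫⁻ t in cube ι, Th (2 * c) G (x - t) * Th (2 * c) G t ≤
        2 * ∫⁻ t in cube ι, Th (2 * c) G t ^ 2 := by
      calc 2 * ∫⁻ t in cube ι, Th (2 * c) G (x - t) * Th (2 * c) G t
          = ∫⁻ t in cube ι, 2 * (Th (2 * c) G (x - t) * Th (2 * c) G t) := by
            rw [lintegral_const_mul (2 : ℝ≥0∞)
              (f := fun t => Th (2 * c) G (x - t) * Th (2 * c) G t) (hmT.mul (measurable_Th _ _))]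
        _ ≤ ∫⁻ t in cube ι, (Th (2 * c) G (x - t) ^ 2 + Th (2 * c) G t ^ 2) :=
            lintegral_mono fun t => hab _ _
        _ = 2 * ∫⁻ t in cube ι, Th (2 * c) G t ^ 2 := by
            rw [lintegral_add_left (hmT.pow_const 2), hper,
              two_mul (∫⁻ t in cube ι, Th (2 * c) G t ^ 2)]
    exact (ENNReal.mul_le_mul_iff_right (by norm_num) (by norm_num)).1 h2
  rw [← hx, ← h0] at hle
  exact (ENNReal.mul_le_mul_iff_right hC0 hC).1 hle

end Crest.Agent.R152.WRM
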