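import Mathlib
import Crest.Agent.R152.WRM1b

set_option autoImplicit false

/-!
# Row 152, WRM-1: steps (1a), (1b), (1c)
-/

namespace Crest.Agent.R152.WRM

open Matrix MeasureTheory ENNReal

variable {ι κ : Type*} [Fintype ι] [Fintype κ]

/-- `sup_z exp(-c q(x - z))` -/
noncomputable def dE (c : ℝ) (G : Matrix ι ι ℝ) (x : ι → ℝ) : ℝ≥0∞ :=
  ⨆ z : ι → ℤ, gE c G (x - iv z)

theorem measurable_dE (c : ℝ) (G : Matrix ι ι ℝ) : Measurable (dE c G) :=
  Measurable.iSup fun _ => (measurable_gE c G).comp (measurable_id.sub_const _)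

theorem dE_add (c : ℝ) (G : Matrix ι ι ℝ) (x : ι → ℝ) (w : ι → ℤ) :
    dE c G (x + iv w) = dE c G x := by
  unfold dE
  rw [← (Equiv.addLeft w).iSup_comp]
  apply iSup_congr
  intro z
  rw [Equiv.coe_addLeft, iv_add]
  congr 1
  abel

theorem ofReal_exp_dsq {c : ℝ} (hc : 0 ≤ c) {G : Matrix ι ι ℝ} (hG : G.PosSemidef)
    (x : ι → ℝ) : ENNReal.ofReal (Real.exp (-c * dsq G x)) = dE c G x := by
  unfold dsq dE gE
  have hf : Continuous (fun a : ℝ => ENNReal.ofReal (Real.exp (-c * a))) :=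
    ENNReal.continuous_ofReal.comp (Real.continuous_exp.comp (continuous_const.mul continuous_id))
  have ha : Antitone (fun a : ℝ => ENNReal.ofReal (Real.exp (-c * a))) := by
    intro a b hab
    apply ENNReal.ofReal_le_ofReal
    apply Real.exp_le_exp.2
    nlinarith
  exact Antitone.map_ciInf_of_continuousAt (f := fun a : ℝ => ENNReal.ofReal (Real.exp (-c * a)))
    hf.continuousAt ha ⟨0, by rintro _ ⟨z, rfl⟩; exact qf_nonneg hG _⟩

theorem dE_le_one {c : ℝ} (hc : 0 ≤ c) {G : Matrix ι ι ℝ} (hG : G.PosSemidef) (x : ι → ℝ) :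
    dE c G x ≤ 1 := by
  apply iSup_le
  intro z
  unfold gE
  rw [← ENNReal.ofReal_one]
  apply ENNReal.ofReal_le_ofReal
  rw [← Real.exp_zero]
  apply Real.exp_le_exp.2
  have := qf_nonneg hG (x - iv z)
  nlinarith

/-- `I c G` -/
noncomputable def Iv (c : ℝ) (G : Matrix ι ι ℝ) : ℝ≥0∞ := ∫⁻ x in cube ι, dE c G x

theorem Iv_le_one {c : ℝ} (hc : 0 ≤ c) {G : Matrix ι ι ℝ} (hG : G.PosSemidef) :
    Iv c G ≤ 1 := by
  calc Iv c G ≤ ∫⁻ _ in cube ι, (1 : ℝ≥0∞) := lintegral_mono fun x => dE_le_one hc hG x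
    _ = 1 := by rw [lintegral_one, Measure.restrict_apply_univ, volume_cube]

theorem fV_eq [DecidableEq ι] {s : ℝ} {G : Matrix ι ι ℝ} (hG : G.PosSemidef) :
    fV s G = (Real.sqrt G.det / s ^ Fintype.card ι) * (Iv (Real.pi / s ^ 2) G).toReal := by
  have hc : 0 ≤ Real.pi / s ^ 2 := by positivity
  unfold fV Iv
  congr 1
  rw [integral_eq_lintegral_of_nonneg_ae (Filter.Eventually.of_forall fun x => (Real.exp_pos _).le)]
  · congr 1
    apply lintegral_congr
    intro x
    exact ofReal_exp_dsq hc hG x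
  · have h1 : Measurable (fun x => Real.exp (-(Real.pi / s ^ 2) * dsq G x)) := by
      have h2 : (fun x => Real.exp (-(Real.pi / s ^ 2) * dsq G x)) =
          fun x => (dE (Real.pi / s ^ 2) G x).toReal := by
        funext x
        rw [← ofReal_exp_dsq hc hG x, ENNReal.toReal_ofReal (Real.exp_pos _).le]
      rw [h2]
      exact (measurable_dE _ _).ennreal_toReal
    exact h1.aestronglyMeasurable

theorem gE_mul_le (c : ℝ) (G : Matrix ι ι ℝ) (x y : ι → ℝ) :
    2 * (gE c G x * gE c G y) ≤ gE c G (x + y) + gE c G (x - y) := by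
  unfold gE
  rw [← ENNReal.ofReal_mul (Real.exp_pos _).le, ← Real.exp_add,
    ← ENNReal.ofReal_add (Real.exp_pos _).le (Real.exp_pos _).le,
    show (2 : ℝ≥0∞) = ENNReal.ofReal 2 by simp, ← ENNReal.ofReal_mul (by norm_num)]
  apply ENNReal.ofReal_le_ofReal
  have h1 := qf_add_sub G x y
  have h2 : Real.exp (-c * qf G x + -c * qf G y) =
      Real.exp (-c * qf G (x + y) / 2) * Real.exp (-c * qf G (x - y) / 2) := by
    rw [← Real.exp_add]
    congr 1
    linear_combination (c / 2) * h1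
  have h3 : ∀ a : ℝ, Real.exp a = Real.exp (a / 2) ^ 2 := by
    intro a
    rw [← Real.exp_nat_mul]
    congr 1
    push_cast
    ring
  rw [h2, h3 (-c * qf G (x + y)), h3 (-c * qf G (x - y))]
  nlinarith [sq_nonneg (Real.exp (-c * qf G (x + y) / 2) - Real.exp (-c * qf G (x - y) / 2))]

theorem gE_mul_Th_le (c : ℝ) (G : Matrix ι ι ℝ) (x : ι → ℝ) :
    gE c G x * Th c G 0 ≤ Th c G x := by
  have h1 : 2 * (gE c G x * Th c G 0) ≤ 2 * Th c G x := by
    have e1 : 2 * (gE c G x * Th c G 0) =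
        ∑' z : ι → ℤ, 2 * (gE c G x * gE c G (iv z)) := by
      rw [ENNReal.tsum_mul_left, ENNReal.tsum_mul_left, Th]
      simp only [zero_add]
    have e2 : (2 : ℝ≥0∞) * Th c G x = ∑' z : ι → ℤ, (gE c G (x + iv z) + gE c G (x - iv z)) := by
      rw [ENNReal.tsum_add, two_mul]
      congr 1
      rw [Th, ← (Equiv.neg (ι → ℤ)).tsum_eq]
      apply tsum_congr
      intro z
      rw [Equiv.neg_apply, iv_neg, ← sub_eq_add_neg]
    rw [e1, e2]
    exact ENNReal.tsum_le_tsum fun z => gE_mul_le c G x (iv z)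
  exact (ENNReal.mul_le_mul_iff_right (by norm_num) (by norm_num)).1 h1

theorem dE_mul_Th_le (c : ℝ) (G : Matrix ι ι ℝ) (x : ι → ℝ) :
    dE c G x * Th c G 0 ≤ Th c G x := by
  unfold dE
  rw [ENNReal.iSup_mul]
  apply iSup_le
  intro z
  have h1 := gE_mul_Th_le c G (x - iv z)
  have h2 : Th c G (x - iv z) = Th c G x := by
    rw [sub_eq_add_neg, ← iv_neg, Th_add]
  rwa [h2] at h1

theorem rho_eq {s : ℝ} (G : Matrix ι ι ℝ) :
    rho s G = (Th (Real.pi / s ^ 2) G 0).toReal := by
  unfold rho Th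
  rw [ENNReal.tsum_toReal_eq (fun z => by unfold gE; exact ENNReal.ofReal_ne_top)]
  apply tsum_congr
  intro z
  rw [gE, ENNReal.toReal_ofReal (Real.exp_pos _).le, zero_add]

variable [DecidableEq ι] [DecidableEq κ]

theorem summable_rho {s : ℝ} (hs : 0 < s) {G : Matrix ι ι ℝ} (hG : G.PosDef) :
    Summable (fun z : ι → ℤ => Real.exp (-(Real.pi / s ^ 2) * qf G (iv z))) := by
  have hc : 0 < Real.pi / s ^ 2 := by positivity
  have h1 := Th_zero_lt_top hc hG
  have h2 := ENNReal.summable_toReal h1.ne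
  refine h2.congr fun z => ?_
  rw [gE, ENNReal.toReal_ofReal (Real.exp_pos _).le, zero_add]

theorem rho_ge_one {s : ℝ} (hs : 0 < s) {G : Matrix ι ι ℝ} (hG : G.PosDef) : 1 ≤ rho s G := by
  have h := (summable_rho hs hG).le_tsum 0 (fun z _ => (Real.exp_pos _).le)
  simpa [rho] using h

theorem rho_pos {s : ℝ} (hs : 0 < s) {G : Matrix ι ι ℝ} (hG : G.PosDef) : 0 < rho s G :=
  lt_of_lt_of_le one_pos (rho_ge_one hs hG)

theorem fV_nonneg {s : ℝ} (hs : 0 < s) {G : Matrix ι ι ℝ} : 0 ≤ fV s G := by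
  unfold fV
  have : 0 ≤ ∫ x in cube ι, Real.exp (-(Real.pi / s ^ 2) * dsq G x) :=
    integral_nonneg fun x => (Real.exp_pos _).le
  positivity

theorem sqrt_pi_div {s : ℝ} (hs : 0 < s) : Real.sqrt (Real.pi / (Real.pi / s ^ 2)) = s := by
  rw [div_div_eq_mul_div, mul_div_cancel_left₀ _ Real.pi_ne_zero, Real.sqrt_sq hs.le]

/-- **(1a)** -/
theorem rho_mul_fV_le {s : ℝ} (hs : 0 < s) {G : Matrix ι ι ℝ} (hG : G.PosDef) :
    rho s G * fV s G ≤ 1 := by
  have hc : 0 < Real.pi / s ^ 2 := by positivity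
  have h1 : Th (Real.pi / s ^ 2) G 0 * Iv (Real.pi / s ^ 2) G ≤
      ENNReal.ofReal (s ^ Fintype.card ι / Real.sqrt G.det) := by
    have h2 := lint_Th hc hG
    rw [sqrt_pi_div hs] at h2
    rw [← h2, Iv, ← lintegral_const_mul _ (measurable_dE _ _)]
    apply lintegral_mono
    intro x
    change Th (Real.pi / s ^ 2) G 0 * dE (Real.pi / s ^ 2) G x ≤ _
    rw [mul_comm]
    exact dE_mul_Th_le _ _ _
  have hdet : 0 < Real.sqrt G.det := Real.sqrt_pos.2 hG.det_pos
  have h3 : (Th (Real.pi / s ^ 2) G 0).toReal * (Iv (Real.pi / s ^ 2) G).toReal ≤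
      s ^ Fintype.card ι / Real.sqrt G.det := by
    rw [← ENNReal.toReal_mul]
    exact ENNReal.toReal_le_of_le_ofReal (by positivity) h1
  rw [rho_eq, fV_eq hG.posSemidef]
  calc (Th (Real.pi / s ^ 2) G 0).toReal *
        (Real.sqrt G.det / s ^ Fintype.card ι * (Iv (Real.pi / s ^ 2) G).toReal)
      = (Real.sqrt G.det / s ^ Fintype.card ι) *
        ((Th (Real.pi / s ^ 2) G 0).toReal * (Iv (Real.pi / s ^ 2) G).toReal) := by ring
    _ ≤ (Real.sqrt G.det / s ^ Fintype.card ι) * (s ^ Fintype.card ι / Real.sqrt G.det) := by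
        gcongr
    _ = 1 := by field_simp

section block

variable (A : Matrix ι ι ℝ) (B : Matrix ι κ ℝ) (D : Matrix κ κ ℝ)

/-- Schur complement -/
noncomputable def schur : Matrix κ κ ℝ := D - Bᵀ * A⁻¹ * B

/-- the block Gram matrix -/
def blk : Matrix (ι ⊕ κ) (ι ⊕ κ) ℝ := fromBlocks A B Bᵀ D

variable {A B D}

theorem posDef_of_blk (h : (blk A B D).PosDef) : A.PosDef := by
  have h1 := h.submatrix (e := (Sum.inl : ι → ι ⊕ κ)) Sum.inl_injective
  have h2 : (blk A B D).submatrix (Sum.inl : ι → ι ⊕ κ) Sum.inl = A := by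
    ext i j; rfl
  rwa [h2] at h1

omit [DecidableEq κ] in
/-- completing the square -/
theorem qf_blk (hA : A.PosDef) (x : ι → ℝ) (y : κ → ℝ) :
    qf (blk A B D) (Sum.elim x y) =
      qf A (x + (A⁻¹ * B) *ᵥ y) + qf (schur A B D) y := by
  have : Invertible A := hA.isUnit.invertible
  have h := schur_complement_eq₁₁ (α := ℝ) B D x y hA.1
  rw [conjTranspose_eq_transpose_of_trivial] at h
  simp only [star_trivial] at h
  unfold qf blk schur
  rw [dotProduct_mulVec, dotProduct_mulVec, dotProduct_mulVec]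
  exact h

theorem schur_posDef (h : (blk A B D).PosDef) : (schur A B D).PosDef := by
  have hA := posDef_of_blk h
  have : Invertible A := hA.isUnit.invertible
  have hD : Dᵀ = D := by
    have h1 := h.1
    rw [IsHermitian, conjTranspose_eq_transpose_of_trivial] at h1
    ext i j
    exact congrFun (congrFun h1 (Sum.inr i)) (Sum.inr j)
  have hAt : Aᵀ = A := by
    have := hA.1
    rwa [IsHermitian, conjTranspose_eq_transpose_of_trivial] at this
  refine PosDef.of_dotProduct_mulVec_pos ?_ ?_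
  · rw [IsHermitian, conjTranspose_eq_transpose_of_trivial, schur, transpose_sub, hD,
      transpose_mul, transpose_mul, transpose_transpose, transpose_nonsing_inv, hAt,
      Matrix.mul_assoc]
  · intro y hy
    have h1 : 0 < qf (blk A B D) (Sum.elim (-((A⁻¹ * B) *ᵥ y)) y) := by
      apply qf_pos h
      intro h2
      apply hy
      funext i
      have := congrFun h2 (Sum.inr i)
      simpa using this
    rw [qf_blk hA, neg_add_cancel, qf_zero, zero_add] at h1
    simpa [qf] using h1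

theorem det_blk (hA : A.PosDef) : (blk A B D).det = A.det * (schur A B D).det := by
  have : Invertible A := hA.isUnit.invertible
  rw [blk, det_fromBlocks₁₁, schur, invOf_eq_nonsing_inv]

omit [Fintype ι] [Fintype κ] [DecidableEq ι] [DecidableEq κ] in
theorem iv_elim (a : ι → ℤ) (b : κ → ℤ) : iv (Sum.elim a b) = Sum.elim (iv a) (iv b) := by
  funext i
  rcases i with i | i <;> rfl

theorem gE_blk (c : ℝ) (hA : A.PosDef) (x : ι → ℝ) (y : κ → ℝ) :
    gE c (blk A B D) (Sum.elim x y) =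
      gE c A (x + (A⁻¹ * B) *ᵥ y) * gE c (schur A B D) y := by
  unfold gE
  rw [qf_blk hA, ← ENNReal.ofReal_mul (Real.exp_pos _).le, ← Real.exp_add]
  congr 2
  ring

/-- **(1c)**, in `ℝ≥0∞` -/
theorem Th_blk_le {c : ℝ} (hc : 0 < c) (h : (blk A B D).PosDef) :
    Th c (blk A B D) 0 ≤ Th c A 0 * Th c (schur A B D) 0 := by
  have hA := posDef_of_blk h
  have e1 : Th c (blk A B D) 0 = ∑' y : κ → ℤ, ∑' x : ι → ℤ,
      gE c (blk A B D) (Sum.elim (iv x) (iv y)) := by
    unfold Th
    rw [← (Equiv.sumArrowEquivProdArrow ι κ ℤ).symm.tsum_eq, ENNReal.tsum_comm,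
      ← ENNReal.tsum_prod (f := fun x y => gE c (blk A B D) (Sum.elim (iv x) (iv y)))]
    apply tsum_congr
    rintro ⟨x, y⟩
    rw [zero_add]
    congr 1
    exact iv_elim x y
  rw [e1]
  calc ∑' y : κ → ℤ, ∑' x : ι → ℤ, gE c (blk A B D) (Sum.elim (iv x) (iv y))
      = ∑' y : κ → ℤ, Th c A ((A⁻¹ * B) *ᵥ iv y) * gE c (schur A B D) (iv y) := by
        apply tsum_congr
        intro y
        unfold Th
        rw [← ENNReal.tsum_mul_right]
        apply tsum_congr
        intro x
        rw [gE_blk c hA, add_comm (iv x)]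
    _ ≤ ∑' y : κ → ℤ, Th c A 0 * gE c (schur A B D) (iv y) :=
        ENNReal.tsum_le_tsum fun y => mul_le_mul' (Th_le hc hA _) le_rfl
    _ = Th c A 0 * Th c (schur A B D) 0 := by
        rw [ENNReal.tsum_mul_left]
        unfold Th
        simp only [zero_add]

/-- **(1c)** -/
theorem rho_blk_le {s : ℝ} (hs : 0 < s) (h : (blk A B D).PosDef) :
    rho s (blk A B D) ≤ rho s A * rho s (schur A B D) := by
  have hc : 0 < Real.pi / s ^ 2 := by positivity
  rw [rho_eq, rho_eq, rho_eq, ← ENNReal.toReal_mul]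
  exact ENNReal.toReal_mono (ENNReal.mul_ne_top (Th_zero_lt_top hc (posDef_of_blk h)).ne
    (Th_zero_lt_top hc (schur_posDef h)).ne) (Th_blk_le hc h)

omit [Fintype ι] [Fintype κ] [DecidableEq ι] [DecidableEq κ] in
theorem elim_mem_cube {x : ι → ℝ} {y : κ → ℝ} :
    Sum.elim x y ∈ cube (ι ⊕ κ) ↔ x ∈ cube ι ∧ y ∈ cube κ := by
  simp [mem_cube, Sum.forall]

/-- **(1b)**, in `ℝ≥0∞` -/
theorem Iv_blk_ge {c : ℝ} (h : (blk A B D).PosDef) :
    Iv c A * Iv c (schur A B D) ≤ Iv c (blk A B D) := by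
  have hA := posDef_of_blk h
  have e1 : Iv c (blk A B D) =
      ∫⁻ y in cube κ, ∫⁻ x in cube ι, dE c (blk A B D) (Sum.elim x y) := by
    unfold Iv
    rw [← lintegral_indicator measurableSet_cube,
      ← (volume_measurePreserving_sumPiEquivProdPi_symm (fun _ : ι ⊕ κ => ℝ)).lintegral_comp
        ((measurable_dE _ _).indicator measurableSet_cube)]
    have hm : Measurable (fun p : (ι → ℝ) × (κ → ℝ) =>
        (cube (ι ⊕ κ)).indicator (dE c (blk A B D))
          ((MeasurableEquiv.sumPiEquivProdPi fun _ : ι ⊕ κ => ℝ).symm p)) :=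
      ((measurable_dE _ _).indicator measurableSet_cube).comp (MeasurableEquiv.measurable _)
    rw [Measure.volume_eq_prod, lintegral_prod_symm _ hm.aemeasurable,
      ← lintegral_indicator measurableSet_cube]
    apply lintegral_congr
    intro y
    by_cases hy : y ∈ cube κ
    · rw [Set.indicator_of_mem hy, ← lintegral_indicator measurableSet_cube]
      apply lintegral_congr
      intro x
      by_cases hx : x ∈ cube ι
      · rw [Set.indicator_of_mem hx, Set.indicator_of_mem]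
        · rfl
        · exact elim_mem_cube.2 ⟨hx, hy⟩
      · rw [Set.indicator_of_notMem hx, Set.indicator_of_notMem]
        exact fun h2 => hx (elim_mem_cube.1 h2).1
    · rw [Set.indicator_of_notMem hy]
      have : ∀ x : ι → ℝ, (cube (ι ⊕ κ)).indicator (dE c (blk A B D))
          ((MeasurableEquiv.sumPiEquivProdPi fun _ : ι ⊕ κ => ℝ).symm (x, y)) = 0 := by
        intro x
        rw [Set.indicator_of_notMem]
        exact fun h2 => hy (elim_mem_cube.1 h2).2
      simp_rw [this]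
      simp
  rw [e1]
  have h1 : ∀ y : κ → ℝ, Iv c A * dE c (schur A B D) y ≤
      ∫⁻ x in cube ι, dE c (blk A B D) (Sum.elim x y) := by
    intro y
    unfold dE
    rw [ENNReal.mul_iSup]
    apply iSup_le
    intro b
    have h2 : Iv c A = ∫⁻ x in cube ι, dE c A (x + (A⁻¹ * B) *ᵥ (y - iv b)) := by
      unfold Iv
      rw [periodic_lint (dE c A) (measurable_dE _ _) (fun x z => dE_add c A x z)]
    rw [h2, ← lintegral_mul_const]
    · apply lintegral_mono
      intro x
      change dE c A (x + (A⁻¹ * B) *ᵥ (y - iv b)) * gE c (schur A B D) (y - iv b) ≤ _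
      unfold dE
      rw [ENNReal.iSup_mul]
      apply iSup_le
      intro a
      have h3 : Sum.elim x y - iv (Sum.elim a b) = Sum.elim (x - iv a) (y - iv b) := by
        rw [iv_elim]
        funext i
        rcases i with i | i <;> rfl
      have h4 := gE_blk (B := B) (D := D) c hA (x - iv a) (y - iv b)
      have h5 : x + (A⁻¹ * B) *ᵥ (y - iv b) - iv a =
          x - iv a + (A⁻¹ * B) *ᵥ (y - iv b) := by abel
      rw [h5, ← h4, ← h3]
      exact le_iSup (fun z => gE c (blk A B D) (Sum.elim x y - iv z)) (Sum.elim a b)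
    · exact (measurable_dE _ _).comp (measurable_id.add_const _)
  calc Iv c A * Iv c (schur A B D) = ∫⁻ y in cube κ, Iv c A * dE c (schur A B D) y := by
        conv_lhs => rw [Iv.eq_1 c (schur A B D)]
        rw [lintegral_const_mul _ (measurable_dE _ _)]
    _ ≤ _ := lintegral_mono fun y => h1 y

/-- **(1b)** -/
theorem fV_blk_ge {s : ℝ} (hs : 0 < s) (h : (blk A B D).PosDef) :
    fV s A * fV s (schur A B D) ≤ fV s (blk A B D) := by
  have hA := posDef_of_blk h
  have hS := schur_posDef h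
  have hc : 0 ≤ Real.pi / s ^ 2 := by positivity
  rw [fV_eq h.posSemidef, fV_eq hA.posSemidef, fV_eq hS.posSemidef, det_blk hA,
    Real.sqrt_mul hA.det_pos.le, Fintype.card_sum, pow_add]
  have h1 : (Iv (Real.pi / s ^ 2) A).toReal * (Iv (Real.pi / s ^ 2) (schur A B D)).toReal ≤
      (Iv (Real.pi / s ^ 2) (blk A B D)).toReal := by
    rw [← ENNReal.toReal_mul]
    exact ENNReal.toReal_mono (ne_top_of_le_ne_top ENNReal.one_ne_top
      (Iv_le_one hc h.posSemidef)) (Iv_blk_ge h)
  calc Real.sqrt A.det / s ^ Fintype.card ι * (Iv (Real.pi / s ^ 2) A).toReal *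
        (Real.sqrt (schur A B D).det / s ^ Fintype.card κ *
          (Iv (Real.pi / s ^ 2) (schur A B D)).toReal)
      = Real.sqrt A.det * Real.sqrt (schur A B D).det /
          (s ^ Fintype.card ι * s ^ Fintype.card κ) *
        ((Iv (Real.pi / s ^ 2) A).toReal * (Iv (Real.pi / s ^ 2) (schur A B D)).toReal) := by
        field_simp
    _ ≤ _ := by gcongr

end block

end Crest.Agent.R152.WRM
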