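import Mathlib
import Crest.Agent.R152.WRM1c

set_option autoImplicit false

/-!
# Row 152, WRM-2: invariance of `rho`, `fV`, `SubDet`, `Stable` under change of basis and reindexing
-/

namespace Crest.Agent.R152.WRM

open Matrix MeasureTheory ENNReal

variable {ι κ : Type*} [Fintype ι] [Fintype κ]

theorem qf_conj (G : Matrix ι ι ℝ) (P : Matrix ι κ ℝ) (x : κ → ℝ) :
    qf (Pᵀ * G * P) x = qf G (P *ᵥ x) := by
  unfold qf
  rw [Matrix.mul_assoc, ← mulVec_mulVec, dotProduct_mulVec, vecMul_transpose, ← mulVec_mulVec]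

theorem im_mulVec_iv (Z : Matrix ι κ ℤ) (w : κ → ℤ) : im Z *ᵥ iv w = iv (Z *ᵥ w) := by
  funext i
  simp [im, iv, mulVec, dotProduct]

omit [Fintype ι] in
theorem im_mul {l : Type*} (Z : Matrix l κ ℤ) (Y : Matrix κ ι ℤ) : im (Z * Y) = im Z * im Y := by
  ext i j
  simp [im, Matrix.mul_apply]

omit [Fintype ι] in
theorem im_one [DecidableEq ι] : im (1 : Matrix ι ι ℤ) = 1 := by
  ext i j
  by_cases h : i = j
  · subst h; simp [im]
  · simp [im, h]

theorem det_im [DecidableEq ι] (Z : Matrix ι ι ℤ) : (im Z).det = (Z.det : ℝ) := by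
  unfold im
  exact ((Int.castRingHom ℝ).map_det Z).symm

/-- an integer vector equivalence -/
def eqv [DecidableEq ι] [DecidableEq κ] (U : Matrix ι κ ℤ) (V : Matrix κ ι ℤ) (h1 : U * V = 1)
    (h2 : V * U = 1) : (κ → ℤ) ≃ (ι → ℤ) where
  toFun w := U *ᵥ w
  invFun w := V *ᵥ w
  left_inv w := by simp [h2]
  right_inv w := by simp [h1]

theorem rho_conj [DecidableEq ι] [DecidableEq κ] (s : ℝ) (G : Matrix ι ι ℝ) (U : Matrix ι κ ℤ)
    (V : Matrix κ ι ℤ) (h1 : U * V = 1) (h2 : V * U = 1) :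
    rho s ((im U)ᵀ * G * im U) = rho s G := by
  unfold rho
  rw [← (eqv U V h1 h2).tsum_eq (fun z => Real.exp (-(Real.pi / s ^ 2) * qf G (iv z)))]
  apply tsum_congr
  intro w
  rw [qf_conj, im_mulVec_iv]
  rfl

theorem dE_conj [DecidableEq ι] [DecidableEq κ] (c : ℝ) (G : Matrix ι ι ℝ) (U : Matrix ι κ ℤ)
    (V : Matrix κ ι ℤ) (h1 : U * V = 1) (h2 : V * U = 1) (x : κ → ℝ) :
    dE c ((im U)ᵀ * G * im U) x = dE c G (im U *ᵥ x) := by
  unfold dE
  rw [← (eqv U V h1 h2).iSup_comp]
  apply iSup_congr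
  intro w
  unfold gE
  rw [qf_conj, mulVec_sub, im_mulVec_iv]
  rfl

/-- change of variables by a matrix in `GL(ℤ)` in the integral of a periodic function -/
theorem lint_conj [DecidableEq ι] (h : (ι → ℝ) → ℝ≥0∞) (hm : Measurable h)
    (hp : ∀ x (z : ι → ℤ), h (x + iv z) = h x) (U V : Matrix ι ι ℤ) (h1 : U * V = 1) :
    ∫⁻ x in cube ι, h (im U *ᵥ x) = ∫⁻ x in cube ι, h x := by
  have h2 : V * U = 1 := by
    exact mul_eq_one_comm.1 h1
  have hPQ : im U * im V = 1 := by rw [← im_mul, h1, im_one]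
  have hQP : im V * im U = 1 := by rw [← im_mul, h2, im_one]
  have hdet : |(im U).det| = 1 := by
    have h3 : U.det * V.det = 1 := by rw [← det_mul, h1, det_one]
    have h4 : IsUnit U.det := IsUnit.of_mul_eq_one _ h3
    rw [det_im, ← Int.cast_abs, Int.isUnit_iff_abs_eq.1 h4]
    simp
  have hdet0 : (im U).det ≠ 0 := by
    intro h0
    rw [h0] at hdet
    simp at hdet
  have hmt : MeasurableSet {y : ι → ℝ | im V *ᵥ y ∈ cube ι} :=
    measurableSet_cube.preimage
      (LinearMap.continuous_of_finiteDimensional (Matrix.mulVecLin (im V))).measurable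
  have e1 : ∫⁻ x in cube ι, h (im U *ᵥ x) =
      ∫⁻ y, {y : ι → ℝ | im V *ᵥ y ∈ cube ι}.indicator h y := by
    rw [← lintegral_indicator measurableSet_cube]
    have e2 : ∀ x : ι → ℝ, (cube ι).indicator (fun x => h (im U *ᵥ x)) x =
        ({y : ι → ℝ | im V *ᵥ y ∈ cube ι}.indicator h) (toLin' (im U) x) := by
      intro x
      rw [toLin'_apply]
      have e3 : im V *ᵥ (im U *ᵥ x) = x := by rw [mulVec_mulVec, hQP, one_mulVec]
      by_cases hx : x ∈ cube ι
      · rw [Set.indicator_of_mem hx, Set.indicator_of_mem]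
        change im V *ᵥ (im U *ᵥ x) ∈ cube ι
        rwa [e3]
      · rw [Set.indicator_of_notMem hx, Set.indicator_of_notMem]
        change im V *ᵥ (im U *ᵥ x) ∉ cube ι
        rwa [e3]
    simp_rw [e2]
    rw [← lintegral_map (hm.indicator hmt)
      (LinearMap.continuous_of_finiteDimensional (toLin' (im U))).measurable,
      Real.map_matrix_volume_pi_eq_smul_volume_pi hdet0, lintegral_smul_measure, abs_inv, hdet]
    simp
  rw [e1, unfold_lint _ (hm.indicator hmt)]
  apply lintegral_congr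
  intro y
  rw [tsum_eq_single (-(U *ᵥ fl (im V *ᵥ y)))]
  · rw [Set.indicator_of_mem, hp]
    change im V *ᵥ (y + iv (-(U *ᵥ fl (im V *ᵥ y)))) ∈ cube ι
    rw [mulVec_add, iv_neg, mulVec_neg, im_mulVec_iv, mulVec_mulVec, h2, one_mulVec,
      ← sub_eq_add_neg]
    exact sub_fl_mem _
  · intro z hz
    rw [Set.indicator_of_notMem]
    intro hx
    apply hz
    change im V *ᵥ (y + iv z) ∈ cube ι at hx
    rw [mulVec_add, im_mulVec_iv] at hx
    have h3 : im V *ᵥ y - iv (-(V *ᵥ z)) ∈ cube ι := by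
      rw [iv_neg, sub_neg_eq_add]; exact hx
    have h4 := mem_cube_iff_fl.1 h3
    rw [← h4, mulVec_neg, neg_neg, mulVec_mulVec, h1, one_mulVec]

theorem Iv_conj [DecidableEq ι] (c : ℝ) (G : Matrix ι ι ℝ) (U V : Matrix ι ι ℤ)
    (h1 : U * V = 1) : Iv c ((im U)ᵀ * G * im U) = Iv c G := by
  have h2 : V * U = 1 := by
    exact mul_eq_one_comm.1 h1
  unfold Iv
  rw [← lint_conj (dE c G) (measurable_dE _ _) (fun x z => dE_add c G x z) U V h1]
  apply lintegral_congr
  intro x
  exact dE_conj c G U V h1 h2 x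

theorem det_conj [DecidableEq ι] (G : Matrix ι ι ℝ) (U V : Matrix ι ι ℤ)
    (h1 : U * V = 1) : ((im U)ᵀ * G * im U).det = G.det := by
  have hdet : (im U).det * (im U).det = 1 := by
    have h3 : U.det * V.det = 1 := by rw [← det_mul, h1, det_one]
    have h4 : IsUnit U.det := IsUnit.of_mul_eq_one _ h3
    have h5 : U.det * U.det = 1 := Int.isUnit_mul_self h4
    rw [det_im]
    exact_mod_cast h5
  rw [det_mul, det_mul, det_transpose]
  linear_combination G.det * hdet

theorem posDef_conj [DecidableEq ι] {G : Matrix ι ι ℝ} (hG : G.PosDef) (U V : Matrix ι ι ℤ)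
    (h1 : U * V = 1) : ((im U)ᵀ * G * im U).PosDef := by
  have hinj : Function.Injective (im U).mulVec := by
    have h2 : V * U = 1 := by
      exact mul_eq_one_comm.1 h1
    have hQP : im V * im U = 1 := by rw [← im_mul, h2, im_one]
    intro x y hxy
    have := congrArg (fun v => im V *ᵥ v) hxy
    simpa [mulVec_mulVec, hQP] using this
  have := hG.conjTranspose_mul_mul_same hinj
  rwa [conjTranspose_eq_transpose_of_trivial] at this

theorem fV_conj [DecidableEq ι] (s : ℝ) {G : Matrix ι ι ℝ} (hG : G.PosDef) (U V : Matrix ι ι ℤ)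
    (h1 : U * V = 1) : fV s ((im U)ᵀ * G * im U) = fV s G := by
  rw [fV_eq (posDef_conj hG U V h1).posSemidef, fV_eq hG.posSemidef, det_conj G U V h1,
    Iv_conj _ G U V h1]

/-- `SubDet` and congruence -/
theorem subDet_conj {G : Matrix ι ι ℝ} (hG : SubDet G) (U : Matrix ι κ ℤ) :
    SubDet ((im U)ᵀ * G * im U) := by
  intro k Z hZ
  have e : (im Z)ᵀ * ((im U)ᵀ * G * im U) * im Z = (im (U * Z))ᵀ * G * im (U * Z) := by
    rw [im_mul, transpose_mul]
    simp only [Matrix.mul_assoc]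
  rw [e] at hZ ⊢
  exact hG k (U * Z) hZ

section reindex

variable (e : κ ≃ ι)

theorem qf_reindex (G : Matrix ι ι ℝ) (x : κ → ℝ) :
    qf (G.submatrix e e) x = qf G (x ∘ e.symm) := by
  unfold qf
  rw [dotProduct, dotProduct, ← e.sum_comp]
  apply Finset.sum_congr rfl
  intro i _
  simp only [Function.comp, Equiv.symm_apply_apply]
  congr 1
  rw [mulVec, mulVec, dotProduct, dotProduct, ← e.sum_comp]
  apply Finset.sum_congr rfl
  intro j _
  simp

theorem rho_reindex (s : ℝ) (G : Matrix ι ι ℝ) : rho s (G.submatrix e e) = rho s G := by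
  unfold rho
  rw [← (Equiv.arrowCongr e (Equiv.refl ℤ)).tsum_eq
    (fun z => Real.exp (-(Real.pi / s ^ 2) * qf G (iv z)))]
  apply tsum_congr
  intro w
  rw [qf_reindex]
  rfl

theorem dE_reindex (c : ℝ) (G : Matrix ι ι ℝ) (x : κ → ℝ) :
    dE c (G.submatrix e e) x = dE c G (x ∘ e.symm) := by
  unfold dE
  rw [← (Equiv.arrowCongr e (Equiv.refl ℤ)).iSup_comp]
  apply iSup_congr
  intro w
  unfold gE
  rw [qf_reindex]
  rfl

theorem Iv_reindex (c : ℝ) (G : Matrix ι ι ℝ) : Iv c (G.submatrix e e) = Iv c G := by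
  unfold Iv
  rw [← lintegral_indicator measurableSet_cube, ← lintegral_indicator measurableSet_cube,
    ← (volume_measurePreserving_piCongrLeft (fun _ : ι => ℝ) e).lintegral_comp
      ((measurable_dE _ _).indicator measurableSet_cube)]
  apply lintegral_congr
  intro x
  have h1 : (MeasurableEquiv.piCongrLeft (fun _ : ι => ℝ) e) x = x ∘ e.symm := by
    funext i
    obtain ⟨j, rfl⟩ := e.surjective i
    rw [MeasurableEquiv.coe_piCongrLeft, Equiv.piCongrLeft_apply_apply]
    simp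
  rw [h1]
  have h2 : x ∈ cube κ ↔ x ∘ e.symm ∈ cube ι := by
    rw [mem_cube, mem_cube, ← e.symm.forall_congr_right]
    rfl
  by_cases hx : x ∈ cube κ
  · rw [Set.indicator_of_mem hx, Set.indicator_of_mem (h2.1 hx), dE_reindex]
  · rw [Set.indicator_of_notMem hx, Set.indicator_of_notMem (fun h => hx (h2.2 h))]

theorem posDef_reindex {G : Matrix ι ι ℝ} (hG : G.PosDef) : (G.submatrix e e).PosDef :=
  hG.submatrix e.injective

theorem fV_reindex [DecidableEq ι] [DecidableEq κ] (s : ℝ) {G : Matrix ι ι ℝ} (hG : G.PosDef) :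
    fV s (G.submatrix e e) = fV s G := by
  rw [fV_eq (posDef_reindex e hG).posSemidef, fV_eq hG.posSemidef, det_submatrix_equiv_self,
    Iv_reindex, Fintype.card_congr e]

theorem subDet_reindex {G : Matrix ι ι ℝ} (hG : SubDet G) : SubDet (G.submatrix e e) := by
  intro k Z hZ
  have h1 : (im Z)ᵀ * G.submatrix e e * im Z =
      (im (Z.submatrix e.symm id))ᵀ * G * im (Z.submatrix e.symm id) := by
    have h2 : im Z = (im (Z.submatrix e.symm id)).submatrix e id := by
      ext i j; simp [im]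
    conv_lhs => rw [h2]
    rw [transpose_submatrix, submatrix_mul_equiv, submatrix_mul_equiv]
    rfl
  rw [h1] at hZ ⊢
  exact hG k _ hZ

end reindex

end Crest.Agent.R152.WRM
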