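import Mathlib
import Crest.Agent.R152.WRM2a

set_option autoImplicit false

/-!
# Row 152, WRM-2: Cauchy-Binet over functions, discreteness of the determinants of sublattices
-/

namespace Crest.Agent.R152.WRM

open Matrix

section CB

variable {R : Type*} [CommRing R] {ι : Type*} [Fintype ι] {k : ℕ}

/-- Cauchy-Binet, unsymmetrised -/
theorem det_mul_rect (P : Matrix (Fin k) ι R) (Q : Matrix ι (Fin k) R) :
    (P * Q).det = ∑ I : Fin k → ι, (∏ i, P i (I i)) * (Q.submatrix I id).det := by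
  classical
  have h1 : (P * Q).det = (detRowAlternating : (Fin k → R) [⋀^Fin k]→ₗ[R] R)
      (fun i => ∑ j, P i j • Q j) := by
    change (detRowAlternating : (Fin k → R) [⋀^Fin k]→ₗ[R] R) (P * Q) = _
    congr 1
    ext i j
    simp [Matrix.mul_apply, Finset.sum_apply]
  rw [h1]
  rw [← AlternatingMap.coe_multilinearMap, MultilinearMap.map_sum]
  apply Finset.sum_congr rfl
  intro I _
  rw [MultilinearMap.map_smul_univ, smul_eq_mul]
  rfl

/-- Cauchy-Binet, symmetrised: sums over all functions -/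
theorem factorial_mul_det (P : Matrix (Fin k) ι R) (Q : Matrix ι (Fin k) R) :
    (k.factorial : R) * (P * Q).det =
      ∑ I : Fin k → ι, (P.submatrix id I).det * (Q.submatrix I id).det := by
  classical
  symm
  calc ∑ I : Fin k → ι, (P.submatrix id I).det * (Q.submatrix I id).det
      = ∑ I : Fin k → ι, ∑ σ : Equiv.Perm (Fin k),
          ((Equiv.Perm.sign σ : ℤ) : R) * (∏ i, P (σ i) (I i)) * (Q.submatrix I id).det := by
        apply Finset.sum_congr rfl
        intro I _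
        rw [det_apply', Finset.sum_mul]
        rfl
    _ = ∑ σ : Equiv.Perm (Fin k), ∑ I : Fin k → ι,
          ((Equiv.Perm.sign σ : ℤ) : R) * (∏ i, P (σ i) (I i)) * (Q.submatrix I id).det :=
        Finset.sum_comm
    _ = ∑ σ : Equiv.Perm (Fin k), ∑ J : Fin k → ι, (∏ i, P i (J i)) * (Q.submatrix J id).det := by
        apply Finset.sum_congr rfl
        intro σ _
        rw [← (Equiv.arrowCongr σ.symm (Equiv.refl ι)).sum_comp]
        apply Finset.sum_congr rfl
        intro J _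
        have e1 : ∀ i, (Equiv.arrowCongr σ.symm (Equiv.refl ι)) J i = J (σ i) := by
          intro i; simp
        have e2 : (∏ i, P (σ i) ((Equiv.arrowCongr σ.symm (Equiv.refl ι)) J i)) =
            ∏ i, P i (J i) := by
          simp_rw [e1]
          exact Equiv.prod_comp σ (fun i => P i (J i))
        have e3 : (Q.submatrix ((Equiv.arrowCongr σ.symm (Equiv.refl ι)) J) id).det =
            ((Equiv.Perm.sign σ : ℤ) : R) * (Q.submatrix J id).det := by
          have : Q.submatrix ((Equiv.arrowCongr σ.symm (Equiv.refl ι)) J) id =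
              (Q.submatrix J id).submatrix σ id := by
            ext i j
            simp
          rw [this, det_permute]
        rw [e2, e3]
        have e4 : ((Equiv.Perm.sign σ : ℤ) : R) * ((Equiv.Perm.sign σ : ℤ) : R) = 1 := by
          rw [← Int.cast_mul]
          rcases Int.units_eq_one_or (Equiv.Perm.sign σ) with h | h <;> rw [h] <;> simp
        linear_combination ((∏ i, P i (J i)) * (Q.submatrix J id).det) * e4
    _ = (k.factorial : R) * (P * Q).det := by
        rw [Finset.sum_const, Finset.card_univ, Fintype.card_perm, Fintype.card_fin,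
          ← det_mul_rect, nsmul_eq_mul]

end CB

variable {ι : Type*} [Fintype ι]

/-- minors of an integral matrix -/
def minr {k : ℕ} (Z : Matrix ι (Fin k) ℤ) (I : Fin k → ι) : ℤ := (Z.submatrix I id).det

theorem im_submatrix {κ l₁ l₂ : Type*} (Z : Matrix ι κ ℤ) (f : l₁ → ι) (g : l₂ → κ) :
    im (Z.submatrix f g) = (im Z).submatrix f g := rfl

theorem det_im_fin {k : ℕ} (Z : Matrix (Fin k) (Fin k) ℤ) : (im Z).det = (Z.det : ℝ) :=
  det_im Z

theorem gram_det_nonneg {G : Matrix ι ι ℝ} (hG : G.PosSemidef) {k : ℕ}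
    (Z : Matrix ι (Fin k) ℤ) : 0 ≤ ((im Z)ᵀ * G * im Z).det := by
  have := (hG.conjTranspose_mul_mul_same (im Z)).det_nonneg
  rwa [conjTranspose_eq_transpose_of_trivial] at this

theorem gram_posSemidef {G : Matrix ι ι ℝ} (hG : G.PosSemidef) {k : ℕ}
    (Z : Matrix ι (Fin k) ℤ) : ((im Z)ᵀ * G * im Z).PosSemidef := by
  have := (hG.conjTranspose_mul_mul_same (im Z))
  rwa [conjTranspose_eq_transpose_of_trivial] at this

/-- the function of the minors giving the determinant of the Gram matrix -/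
noncomputable def plF (A : Matrix ι ι ℝ) (k : ℕ) (p : (Fin k → ι) → ℤ) : ℝ :=
  (k.factorial : ℝ)⁻¹ * ∑ I : Fin k → ι,
    ((k.factorial : ℝ)⁻¹ * ∑ J : Fin k → ι, (A.submatrix I J).det * (p J : ℝ)) ^ 2

theorem det_submatrix_mul {k : ℕ} (A : Matrix ι ι ℝ) (Y : Matrix ι (Fin k) ℝ) (I : Fin k → ι) :
    ((A * Y).submatrix I id).det =
      (k.factorial : ℝ)⁻¹ * ∑ J : Fin k → ι, (A.submatrix I J).det * (Y.submatrix J id).det := by
  have h := factorial_mul_det (A.submatrix I id) Y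
  have h1 : (A * Y).submatrix I id = A.submatrix I id * Y := by
    ext i j; simp [Matrix.mul_apply]
  rw [h1, eq_comm, inv_mul_eq_iff_eq_mul₀ (by positivity), h]
  rfl

theorem det_gram_eq {k : ℕ} (W : Matrix ι (Fin k) ℝ) :
    (Wᵀ * W).det = (k.factorial : ℝ)⁻¹ * ∑ I : Fin k → ι, (W.submatrix I id).det ^ 2 := by
  have h := factorial_mul_det Wᵀ W
  rw [eq_comm, inv_mul_eq_iff_eq_mul₀ (by positivity), h]
  apply Finset.sum_congr rfl
  intro I _
  have : Wᵀ.submatrix id I = (W.submatrix I id)ᵀ := rfl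
  rw [this, det_transpose, sq]

theorem det_eq_plF {G A : Matrix ι ι ℝ} (hA : G = Aᵀ * A) {k : ℕ} (Z : Matrix ι (Fin k) ℤ) :
    ((im Z)ᵀ * G * im Z).det = plF A k (minr Z) := by
  have h1 : (im Z)ᵀ * G * im Z = (A * im Z)ᵀ * (A * im Z) := by
    rw [hA, transpose_mul]
    simp only [Matrix.mul_assoc]
  rw [h1, det_gram_eq, plF]
  congr 1
  apply Finset.sum_congr rfl
  intro I _
  rw [det_submatrix_mul]
  congr 3
  funext J
  rw [← im_submatrix, det_im_fin]
  rfl

/-- minors are bounded by the determinant -/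
theorem minr_le [DecidableEq ι] {G A : Matrix ι ι ℝ} (hA : G = Aᵀ * A) (hdet : A.det ≠ 0) {k : ℕ}
    (Z : Matrix ι (Fin k) ℤ) (J : Fin k → ι) :
    |(minr Z J : ℝ)| ≤ ((k.factorial : ℝ)⁻¹ * ∑ I : Fin k → ι, |(A⁻¹.submatrix J I).det|) *
      Real.sqrt ((k.factorial : ℝ) * ((im Z)ᵀ * G * im Z).det) := by
  have h1 : (im Z)ᵀ * G * im Z = (A * im Z)ᵀ * (A * im Z) := by
    rw [hA, transpose_mul]
    simp only [Matrix.mul_assoc]
  have h2 : A⁻¹ * (A * im Z) = im Z := by
    rw [← Matrix.mul_assoc, nonsing_inv_mul _ (Ne.isUnit hdet), Matrix.one_mul]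
  have h3 : (minr Z J : ℝ) = (k.factorial : ℝ)⁻¹ *
      ∑ I : Fin k → ι, (A⁻¹.submatrix J I).det * ((A * im Z).submatrix I id).det := by
    rw [← det_submatrix_mul, h2, ← im_submatrix, det_im_fin]
    rfl
  have h4 : ∀ I : Fin k → ι, |((A * im Z).submatrix I id).det| ≤
      Real.sqrt ((k.factorial : ℝ) * ((im Z)ᵀ * G * im Z).det) := by
    intro I
    rw [h1, det_gram_eq, ← mul_assoc, mul_inv_cancel₀ (by positivity), one_mul]
    apply Real.abs_le_sqrt
    exact Finset.single_le_sum (f := fun I : Fin k → ι => ((A * im Z).submatrix I id).det ^ 2)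
      (fun I _ => sq_nonneg _) (Finset.mem_univ I)
  rw [h3, abs_mul, abs_of_pos (show (0 : ℝ) < (k.factorial : ℝ)⁻¹ by positivity), mul_assoc]
  apply mul_le_mul_of_nonneg_left _ (by positivity)
  rw [Finset.sum_mul]
  refine (Finset.abs_sum_le_sum_abs _ _).trans (Finset.sum_le_sum fun I _ => ?_)
  rw [abs_mul]
  exact mul_le_mul_of_nonneg_left (h4 I) (abs_nonneg _)

/-- **discreteness of the determinants of sublattices** -/
theorem det_values_finite [DecidableEq ι] {G : Matrix ι ι ℝ} (hG : G.PosDef) (k : ℕ) (C : ℝ) :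
    {d : ℝ | d ≤ C ∧ ∃ Z : Matrix ι (Fin k) ℤ, d = ((im Z)ᵀ * G * im Z).det}.Finite := by
  classical
  obtain ⟨A, hA, hdet⟩ := exists_factor hG
  -- bound for the minors
  obtain ⟨b, hb⟩ : ∃ b : ℕ, ∀ J : Fin k → ι,
      ((k.factorial : ℝ)⁻¹ * ∑ I : Fin k → ι, |(A⁻¹.submatrix J I).det|) *
        Real.sqrt ((k.factorial : ℝ) * C) ≤ b := by
    obtain ⟨b, hb⟩ := exists_nat_ge (∑ J : Fin k → ι,
      ((k.factorial : ℝ)⁻¹ * ∑ I : Fin k → ι, |(A⁻¹.submatrix J I).det|) *
        Real.sqrt ((k.factorial : ℝ) * C))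
    refine ⟨b, fun J => le_trans ?_ hb⟩
    exact Finset.single_le_sum (f := fun J : Fin k → ι =>
      ((k.factorial : ℝ)⁻¹ * ∑ I : Fin k → ι, |(A⁻¹.submatrix J I).det|) *
        Real.sqrt ((k.factorial : ℝ) * C)) (fun J _ => by positivity) (Finset.mem_univ J)
  have hfin : {p : (Fin k → ι) → ℤ | ∀ J, -(b : ℤ) ≤ p J ∧ p J ≤ b}.Finite := by
    have := Set.Finite.pi' (ι := Fin k → ι) (t := fun _ => {a : ℤ | -(b : ℤ) ≤ a ∧ a ≤ b})
      (fun _ => Set.finite_Icc (-(b : ℤ)) b)
    exact this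
  refine (hfin.image (plF A k)).subset ?_
  rintro d ⟨hd, Z, rfl⟩
  refine ⟨minr Z, ?_, (det_eq_plF hA Z).symm⟩
  intro J
  have h1 := minr_le hA hdet Z J
  have h2 : |(minr Z J : ℝ)| ≤ b := by
    refine h1.trans (le_trans ?_ (hb J))
    gcongr
  rw [abs_le] at h2
  constructor
  · exact_mod_cast h2.1
  · exact_mod_cast h2.2

/-- the rank of a sublattice is at most the rank of the lattice -/
theorem det_eq_zero_of_lt {G : Matrix ι ι ℝ} {k : ℕ} (hk : Fintype.card ι < k)
    (Z : Matrix ι (Fin k) ℤ) : ((im Z)ᵀ * G * im Z).det = 0 := by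
  rw [Matrix.mul_assoc, det_mul_rect]
  have h0 : ∀ I : Fin k → ι, ((G * im Z).submatrix I id).det = 0 := by
    intro I
    obtain ⟨i, j, hij, h⟩ := Fintype.exists_ne_map_eq_of_card_lt I (by simpa using hk)
    apply det_zero_of_row_eq hij
    funext l
    simp only [submatrix_apply]
    rw [h]
  simp [h0]

/-- all nonzero sublattices have slope at least `c` -/
def SubC (c : ℝ) (G : Matrix ι ι ℝ) : Prop :=
  ∀ (k : ℕ) (Z : Matrix ι (Fin k) ℤ), ((im Z)ᵀ * G * im Z).det ≠ 0 →
    Real.exp (c * k) ≤ ((im Z)ᵀ * G * im Z).det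

theorem SubC.subDet {c : ℝ} (hc : 0 ≤ c) {G : Matrix ι ι ℝ} (h : SubC c G) : SubDet G := by
  intro k Z hZ
  refine le_trans ?_ (h k Z hZ)
  rw [← Real.exp_zero]
  apply Real.exp_le_exp.2
  positivity

theorem SubDet.subC {G : Matrix ι ι ℝ} (h : SubDet G) : SubC 0 G := by
  intro k Z hZ
  rw [zero_mul, Real.exp_zero]
  exact h k Z hZ

/-- **existence of a sublattice of minimal slope** -/
theorem exists_min_slope [DecidableEq ι] [Nonempty ι] {G : Matrix ι ι ℝ} (hG : G.PosDef)
    (hsub : SubDet G) :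
    ∃ (c : ℝ) (k : ℕ) (Z : Matrix ι (Fin k) ℤ), 0 ≤ c ∧ 1 ≤ k ∧ SubC c G ∧
      ((im Z)ᵀ * G * im Z).det = Real.exp (c * k) := by
  classical
  set m := Fintype.card ι with hm
  have hm1 : 1 ≤ m := Fintype.card_pos
  -- the whole lattice
  let e : Fin m ≃ ι := (Fintype.equivFin ι).symm
  have hfull : ∃ Z : Matrix ι (Fin m) ℤ, ((im Z)ᵀ * G * im Z).det ≠ 0 := by
    refine ⟨(1 : Matrix ι ι ℤ).submatrix id e, ?_⟩
    have h1 : (im ((1 : Matrix ι ι ℤ).submatrix id e))ᵀ * G * im ((1 : Matrix ι ι ℤ).submatrix id e)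
        = G.submatrix e e := by
      rw [im_submatrix, im_one, transpose_submatrix, transpose_one, Matrix.mul_assoc]
      ext i j
      simp [Matrix.mul_apply, Matrix.one_apply]
    rw [h1, det_submatrix_equiv_self]
    exact hG.det_pos.ne'
  obtain ⟨Z0, hZ0⟩ := hfull
  have hZ0' := hsub m Z0 hZ0
  set C := Real.log ((im Z0)ᵀ * G * im Z0).det / m with hC
  have hC0 : 0 ≤ C := by
    rw [hC]
    exact div_nonneg (Real.log_nonneg hZ0') (by positivity)
  -- finite set of candidates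
  let S : Set (ℕ × ℝ) := {q | 1 ≤ q.1 ∧ q.1 ≤ m ∧ q.2 ≠ 0 ∧ q.2 ≤ Real.exp (C * m) ∧
    ∃ Z : Matrix ι (Fin q.1) ℤ, q.2 = ((im Z)ᵀ * G * im Z).det}
  have hSfin : S.Finite := by
    have h1 : S ⊆ ⋃ k ∈ Finset.Icc 1 m, (fun d => (k, d)) ''
        {d : ℝ | d ≤ Real.exp (C * m) ∧ ∃ Z : Matrix ι (Fin k) ℤ,
          d = ((im Z)ᵀ * G * im Z).det} := by
      rintro ⟨k, d⟩ ⟨h1, h2, h3, h4, h5⟩
      simp only [Set.mem_iUnion]
      exact ⟨k, Finset.mem_Icc.2 ⟨h1, h2⟩, d, ⟨h4, h5⟩, rfl⟩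
    refine Set.Finite.subset ?_ h1
    refine Set.Finite.biUnion (Finset.finite_toSet _) fun k _ => ?_
    exact (det_values_finite hG k _).image _
  have hSne : S.Nonempty := by
    refine ⟨(m, ((im Z0)ᵀ * G * im Z0).det), hm1, le_rfl, hZ0, ?_, Z0, rfl⟩
    rw [hC, div_mul_cancel₀ _ (by positivity), Real.exp_log (by linarith)]
  obtain ⟨⟨k, d⟩, hkd, hmin⟩ := Set.exists_min_image S (fun q => Real.log q.2 / q.1) hSfin hSne
  obtain ⟨hk1, hkm, hd0, hdC, Z, hZ⟩ := hkd
  simp only at hk1 hkm hd0 hdC Z hZ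
  have hd1 : 1 ≤ d := by
    rw [hZ]
    exact hsub k Z (by rw [← hZ]; exact hd0)
  have hkpos : (0 : ℝ) < k := by exact_mod_cast hk1
  refine ⟨Real.log d / k, k, Z, div_nonneg (Real.log_nonneg hd1) hkpos.le, hk1, ?_, ?_⟩
  · intro j Y hY
    rcases Nat.eq_zero_or_pos j with hj | hj
    · subst hj
      simp
    have hjm : j ≤ m := by
      by_contra h
      exact hY (det_eq_zero_of_lt (by omega) Y)
    have hY1 := hsub j Y hY
    have hjpos : (0 : ℝ) < j := by exact_mod_cast hj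
    have hlog : Real.log d / k ≤ Real.log ((im Y)ᵀ * G * im Y).det / j := by
      by_cases hle : ((im Y)ᵀ * G * im Y).det ≤ Real.exp (C * m)
      · exact hmin (j, ((im Y)ᵀ * G * im Y).det) ⟨hj, hjm, hY, hle, Y, rfl⟩
      · push Not at hle
        have h1 := hmin (m, ((im Z0)ᵀ * G * im Z0).det) ⟨hm1, le_rfl, hZ0, by
          rw [hC, div_mul_cancel₀ _ (by positivity), Real.exp_log (by linarith)], Z0, rfl⟩
        simp only at h1
        rw [← hC] at h1
        refine h1.trans ?_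
        rw [le_div_iff₀ hjpos]
        have h2 : C * m ≤ Real.log ((im Y)ᵀ * G * im Y).det := by
          rw [← Real.log_exp (C * m)]
          exact Real.log_le_log (Real.exp_pos _) hle.le
        refine le_trans ?_ h2
        have : (j : ℝ) ≤ m := by exact_mod_cast hjm
        nlinarith
    rw [← Real.le_log_iff_exp_le (by linarith)]
    rw [le_div_iff₀ hjpos] at hlog
    exact hlog
  · rw [← hZ, div_mul_cancel₀ _ hkpos.ne', Real.exp_log (by linarith)]

end Crest.Agent.R152.WRM
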