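import Mathlib
import Crest.Agent.R152.WRM2b

set_option autoImplicit false

/-!
# Row 152, WRM-2: splitting a lattice along a sublattice of minimal slope
-/

namespace Crest.Agent.R152.WRM

open Matrix Module

section subC

variable {ι κ : Type*} [Fintype ι] [Fintype κ]

theorem subC_conj {c : ℝ} {G : Matrix ι ι ℝ} (hG : SubC c G) (U : Matrix ι κ ℤ) :
    SubC c ((im U)ᵀ * G * im U) := by
  intro k Z hZ
  have e : (im Z)ᵀ * ((im U)ᵀ * G * im U) * im Z = (im (U * Z))ᵀ * G * im (U * Z) := by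
    rw [im_mul, transpose_mul]
    simp only [Matrix.mul_assoc]
  rw [e] at hZ ⊢
  exact hG k (U * Z) hZ

theorem subC_reindex (e : κ ≃ ι) {c : ℝ} {G : Matrix ι ι ℝ} (hG : SubC c G) :
    SubC c (G.submatrix e e) := by
  intro k Z hZ
  have h1 : (im Z)ᵀ * G.submatrix e e * im Z =
      (im (Z.submatrix e.symm id))ᵀ * G * im (Z.submatrix e.symm id) := by
    have h2 : im Z = (im (Z.submatrix e.symm id)).submatrix e id := by
      ext i j; simp [im]
    conv_lhs => rw [h2]
    rw [transpose_submatrix, submatrix_mul_equiv, submatrix_mul_equiv]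
    rfl
  rw [h1] at hZ ⊢
  exact hG k _ hZ

variable {k l : ℕ} {A : Matrix (Fin k) (Fin k) ℝ} {B : Matrix (Fin k) (Fin l) ℝ}
  {D : Matrix (Fin l) (Fin l) ℝ}

theorem subC_fst {c : ℝ} (h : SubC c (blk A B D)) : SubC c A := by
  have h1 := subC_conj h (fromRows (1 : Matrix (Fin k) (Fin k) ℤ) (0 : Matrix (Fin l) (Fin k) ℤ))
  have h2 : (im (fromRows (1 : Matrix (Fin k) (Fin k) ℤ) (0 : Matrix (Fin l) (Fin k) ℤ)))ᵀ *
      blk A B D * im (fromRows (1 : Matrix (Fin k) (Fin k) ℤ) (0 : Matrix (Fin l) (Fin k) ℤ))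
      = A := by
    have h3 : im (fromRows (1 : Matrix (Fin k) (Fin k) ℤ) (0 : Matrix (Fin l) (Fin k) ℤ)) =
        fromRows (1 : Matrix (Fin k) (Fin k) ℝ) (0 : Matrix (Fin l) (Fin k) ℝ) := by
      ext i j
      rcases i with i | i
      · simp [im, Matrix.one_apply]
      · simp [im]
    rw [h3, blk, transpose_fromRows, fromCols_mul_fromBlocks, fromCols_mul_fromRows]
    simp
  rwa [h2] at h1

/-- Gram matrix of the sublattice generated by the first block and a lift of `W` -/
theorem gram_lift {j : ℕ} (W : Matrix (Fin l) (Fin j) ℤ) :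
    (im (fromBlocks (1 : Matrix (Fin k) (Fin k) ℤ) 0 0 W))ᵀ * blk A B D *
      im (fromBlocks (1 : Matrix (Fin k) (Fin k) ℤ) 0 0 W) =
    blk A (B * im W) ((im W)ᵀ * D * im W) := by
  have h3 : im (fromBlocks (1 : Matrix (Fin k) (Fin k) ℤ) 0 0 W) =
      fromBlocks (1 : Matrix (Fin k) (Fin k) ℝ) 0 0 (im W) := by
    ext i j
    rcases i with i | i <;> rcases j with j | j
    · simp [im, Matrix.one_apply]
    · simp [im]
    · simp [im]
    · simp [im]
  rw [h3, blk, blk, fromBlocks_transpose, fromBlocks_multiply, fromBlocks_multiply]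
  simp [transpose_mul, Matrix.mul_assoc]

theorem schur_lift {j : ℕ} (W : Matrix (Fin l) (Fin j) ℤ) :
    schur A (B * im W) ((im W)ᵀ * D * im W) = (im W)ᵀ * schur A B D * im W := by
  unfold schur
  rw [transpose_mul]
  simp only [Matrix.mul_sub, Matrix.sub_mul, Matrix.mul_assoc]

theorem subC_schur {c : ℝ} (hp : (blk A B D).PosDef) (h : SubC c (blk A B D))
    (hA : A.det = Real.exp (c * k)) : SubC c (schur A B D) := by
  intro j W hW
  have hApos := posDef_of_blk hp
  set Z : Matrix (Fin k ⊕ Fin l) (Fin (k + j)) ℤ :=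
    (fromBlocks (1 : Matrix (Fin k) (Fin k) ℤ) 0 0 W).submatrix id finSumFinEquiv.symm with hZ
  have h1 : ((im Z)ᵀ * blk A B D * im Z).det = A.det * ((im W)ᵀ * schur A B D * im W).det := by
    have h2 : (im Z)ᵀ * blk A B D * im Z =
        (blk A (B * im W) ((im W)ᵀ * D * im W)).submatrix finSumFinEquiv.symm
          finSumFinEquiv.symm := by
      rw [← gram_lift W, hZ, im_submatrix]
      ext a b
      simp [Matrix.mul_apply]
    rw [h2, det_submatrix_equiv_self, det_blk hApos, schur_lift]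
  have h3 := h (k + j) Z (by rw [h1]; exact mul_ne_zero hApos.det_pos.ne' hW)
  rw [h1, hA] at h3
  push_cast at h3
  rw [mul_add, Real.exp_add] at h3
  exact le_of_mul_le_mul_left h3 (Real.exp_pos _)

end subC

theorem eq_blk {k l : ℕ} {M : Matrix (Fin k ⊕ Fin l) (Fin k ⊕ Fin l) ℝ} (hM : M.PosDef) :
    M = blk M.toBlocks₁₁ M.toBlocks₁₂ M.toBlocks₂₂ := by
  have h1 : Mᵀ = M := by
    have := hM.1
    rwa [IsHermitian, conjTranspose_eq_transpose_of_trivial] at this
  ext i j
  rcases i with i | i <;> rcases j with j | j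
  · rfl
  · rfl
  · change M (Sum.inr i) (Sum.inl j) = M (Sum.inl j) (Sum.inr i)
    exact (congrFun (congrFun h1 (Sum.inl j)) (Sum.inr i))
  · rfl

theorem linearIndependent_cols {n k : ℕ} {G : Matrix (Fin n) (Fin n) ℝ}
    (Z : Matrix (Fin n) (Fin k) ℤ) (hZ : ((im Z)ᵀ * G * im Z).det ≠ 0) :
    LinearIndependent ℤ (fun (j : Fin k) (i : Fin n) => Z i j) := by
  rw [Fintype.linearIndependent_iff]
  intro g hg
  have h1 : Z *ᵥ g = 0 := by
    funext i
    have := congrFun hg i
    simp only [Finset.sum_apply, Pi.smul_apply, smul_eq_mul, Pi.zero_apply] at this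
    rw [mulVec, dotProduct, Pi.zero_apply, ← this]
    exact Finset.sum_congr rfl fun j _ => mul_comm _ _
  have h2 : ((im Z)ᵀ * G * im Z) *ᵥ iv g = 0 := by
    rw [← mulVec_mulVec, im_mulVec_iv, h1, iv_zero, mulVec_zero]
  have h3 := eq_zero_of_mulVec_eq_zero hZ h2
  intro i
  have := congrFun h3 i
  simpa [iv] using this

/-- **splitting along a sublattice of minimal slope** -/
theorem split_of {n k : ℕ} {G : Matrix (Fin n) (Fin n) ℝ} (hG : G.PosDef) {c : ℝ}
    (hsub : SubC c G) (Z : Matrix (Fin n) (Fin k) ℤ)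
    (hZ : ((im Z)ᵀ * G * im Z).det = Real.exp (c * k)) :
    ∃ (l : ℕ) (e : Fin k ⊕ Fin l ≃ Fin n) (U V : Matrix (Fin n) (Fin n) ℤ)
      (A : Matrix (Fin k) (Fin k) ℝ) (B : Matrix (Fin k) (Fin l) ℝ)
      (D : Matrix (Fin l) (Fin l) ℝ), k + l = n ∧ U * V = 1 ∧
      ((im U)ᵀ * G * im U).submatrix e e = blk A B D ∧ A.det = Real.exp (c * k) := by
  classical
  have hZ0 : ((im Z)ᵀ * G * im Z).det ≠ 0 := by rw [hZ]; exact (Real.exp_pos _).ne'
  have hli := linearIndependent_cols Z hZ0
  set v : Fin k → (Fin n → ℤ) := fun j i => Z i j with hv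
  set N : Submodule ℤ (Fin n → ℤ) := Submodule.span ℤ (Set.range v) with hN
  obtain ⟨r, snf⟩ := Submodule.smithNormalForm (Pi.basisFun ℤ (Fin n)) N
  have hr : r = k := by
    have h1 := Module.finrank_eq_card_basis snf.bN
    have h2 := Module.finrank_eq_card_basis (Basis.span hli)
    rw [h1] at h2
    simpa using h2
  subst hr
  -- the base change
  set U : Matrix (Fin n) (Fin n) ℤ := (Pi.basisFun ℤ (Fin n)).toMatrix snf.bM with hU
  set V : Matrix (Fin n) (Fin n) ℤ := snf.bM.toMatrix (Pi.basisFun ℤ (Fin n)) with hV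
  have hUV : U * V = 1 := Basis.toMatrix_mul_toMatrix_flip _ _
  have hUapp : ∀ i j, U i j = snf.bM j i := by
    intro i j
    rw [hU, Basis.toMatrix_apply, Pi.basisFun_repr]
  -- complement of the range of `f`
  let l := Fintype.card {i : Fin n // i ∉ Set.range snf.f}
  let e : Fin r ⊕ Fin l ≃ Fin n :=
    (Equiv.sumCongr (Equiv.ofInjective snf.f snf.f.injective)
      (Fintype.equivFin {i : Fin n // i ∉ Set.range snf.f}).symm).trans
      (Equiv.Set.sumCompl (Set.range snf.f))
  have he : ∀ j, e (Sum.inl j) = snf.f j := fun j => rfl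
  set M := ((im U)ᵀ * G * im U).submatrix e e with hM
  have hMpos : M.PosDef := posDef_reindex e (posDef_conj hG U V hUV)
  have hMsub : SubC c M := subC_reindex e (subC_conj hsub U)
  refine ⟨l, e, U, V, M.toBlocks₁₁, M.toBlocks₁₂, M.toBlocks₂₂, ?_, hUV, eq_blk hMpos, ?_⟩
  · have := Fintype.card_congr e
    simpa using this
  · -- the sublattice spanned by the `bM (f j)`
    set Z' : Matrix (Fin n) (Fin r) ℤ := U.submatrix id snf.f with hZ'
    have hA : M.toBlocks₁₁ = (im Z')ᵀ * G * im Z' := by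
      ext i j
      simp [M, toBlocks₁₁, he, hZ', im_submatrix, Matrix.mul_apply]
    -- `Z = Z' * T`
    have hvmem : ∀ j, v j ∈ N := fun j => Submodule.subset_span ⟨j, rfl⟩
    set T : Matrix (Fin r) (Fin r) ℤ := fun i j => snf.bN.repr ⟨v j, hvmem j⟩ i * snf.a i with hT
    have hZT : Z = Z' * T := by
      ext i' j
      have h1 := snf.bN.sum_repr ⟨v j, hvmem j⟩
      have h2 := congrArg (fun w : N => (w : Fin n → ℤ) i') h1
      simp only [AddSubmonoidClass.coe_finsetSum, Submodule.coe_smul, Finset.sum_apply,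
        Pi.smul_apply, smul_eq_mul] at h2
      rw [Matrix.mul_apply]
      change v j i' = _
      rw [← h2]
      apply Finset.sum_congr rfl
      intro i _
      rw [snf.snf i, hT, hZ', submatrix_apply, hUapp]
      simp only [Pi.smul_apply, smul_eq_mul, id]
      ring
    have hdet : ((im Z)ᵀ * G * im Z).det = (T.det : ℝ) ^ 2 * M.toBlocks₁₁.det := by
      have h1 : (im Z)ᵀ * G * im Z = (im T)ᵀ * M.toBlocks₁₁ * im T := by
        rw [hA, hZT, im_mul, transpose_mul]
        simp only [Matrix.mul_assoc]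
      rw [h1, det_mul, det_mul, det_transpose, det_im]
      ring
    have hT0 : T.det ≠ 0 := by
      intro h0
      rw [h0] at hdet
      simp at hdet
      exact hZ0 hdet
    have hT1 : (1 : ℝ) ≤ (T.det : ℝ) ^ 2 := by
      have h2 : (1 : ℤ) ≤ T.det ^ 2 := by
        have := sq_nonneg T.det
        have h3 : T.det ^ 2 ≠ 0 := pow_ne_zero 2 hT0
        omega
      exact_mod_cast h2
    have hA0 : M.toBlocks₁₁.det ≠ 0 := by
      intro h0
      rw [h0, mul_zero] at hdet
      exact hZ0 hdet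
    have hge : Real.exp (c * r) ≤ M.toBlocks₁₁.det := by
      rw [hA] at hA0 ⊢
      exact hsub r Z' hA0
    have hle : M.toBlocks₁₁.det ≤ Real.exp (c * r) := by
      rw [← hZ, hdet]
      nlinarith [Real.exp_pos (c * r)]
    exact le_antisymm hle hge

end Crest.Agent.R152.WRM
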