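import Mathlib
import Crest.Agent.R152.WRM2c

set_option autoImplicit false

/-!
# Row 152, WRM-2: the inductions (2) and (4)(i), and the counting corollary
-/

namespace Crest.Agent.R152.WRM

open Matrix

theorem rho_fin_zero (s : ℝ) (G : Matrix (Fin 0) (Fin 0) ℝ) : rho s G = 1 := by
  unfold rho
  rw [tsum_eq_single (0 : Fin 0 → ℤ) (fun z hz => absurd (Subsingleton.elim z 0) hz)]
  have h : qf G (iv (0 : Fin 0 → ℤ)) = 0 := by rw [iv_zero, qf_zero]
  rw [h, mul_zero, Real.exp_zero]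

theorem fV_fin_zero {s : ℝ} {G : Matrix (Fin 0) (Fin 0) ℝ} (hG : G.PosDef) : fV s G = 1 := by
  rw [fV_eq hG.posSemidef]
  have h2 : Iv (Real.pi / s ^ 2) G = 1 := by
    unfold Iv
    have h3 : ∀ x : Fin 0 → ℝ, dE (Real.pi / s ^ 2) G x = 1 := by
      intro x
      unfold dE gE
      have h4 : ∀ z : Fin 0 → ℤ, qf G (x - iv z) = 0 := by
        intro z; simp [qf]
      simp only [h4, mul_zero, Real.exp_zero, ENNReal.ofReal_one, ciSup_const]
    simp_rw [h3]
    rw [MeasureTheory.lintegral_one, MeasureTheory.Measure.restrict_apply_univ, volume_cube]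
  rw [h2]
  simp

/-- scaling to determinant one -/
theorem stable_smul {k : ℕ} {A : Matrix (Fin k) (Fin k) ℝ} (hA : A.PosDef) {c : ℝ}
    (hsub : SubC c A) (hdet : A.det = Real.exp (c * k)) : Stable (Real.exp (-c) • A) where
  posDef := hA.smul (Real.exp_pos _)
  det_eq := by
    rw [det_smul, Fintype.card_fin, hdet, ← Real.exp_nat_mul, ← Real.exp_add]
    have : (k : ℝ) * -c + c * k = 0 := by ring
    rw [this, Real.exp_zero]
  sub := by
    intro j Z hZ
    have h1 : (im Z)ᵀ * (Real.exp (-c) • A) * im Z = Real.exp (-c) • ((im Z)ᵀ * A * im Z) := by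
      rw [Matrix.mul_smul, Matrix.smul_mul]
    rw [h1, det_smul, Fintype.card_fin] at hZ ⊢
    have h2 := hsub j Z (right_ne_zero_of_mul hZ)
    calc (1 : ℝ) = Real.exp (-c) ^ j * Real.exp (c * j) := by
          rw [← Real.exp_nat_mul, ← Real.exp_add]
          have : (j : ℝ) * -c + c * j = 0 := by ring
          rw [this, Real.exp_zero]
      _ ≤ Real.exp (-c) ^ j * ((im Z)ᵀ * A * im Z).det := by gcongr

theorem rho_le_smul {ι : Type*} [Fintype ι] [DecidableEq ι] {s : ℝ} (hs : 0 < s)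
    {A : Matrix ι ι ℝ} (hA : A.PosDef) {a : ℝ} (ha : 0 < a) (ha1 : a ≤ 1) :
    rho s A ≤ rho s (a • A) := by
  unfold rho
  refine (summable_rho hs hA).tsum_le_tsum (fun z => ?_) (summable_rho hs (hA.smul ha))
  apply Real.exp_le_exp.2
  rw [qf_smul_mat]
  have h1 := qf_nonneg hA.posSemidef (iv z)
  have h2 : 0 ≤ Real.pi / s ^ 2 := by positivity
  have h3 : a * qf A (iv z) ≤ qf A (iv z) := by nlinarith
  nlinarith

/-- **(2)**: from stable lattices to all lattices with all sublattice determinants `≥ 1`. -/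
theorem rho_le_of_stable {s : ℝ} (hs : 0 < s) {C : ℝ} (n : ℕ)
    (hstab : ∀ k, 1 ≤ k → k ≤ n → ∀ A : Matrix (Fin k) (Fin k) ℝ, Stable A → rho s A ≤ C ^ k) :
    ∀ m ≤ n, ∀ G : Matrix (Fin m) (Fin m) ℝ, G.PosDef → SubDet G → rho s G ≤ C ^ m := by
  intro m
  induction m using Nat.strong_induction_on with
  | _ m ih =>
    intro hm G hG hsub
    rcases Nat.eq_zero_or_pos m with h0 | hpos
    · subst h0
      rw [rho_fin_zero, pow_zero]
    have : Nonempty (Fin m) := ⟨⟨0, hpos⟩⟩
    obtain ⟨c, k, Z, hc, hk, hsubc, hZ⟩ := exists_min_slope hG hsub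
    obtain ⟨l, e, U, V, A, B, D, hkl, hUV, hblk, hA⟩ := split_of hG hsubc Z hZ
    have hVU : V * U = 1 := mul_eq_one_comm.1 hUV
    have hbp : (blk A B D).PosDef := by
      rw [← hblk]; exact posDef_reindex e (posDef_conj hG U V hUV)
    have hbs : SubC c (blk A B D) := by
      rw [← hblk]; exact subC_reindex e (subC_conj hsubc U)
    have hr : rho s G = rho s (blk A B D) := by
      rw [← hblk, rho_reindex, rho_conj s G U V hUV hVU]
    have hApos := posDef_of_blk hbp
    have hst := stable_smul hApos (subC_fst hbs) hA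
    have h1 : rho s A ≤ C ^ k := by
      refine (rho_le_smul hs hApos (Real.exp_pos (-c)) ?_).trans (hstab k hk (by omega) _ hst)
      rw [← Real.exp_zero]
      exact Real.exp_le_exp.2 (by linarith)
    have h2 : rho s (schur A B D) ≤ C ^ l :=
      ih l (by omega) (by omega) _ (schur_posDef hbp)
        ((subC_schur hbp hbs hA).subDet hc)
    rw [hr]
    calc rho s (blk A B D) ≤ rho s A * rho s (schur A B D) := rho_blk_le hs hbp
      _ ≤ C ^ k * C ^ l := by
          have a1 := rho_pos hs hApos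
          have a2 := rho_pos hs (schur_posDef hbp)
          gcongr
          exact a1.le.trans h1
      _ = C ^ m := by rw [← pow_add, hkl]

/-- **(4)(i)**: induction on the rank for the lower bound of `fV` on stable lattices. -/
theorem fV_ge_of_min {s : ℝ} (hs : 0 < s) {q : ℝ} (hq0 : 0 < q) (hq1 : q ≤ 1) (n : ℕ)
    (hmin : ∀ k, 1 ≤ k → k ≤ n → ∃ G0 : Matrix (Fin k) (Fin k) ℝ, Stable G0 ∧
      (∀ G : Matrix (Fin k) (Fin k) ℝ, Stable G → fV s G0 ≤ fV s G) ∧
      ((∃ j, 0 < j ∧ j < k ∧ ∃ Z : Matrix (Fin k) (Fin j) ℤ, ((im Z)ᵀ * G0 * im Z).det = 1) ∨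
        q ≤ fV s G0)) :
    ∀ k ≤ n, ∀ G : Matrix (Fin k) (Fin k) ℝ, Stable G → q ^ k ≤ fV s G := by
  intro k
  induction k using Nat.strong_induction_on with
  | _ k ih =>
    intro hk G hG
    rcases Nat.eq_zero_or_pos k with h0 | hpos
    · subst h0
      rw [fV_fin_zero hG.posDef, pow_zero]
    obtain ⟨G0, hst, hle, h⟩ := hmin k hpos hk
    refine le_trans ?_ (hle G hG)
    rcases h with ⟨j, hj0, hjk, Z, hZ⟩ | h
    · have hsubc : SubC 0 G0 := hst.sub.subC
      have hZ' : ((im Z)ᵀ * G0 * im Z).det = Real.exp (0 * j) := by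
        rw [hZ, zero_mul, Real.exp_zero]
      obtain ⟨l, e, U, V, A, B, D, hjl, hUV, hblk, hA⟩ := split_of hst.posDef hsubc Z hZ'
      have hbp : (blk A B D).PosDef := by
        rw [← hblk]; exact posDef_reindex e (posDef_conj hst.posDef U V hUV)
      have hbs : SubC 0 (blk A B D) := by
        rw [← hblk]; exact subC_reindex e (subC_conj hsubc U)
      have hr : fV s G0 = fV s (blk A B D) := by
        rw [← hblk, fV_reindex e s (posDef_conj hst.posDef U V hUV),
          fV_conj s hst.posDef U V hUV]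
      have hApos := posDef_of_blk hbp
      have hA1 : A.det = 1 := by rw [hA, zero_mul, Real.exp_zero]
      have hAst : Stable A := ⟨hApos, hA1, (subC_fst hbs).subDet le_rfl⟩
      have hSst : Stable (schur A B D) := by
        refine ⟨schur_posDef hbp, ?_, (subC_schur hbp hbs hA).subDet le_rfl⟩
        have h1 := det_blk (B := B) (D := D) hApos
        have h2 : (blk A B D).det = 1 := by
          rw [← hblk, det_submatrix_equiv_self, det_conj G0 U V hUV, hst.det_eq]
        rw [h2, hA1, one_mul] at h1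
        exact h1.symm
      have h1 := ih j hjk (by omega) A hAst
      have h2 := ih l (by omega) (by omega) _ hSst
      rw [hr]
      calc q ^ k = q ^ j * q ^ l := by rw [← pow_add, hjl]
        _ ≤ fV s A * fV s (schur A B D) := by
            have a1 : 0 < q ^ j := pow_pos hq0 j
            have a2 : 0 < q ^ l := pow_pos hq0 l
            exact mul_le_mul h1 h2 a2.le (a1.le.trans h1)
        _ ≤ fV s (blk A B D) := fV_blk_ge hs hbp
    · refine le_trans ?_ h
      calc q ^ k ≤ q ^ 1 := pow_le_pow_of_le_one hq0.le hq1 hpos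
        _ = q := pow_one q

/-- combination of (1a), (2), (4)(i) -/
theorem rho_le_of_min {s : ℝ} (hs : 0 < s) {q : ℝ} (hq0 : 0 < q) (hq1 : q ≤ 1) (n : ℕ)
    (hmin : ∀ k, 1 ≤ k → k ≤ n → ∃ G0 : Matrix (Fin k) (Fin k) ℝ, Stable G0 ∧
      (∀ G : Matrix (Fin k) (Fin k) ℝ, Stable G → fV s G0 ≤ fV s G) ∧
      ((∃ j, 0 < j ∧ j < k ∧ ∃ Z : Matrix (Fin k) (Fin j) ℤ, ((im Z)ᵀ * G0 * im Z).det = 1) ∨
        q ≤ fV s G0)) :
    ∀ m ≤ n, ∀ G : Matrix (Fin m) (Fin m) ℝ, G.PosDef → SubDet G → rho s G ≤ (q⁻¹) ^ m := by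
  apply rho_le_of_stable hs n
  intro k _ hk A hA
  have h1 := fV_ge_of_min hs hq0 hq1 n hmin k hk A hA
  have h2 := rho_mul_fV_le hs hA.posDef
  have h3 := rho_pos hs hA.posDef
  rw [inv_pow, ← one_div, le_div_iff₀ (pow_pos hq0 k)]
  nlinarith

/-- counting lattice points -/
theorem count_le {ι : Type*} [Fintype ι] [DecidableEq ι] {s : ℝ} (hs : 0 < s)
    {G : Matrix ι ι ℝ} (hG : G.PosDef) {X : ℝ} (hX : rho s G ≤ X) (r : ℝ) :
    {z : ι → ℤ | qf G (iv z) ≤ r}.Finite ∧
      ({z : ι → ℤ | qf G (iv z) ≤ r}.ncard : ℝ) ≤ X * Real.exp (Real.pi / s ^ 2 * r) := by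
  have hc : 0 ≤ Real.pi / s ^ 2 := by positivity
  have key : ∀ F : Finset (ι → ℤ), (∀ z ∈ F, qf G (iv z) ≤ r) →
      (F.card : ℝ) ≤ X * Real.exp (Real.pi / s ^ 2 * r) := by
    intro F hF
    have h1 : (F.card : ℝ) * Real.exp (-(Real.pi / s ^ 2) * r) ≤ rho s G := by
      calc (F.card : ℝ) * Real.exp (-(Real.pi / s ^ 2) * r)
          = ∑ z ∈ F, Real.exp (-(Real.pi / s ^ 2) * r) := by simp
        _ ≤ ∑ z ∈ F, Real.exp (-(Real.pi / s ^ 2) * qf G (iv z)) := by
            apply Finset.sum_le_sum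
            intro z hz
            apply Real.exp_le_exp.2
            have := hF z hz
            nlinarith
        _ ≤ rho s G := (summable_rho hs hG).sum_le_tsum F (fun z _ => (Real.exp_pos _).le)
    have h2 : (F.card : ℝ) = ((F.card : ℝ) * Real.exp (-(Real.pi / s ^ 2) * r)) *
        Real.exp (Real.pi / s ^ 2 * r) := by
      rw [mul_assoc, ← Real.exp_add]
      have : -(Real.pi / s ^ 2) * r + Real.pi / s ^ 2 * r = 0 := by ring
      rw [this, Real.exp_zero, mul_one]
    rw [h2]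
    have h3 := Real.exp_pos (Real.pi / s ^ 2 * r)
    nlinarith
  have hfin : {z : ι → ℤ | qf G (iv z) ≤ r}.Finite := by
    by_contra hinf
    obtain ⟨N, hN⟩ := exists_nat_gt (X * Real.exp (Real.pi / s ^ 2 * r))
    obtain ⟨F, hF, hcard⟩ := Set.Infinite.exists_subset_card_eq hinf N
    have := key F (fun z hz => hF hz)
    rw [hcard] at this
    linarith
  refine ⟨hfin, ?_⟩
  rw [Set.ncard_eq_toFinset_card _ hfin]
  exact key _ (fun z hz => by simpa using hz)

end Crest.Agent.R152.WRM
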