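import Crest.Agent.R152.WRM3e

/-!
# Row 152, WRM-3f: openness of stability
-/

namespace Crest.Agent.R152.WRM3

open Matrix Module Filter Topology
open Crest.Agent.R152.WRM

set_option autoImplicit false

lemma inj_of_det_ne {α β : Type*} [Fintype α] [Fintype β] [DecidableEq β] {G : Matrix α α ℝ}
    {Z : Matrix α β ℤ} (h : (gr G Z).det ≠ 0) : Function.Injective (im Z).mulVec := by
  have h1 : Function.Injective (gr G Z).mulVec :=
    Matrix.mulVec_injective_iff_isUnit.mpr ((Matrix.isUnit_iff_isUnit_det _).mpr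
      (isUnit_iff_ne_zero.mpr h))
  intro x y hxy
  apply h1
  have hxy' : im Z *ᵥ x = im Z *ᵥ y := hxy
  unfold gr
  rw [← Matrix.mulVec_mulVec, hxy', Matrix.mulVec_mulVec]

lemma card_le_of_inj {m k : ℕ} {Z : Matrix (Fin m) (Fin k) ℤ}
    (h : Function.Injective (im Z).mulVec) : k ≤ m := by
  have := LinearMap.finrank_le_finrank_of_injective (f := (im Z).mulVecLin) (by
    intro x y hxy; exact h hxy)
  simpa using this

lemma one_le_norm_iv {α : Type*} [Fintype α] {z : α → ℤ} (hz : z ≠ 0) : 1 ≤ ‖iv z‖ := by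
  obtain ⟨i, hi⟩ := Function.ne_iff.mp hz
  have h1 := norm_le_pi_norm (iv z) i
  have h2 : (1:ℝ) ≤ ‖iv z i‖ := by
    simp only [iv, Real.norm_eq_abs]
    have : 1 ≤ |z i| := Int.one_le_abs hi
    exact_mod_cast this
  exact h2.trans h1

lemma abs_qf_sub_le {m : ℕ} {G G' : Matrix (Fin m) (Fin m) ℝ} {δ : ℝ}
    (h : ∀ i j, |G' i j - G i j| ≤ δ) (x : Fin m → ℝ) :
    |qf G' x - qf G x| ≤ (m : ℝ) ^ 2 * δ * ‖x‖ ^ 2 := by
  rw [qf_eq_sum, qf_eq_sum, ← Finset.sum_sub_distrib]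
  calc |∑ i, ((∑ j, x i * G' i j * x j) - ∑ j, x i * G i j * x j)|
      ≤ ∑ i, |(∑ j, x i * G' i j * x j) - ∑ j, x i * G i j * x j| :=
        Finset.abs_sum_le_sum_abs _ _
    _ ≤ ∑ i : Fin m, ∑ j : Fin m, δ * ‖x‖ ^ 2 := by
        refine Finset.sum_le_sum fun i _ => ?_
        rw [← Finset.sum_sub_distrib]
        refine (Finset.abs_sum_le_sum_abs _ _).trans (Finset.sum_le_sum fun j _ => ?_)
        have e : x i * G' i j * x j - x i * G i j * x j = x i * (G' i j - G i j) * x j := by ring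
        rw [e, abs_mul, abs_mul]
        have h1 : |x i| ≤ ‖x‖ := norm_le_pi_norm x i
        have h2 : |x j| ≤ ‖x‖ := norm_le_pi_norm x j
        have h0 : 0 ≤ δ := (abs_nonneg _).trans (h i j)
        calc |x i| * |G' i j - G i j| * |x j| ≤ ‖x‖ * δ * ‖x‖ := by
              gcongr
              exact h i j
          _ = δ * ‖x‖ ^ 2 := by ring
    _ = (m : ℝ) ^ 2 * δ * ‖x‖ ^ 2 := by
        simp; ring

lemma uniform_lower {m : ℕ} {G : Matrix (Fin m) (Fin m) ℝ} (hG : G.PosDef) :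
    ∃ c : ℝ, 0 < c ∧ ∀ᶠ G' in 𝓝 G, ∀ x : Fin m → ℝ, c * ‖x‖ ^ 2 ≤ qf G' x := by
  obtain ⟨c0, hc0, h⟩ := exists_qf_lower hG
  set δ : ℝ := c0 / (2 * ((m:ℝ) ^ 2 + 1)) with hδ
  have hδp : 0 < δ := by positivity
  have hm : (m:ℝ) ^ 2 * δ ≤ c0 / 2 := by
    rw [hδ, mul_div_assoc', div_le_div_iff₀ (by positivity) (by norm_num)]
    nlinarith [sq_nonneg (m:ℝ)]
  refine ⟨c0 / 2, by positivity, ?_⟩
  have hev : ∀ᶠ G' in 𝓝 G, ∀ i j, |G' i j - G i j| < δ := by
    rw [eventually_all]; intro i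
    rw [eventually_all]; intro j
    have hcont : Continuous fun G' : Matrix (Fin m) (Fin m) ℝ => |G' i j - G i j| := by
      fun_prop
    have : (fun G' : Matrix (Fin m) (Fin m) ℝ => |G' i j - G i j|) G < δ := by simpa using hδp
    exact hcont.continuousAt.eventually_lt continuousAt_const this
  filter_upwards [hev] with G' hG' x
  have h1 := abs_qf_sub_le (fun i j => (hG' i j).le) x
  have h2 := h x
  have h3 := (abs_le.mp h1).1
  have h4 : (m:ℝ) ^ 2 * δ * ‖x‖ ^ 2 ≤ c0 / 2 * ‖x‖ ^ 2 := by gcongr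
  linarith

lemma finite_bounded_mat {m k : ℕ} (K : ℝ) :
    {Z : Matrix (Fin m) (Fin k) ℤ | ∀ i j, (Z i j : ℝ) ^ 2 ≤ K}.Finite := by
  set N : ℤ := ⌈K⌉ with hN
  refine Set.Finite.subset (Set.Finite.pi' (t := fun _ : Fin m =>
    {f : Fin k → ℤ | ∀ j, f j ∈ Set.Icc (-N) N}) (fun _ => Set.Finite.pi' fun _ =>
      Set.finite_Icc _ _)) ?_
  intro Z hZ i j
  have h1 : (Z i j : ℝ) ^ 2 ≤ N := (hZ i j).trans (Int.le_ceil _)
  have h2 : (Z i j) ^ 2 ≤ N := by exact_mod_cast h1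
  have h4 : |Z i j| ≤ N := by
    rcases eq_or_ne (Z i j) 0 with h0 | h0
    · rw [h0] at h2 ⊢; simpa using h2
    · have : 1 ≤ |Z i j| := Int.one_le_abs h0
      nlinarith [sq_abs (Z i j)]
  exact abs_le.mp h4

/-- **openness of stability** in the absence of proper sublattices of determinant one -/
theorem eventually_stable {m : ℕ} {G : Matrix (Fin m) (Fin m) ℝ} (hG : Stable G)
    (hno : ∀ (k : ℕ) (Z : Matrix (Fin m) (Fin k) ℤ), 0 < k → k < m → (gr G Z).det ≠ 1) :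
    ∀ᶠ G' in 𝓝 G, G'.PosDef → G'.det = 1 → Stable G' := by
  obtain ⟨c, hc, hlow⟩ := uniform_lower hG.posDef
  choose C1 hC1 using fun k : ℕ => red k c 1 hc
  have hfin : ∀ k : Fin m, ∀ᶠ G' in 𝓝 G, ∀ Z : Matrix (Fin m) (Fin k) ℤ,
      (∀ i j, (Z i j : ℝ) ^ 2 ≤ C1 k / c) → 1 < (gr G Z).det → 1 < (gr G' Z).det := by
    intro k
    have hf := finite_bounded_mat (m := m) (k := k) (C1 k / c)
    have h1 : ∀ Z ∈ {Z : Matrix (Fin m) (Fin k) ℤ | ∀ i j, (Z i j : ℝ) ^ 2 ≤ C1 k / c},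
        ∀ᶠ G' in 𝓝 G, 1 < (gr G Z).det → 1 < (gr G' Z).det := by
      intro Z _
      by_cases hd : 1 < (gr G Z).det
      · have := (continuous_det_gr (α := Fin m) Z).continuousAt (x := G)
        filter_upwards [continuousAt_const.eventually_lt this hd] with G' hG' _ using hG'
      · exact Eventually.of_forall fun G' h => absurd h hd
    have h2 := (Filter.eventually_all_finite hf).mpr h1
    filter_upwards [h2] with G' hG' Z hZ hd using hG' Z hZ hd
  have hall := Filter.eventually_all.mpr hfin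
  filter_upwards [hlow, hall] with G' hlow' hG' hpos hdet
  refine ⟨hpos, hdet, ?_⟩
  intro k Z hZ
  change (gr G' Z).det ≠ 0 at hZ
  change 1 ≤ (gr G' Z).det
  have hinj := inj_of_det_ne hZ
  have hkm := card_le_of_inj hinj
  rcases Nat.eq_zero_or_pos k with rfl | hk
  · simp
  rcases hkm.eq_or_lt with rfl | hlt
  · rw [det_gr, hdet, mul_one] at hZ ⊢
    have h1 : Z.det ≠ 0 := by
      intro h; simp [h] at hZ
    have h2 : 1 ≤ Z.det ^ 2 := by
      have := Int.one_le_abs h1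
      nlinarith [sq_abs Z.det]
    exact_mod_cast h2
  by_contra hlt1
  push Not at hlt1
  have hpd : (gr G' Z).PosDef := gr_posDef hpos hinj
  obtain ⟨U, hU, hb⟩ := hC1 k (gr G' Z) hpd (by
    intro w hw
    rw [qf_gr, im_mulVec_iv]
    have hne : Z *ᵥ w ≠ 0 := by
      intro h
      have h1 : im Z *ᵥ iv w = im Z *ᵥ 0 := by
        rw [im_mulVec_iv, h, Matrix.mulVec_zero]; ext i; simp [iv]
      exact iv_ne_zero hw (hinj h1)
    have h1 := one_le_norm_iv hne
    calc c = c * 1 ^ 2 := by ring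
      _ ≤ c * ‖iv (Z *ᵥ w)‖ ^ 2 := by gcongr
      _ ≤ _ := hlow' _) hlt1.le
  have hb' : ∀ i j, (((Z * U) i j : ℤ) : ℝ) ^ 2 ≤ C1 k / c := by
    intro i j
    have h1 := hb j
    rw [← gr_mul] at h1
    have key : gr G' (Z * U) j j = qf G' (iv (fun a => (Z * U) a j)) := by
      rw [gr_apply, qf_eq_sum]; simp only [iv]
    rw [key] at h1
    have h2 := norm_iv_sq_le hc hlow' h1 i
    rwa [sq_abs] at h2
  have hd' : (gr G' (Z * U)).det = (gr G' Z).det := by
    rw [gr_mul, det_gr_unit _ hU]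
  have hinj' : Function.Injective (im (Z * U)).mulVec :=
    inj_of_det_ne (G := G') (by rw [hd']; exact hZ)
  have hGpos : 0 < (gr G (Z * U)).det := (gr_posDef hG.posDef hinj').det_pos
  have h1 : 1 ≤ (gr G (Z * U)).det := hG.sub k (Z * U) hGpos.ne'
  have h2 : 1 < (gr G (Z * U)).det := lt_of_le_of_ne h1 (Ne.symm (hno k (Z * U) hk hlt))
  have h3 := hG' ⟨k, hlt⟩ (Z * U) hb' h2
  rw [hd'] at h3
  linarith

end Crest.Agent.R152.WRM3
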