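import Mathlib
import Crest.Agent.R152.WRMDefs

/-!
Row 152, weak reverse Minkowski, module WRM-4 (b): Voronoi cell in Gram matrix form.
-/

set_option linter.unusedSectionVars false
set_option linter.deprecated false
set_option autoImplicit false

open MeasureTheory Metric Matrix Filter Topology

namespace Crest.Agent.R152.WRM4

open Crest.Agent.R152.WRM

variable {ι : Type*} [Fintype ι]

/-- Voronoi cell of the Gram matrix `G` -/
def VG (G : Matrix ι ι ℝ) : Set (ι → ℝ) := {x | ∀ z : ι → ℤ, qf G x ≤ qf G (x - iv z)}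

/-- entrywise ℓ¹ norm -/
noncomputable def S1 (M : Matrix ι ι ℝ) : ℝ := ∑ i, ∑ j, |M i j|

theorem S1_nonneg (M : Matrix ι ι ℝ) : 0 ≤ S1 M :=
  Finset.sum_nonneg fun _ _ => Finset.sum_nonneg fun _ _ => abs_nonneg _

theorem qf_eq_sum (G : Matrix ι ι ℝ) (x : ι → ℝ) : qf G x = ∑ i, ∑ j, x i * G i j * x j := by
  simp only [qf, dotProduct, mulVec, Finset.mul_sum, mul_assoc]

theorem continuous_qf (G : Matrix ι ι ℝ) : Continuous (qf G) := by
  have : qf G = fun x => ∑ i, ∑ j, x i * G i j * x j := funext (qf_eq_sum G)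
  rw [this]
  fun_prop

theorem continuous_qf_left (x : ι → ℝ) : Continuous (fun G : Matrix ι ι ℝ => qf G x) := by
  simp only [qf_eq_sum]
  refine continuous_finset_sum _ fun i _ => continuous_finset_sum _ fun j _ => ?_
  exact (continuous_const.mul (continuous_id.matrix_elem i j)).mul continuous_const

theorem qf_sub_left (G G' : Matrix ι ι ℝ) (x : ι → ℝ) : qf (G - G') x = qf G x - qf G' x := by
  simp [qf, sub_mulVec, dotProduct_sub]

theorem qf_add_left (G G' : Matrix ι ι ℝ) (x : ι → ℝ) : qf (G + G') x = qf G x + qf G' x := by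
  simp [qf, add_mulVec, dotProduct_add]

theorem qf_smul_left (a : ℝ) (G : Matrix ι ι ℝ) (x : ι → ℝ) : qf (a • G) x = a * qf G x := by
  simp [qf, smul_mulVec, dotProduct_smul]

theorem qf_neg (G : Matrix ι ι ℝ) (x : ι → ℝ) : qf G (-x) = qf G x := by
  simp [qf, mulVec_neg]

theorem qf_zero (G : Matrix ι ι ℝ) : qf G 0 = 0 := by simp [qf]

theorem qf_smul (G : Matrix ι ι ℝ) (a : ℝ) (x : ι → ℝ) : qf G (a • x) = a ^ 2 * qf G x := by
  simp only [qf, mulVec_smul, dotProduct_smul, smul_dotProduct, smul_eq_mul]; ring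

theorem abs_qf_le (M : Matrix ι ι ℝ) (x : ι → ℝ) : |qf M x| ≤ S1 M * ‖x‖ ^ 2 := by
  rw [qf_eq_sum, S1, Finset.sum_mul]
  refine (Finset.abs_sum_le_sum_abs _ _).trans (Finset.sum_le_sum fun i _ => ?_)
  rw [Finset.sum_mul]
  refine (Finset.abs_sum_le_sum_abs _ _).trans (Finset.sum_le_sum fun j _ => ?_)
  rw [abs_mul, abs_mul]
  have hi : |x i| ≤ ‖x‖ := norm_le_pi_norm x i
  have hj : |x j| ≤ ‖x‖ := norm_le_pi_norm x j
  calc |x i| * |M i j| * |x j| ≤ ‖x‖ * |M i j| * ‖x‖ := by gcongr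
    _ = |M i j| * ‖x‖ ^ 2 := by ring

theorem qf_pos {G : Matrix ι ι ℝ} (hG : G.PosDef) {x : ι → ℝ} (hx : x ≠ 0) : 0 < qf G x := by
  have := hG.dotProduct_mulVec_pos hx
  simpa [qf] using this

theorem qf_nonneg {G : Matrix ι ι ℝ} (hG : G.PosDef) (x : ι → ℝ) : 0 ≤ qf G x := by
  by_cases hx : x = 0
  · rw [hx, qf_zero]
  · exact (qf_pos hG hx).le

theorem exists_lower {G : Matrix ι ι ℝ} (hG : G.PosDef) :
    ∃ κ : ℝ, 0 < κ ∧ ∀ x : ι → ℝ, κ * ‖x‖ ^ 2 ≤ qf G x := by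
  by_cases hne : (sphere (0 : ι → ℝ) 1).Nonempty
  · obtain ⟨x0, hx0, hmin⟩ := (isCompact_sphere (0 : ι → ℝ) 1).exists_isMinOn hne
      (continuous_qf G).continuousOn
    have hx0' : x0 ≠ 0 := by
      rintro rfl; simp at hx0
    refine ⟨qf G x0, qf_pos hG hx0', fun x => ?_⟩
    by_cases hx : x = 0
    · simp [hx, qf_zero]
    · have hxn : 0 < ‖x‖ := norm_pos_iff.2 hx
      have hmem : (‖x‖⁻¹ • x) ∈ sphere (0 : ι → ℝ) 1 := by
        simp [norm_smul, hxn.ne']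
      have h1 : qf G x0 ≤ qf G (‖x‖⁻¹ • x) := hmin hmem
      rw [qf_smul] at h1
      have h2 : qf G x0 * ‖x‖ ^ 2 ≤ (‖x‖⁻¹ ^ 2 * qf G x) * ‖x‖ ^ 2 :=
        mul_le_mul_of_nonneg_right h1 (by positivity)
      calc qf G x0 * ‖x‖ ^ 2 ≤ (‖x‖⁻¹ ^ 2 * qf G x) * ‖x‖ ^ 2 := h2
        _ = qf G x := by field_simp
  · refine ⟨1, one_pos, fun x => ?_⟩
    have hx : x = 0 := by
      by_contra hx
      apply hne
      have hxn : 0 < ‖x‖ := norm_pos_iff.2 hx
      exact ⟨‖x‖⁻¹ • x, by simp [norm_smul, hxn.ne']⟩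
    simp [hx, qf_zero]

/-- cross terms -/
theorem qf_sub {G : Matrix ι ι ℝ} (hG : G.IsSymm) (x y : ι → ℝ) :
    qf G (x - y) = qf G x - 2 * (x ⬝ᵥ (G *ᵥ y)) + qf G y := by
  have h : y ⬝ᵥ (G *ᵥ x) = x ⬝ᵥ (G *ᵥ y) := by
    rw [dotProduct_mulVec, ← mulVec_transpose, hG.eq, dotProduct_comm]
  simp only [qf, mulVec_sub, dotProduct_sub, sub_dotProduct, h]
  ring

theorem isSymm_of_posDef {G : Matrix ι ι ℝ} (hG : G.PosDef) : G.IsSymm := by
  have := hG.isHermitian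
  rw [IsHermitian, conjTranspose_eq_transpose_of_trivial] at this
  exact this

theorem iv_zero : iv (0 : ι → ℤ) = 0 := by ext i; simp [iv]
theorem iv_neg (z : ι → ℤ) : iv (-z) = -iv z := by ext i; simp [iv]
theorem iv_add (z w : ι → ℤ) : iv (z + w) = iv z + iv w := by ext i; simp [iv]
theorem iv_sub (z w : ι → ℤ) : iv (z - w) = iv z - iv w := by ext i; simp [iv]

theorem iv_injective : Function.Injective (iv : (ι → ℤ) → (ι → ℝ)) := by
  intro z w h
  ext i
  have := congrFun h i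
  simpa [iv] using this

theorem norm_iv (z : ι → ℤ) : ‖iv z‖ = ‖z‖ := by
  simp only [Pi.norm_def, iv]
  congr 1

theorem finite_norm_iv_le (R : ℝ) : {z : ι → ℤ | ‖iv z‖ ≤ R}.Finite := by
  have : {z : ι → ℤ | ‖iv z‖ ≤ R} = closedBall (0 : ι → ℤ) R := by
    ext z; simp [norm_iv]
  rw [this]
  exact (isCompact_closedBall (0 : ι → ℤ) R).finite_of_discrete

theorem isClosed_VG (G : Matrix ι ι ℝ) : IsClosed (VG G) := by
  have : VG G = ⋂ z : ι → ℤ, {x | qf G x ≤ qf G (x - iv z)} := by ext; simp [VG]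
  rw [this]
  exact isClosed_iInter fun z => isClosed_le (continuous_qf G)
    ((continuous_qf G).comp (continuous_id.sub continuous_const))

theorem measurableSet_VG (G : Matrix ι ι ℝ) : MeasurableSet (VG G) := (isClosed_VG G).measurableSet

theorem neg_mem_VG {G : Matrix ι ι ℝ} {x : ι → ℝ} (hx : x ∈ VG G) : -x ∈ VG G := by
  intro z
  rw [qf_neg]
  have := hx (-z)
  rw [iv_neg, ← qf_neg G (x - -iv z)] at this
  convert! this using 2
  abel

theorem zero_mem_VG {G : Matrix ι ι ℝ} (hG : G.PosDef) : (0 : ι → ℝ) ∈ VG G := by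
  intro z; rw [qf_zero]; exact qf_nonneg hG _

/-- coordinatewise rounding -/
theorem exists_round (x : ι → ℝ) : ∃ z : ι → ℤ, ‖x - iv z‖ ≤ 1 := by
  refine ⟨fun i => ⌊x i⌋, ?_⟩
  rw [pi_norm_le_iff_of_nonneg zero_le_one]
  intro i
  simp only [Pi.sub_apply, iv, Real.norm_eq_abs]
  rw [abs_le]
  constructor
  · linarith [Int.floor_le (x i)]
  · linarith [Int.lt_floor_add_one (x i)]

theorem norm_le_of_mem_VG {G : Matrix ι ι ℝ} {κ : ℝ} (hκ : 0 < κ)
    (hlow : ∀ x : ι → ℝ, κ * ‖x‖ ^ 2 ≤ qf G x) {x : ι → ℝ} (hx : x ∈ VG G) :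
    ‖x‖ ^ 2 ≤ S1 G / κ := by
  obtain ⟨z, hz⟩ := exists_round x
  rw [le_div_iff₀ hκ]
  calc ‖x‖ ^ 2 * κ = κ * ‖x‖ ^ 2 := by ring
    _ ≤ qf G x := hlow x
    _ ≤ qf G (x - iv z) := hx z
    _ ≤ |qf G (x - iv z)| := le_abs_self _
    _ ≤ S1 G * ‖x - iv z‖ ^ 2 := abs_qf_le _ _
    _ ≤ S1 G * 1 ^ 2 := by
        have := S1_nonneg G
        gcongr
    _ = S1 G := by ring

theorem isBounded_VG {G : Matrix ι ι ℝ} (hG : G.PosDef) : Bornology.IsBounded (VG G) := by
  obtain ⟨κ, hκ, hlow⟩ := exists_lower hG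
  refine isBounded_iff_forall_norm_le.2 ⟨Real.sqrt (S1 G / κ), fun x hx => ?_⟩
  exact Real.le_sqrt_of_sq_le (norm_le_of_mem_VG hκ hlow hx)

theorem isCompact_VG {G : Matrix ι ι ℝ} (hG : G.PosDef) : IsCompact (VG G) :=
  isCompact_of_isClosed_isBounded (isClosed_VG G) (isBounded_VG hG)

/-- attained minimum -/
theorem exists_min {G : Matrix ι ι ℝ} (hG : G.PosDef) (x : ι → ℝ) :
    ∃ z : ι → ℤ, ∀ w : ι → ℤ, qf G (x - iv z) ≤ qf G (x - iv w) := by
  classical
  obtain ⟨κ, hκ, hlow⟩ := exists_lower hG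
  -- candidates
  let R : ℝ := Real.sqrt (qf G x / κ) + ‖x‖
  have hfin : {z : ι → ℤ | ‖iv z‖ ≤ R}.Finite := finite_norm_iv_le R
  have h0 : (0 : ι → ℤ) ∈ hfin.toFinset := by
    simp only [Set.Finite.mem_toFinset, Set.mem_setOf_eq, iv_zero, norm_zero]
    positivity
  obtain ⟨z, hz, hmin⟩ := hfin.toFinset.exists_min_image (fun z => qf G (x - iv z)) ⟨0, h0⟩
  refine ⟨z, fun w => ?_⟩
  by_cases hw : ‖iv w‖ ≤ R
  · exact hmin w (by simpa using hw)
  · push Not at hw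
    have h1 : qf G (x - iv z) ≤ qf G x := by
      have := hmin 0 h0
      simpa [iv_zero] using this
    have h2 : Real.sqrt (qf G x / κ) < ‖x - iv w‖ := by
      have : ‖iv w‖ ≤ ‖x - iv w‖ + ‖x‖ := by
        calc ‖iv w‖ = ‖x - (x - iv w)‖ := by congr 1; abel
          _ ≤ ‖x‖ + ‖x - iv w‖ := norm_sub_le _ _
          _ = _ := add_comm _ _
      linarith
    have h3 : qf G x / κ ≤ ‖x - iv w‖ ^ 2 := by
      have := Real.sqrt_nonneg (qf G x / κ)
      calc qf G x / κ = (Real.sqrt (qf G x / κ)) ^ 2 :=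
            (Real.sq_sqrt (div_nonneg (qf_nonneg hG x) hκ.le)).symm
        _ ≤ ‖x - iv w‖ ^ 2 := by gcongr
    rw [div_le_iff₀ hκ] at h3
    calc qf G (x - iv z) ≤ qf G x := h1
      _ ≤ ‖x - iv w‖ ^ 2 * κ := h3
      _ = κ * ‖x - iv w‖ ^ 2 := by ring
      _ ≤ qf G (x - iv w) := hlow _

theorem bddBelow_range {G : Matrix ι ι ℝ} (hG : G.PosDef) (x : ι → ℝ) :
    BddBelow (Set.range fun z : ι → ℤ => qf G (x - iv z)) :=
  ⟨0, by rintro _ ⟨z, rfl⟩; exact qf_nonneg hG _⟩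

theorem dsq_le {G : Matrix ι ι ℝ} (hG : G.PosDef) (x : ι → ℝ) (z : ι → ℤ) :
    dsq G x ≤ qf G (x - iv z) := ciInf_le (bddBelow_range hG x) z

theorem dsq_nonneg {G : Matrix ι ι ℝ} (hG : G.PosDef) (x : ι → ℝ) : 0 ≤ dsq G x :=
  Real.iInf_nonneg fun _ => qf_nonneg hG _

theorem dsq_le_qf {G : Matrix ι ι ℝ} (hG : G.PosDef) (x : ι → ℝ) : dsq G x ≤ qf G x := by
  have := dsq_le hG x 0
  simpa [iv_zero] using this

theorem dsq_eq_of_mem_VG {G : Matrix ι ι ℝ} (hG : G.PosDef) {x : ι → ℝ} (hx : x ∈ VG G) :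
    dsq G x = qf G x :=
  le_antisymm (dsq_le_qf hG x) (le_ciInf hx)

theorem dsq_add_iv (G : Matrix ι ι ℝ) (x : ι → ℝ) (w : ι → ℤ) :
    dsq G (x + iv w) = dsq G x := by
  unfold dsq
  refine Equiv.iInf_congr (Equiv.subRight w) fun z => ?_
  congr 1
  rw [Equiv.subRight_apply, iv_sub]; abel

theorem exists_sub_mem_VG {G : Matrix ι ι ℝ} (hG : G.PosDef) (x : ι → ℝ) :
    ∃ z : ι → ℤ, x - iv z ∈ VG G := by
  obtain ⟨z, hz⟩ := exists_min hG x
  refine ⟨z, fun w => ?_⟩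
  have := hz (z + w)
  rw [iv_add] at this
  convert! this using 2
  abel

/-- equidistant points form a null set -/
theorem volume_equidist {G : Matrix ι ι ℝ} (hG : G.PosDef) {y : ι → ℝ} (hy : y ≠ 0) :
    volume {x : ι → ℝ | qf G x = qf G (x - y)} = 0 := by
  classical
  let f : (ι → ℝ) →ₗ[ℝ] ℝ :=
    { toFun := fun x => x ⬝ᵥ (G *ᵥ y)
      map_add' := fun a b => add_dotProduct _ _ _
      map_smul' := fun a b => smul_dotProduct _ _ _ }
  have hf : ∀ x, f x = x ⬝ᵥ (G *ᵥ y) := fun _ => rfl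
  have hqy : 0 < qf G y := qf_pos hG hy
  have hset : {x : ι → ℝ | qf G x = qf G (x - y)} ⊆
      (AffineSubspace.mk' ((1 / 2 : ℝ) • y) (LinearMap.ker f) : Set (ι → ℝ)) := by
    intro x hx
    simp only [Set.mem_setOf_eq] at hx
    rw [qf_sub (isSymm_of_posDef hG)] at hx
    rw [SetLike.mem_coe, AffineSubspace.mem_mk', LinearMap.mem_ker]
    rw [vsub_eq_sub, map_sub, map_smul, hf, hf]
    have : y ⬝ᵥ (G *ᵥ y) = qf G y := rfl
    rw [this, smul_eq_mul]
    linarith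
  refine measure_mono_null hset (Measure.addHaar_affineSubspace volume _ ?_)
  intro htop
  have h0 : (y : ι → ℝ) ∈ (AffineSubspace.mk' ((1 / 2 : ℝ) • y) (LinearMap.ker f)) := by
    rw [htop]; exact AffineSubspace.mem_top _ _ _
  rw [AffineSubspace.mem_mk', LinearMap.mem_ker, vsub_eq_sub, map_sub, map_smul, hf] at h0
  have : y ⬝ᵥ (G *ᵥ y) = qf G y := rfl
  rw [this, smul_eq_mul] at h0
  linarith

/-- the lattice `ℤ^ι` -/
abbrev Lam (ι : Type*) [Fintype ι] : Submodule ℤ (ι → ℝ) :=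
  Submodule.span ℤ (Set.range (Pi.basisFun ℝ ι))

theorem iv_mem_Lam (z : ι → ℤ) : iv z ∈ Lam ι := by
  classical
  have : iv z = ∑ i, z i • (Pi.basisFun ℝ ι i) := by
    ext j
    simp [iv, Pi.basisFun_apply, Finset.sum_apply, Pi.single_apply]
  rw [this]
  exact Submodule.sum_mem _ fun i _ => Submodule.smul_mem _ _ (Submodule.subset_span ⟨i, rfl⟩)

theorem mem_Lam_iff (x : ι → ℝ) : x ∈ Lam ι ↔ ∃ z : ι → ℤ, iv z = x := by
  classical
  constructor
  · intro hx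
    rw [(Pi.basisFun ℝ ι).mem_span_iff_repr_mem ℤ] at hx
    choose z hz using hx
    refine ⟨z, ?_⟩
    ext i
    have := hz i
    simpa [iv] using this
  · rintro ⟨z, rfl⟩; exact iv_mem_Lam z

instance instVAddInvLam : VAddInvariantMeasure (Lam ι) (ι → ℝ) (volume : Measure (ι → ℝ)) :=
  inferInstanceAs <| VAddInvariantMeasure (Lam ι).toAddSubgroup (ι → ℝ) volume

instance instMeasVAddLam : MeasurableConstVAdd (Lam ι) (ι → ℝ) :=
  inferInstanceAs <| MeasurableConstVAdd (Lam ι).toAddSubgroup (ι → ℝ)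

theorem isAddFundamentalDomain_cube :
    IsAddFundamentalDomain (Lam ι) (cube ι) (volume : Measure (ι → ℝ)) := by
  have := ZSpan.isAddFundamentalDomain (Pi.basisFun ℝ ι) (volume : Measure (ι → ℝ))
  rwa [ZSpan.fundamentalDomain_pi_basisFun] at this

theorem isAddFundamentalDomain_VG {G : Matrix ι ι ℝ} (hG : G.PosDef) :
    IsAddFundamentalDomain (Lam ι) (VG G) (volume : Measure (ι → ℝ)) := by
  refine IsAddFundamentalDomain.mk'' (measurableSet_VG G).nullMeasurableSet ?_ ?_ ?_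
  · refine Filter.Eventually.of_forall fun x => ?_
    obtain ⟨z, hz⟩ := exists_sub_mem_VG hG x
    refine ⟨⟨-iv z, (Lam ι).neg_mem (iv_mem_Lam z)⟩, ?_⟩
    change -iv z + x ∈ VG G
    rw [neg_add_eq_sub]; exact hz
  · intro g hg
    have hg' : (g : ι → ℝ) ≠ 0 := fun h => hg (Subtype.ext h)
    obtain ⟨w, hw⟩ := (mem_Lam_iff _).1 g.2
    refine measure_mono_null ?_ (volume_equidist hG hg')
    intro x hx
    obtain ⟨hx1, hx2⟩ := hx
    rw [Set.mem_vadd_set_iff_neg_vadd_mem] at hx1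
    have hx1' : -(g : ι → ℝ) + x ∈ VG G := hx1
    rw [neg_add_eq_sub] at hx1'
    refine le_antisymm ?_ ?_
    · have := hx2 w
      rwa [hw] at this
    · have := hx1' (-w)
      rw [iv_neg, hw] at this
      simpa using this
  · intro g
    exact (measurePreserving_vadd g volume).quasiMeasurePreserving

/-- integral of a periodic function over any fundamental domain -/
theorem setIntegral_periodic {D D' : Set (ι → ℝ)}
    (hD : IsAddFundamentalDomain (Lam ι) D (volume : Measure (ι → ℝ)))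
    (hD' : IsAddFundamentalDomain (Lam ι) D' (volume : Measure (ι → ℝ))) (g : (ι → ℝ) → ℝ)
    (hg : ∀ (x : ι → ℝ) (w : ι → ℤ), g (x + iv w) = g x) :
    ∫ x in D, g x = ∫ x in D', g x := by
  refine IsAddFundamentalDomain.setIntegral_eq hD hD' ?_
  intro y x
  obtain ⟨w, hw⟩ := (mem_Lam_iff _).1 y.2
  change g ((y : ι → ℝ) + x) = g x
  rw [add_comm, ← hw]; exact hg x w

theorem setIntegral_dsq_VG {G : Matrix ι ι ℝ} (hG : G.PosDef) {D : Set (ι → ℝ)}
    (hD : IsAddFundamentalDomain (Lam ι) D (volume : Measure (ι → ℝ))) (c : ℝ) :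
    ∫ x in D, Real.exp (-c * dsq G x) = ∫ x in VG G, Real.exp (-c * qf G x) := by
  rw [setIntegral_periodic hD (isAddFundamentalDomain_VG hG) _
    (fun x w => by rw [dsq_add_iv])]
  refine setIntegral_congr_fun (measurableSet_VG G) fun x hx => ?_
  simp only [dsq_eq_of_mem_VG hG hx]

/-- `fV` as an integral over the Voronoi cell -/
theorem fV_eq [DecidableEq ι] {G : Matrix ι ι ℝ} (hG : G.PosDef) (s : ℝ) :
    fV s G = (Real.sqrt G.det / s ^ Fintype.card ι) *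
      ∫ x in VG G, Real.exp (-(Real.pi / s ^ 2) * qf G x) := by
  rw [fV, setIntegral_dsq_VG hG isAddFundamentalDomain_cube]

theorem volume_VG {G : Matrix ι ι ℝ} (hG : G.PosDef) : volume (VG G) = 1 := by
  rw [IsAddFundamentalDomain.measure_eq (isAddFundamentalDomain_VG hG)
    (isAddFundamentalDomain_cube (ι := ι))]
  simp [cube, Real.volume_pi_Ico]

end Crest.Agent.R152.WRM4
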