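import Mathlib
import Crest.Agent.R152.WRM4b

/-!
Row 152, weak reverse Minkowski, module WRM-4 (c): continuity of `fV` and the first order
condition (one-sided version).
-/

set_option linter.unusedSectionVars false
set_option linter.unusedVariables false
set_option linter.deprecated false
set_option autoImplicit false

open MeasureTheory Metric Matrix Filter Topology

namespace Crest.Agent.R152.WRM4

open Crest.Agent.R152.WRM

variable {ι : Type*} [Fintype ι]

theorem measurable_dsq (G : Matrix ι ι ℝ) : Measurable (dsq G) :=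
  Measurable.iInf fun z => ((continuous_qf G).comp (continuous_id.sub continuous_const)).measurable

theorem continuous_S1 : Continuous (S1 : Matrix ι ι ℝ → ℝ) := by
  unfold S1
  refine continuous_finset_sum _ fun i _ => continuous_finset_sum _ fun j _ => ?_
  exact (continuous_id.matrix_elem i j).abs

theorem dsq_lower {G G0 : Matrix ι ι ℝ} (hG0 : G0.PosDef) {ε : ℝ} (hε : ε ≤ 1)
    (h : ∀ y, (1 - ε) * qf G0 y ≤ qf G y) (x : ι → ℝ) :
    (1 - ε) * dsq G0 x ≤ dsq G x := by
  refine le_ciInf fun z => ?_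
  refine le_trans ?_ (h _)
  exact mul_le_mul_of_nonneg_left (dsq_le hG0 x z) (by linarith)

theorem dsq_upper {G G0 : Matrix ι ι ℝ} (hG0 : G0.PosDef) {ε : ℝ} (hε0 : 0 ≤ ε)
    (hnn : ∀ y, 0 ≤ qf G y)
    (h : ∀ y, qf G y ≤ (1 + ε) * qf G0 y) (x : ι → ℝ) :
    dsq G x ≤ (1 + ε) * dsq G0 x := by
  obtain ⟨z, hz⟩ := exists_min hG0 x
  have h1 : dsq G0 x = qf G0 (x - iv z) := le_antisymm (dsq_le hG0 x z) (le_ciInf hz)
  rw [h1]
  refine le_trans (ciInf_le ⟨0, ?_⟩ z) (h _)
  rintro _ ⟨w, rfl⟩; exact hnn _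

/-- uniform comparison of nearby forms -/
theorem qf_compare {G0 G : Matrix ι ι ℝ} {κ : ℝ} (hκ : 0 < κ)
    (hlow : ∀ x : ι → ℝ, κ * ‖x‖ ^ 2 ≤ qf G0 x) (y : ι → ℝ) :
    |qf G y - qf G0 y| ≤ (S1 (G - G0) / κ) * qf G0 y := by
  rw [← qf_sub_left]
  refine (abs_qf_le _ _).trans ?_
  have h1 : ‖y‖ ^ 2 ≤ qf G0 y / κ := by rw [le_div_iff₀ hκ]; linarith [hlow y]
  calc S1 (G - G0) * ‖y‖ ^ 2 ≤ S1 (G - G0) * (qf G0 y / κ) :=
        mul_le_mul_of_nonneg_left h1 (S1_nonneg _)
    _ = (S1 (G - G0) / κ) * qf G0 y := by ring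

theorem tendsto_dsq {G0 : Matrix ι ι ℝ} (hG0 : G0.PosDef) (x : ι → ℝ) :
    Tendsto (fun G : Matrix ι ι ℝ => dsq G x) (𝓝 G0) (𝓝 (dsq G0 x)) := by
  obtain ⟨κ, hκ, hlow⟩ := exists_lower hG0
  have hS : Tendsto (fun G : Matrix ι ι ℝ => S1 (G - G0) / κ) (𝓝 G0) (𝓝 0) := by
    have h1 : Continuous fun G : Matrix ι ι ℝ => S1 (G - G0) / κ :=
      (continuous_S1.comp (continuous_id.sub continuous_const)).div_const _
    have h2 := h1.tendsto G0
    simpa [S1] using h2
  have hle : ∀ᶠ G in 𝓝 G0, S1 (G - G0) / κ ≤ 1 :=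
    (hS.eventually (gt_mem_nhds (zero_lt_one))).mono fun _ h => le_of_lt h
  have hlow1 : Tendsto (fun G : Matrix ι ι ℝ => (1 - S1 (G - G0) / κ) * dsq G0 x) (𝓝 G0)
      (𝓝 (dsq G0 x)) := by
    have := ((tendsto_const_nhds (x := (1:ℝ))).sub hS).mul (tendsto_const_nhds (x := dsq G0 x))
    simpa using this
  have hup1 : Tendsto (fun G : Matrix ι ι ℝ => (1 + S1 (G - G0) / κ) * dsq G0 x) (𝓝 G0)
      (𝓝 (dsq G0 x)) := by
    have := ((tendsto_const_nhds (x := (1:ℝ))).add hS).mul (tendsto_const_nhds (x := dsq G0 x))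
    simpa using this
  refine tendsto_of_tendsto_of_tendsto_of_le_of_le' hlow1 hup1 ?_ ?_
  · filter_upwards [hle] with G hG
    refine dsq_lower hG0 hG (fun y => ?_) x
    have := (abs_le.1 (qf_compare (G := G) hκ hlow y)).1
    linarith
  · filter_upwards [hle] with G hG
    have hnn : ∀ y, 0 ≤ qf G y := fun y => by
      have h1 := (abs_le.1 (qf_compare (G := G) hκ hlow y)).1
      have h2 : (S1 (G - G0) / κ) * qf G0 y ≤ 1 * qf G0 y :=
        mul_le_mul_of_nonneg_right hG (qf_nonneg hG0 y)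
      linarith
    refine dsq_upper hG0 (div_nonneg (S1_nonneg _) hκ.le) hnn (fun y => ?_) x
    have := (abs_le.1 (qf_compare (G := G) hκ hlow y)).2
    linarith

instance instFirstCountableMatrix : FirstCountableTopology (Matrix ι ι ℝ) :=
  inferInstanceAs (FirstCountableTopology (ι → ι → ℝ))

theorem volume_cube : volume (cube ι) = 1 := by
  simp [cube, Real.volume_pi_Ico]

theorem eventually_nonneg {G0 : Matrix ι ι ℝ} (hG0 : G0.PosDef) :
    ∀ᶠ G in 𝓝 G0, ∀ y, 0 ≤ qf G y := by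
  obtain ⟨κ, hκ, hlow⟩ := exists_lower hG0
  have h1 : Continuous fun G : Matrix ι ι ℝ => S1 (G - G0) / κ :=
    (continuous_S1.comp (continuous_id.sub continuous_const)).div_const _
  have h2 : Tendsto (fun G : Matrix ι ι ℝ => S1 (G - G0) / κ) (𝓝 G0) (𝓝 0) := by
    simpa [S1] using h1.tendsto G0
  have hle : ∀ᶠ G in 𝓝 G0, S1 (G - G0) / κ ≤ 1 :=
    (h2.eventually (gt_mem_nhds (zero_lt_one))).mono fun _ h => le_of_lt h
  filter_upwards [hle] with G hG y
  have h1 := (abs_le.1 (qf_compare (G := G) hκ hlow y)).1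
  have h2 : (S1 (G - G0) / κ) * qf G0 y ≤ 1 * qf G0 y :=
    mul_le_mul_of_nonneg_right hG (qf_nonneg hG0 y)
  linarith

theorem tendsto_integral_dsq {G0 : Matrix ι ι ℝ} (hG0 : G0.PosDef) {c : ℝ} (hc : 0 ≤ c) :
    Tendsto (fun G : Matrix ι ι ℝ => ∫ x in cube ι, Real.exp (-c * dsq G x)) (𝓝 G0)
      (𝓝 (∫ x in cube ι, Real.exp (-c * dsq G0 x))) := by
  refine tendsto_integral_filter_of_dominated_convergence (fun _ => 1) ?_ ?_ ?_ ?_
  · exact Eventually.of_forall fun G =>
      (Real.continuous_exp.measurable.comp ((measurable_dsq G).const_mul _)).aestronglyMeasurable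
  · filter_upwards [eventually_nonneg hG0] with G hG
    refine Eventually.of_forall fun x => ?_
    rw [Real.norm_eq_abs, Real.abs_exp, Real.exp_le_one_iff]
    have : 0 ≤ dsq G x := Real.iInf_nonneg fun _ => hG _
    nlinarith [mul_nonneg hc this]
  · rw [integrable_const_iff]
    right
    rw [isFiniteMeasure_iff, Measure.restrict_apply_univ, volume_cube]
    exact ENNReal.one_lt_top
  · refine Eventually.of_forall fun x => ?_
    exact (Real.continuous_exp.tendsto _).comp ((tendsto_dsq hG0 x).const_mul (-c))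

theorem continuousAt_fV [DecidableEq ι] {G0 : Matrix ι ι ℝ} (hG0 : G0.PosDef) (s : ℝ) :
    ContinuousAt (fV s) G0 := by
  have h1 : ContinuousAt (fun G : Matrix ι ι ℝ => Real.sqrt G.det / s ^ Fintype.card ι) G0 :=
    ((Real.continuous_sqrt.comp (continuous_id.matrix_det)).div_const _).continuousAt
  have h2 := tendsto_integral_dsq hG0 (c := Real.pi / s ^ 2) (by positivity)
  exact h1.mul h2

theorem continuousOn_fV [DecidableEq ι] (s : ℝ) :
    ContinuousOn (fV s) {G : Matrix ι ι ℝ | G.PosDef} := fun _ hG =>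
  (continuousAt_fV hG s).continuousWithinAt

end Crest.Agent.R152.WRM4
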