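import Mathlib
import Crest.Agent.R152.WRM4c

/-!
Row 152, weak reverse Minkowski, module WRM-4 (d): first order condition at a minimiser of `fV`.
-/

set_option linter.unusedSectionVars false
set_option linter.deprecated false
set_option linter.unusedVariables false
set_option autoImplicit false

open MeasureTheory Metric Matrix Filter Topology

namespace Crest.Agent.R152.WRM4

open Crest.Agent.R152.WRM

variable {ι : Type*} [Fintype ι]

theorem S1_smul (a : ℝ) (M : Matrix ι ι ℝ) : S1 (a • M) = |a| * S1 M := by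
  simp only [S1, Matrix.smul_apply, smul_eq_mul, abs_mul, Finset.mul_sum]

theorem S1_add_le (M N : Matrix ι ι ℝ) : S1 (M + N) ≤ S1 M + S1 N := by
  simp only [S1, ← Finset.sum_add_distrib]
  exact Finset.sum_le_sum fun i _ => Finset.sum_le_sum fun j _ => abs_add_le _ _

theorem hasDerivAt_qf {Gt : ℝ → Matrix ι ι ℝ} {K : Matrix ι ι ℝ} {t0 : ℝ}
    (hd : ∀ i j, HasDerivAt (fun t => Gt t i j) (K i j) t0) (x : ι → ℝ) :
    HasDerivAt (fun t => qf (Gt t) x) (qf K x) t0 := by
  simp only [qf_eq_sum]
  refine HasDerivAt.fun_sum fun i _ => HasDerivAt.fun_sum fun j _ => ?_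
  exact ((hd i j).const_mul (x i)).mul_const (x j)

theorem tendsto_S1_slope {Gt : ℝ → Matrix ι ι ℝ} {K : Matrix ι ι ℝ}
    (hd : ∀ i j, HasDerivAt (fun t => Gt t i j) (K i j) 0) :
    Tendsto (fun t => S1 (t⁻¹ • (Gt t - Gt 0))) (𝓝[>] (0:ℝ)) (𝓝 (S1 K)) := by
  unfold S1
  refine tendsto_finset_sum _ fun i _ => tendsto_finset_sum _ fun j _ => ?_
  have h := (hd i j).tendsto_slope_zero_right
  simp only [zero_add] at h
  have h2 := h.abs
  refine h2.congr fun t => ?_
  simp [Matrix.smul_apply, Matrix.sub_apply]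

theorem abs_exp_sub_exp_le {c a b : ℝ} (hc : 0 ≤ c) (ha : 0 ≤ a) (hb : 0 ≤ b) :
    |Real.exp (-c * a) - Real.exp (-c * b)| ≤ c * |a - b| := by
  have key : ∀ a b : ℝ, 0 ≤ a → a ≤ b → |Real.exp (-c * a) - Real.exp (-c * b)| ≤ c * |a - b| := by
    intro a b ha hab
    have h1 : Real.exp (-c * b) ≤ Real.exp (-c * a) := by
      apply Real.exp_le_exp.2; nlinarith
    rw [abs_of_nonneg (by linarith), abs_of_nonpos (by linarith)]
    have h2 : Real.exp (-c * a) ≤ 1 := by
      rw [Real.exp_le_one_iff]; nlinarith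
    have h3 : Real.exp (-c * b) = Real.exp (-c * a) * Real.exp (-c * (b - a)) := by
      rw [← Real.exp_add]; ring_nf
    have h4 : 1 - c * (b - a) ≤ Real.exp (-c * (b - a)) := by
      have := Real.add_one_le_exp (-c * (b - a))
      linarith
    have h5 : 0 ≤ Real.exp (-c * a) := (Real.exp_pos _).le
    have h6 : 0 ≤ c * (b - a) := mul_nonneg hc (by linarith)
    rw [h3]
    nlinarith [mul_le_mul_of_nonneg_left h4 h5, mul_le_mul_of_nonneg_right h2 h6]
  rcases le_total a b with h | h
  · exact key a b ha h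
  · rw [abs_sub_comm, abs_sub_comm a b]; exact key b a hb h

theorem integrableOn_exp_dsq (G : Matrix ι ι ℝ) (hG : ∀ y, 0 ≤ qf G y) {c : ℝ} (hc : 0 ≤ c)
    {s : Set (ι → ℝ)} (hs : volume s ≠ ⊤) :
    IntegrableOn (fun x => Real.exp (-c * dsq G x)) s := by
  have : IsFiniteMeasure (volume.restrict s) := isFiniteMeasure_restrict.2 hs
  refine Integrable.mono' (integrable_const (1:ℝ))
    (Real.continuous_exp.measurable.comp ((measurable_dsq G).const_mul _)).aestronglyMeasurable ?_
  refine Eventually.of_forall fun x => ?_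
  rw [Real.norm_eq_abs, Real.abs_exp, Real.exp_le_one_iff]
  have : 0 ≤ dsq G x := Real.iInf_nonneg fun _ => hG _
  nlinarith [mul_nonneg hc this]

theorem continuous_exp_qf (G : Matrix ι ι ℝ) (c : ℝ) :
    Continuous fun x => Real.exp (-c * qf G x) :=
  Real.continuous_exp.comp (continuous_const.mul (continuous_qf G))

/-- key comparison -/
theorem integral_diff_nonneg {G G' : Matrix ι ι ℝ} (hG : G.PosDef) (hG' : G'.PosDef) {c : ℝ}
    (hc : 0 ≤ c)
    (hmin : ∫ x in cube ι, Real.exp (-c * dsq G x) ≤ ∫ x in cube ι, Real.exp (-c * dsq G' x)) :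
    0 ≤ ∫ x in VG G', (Real.exp (-c * qf G' x) - Real.exp (-c * qf G x)) := by
  have hcomp := isCompact_VG hG'
  have h1 : IntegrableOn (fun x => Real.exp (-c * qf G' x)) (VG G') :=
    (continuous_exp_qf G' c).continuousOn.integrableOn_compact hcomp
  have h2 : IntegrableOn (fun x => Real.exp (-c * qf G x)) (VG G') :=
    (continuous_exp_qf G c).continuousOn.integrableOn_compact hcomp
  have h3 : IntegrableOn (fun x => Real.exp (-c * dsq G x)) (VG G') :=
    integrableOn_exp_dsq G (qf_nonneg hG) hc (by rw [volume_VG hG']; exact ENNReal.one_ne_top)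
  rw [integral_sub h1 h2, sub_nonneg]
  rw [setIntegral_dsq_VG hG' isAddFundamentalDomain_cube] at hmin
  refine le_trans ?_ hmin
  rw [setIntegral_periodic isAddFundamentalDomain_cube (isAddFundamentalDomain_VG hG') _
    (fun x w => by rw [dsq_add_iv])]
  refine setIntegral_mono h2 h3 fun x => ?_
  apply Real.exp_le_exp.2
  have := dsq_le_qf hG x
  nlinarith

theorem crit_one_sided {G : Matrix ι ι ℝ} (hG : G.PosDef) {c : ℝ} (hc : 0 < c)
    {Gt : ℝ → Matrix ι ι ℝ} {K : Matrix ι ι ℝ} (h0 : Gt 0 = G)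
    (hd : ∀ i j, HasDerivAt (fun t => Gt t i j) (K i j) 0)
    (hpos : ∀ᶠ t in 𝓝[>] (0:ℝ), (Gt t).PosDef)
    (hmin : ∀ᶠ t in 𝓝[>] (0:ℝ), ∫ x in cube ι, Real.exp (-c * dsq G x)
        ≤ ∫ x in cube ι, Real.exp (-c * dsq (Gt t) x)) :
    ∫ x in VG G, qf K x * Real.exp (-c * qf G x) ≤ 0 := by
  classical
  obtain ⟨κ, hκ, hlow⟩ := exists_lower hG
  -- eventual bounds
  have hslope : ∀ᶠ t in 𝓝[>] (0:ℝ), S1 (t⁻¹ • (Gt t - G)) ≤ S1 K + 1 := by
    have := tendsto_S1_slope hd
    rw [h0] at this
    exact (this.eventually (gt_mem_nhds (lt_add_one (S1 K)))).mono fun _ h => le_of_lt h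
  have htpos : ∀ᶠ t in 𝓝[>] (0:ℝ), 0 < t := eventually_mem_nhdsWithin
  have hslope2 : ∀ᶠ t in 𝓝[>] (0:ℝ), S1 (Gt t - G) ≤ (S1 K + 1) * t := by
    filter_upwards [hslope, htpos] with t ht ht0
    rw [S1_smul, abs_of_pos (inv_pos.2 ht0)] at ht
    rw [inv_mul_le_iff₀ ht0] at ht
    linarith
  have hK1 : 0 < S1 K + 1 := by have := S1_nonneg K; linarith
  have hsmall : ∀ᶠ t in 𝓝[>] (0:ℝ), t ≤ min (κ / 2) 1 / (S1 K + 1) := by
    have hp : 0 < min (κ / 2) 1 / (S1 K + 1) := by positivity
    have : ∀ᶠ t in 𝓝 (0:ℝ), t < min (κ / 2) 1 / (S1 K + 1) := gt_mem_nhds hp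
    exact (this.filter_mono nhdsWithin_le_nhds).mono fun _ h => le_of_lt h
  have hS : ∀ᶠ t in 𝓝[>] (0:ℝ), S1 (Gt t - G) ≤ min (κ / 2) 1 := by
    filter_upwards [hslope2, hsmall] with t h1 h2
    refine h1.trans ?_
    rw [le_div_iff₀ hK1] at h2
    linarith
  have hlow2 : ∀ᶠ t in 𝓝[>] (0:ℝ), ∀ x : ι → ℝ, (κ / 2) * ‖x‖ ^ 2 ≤ qf (Gt t) x := by
    filter_upwards [hS] with t ht x
    have h1 := abs_qf_le (Gt t - G) x
    rw [qf_sub_left] at h1
    have h2 := (abs_le.1 h1).1
    have h3 : S1 (Gt t - G) * ‖x‖ ^ 2 ≤ (κ / 2) * ‖x‖ ^ 2 :=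
      mul_le_mul_of_nonneg_right (ht.trans (min_le_left _ _)) (by positivity)
    have h4 := hlow x
    linarith
  have hS2 : ∀ᶠ t in 𝓝[>] (0:ℝ), S1 (Gt t) ≤ S1 G + 1 := by
    filter_upwards [hS] with t ht
    calc S1 (Gt t) = S1 ((Gt t - G) + G) := by rw [sub_add_cancel]
      _ ≤ S1 (Gt t - G) + S1 G := S1_add_le _ _
      _ ≤ 1 + S1 G := by linarith [ht.trans (min_le_right (κ / 2) 1)]
      _ = _ := add_comm _ _
  let R : ℝ := Real.sqrt ((S1 G + 1) / (κ / 2))
  have hR0 : 0 ≤ R := Real.sqrt_nonneg _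
  have hVG : ∀ᶠ t in 𝓝[>] (0:ℝ), ∀ x ∈ VG (Gt t), ‖x‖ ≤ R := by
    filter_upwards [hlow2, hS2] with t h1 h2 x hx
    refine Real.le_sqrt_of_sq_le ((norm_le_of_mem_VG (by positivity) h1 hx).trans ?_)
    gcongr
  -- the functions
  let g : ℝ → (ι → ℝ) → ℝ := fun t => (VG (Gt t)).indicator
    (fun x => t⁻¹ * (Real.exp (-c * qf (Gt t) x) - Real.exp (-c * qf G x)))
  let g0 : (ι → ℝ) → ℝ := (VG G).indicator (fun x => -c * (qf K x * Real.exp (-c * qf G x)))
  have hlim : Tendsto (fun t => ∫ x, g t x) (𝓝[>] (0:ℝ)) (𝓝 (∫ x, g0 x)) := by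
    refine tendsto_integral_filter_of_dominated_convergence
      ((closedBall (0 : ι → ℝ) R).indicator (fun _ => c * ((S1 K + 1) * R ^ 2))) ?_ ?_ ?_ ?_
    · refine Eventually.of_forall fun t => ?_
      refine (AEStronglyMeasurable.indicator ?_ (measurableSet_VG _))
      exact (((continuous_exp_qf (Gt t) c).sub (continuous_exp_qf G c)).const_mul
        t⁻¹).aestronglyMeasurable
    · filter_upwards [hVG, hslope2, htpos, hpos] with t h1 h2 h3 h4
      refine Eventually.of_forall fun x => ?_
      by_cases hx : x ∈ VG (Gt t)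
      · have hxR := h1 x hx
        have hxb : x ∈ closedBall (0 : ι → ℝ) R := by simpa using hxR
        simp only [g, Set.indicator_of_mem hx, Set.indicator_of_mem hxb]
        rw [Real.norm_eq_abs, abs_mul, abs_of_pos (inv_pos.2 h3), inv_mul_le_iff₀ h3]
        refine (abs_exp_sub_exp_le hc.le (qf_nonneg h4 x) (qf_nonneg hG x)).trans ?_
        have h5 := abs_qf_le (Gt t - G) x
        rw [qf_sub_left] at h5
        have h6 : S1 (Gt t - G) * ‖x‖ ^ 2 ≤ ((S1 K + 1) * t) * R ^ 2 := by
          have := S1_nonneg (Gt t - G)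
          gcongr
        calc c * |qf (Gt t) x - qf G x| ≤ c * (((S1 K + 1) * t) * R ^ 2) := by
              gcongr; exact h5.trans h6
          _ = t * (c * ((S1 K + 1) * R ^ 2)) := by ring
      · simp only [g, Set.indicator_of_notMem hx, norm_zero]
        apply Set.indicator_nonneg
        intro _ _; positivity
    · rw [integrable_indicator_iff measurableSet_closedBall]
      exact integrableOn_const (by exact measure_closedBall_lt_top.ne)
    · -- pointwise convergence
      have hae : ∀ᵐ x : ι → ℝ, ∀ z : ι → ℤ, z ≠ 0 → qf G x ≠ qf G (x - iv z) := by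
        rw [ae_all_iff]
        intro z
        by_cases hz : z = 0
        · exact Eventually.of_forall fun x h => absurd hz h
        · have hz' : iv z ≠ 0 := fun h => hz (iv_injective (h.trans iv_zero.symm))
          have := volume_equidist hG hz'
          rw [← compl_mem_ae_iff] at this
          filter_upwards [this] with x hx _
          exact hx
      filter_upwards [hae] with x hx
      have hder : HasDerivAt (fun t => Real.exp (-c * qf (Gt t) x))
          (-c * (qf K x * Real.exp (-c * qf G x))) 0 := by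
        have h1 := ((hasDerivAt_qf hd x).const_mul (-c)).exp
        rw [h0] at h1
        convert! h1 using 1
        ring
      have hsl := hder.tendsto_slope_zero_right
      simp only [zero_add, smul_eq_mul, h0] at hsl
      by_cases hxV : x ∈ VG G
      · -- eventually in
        have hev : ∀ᶠ t in 𝓝[>] (0:ℝ), x ∈ VG (Gt t) := by
          -- finitely many relevant z
          let B : ℝ := Real.sqrt ((S1 G + 1) / (κ / 2)) * ‖x‖ + ‖x‖
          have hfin : {z : ι → ℤ | ‖iv z‖ ≤ B}.Finite := finite_norm_iv_le B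
          have hfar : ∀ᶠ t in 𝓝[>] (0:ℝ), ∀ z : ι → ℤ, B < ‖iv z‖ →
              qf (Gt t) x ≤ qf (Gt t) (x - iv z) := by
            filter_upwards [hlow2, hS2] with t h1 h2 z hz
            have h3 : Real.sqrt ((S1 G + 1) / (κ / 2)) * ‖x‖ < ‖x - iv z‖ := by
              have : ‖iv z‖ ≤ ‖x‖ + ‖x - iv z‖ := by
                calc ‖iv z‖ = ‖x - (x - iv z)‖ := by congr 1; abel
                  _ ≤ ‖x‖ + ‖x - iv z‖ := norm_sub_le _ _
              simp only [B] at hz
              linarith
            have h4 : (S1 G + 1) / (κ / 2) * ‖x‖ ^ 2 ≤ ‖x - iv z‖ ^ 2 := by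
              have h5 : 0 ≤ (S1 G + 1) / (κ / 2) := by
                have := S1_nonneg G; positivity
              calc (S1 G + 1) / (κ / 2) * ‖x‖ ^ 2
                  = (Real.sqrt ((S1 G + 1) / (κ / 2)) * ‖x‖) ^ 2 := by
                    rw [mul_pow, Real.sq_sqrt h5]
                _ ≤ ‖x - iv z‖ ^ 2 := by gcongr
            calc qf (Gt t) x ≤ |qf (Gt t) x| := le_abs_self _
              _ ≤ S1 (Gt t) * ‖x‖ ^ 2 := abs_qf_le _ _
              _ ≤ (S1 G + 1) * ‖x‖ ^ 2 := by gcongr
              _ = (κ / 2) * ((S1 G + 1) / (κ / 2) * ‖x‖ ^ 2) := by field_simp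
              _ ≤ (κ / 2) * ‖x - iv z‖ ^ 2 := by gcongr
              _ ≤ qf (Gt t) (x - iv z) := h1 _
          have hnear : ∀ᶠ t in 𝓝[>] (0:ℝ), ∀ z ∈ {z : ι → ℤ | ‖iv z‖ ≤ B},
              qf (Gt t) x ≤ qf (Gt t) (x - iv z) := by
            rw [eventually_all_finite hfin]
            intro z _
            by_cases hz : z = 0
            · refine Eventually.of_forall fun t => ?_
              rw [hz, iv_zero, sub_zero]
            · have hlt : qf G x < qf G (x - iv z) := lt_of_le_of_ne (hxV z) (hx z hz)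
              have h1 : Tendsto (fun t => qf (Gt t) x) (𝓝[>] (0:ℝ)) (𝓝 (qf G x)) := by
                have := (hasDerivAt_qf hd x).continuousAt.tendsto
                rw [h0] at this
                exact this.mono_left nhdsWithin_le_nhds
              have h2 : Tendsto (fun t => qf (Gt t) (x - iv z)) (𝓝[>] (0:ℝ))
                  (𝓝 (qf G (x - iv z))) := by
                have := (hasDerivAt_qf hd (x - iv z)).continuousAt.tendsto
                rw [h0] at this
                exact this.mono_left nhdsWithin_le_nhds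
              exact (h1.eventually_lt h2 hlt).mono fun _ h => le_of_lt h
          filter_upwards [hfar, hnear] with t h1 h2 z
          by_cases hz : ‖iv z‖ ≤ B
          · exact h2 z hz
          · exact h1 z (not_le.1 hz)
        simp only [g0, Set.indicator_of_mem hxV]
        refine hsl.congr' ?_
        filter_upwards [hev] with t ht
        simp only [g, Set.indicator_of_mem ht]
      · -- eventually out
        have hev : ∀ᶠ t in 𝓝[>] (0:ℝ), x ∉ VG (Gt t) := by
          have : ∃ z : ι → ℤ, qf G (x - iv z) < qf G x := by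
            by_contra hcon
            push Not at hcon
            exact hxV hcon
          obtain ⟨z, hz⟩ := this
          have h1 : Tendsto (fun t => qf (Gt t) x) (𝓝[>] (0:ℝ)) (𝓝 (qf G x)) := by
            have := (hasDerivAt_qf hd x).continuousAt.tendsto
            rw [h0] at this
            exact this.mono_left nhdsWithin_le_nhds
          have h2 : Tendsto (fun t => qf (Gt t) (x - iv z)) (𝓝[>] (0:ℝ))
              (𝓝 (qf G (x - iv z))) := by
            have := (hasDerivAt_qf hd (x - iv z)).continuousAt.tendsto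
            rw [h0] at this
            exact this.mono_left nhdsWithin_le_nhds
          filter_upwards [h2.eventually_lt h1 hz] with t ht hmem
          exact absurd (hmem z) (not_le.2 ht)
        simp only [g0, Set.indicator_of_notMem hxV]
        refine tendsto_const_nhds.congr' ?_
        filter_upwards [hev] with t ht
        simp only [g, Set.indicator_of_notMem ht]
  have hnn : ∀ᶠ t in 𝓝[>] (0:ℝ), 0 ≤ ∫ x, g t x := by
    filter_upwards [hmin, hpos, htpos] with t h1 h2 h3
    simp only [g]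
    rw [integral_indicator (measurableSet_VG _), integral_const_mul]
    exact mul_nonneg (inv_nonneg.2 h3.le) (integral_diff_nonneg hG h2 hc.le h1)
  have hfinal : 0 ≤ ∫ x, g0 x := ge_of_tendsto hlim hnn
  simp only [g0] at hfinal
  rw [integral_indicator (measurableSet_VG _), integral_const_mul] at hfinal
  nlinarith

theorem crit_path {G : Matrix ι ι ℝ} (hG : G.PosDef) {c : ℝ} (hc : 0 < c)
    {Gt : ℝ → Matrix ι ι ℝ} {K : Matrix ι ι ℝ} (h0 : Gt 0 = G)
    (hd : ∀ i j, HasDerivAt (fun t => Gt t i j) (K i j) 0)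
    (hpos : ∀ᶠ t in 𝓝 (0:ℝ), (Gt t).PosDef)
    (hmin : ∀ᶠ t in 𝓝 (0:ℝ), ∫ x in cube ι, Real.exp (-c * dsq G x)
        ≤ ∫ x in cube ι, Real.exp (-c * dsq (Gt t) x)) :
    ∫ x in VG G, qf K x * Real.exp (-c * qf G x) = 0 := by
  refine le_antisymm ?_ ?_
  · exact crit_one_sided hG hc h0 hd (hpos.filter_mono nhdsWithin_le_nhds)
      (hmin.filter_mono nhdsWithin_le_nhds)
  · have hneg : Tendsto (fun t : ℝ => -t) (𝓝 0) (𝓝 0) := by
      simpa using (continuous_neg.tendsto (0:ℝ))
    have h1 := crit_one_sided (K := -K) (Gt := fun t => Gt (-t)) hG hc (by simpa using h0)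
      (fun i j => by
        have h2 : HasDerivAt (fun t => Gt t i j) (K i j) (-0) := by simpa using hd i j
        have h3 := HasDerivAt.comp (0:ℝ) h2 (hasDerivAt_neg (0:ℝ))
        have h4 : K i j * -1 = (-K) i j := by simp
        rw [h4] at h3
        exact h3)
      ((hneg.eventually hpos).filter_mono nhdsWithin_le_nhds)
      ((hneg.eventually hmin).filter_mono nhdsWithin_le_nhds)
    have h2 : ∀ x, qf (-K) x = - qf K x := fun x => by
      simp [qf, neg_mulVec]
    simp only [h2, neg_mul, integral_neg] at h1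
    simpa using h1

end Crest.Agent.R152.WRM4
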