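import Mathlib
import Crest.Agent.R152.WRM4d

/-!
Row 152, weak reverse Minkowski, module WRM-4 (e): first order condition with the determinant
normalisation, and the version in Euclidean space.
-/

set_option linter.unusedSectionVars false
set_option linter.deprecated false
set_option linter.unusedVariables false
set_option autoImplicit false

open MeasureTheory Metric Matrix Filter Topology

namespace Crest.Agent.R152.WRM4

open Crest.Agent.R152.WRM

variable {ι : Type*} [Fintype ι]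

section det

variable [DecidableEq ι]

/-- derivative of `det (G + tK)` at `0` vanishes if `trace (G⁻¹ K) = 0`. -/
theorem hasDerivAt_det {G K : Matrix ι ι ℝ} (hdet : G.det = 1) (htr : (G⁻¹ * K).trace = 0) :
    HasDerivAt (fun t : ℝ => (G + t • K).det) 0 0 := by
  have hu : IsUnit G.det := by rw [hdet]; exact isUnit_one
  have h1 : ∀ t : ℝ, (G + t • K).det =
      1 + ((Polynomial.X : Polynomial ℝ) ^ 2 *
        (det (1 + (Polynomial.X : Polynomial ℝ) • (G⁻¹ * K).map Polynomial.C)).divX.divX).eval t := by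
    intro t
    have h2 : G + t • K = G * (1 + t • (G⁻¹ * K)) := by
      rw [mul_add, mul_one, mul_smul_comm, mul_nonsing_inv_cancel_left _ _ hu]
    rw [h2, det_mul, hdet, one_mul, det_one_add_smul, htr]
    simp only [zero_mul, add_zero, Polynomial.eval_mul, Polynomial.eval_pow, Polynomial.eval_X]
    ring
  have h3 : (fun t : ℝ => (G + t • K).det) = fun t : ℝ =>
      1 + ((Polynomial.X : Polynomial ℝ) ^ 2 *
        (det (1 + (Polynomial.X : Polynomial ℝ) • (G⁻¹ * K).map Polynomial.C)).divX.divX).eval t :=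
    funext h1
  rw [h3]
  have h4 := (Polynomial.hasDerivAt ((Polynomial.X : Polynomial ℝ) ^ 2 *
        (det (1 + (Polynomial.X : Polynomial ℝ) • (G⁻¹ * K).map Polynomial.C)).divX.divX)
          (0:ℝ)).const_add 1
  convert! h4 using 1
  simp [Polynomial.derivative_mul]

/-- The normalised path. -/
noncomputable def pathG (G K : Matrix ι ι ℝ) (t : ℝ) : Matrix ι ι ℝ :=
  ((G + t • K).det ^ (-(1 / (Fintype.card ι : ℝ)))) • (G + t • K)

theorem pathG_zero {G K : Matrix ι ι ℝ} (hdet : G.det = 1) : pathG G K 0 = G := by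
  simp [pathG, hdet]

theorem hasDerivAt_pathG {G K : Matrix ι ι ℝ} (hdet : G.det = 1) (htr : (G⁻¹ * K).trace = 0)
    (i j : ι) : HasDerivAt (fun t => pathG G K t i j) (K i j) 0 := by
  have h1 : HasDerivAt (fun t : ℝ => (G + t • K).det ^ (-(1 / (Fintype.card ι : ℝ)))) 0 0 := by
    have h2 := (hasDerivAt_det hdet htr).rpow_const (p := -(1 / (Fintype.card ι : ℝ)))
      (Or.inl (by simp [hdet]))
    simpa using h2
  have h3 : HasDerivAt (fun t : ℝ => (G + t • K) i j) (K i j) 0 := by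
    have h4 : HasDerivAt (fun t : ℝ => G i j + t * K i j) (1 * K i j) 0 :=
      ((hasDerivAt_id (0:ℝ)).mul_const (K i j)).const_add (G i j)
    simpa using h4
  have h5 := h1.mul h3
  simp only [zero_smul, add_zero, hdet, Real.one_rpow, zero_mul, one_mul, zero_add] at h5
  exact h5

theorem tendsto_pathG {G K : Matrix ι ι ℝ} (hdet : G.det = 1) (htr : (G⁻¹ * K).trace = 0) :
    Tendsto (pathG G K) (𝓝 0) (𝓝 G) := by
  have h1 : Tendsto (fun t => (fun i j => pathG G K t i j : ι → ι → ℝ)) (𝓝 0)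
      (𝓝 (fun i j => G i j)) := by
    refine tendsto_pi_nhds.2 fun i => tendsto_pi_nhds.2 fun j => ?_
    have := (hasDerivAt_pathG hdet htr i j).continuousAt.tendsto
    rwa [pathG_zero hdet] at this
  exact h1

theorem posDef_of_isSymm_of_pos {G : Matrix ι ι ℝ} (hs : G.IsSymm)
    (hp : ∀ x : ι → ℝ, x ≠ 0 → 0 < qf G x) : G.PosDef := by
  refine PosDef.of_dotProduct_mulVec_pos ?_ ?_
  · rw [IsHermitian, conjTranspose_eq_transpose_of_trivial]; exact hs
  · intro x hx
    simpa [qf] using hp x hx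

theorem eventually_posDef {G : Matrix ι ι ℝ} (hG : G.PosDef) :
    ∀ᶠ G' in 𝓝 G, G'.IsSymm → G'.PosDef := by
  obtain ⟨κ, hκ, hlow⟩ := exists_lower hG
  have h1 : Continuous fun G' : Matrix ι ι ℝ => S1 (G' - G) :=
    (continuous_S1.comp (continuous_id.sub continuous_const))
  have h2 : Tendsto (fun G' : Matrix ι ι ℝ => S1 (G' - G)) (𝓝 G) (𝓝 0) := by
    simpa [S1] using h1.tendsto G
  filter_upwards [h2.eventually (gt_mem_nhds hκ)] with G' hG' hs
  refine posDef_of_isSymm_of_pos hs fun x hx => ?_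
  have h3 := (abs_le.1 (abs_qf_le (G' - G) x)).1
  rw [qf_sub_left] at h3
  have hx' : 0 < ‖x‖ ^ 2 := by positivity
  have h4 := hlow x
  nlinarith

theorem isSymm_pathG {G K : Matrix ι ι ℝ} (hG : G.IsSymm) (hK : K.IsSymm) (t : ℝ) :
    (pathG G K t).IsSymm := by
  unfold pathG
  exact (hG.add (hK.smul t)).smul _

theorem eventually_det_pathG [Nonempty ι] {G K : Matrix ι ι ℝ} (hdet : G.det = 1)
    (htr : (G⁻¹ * K).trace = 0) :
    ∀ᶠ t in 𝓝 (0:ℝ), (pathG G K t).det = 1 := by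
  have h1 := (hasDerivAt_det hdet htr).continuousAt.tendsto
  simp only [zero_smul, add_zero, hdet] at h1
  filter_upwards [h1.eventually (lt_mem_nhds zero_lt_one)] with t ht
  unfold pathG
  rw [det_smul, ← Real.rpow_natCast, ← Real.rpow_mul ht.le]
  have hc : (Fintype.card ι : ℝ) ≠ 0 := by
    exact_mod_cast Fintype.card_ne_zero
  have : -(1 / (Fintype.card ι : ℝ)) * (Fintype.card ι : ℝ) = -1 := by field_simp
  rw [this, Real.rpow_neg_one]
  exact inv_mul_cancel₀ ht.ne'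

/-- first order condition at a local minimiser of `fV s` on `{PosDef, det = 1}` -/
theorem crit_gram {G : Matrix ι ι ℝ} (hG : G.PosDef) (hdet : G.det = 1) {s : ℝ} (hs : 0 < s)
    (hmin : ∀ᶠ G' in 𝓝 G, G'.PosDef → G'.det = 1 → fV s G ≤ fV s G')
    {K : Matrix ι ι ℝ} (hK : K.IsSymm) (htr : (G⁻¹ * K).trace = 0) :
    ∫ x in VG G, qf K x * Real.exp (-(Real.pi / s ^ 2) * qf G x) = 0 := by
  rcases isEmpty_or_nonempty ι with he | hne
  · have : ∀ x : ι → ℝ, qf K x = 0 := fun x => by simp [qf_eq_sum]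
    simp [this]
  have hpos : ∀ᶠ t in 𝓝 (0:ℝ), (pathG G K t).PosDef := by
    filter_upwards [(tendsto_pathG hdet htr).eventually (eventually_posDef hG)] with t ht
    exact ht (isSymm_pathG (isSymm_of_posDef hG) hK t)
  have hdet1 := eventually_det_pathG (K := K) hdet htr
  refine crit_path hG (by positivity) (pathG_zero hdet) (hasDerivAt_pathG hdet htr) hpos ?_
  filter_upwards [hpos, hdet1, (tendsto_pathG hdet htr).eventually hmin] with t h1 h2 h3
  have h4 := h3 h1 h2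
  rw [fV, fV, hdet, h2] at h4
  have h5 : 0 < Real.sqrt 1 / s ^ Fintype.card ι := by
    rw [Real.sqrt_one]; positivity
  exact le_of_mul_le_mul_left h4 h5

end det

section Euclid

variable [DecidableEq ι]

/-- the map `x ↦ A x` into Euclidean space -/
noncomputable def Phi (A : Matrix ι ι ℝ) (x : ι → ℝ) : EuclideanSpace ℝ ι := WithLp.toLp 2 (A *ᵥ x)

/-- Voronoi cell of the lattice `A ℤ^ι` in Euclidean space -/
def VE (A : Matrix ι ι ℝ) : Set (EuclideanSpace ℝ ι) :=
  {v | ∀ z : ι → ℤ, ‖v‖ ≤ ‖v - Phi A (iv z)‖}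

theorem Phi_sub (A : Matrix ι ι ℝ) (x y : ι → ℝ) : Phi A (x - y) = Phi A x - Phi A y := by
  ext i; simp [Phi, mulVec_sub]

theorem norm_Phi_sq (A : Matrix ι ι ℝ) (x : ι → ℝ) : ‖Phi A x‖ ^ 2 = qf (Aᵀ * A) x := by
  rw [EuclideanSpace.norm_sq_eq]
  simp only [Phi, Real.norm_eq_abs, sq_abs]
  rw [qf, ← mulVec_mulVec, dotProduct_mulVec, vecMul_transpose, dotProduct]
  exact Finset.sum_congr rfl fun i _ => by ring

theorem qf_gram (A : Matrix ι ι ℝ) (M : Matrix ι ι ℝ) (x : ι → ℝ) :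
    qf (Aᵀ * M * A) x = qf M (A *ᵥ x) := by
  rw [qf, qf, ← mulVec_mulVec, ← mulVec_mulVec, dotProduct_mulVec, vecMul_transpose]

theorem preimage_VE (A : Matrix ι ι ℝ) : Phi A ⁻¹' VE A = VG (Aᵀ * A) := by
  ext x
  simp only [Set.mem_preimage, VE, VG, Set.mem_setOf_eq]
  refine forall_congr' fun z => ?_
  rw [← Phi_sub, ← norm_Phi_sq, ← norm_Phi_sq, sq_le_sq₀ (norm_nonneg _) (norm_nonneg _)]

theorem measurePreserving_Phi {A : Matrix ι ι ℝ} (hA : |A.det| = 1) :
    MeasurePreserving (Phi A) volume volume := by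
  have h0 : A.det ≠ 0 := by intro h; simp [h] at hA
  have h1 : MeasurePreserving (toLin' A) (volume : Measure (ι → ℝ)) volume := by
    refine ⟨(LinearMap.continuous_of_finiteDimensional _).measurable, ?_⟩
    rw [Real.map_matrix_volume_pi_eq_smul_volume_pi h0, abs_inv, hA]
    simp
  exact (PiLp.volume_preserving_toLp ι).comp h1

theorem measurableEmbedding_Phi {A : Matrix ι ι ℝ} (hA : |A.det| = 1) :
    MeasurableEmbedding (Phi A) := by
  have h0 : IsUnit A.det := by
    refine isUnit_iff_ne_zero.2 fun h => ?_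
    simp [h] at hA
  have hinj : Function.Injective (Phi A) := by
    intro x y hxy
    have h1 : A *ᵥ x = A *ᵥ y := by
      simpa [Phi] using hxy
    have h2 := congrArg (fun v => A⁻¹ *ᵥ v) h1
    simpa [mulVec_mulVec, nonsing_inv_mul _ h0] using h2
  have hcont : Continuous (Phi A) := by
    unfold Phi
    exact (PiLp.continuous_toLp 2 _).comp (by fun_prop)
  exact hcont.measurableEmbedding hinj

theorem setIntegral_VE {A : Matrix ι ι ℝ} (hA : |A.det| = 1) (g : EuclideanSpace ℝ ι → ℝ) :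
    ∫ v in VE A, g v = ∫ x in VG (Aᵀ * A), g (Phi A x) := by
  rw [← preimage_VE]
  exact ((measurePreserving_Phi hA).setIntegral_preimage_emb (measurableEmbedding_Phi hA) g _).symm

theorem isClosed_VE (A : Matrix ι ι ℝ) : IsClosed (VE A) := by
  have : VE A = ⋂ z : ι → ℤ, {v | ‖v‖ ≤ ‖v - Phi A (iv z)‖} := by ext; simp [VE]
  rw [this]
  exact isClosed_iInter fun z => isClosed_le continuous_norm
    (continuous_norm.comp (continuous_id.sub continuous_const))

theorem measurableSet_VE (A : Matrix ι ι ℝ) : MeasurableSet (VE A) := (isClosed_VE A).measurableSet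

theorem norm_le_sub_iff' {E : Type*} [NormedAddCommGroup E] [InnerProductSpace ℝ E] (x y : E) :
    ‖x‖ ≤ ‖x - y‖ ↔ 2 * inner ℝ y x ≤ ‖y‖ ^ 2 := by
  rw [← sq_le_sq₀ (norm_nonneg _) (norm_nonneg _), norm_sub_sq_real, real_inner_comm]
  constructor <;> intro h <;> linarith

theorem convex_VE (A : Matrix ι ι ℝ) : Convex ℝ (VE A) := by
  intro x hx z hz a b ha hb hab
  simp only [VE, Set.mem_setOf_eq, norm_le_sub_iff'] at hx hz ⊢
  intro w
  rw [inner_add_right, inner_smul_right, inner_smul_right]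
  have h3 := mul_le_mul_of_nonneg_left (hx w) ha
  have h4 := mul_le_mul_of_nonneg_left (hz w) hb
  have h5 : a * ‖Phi A (iv w)‖ ^ 2 + b * ‖Phi A (iv w)‖ ^ 2 = ‖Phi A (iv w)‖ ^ 2 := by
    rw [← add_mul, hab, one_mul]
  linarith

theorem neg_mem_VE {A : Matrix ι ι ℝ} {x : EuclideanSpace ℝ ι} (hx : x ∈ VE A) : -x ∈ VE A := by
  intro z
  have h := hx (-z)
  have h2 : Phi A (iv (-z)) = - Phi A (iv z) := by
    rw [iv_neg]; ext i; simp [Phi, mulVec_neg]
  rw [h2] at h
  rw [norm_neg]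
  calc ‖x‖ ≤ ‖x - -Phi A (iv z)‖ := h
    _ = ‖-x - Phi A (iv z)‖ := by rw [← norm_neg]; congr 1; abel

theorem volume_VE {A : Matrix ι ι ℝ} (hA : |A.det| = 1) (hG : (Aᵀ * A).PosDef) :
    volume (VE A) = 1 := by
  rw [← volume_VG hG, ← preimage_VE,
    (measurePreserving_Phi hA).measure_preimage (measurableSet_VE A).nullMeasurableSet]

/-- `fV` as a Gaussian integral over the Voronoi cell in Euclidean space. -/
theorem fV_eq_VE {A : Matrix ι ι ℝ} (hA : |A.det| = 1) (hG : (Aᵀ * A).PosDef) (s : ℝ) :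
    fV s (Aᵀ * A) = (1 / s ^ Fintype.card ι) *
      ∫ v in VE A, Real.exp (-(Real.pi / s ^ 2) * ‖v‖ ^ 2) := by
  rw [fV_eq hG, setIntegral_VE hA]
  have : (Aᵀ * A).det = 1 := by
    rw [det_mul, det_transpose, ← abs_mul_abs_self, hA, one_mul]
  rw [this, Real.sqrt_one]
  simp only [norm_Phi_sq]

theorem ball_subset_VE {A : Matrix ι ι ℝ} {r : ℝ}
    (h : ∀ z : ι → ℤ, z ≠ 0 → (2 * r) ^ 2 ≤ qf (Aᵀ * A) (iv z)) :
    closedBall (0 : EuclideanSpace ℝ ι) r ⊆ VE A := by
  intro v hv z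
  rw [mem_closedBall, dist_zero_right] at hv
  by_cases hz : z = 0
  · rw [hz, iv_zero]; simp [Phi]
  · have h1 := h z hz
    rw [← norm_Phi_sq] at h1
    have h2 : 0 ≤ r := (norm_nonneg v).trans hv
    have h3 : 2 * r ≤ ‖Phi A (iv z)‖ := (abs_le_of_sq_le_sq' h1 (norm_nonneg _)).2
    have h4 : ‖Phi A (iv z)‖ ≤ ‖v‖ + ‖v - Phi A (iv z)‖ := by
      calc ‖Phi A (iv z)‖ = ‖v - (v - Phi A (iv z))‖ := by congr 1; abel
        _ ≤ _ := norm_sub_le _ _
    linarith

theorem VE_subset_ball {A : Matrix ι ι ℝ} (hA : |A.det| = 1) {R : ℝ} (hR : 0 ≤ R)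
    (h : ∀ x : ι → ℝ, ∃ z : ι → ℤ, qf (Aᵀ * A) (x - iv z) ≤ R ^ 2) :
    VE A ⊆ closedBall (0 : EuclideanSpace ℝ ι) R := by
  intro v hv
  rw [mem_closedBall, dist_zero_right]
  have h0 : IsUnit A.det := by
    refine isUnit_iff_ne_zero.2 fun h => ?_
    simp [h] at hA
  obtain ⟨z, hz⟩ := h (A⁻¹ *ᵥ v.ofLp)
  rw [← norm_Phi_sq, Phi_sub] at hz
  have h1 : Phi A (A⁻¹ *ᵥ v.ofLp) = v := by
    ext i; simp [Phi, mulVec_mulVec, mul_nonsing_inv _ h0]
  rw [h1] at hz
  exact (hv z).trans (abs_le_of_sq_le_sq' hz hR).2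

/-- critical point condition, matrix form -/
theorem crit_VE_matrix {A : Matrix ι ι ℝ} (hA : |A.det| = 1) (hG : (Aᵀ * A).PosDef) {s : ℝ}
    (hs : 0 < s)
    (hmin : ∀ᶠ G' in 𝓝 (Aᵀ * A), G'.PosDef → G'.det = 1 → fV s (Aᵀ * A) ≤ fV s G')
    {H : Matrix ι ι ℝ} (hH : H.IsSymm) (htr : H.trace = 0) :
    ∫ v in VE A, qf H v.ofLp * Real.exp (-(Real.pi / s ^ 2) * ‖v‖ ^ 2) = 0 := by
  have hu : IsUnit A.det := by
    refine isUnit_iff_ne_zero.2 fun h => ?_
    simp [h] at hA
  have hdet : (Aᵀ * A).det = 1 := by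
    rw [det_mul, det_transpose, ← abs_mul_abs_self, hA, one_mul]
  have hK : (Aᵀ * H * A).IsSymm := by
    rw [IsSymm, transpose_mul, transpose_mul, transpose_transpose, hH.eq, mul_assoc]
  have htr2 : ((Aᵀ * A)⁻¹ * (Aᵀ * H * A)).trace = 0 := by
    have h1 : (Aᵀ * A)⁻¹ * (Aᵀ * H * A) = A⁻¹ * (H * A) := by
      rw [Matrix.mul_inv_rev, mul_assoc, mul_assoc Aᵀ H A, nonsing_inv_mul_cancel_left]
      rwa [det_transpose]
    rw [h1, ← mul_assoc, trace_mul_comm, ← mul_assoc, mul_nonsing_inv _ hu, one_mul, htr]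
  have h := crit_gram hG hdet hs hmin hK htr2
  rw [setIntegral_VE hA]
  simp only [norm_Phi_sq]
  rw [← h]
  refine integral_congr_ae (Eventually.of_forall fun x => ?_)
  simp only [qf_gram, Phi]

/-- critical point condition, linear map form (hypothesis of WRM5 `crit_max`). -/
theorem crit_VE {A : Matrix ι ι ℝ} (hA : |A.det| = 1) (hG : (Aᵀ * A).PosDef) {s : ℝ}
    (hs : 0 < s)
    (hmin : ∀ᶠ G' in 𝓝 (Aᵀ * A), G'.PosDef → G'.det = 1 → fV s (Aᵀ * A) ≤ fV s G')
    (T : EuclideanSpace ℝ ι →ₗ[ℝ] EuclideanSpace ℝ ι) (hT : T.IsSymmetric)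
    (htr : LinearMap.trace ℝ _ T = 0) :
    ∫ v in VE A, inner ℝ v (T v) * Real.exp (-(Real.pi / s ^ 2) * ‖v‖ ^ 2) = 0 := by
  let b := (EuclideanSpace.basisFun ι ℝ).toBasis
  let H : Matrix ι ι ℝ := LinearMap.toMatrix b b T
  have hbv : ∀ i, b i = EuclideanSpace.single i (1:ℝ) := fun i => by
    simp [b]
  have hHij : ∀ i j, H i j = inner ℝ (b i) (T (b j)) := by
    intro i j
    simp only [H, LinearMap.toMatrix_apply]
    rw [hbv i, EuclideanSpace.inner_single_left]
    simp [b]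
  have hHs : H.IsSymm := by
    ext i j
    rw [transpose_apply, hHij, hHij, ← hT, real_inner_comm]
  have hHt : H.trace = 0 := by
    rw [← htr, LinearMap.trace_eq_matrix_trace ℝ b]
  have h := crit_VE_matrix hA hG hs hmin hHs hHt
  rw [← h]
  refine integral_congr_ae (Eventually.of_forall fun v => ?_)
  simp only
  congr 1
  have hTv : (T v).ofLp = H *ᵥ v.ofLp := by
    have hrepr : ∀ w : EuclideanSpace ℝ ι, (⇑(b.repr w) : ι → ℝ) = w.ofLp := by
      intro w; ext i; simp [b]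
    have := LinearMap.toMatrix_mulVec_repr b b T v
    rw [hrepr, hrepr] at this
    exact this.symm
  rw [EuclideanSpace.inner_eq_star_dotProduct, hTv]
  simp [qf, dotProduct_comm]

end Euclid

end Crest.Agent.R152.WRM4
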