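import Mathlib

/-!
# Row 152, module WRM-5, part (5.4): from diagonal deformations to all `|det A| = 1`.

`DiagMax m c` is the statement of (5.3).
-/

set_option autoImplicit false

open MeasureTheory Set Filter Topology
open scoped ENNReal NNReal RealInnerProductSpace

noncomputable section

namespace Crest.Agent.R152

/-- the statement of (5.3). -/
def DiagMax (m : ℕ) (c : ℝ) : Prop :=
  ∀ (W : Set (EuclideanSpace ℝ (Fin m))), MeasurableSet W → Convex ℝ W → (∀ x ∈ W, -x ∈ W) →
    Bornology.IsBounded W → ∀ h : Fin m → ℝ,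
    (∫ x in W, (∑ i, h i * x i ^ 2) * Real.exp (-c * ‖x‖ ^ 2)) = 0 →
    ∫ x in W, Real.exp (-c * ∑ i, Real.exp (2 * h i) * x i ^ 2) ≤
      ∫ x in W, Real.exp (-c * ‖x‖ ^ 2)

theorem inner_diag {m : ℕ} (h : Fin m → ℝ) (x y : EuclideanSpace ℝ (Fin m)) :
    ⟪x, Matrix.toEuclideanLin (Matrix.diagonal h) y⟫ = ∑ i, h i * (x i * y i) := by
  rw [PiLp.inner_apply]
  refine Finset.sum_congr rfl fun i _ => ?_
  rw [Matrix.toLpLin_apply]
  simp only [Matrix.mulVec_diagonal]
  simp
  ring

theorem crit_max_of_diag {m : ℕ} {c : ℝ} (hdiag : DiagMax m c)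
    {W : Set (EuclideanSpace ℝ (Fin m))} (hWm : MeasurableSet W) (hWc : Convex ℝ W)
    (hWs : ∀ x ∈ W, -x ∈ W) (hWb : Bornology.IsBounded W)
    (hcrit : ∀ H : EuclideanSpace ℝ (Fin m) →ₗ[ℝ] EuclideanSpace ℝ (Fin m), H.IsSymmetric →
      LinearMap.trace ℝ _ H = 0 → ∫ x in W, ⟪x, H x⟫ * Real.exp (-c * ‖x‖ ^ 2) = 0)
    (A : EuclideanSpace ℝ (Fin m) →ₗ[ℝ] EuclideanSpace ℝ (Fin m))
    (hA : |LinearMap.det A| = 1) :
    ∫ x in W, Real.exp (-c * ‖A x‖ ^ 2) ≤ ∫ x in W, Real.exp (-c * ‖x‖ ^ 2) := by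
  set S : EuclideanSpace ℝ (Fin m) →ₗ[ℝ] EuclideanSpace ℝ (Fin m) :=
    LinearMap.adjoint A ∘ₗ A with hS
  have hSs : S.IsSymmetric := by
    intro x y
    simp only [hS, LinearMap.comp_apply]
    rw [LinearMap.adjoint_inner_left, LinearMap.adjoint_inner_right]
  have hSx : ∀ x, ⟪x, S x⟫ = ‖A x‖ ^ 2 := by
    intro x
    simp only [hS, LinearMap.comp_apply]
    rw [LinearMap.adjoint_inner_right, real_inner_self_eq_norm_sq]
  have hn : Module.finrank ℝ (EuclideanSpace ℝ (Fin m)) = m := by simp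
  set b := hSs.eigenvectorBasis hn with hb
  set μ : Fin m → ℝ := hSs.eigenvalues hn with hμ
  have hSb : ∀ i, S (b i) = μ i • b i := by
    intro i
    exact hSs.apply_eigenvectorBasis hn i
  have hSr : ∀ v i, b.repr (S v) i = μ i * b.repr v i := fun v i =>
    hSs.eigenvectorBasis_apply_self_apply hn v i
  have hdetA : LinearMap.det A ≠ 0 := by
    intro h0
    rw [h0] at hA
    simp at hA
  have hAinj : Function.Injective A := by
    have := (LinearMap.equivOfDetNeZero A hdetA).injective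
    exact this
  have hμpos : ∀ i, 0 < μ i := by
    intro i
    have h1 : ⟪b i, S (b i)⟫ = μ i := by
      rw [hSb, inner_smul_right, real_inner_self_eq_norm_sq, b.norm_eq_one]
      simp
    rw [← h1, hSx]
    have hne : A (b i) ≠ 0 := by
      intro h0
      have : b i = 0 := hAinj (by rw [h0, map_zero])
      have hn1 := b.norm_eq_one i
      rw [this, norm_zero] at hn1
      exact zero_ne_one hn1
    positivity
  have hprod : ∏ i, μ i = 1 := by
    have h1 : LinearMap.det S = ∏ i, μ i := by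
      simpa using hSs.det_eq_prod_eigenvalues hn
    have h2 := A.normDet_sq
    rw [A.normDet_eq_norm_det, Real.norm_eq_abs, hA] at h2
    rw [← h1, hS, ← h2]
    simp
  set h : Fin m → ℝ := fun i => Real.log (μ i) / 2 with hh
  have hexp : ∀ i, Real.exp (2 * h i) = μ i := by
    intro i
    simp only [hh]
    rw [mul_div_cancel₀ _ (two_ne_zero), Real.exp_log (hμpos i)]
  have hsum : ∑ i, h i = 0 := by
    simp only [hh]
    rw [← Finset.sum_div, ← Real.log_prod (fun i _ => (hμpos i).ne'), hprod]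
    simp
  set U := b.repr.symm with hU
  have hmp : MeasurePreserving U := U.measurePreserving
  have hemb : MeasurableEmbedding U := U.toMeasurableEquiv.measurableEmbedding
  have hcv : ∀ F : EuclideanSpace ℝ (Fin m) → ℝ, ∫ y in U ⁻¹' W, F (U y) = ∫ x in W, F x :=
    fun F => hmp.setIntegral_preimage_emb hemb F W
  have hW'm : MeasurableSet (U ⁻¹' W) := hmp.measurable hWm
  have hW'c : Convex ℝ (U ⁻¹' W) := hWc.linear_preimage U.toLinearMap
  have hW's : ∀ x ∈ U ⁻¹' W, -x ∈ U ⁻¹' W := by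
    intro x hx
    have := hWs _ hx
    rw [mem_preimage, map_neg]
    exact this
  have hW'b : Bornology.IsBounded (U ⁻¹' W) := by
    rw [show U ⁻¹' W = U.symm '' W from (U.toEquiv.image_symm_eq_preimage W).symm]
    exact (U.symm.lipschitz.isBounded_image hWb)
  have hAU : ∀ y, ‖A (U y)‖ ^ 2 = ∑ i, Real.exp (2 * h i) * y i ^ 2 := by
    intro y
    rw [← hSx, ← b.repr.inner_map_map, PiLp.inner_apply]
    refine Finset.sum_congr rfl fun i _ => ?_
    rw [hSr, hexp]
    simp [hU]
    ring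
  have key := hdiag (U ⁻¹' W) hW'm hW'c hW's hW'b h ?_
  · rw [← hcv, ← hcv (fun x => Real.exp (-c * ‖x‖ ^ 2))]
    simp only [hAU, LinearIsometryEquiv.norm_map]
    exact key
  · set H : EuclideanSpace ℝ (Fin m) →ₗ[ℝ] EuclideanSpace ℝ (Fin m) :=
      U.toLinearMap ∘ₗ Matrix.toEuclideanLin (Matrix.diagonal h) ∘ₗ U.symm.toLinearMap with hH
    have hHi : ∀ x y, ⟪x, H y⟫ = ∑ i, h i * (U.symm x i * U.symm y i) := by
      intro x y
      rw [← inner_diag, ← U.symm.inner_map_map x (H y)]
      simp [hH]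
    have hHs : H.IsSymmetric := by
      intro x y
      rw [real_inner_comm, hHi, hHi]
      refine Finset.sum_congr rfl fun i _ => ?_
      ring
    have hHt : LinearMap.trace ℝ _ H = 0 := by
      have : H = U.toLinearEquiv.conj (Matrix.toEuclideanLin (Matrix.diagonal h)) := by
        ext x
        simp [hH, LinearEquiv.conj_apply]
      rw [this, LinearMap.trace_conj']
      have : LinearMap.trace ℝ _ (Matrix.toEuclideanLin (Matrix.diagonal h)) =
          ∑ i, h i := by
        rw [LinearMap.trace_eq_sum_inner _ (EuclideanSpace.basisFun (Fin m) ℝ)]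
        refine Finset.sum_congr rfl fun i _ => ?_
        rw [inner_diag]
        simp
      rw [this, hsum]
    have := hcrit H hHs hHt
    rw [← hcv] at this
    rw [← this]
    refine integral_congr_ae (Eventually.of_forall fun y => ?_)
    simp only
    rw [hHi, LinearIsometryEquiv.norm_map]
    simp [pow_two]

theorem crit_max_image_of_diag {m : ℕ} {c : ℝ} (hdiag : DiagMax m c)
    {W : Set (EuclideanSpace ℝ (Fin m))} (hWm : MeasurableSet W) (hWc : Convex ℝ W)
    (hWs : ∀ x ∈ W, -x ∈ W) (hWb : Bornology.IsBounded W)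
    (hcrit : ∀ H : EuclideanSpace ℝ (Fin m) →ₗ[ℝ] EuclideanSpace ℝ (Fin m), H.IsSymmetric →
      LinearMap.trace ℝ _ H = 0 → ∫ x in W, ⟪x, H x⟫ * Real.exp (-c * ‖x‖ ^ 2) = 0)
    (A : EuclideanSpace ℝ (Fin m) →ₗ[ℝ] EuclideanSpace ℝ (Fin m))
    (hA : |LinearMap.det A| = 1) :
    ∫ x in A '' W, Real.exp (-c * ‖x‖ ^ 2) ≤ ∫ x in W, Real.exp (-c * ‖x‖ ^ 2) := by
  have hdetA : LinearMap.det A ≠ 0 := by
    intro h0
    rw [h0] at hA
    simp at hA
  have hAinj : Function.Injective A := by
    have := (LinearMap.equivOfDetNeZero A hdetA).injective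
    exact this
  have h1 := integral_image_eq_integral_abs_det_fderiv_smul (volume : Measure
    (EuclideanSpace ℝ (Fin m))) hWm (f := A) (f' := fun _ => LinearMap.toContinuousLinearMap A)
    (fun x _ => (LinearMap.toContinuousLinearMap A).hasFDerivAt.hasFDerivWithinAt)
    hAinj.injOn (fun x => Real.exp (-c * ‖x‖ ^ 2))
  have h2 : |(LinearMap.toContinuousLinearMap A).det| = 1 := by
    rw [LinearMap.det_toContinuousLinearMap]
    exact hA
  rw [h1]
  simp only [h2, one_smul]
  exact crit_max_of_diag hdiag hWm hWc hWs hWb hcrit A hA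

end Crest.Agent.R152
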