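import Crest.Agent.R152.WRM6C

/-!
# Good position: support function form and Euclidean space form
-/

set_option autoImplicit false

namespace Crest.Agent.R152.WRM6

open Finset Matrix Filter Topology

variable {m : ℕ}

/-- passing from arbitrary test vectors to the support function -/
lemma ell_mul_avg_sSup_le (N : Seminorm ℝ (Fin m → ℝ)) (A : Matrix (Fin m) (Fin m) ℝ) (D : ℝ)
    (h : ∀ G : Sg m → Fin m → ℝ, (∀ e, N (A *ᵥ G e) ≤ 1) →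
      ell N A * avg (fun e => G e ⬝ᵥ sgv e) ≤ D) :
    ell N A * avg (fun e => sSup {t : ℝ | ∃ x : Fin m → ℝ, N (A *ᵥ x) ≤ 1 ∧ t = x ⬝ᵥ sgv e}) ≤ D := by
  have key : ∀ d : ℝ, 0 < d → ell N A * (avg (fun e => sSup {t : ℝ | ∃ x : Fin m → ℝ, N (A *ᵥ x) ≤ 1 ∧ t = x ⬝ᵥ sgv e}) - d) ≤ D := by
    intro d hd
    have hex : ∀ e : Sg m, ∃ x : Fin m → ℝ, N (A *ᵥ x) ≤ 1 ∧
        sSup {t : ℝ | ∃ x : Fin m → ℝ, N (A *ᵥ x) ≤ 1 ∧ t = x ⬝ᵥ sgv e} - d < x ⬝ᵥ sgv e := by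
      intro e
      have hne : {t : ℝ | ∃ x : Fin m → ℝ, N (A *ᵥ x) ≤ 1 ∧ t = x ⬝ᵥ sgv e}.Nonempty :=
        ⟨0, 0, by simp, by simp⟩
      obtain ⟨t, ⟨x, hx, rfl⟩, ht⟩ := exists_lt_of_lt_csSup hne (sub_lt_self _ hd)
      exact ⟨x, hx, ht⟩
    choose G hG1 hG2 using hex
    refine le_trans (mul_le_mul_of_nonneg_left ?_ (ell_nonneg N A)) (h G hG1)
    have : avg (fun e => sSup {t : ℝ | ∃ x : Fin m → ℝ, N (A *ᵥ x) ≤ 1 ∧ t = x ⬝ᵥ sgv e}) - d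
        = avg (fun e => sSup {t : ℝ | ∃ x : Fin m → ℝ, N (A *ᵥ x) ≤ 1 ∧ t = x ⬝ᵥ sgv e} - d) := by
      simp only [avg, Finset.sum_sub_distrib, mul_sub]
      congr 1
      simp [Finset.card_univ, Fintype.card_pi]
    rw [this]
    exact avg_mono fun e => (hG2 e).le
  have hlim : Tendsto (fun d : ℝ => ell N A * (avg (fun e => sSup {t : ℝ | ∃ x : Fin m → ℝ, N (A *ᵥ x) ≤ 1 ∧ t = x ⬝ᵥ sgv e}) - d)) (𝓝[>] 0)
      (𝓝 (ell N A * (avg (fun e => sSup {t : ℝ | ∃ x : Fin m → ℝ, N (A *ᵥ x) ≤ 1 ∧ t = x ⬝ᵥ sgv e}) - 0))) := by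
    refine (Continuous.tendsto ?_ 0).mono_left nhdsWithin_le_nhds
    fun_prop
  rw [sub_zero] at hlim
  refine le_of_tendsto hlim ?_
  filter_upwards [self_mem_nhdsWithin] with d hd
  exact key d hd

/-- **Good position**, support function form. -/
theorem good_position_sSup (K : ℕ) (hK : 1 ≤ K) :
    ∃ C : ℝ, 0 < C ∧ ∀ (m : ℕ) (N : Seminorm ℝ (Fin m → ℝ)) (R : ℝ), 1 ≤ R →
      (∀ x, N x ≤ R * l2 x) → (∀ x, l2 x ≤ R * N x) →
      ∃ A : Matrix (Fin m) (Fin m) ℝ, A.det = 1 ∧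
        ell N A * avg (fun e => sSup {t : ℝ | ∃ x : Fin m → ℝ, N (A *ᵥ x) ≤ 1 ∧ t = x ⬝ᵥ sgv e})
          ≤ m * (C * R ^ ((2:ℝ) / K)) := by
  obtain ⟨C, hC, h⟩ := good_position K hK
  refine ⟨C, hC, fun m N R hR h1 h2 => ?_⟩
  obtain ⟨A, hA, hG⟩ := h m N R hR h1 h2
  exact ⟨A, hA, ell_mul_avg_sSup_le N A _ hG⟩

/-- sign vector in Euclidean space -/
noncomputable def sgE (e : Sg m) : EuclideanSpace ℝ (Fin m) := WithLp.toLp 2 (sgv e)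

lemma l2_eq_norm (x : Fin m → ℝ) : l2 x = ‖(WithLp.toLp 2 x : EuclideanSpace ℝ (Fin m))‖ := by
  rw [EuclideanSpace.norm_eq]
  simp [l2]

/-- **Good position** in `EuclideanSpace`. -/
theorem good_position_euclid (K : ℕ) (hK : 1 ≤ K) :
    ∃ C : ℝ, 0 < C ∧ ∀ (m : ℕ) (N : Seminorm ℝ (EuclideanSpace ℝ (Fin m))) (R : ℝ), 1 ≤ R →
      (∀ x, N x ≤ R * ‖x‖) → (∀ x, ‖x‖ ≤ R * N x) →
      ∃ A : EuclideanSpace ℝ (Fin m) →ₗ[ℝ] EuclideanSpace ℝ (Fin m), LinearMap.det A = 1 ∧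
        (∀ G : Sg m → EuclideanSpace ℝ (Fin m), (∀ e, N (A (G e)) ≤ 1) →
          avg (fun e => N (A (sgE e))) * avg (fun e => inner ℝ (G e) (sgE e)) ≤ m * (C * R ^ ((2:ℝ) / K))) ∧
        avg (fun e => N (A (sgE e))) *
          avg (fun e => sSup {t : ℝ | ∃ x : EuclideanSpace ℝ (Fin m), N (A x) ≤ 1 ∧ t = inner ℝ x (sgE e)})
          ≤ m * (C * R ^ ((2:ℝ) / K)) := by
  obtain ⟨C, hC, h⟩ := good_position K hK
  refine ⟨C, hC, fun m N R hR h1 h2 => ?_⟩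
  set L := (WithLp.linearEquiv 2 ℝ (Fin m → ℝ)).symm with hL
  set N' : Seminorm ℝ (Fin m → ℝ) := N.comp L.toLinearMap with hN'
  have hN'a : ∀ x, N' x = N (WithLp.toLp 2 x) := fun x => rfl
  obtain ⟨A, hA, hG⟩ := h m N' R hR (fun x => by rw [hN'a, l2_eq_norm]; exact h1 _)
    (fun x => by rw [hN'a, l2_eq_norm]; exact h2 _)
  have hAx : ∀ x : EuclideanSpace ℝ (Fin m), Matrix.toEuclideanLin A x = WithLp.toLp 2 (A *ᵥ (WithLp.ofLp x)) :=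
    fun x => rfl
  have hinner : ∀ (x : EuclideanSpace ℝ (Fin m)) (e : Sg m), inner ℝ x (sgE e) = (WithLp.ofLp x) ⬝ᵥ sgv e := by
    intro x e
    rw [PiLp.inner_apply]
    simp only [dotProduct, sgE]
    exact Finset.sum_congr rfl fun i _ => by simp [mul_comm]
  have hell : avg (fun e => N (Matrix.toEuclideanLin A (sgE e))) = ell N' A := rfl
  refine ⟨Matrix.toEuclideanLin A, ?_, ?_, ?_⟩
  · rw [Matrix.toEuclideanLin_eq_toLin_orthonormal, LinearMap.det_toLin, hA]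
  · intro G hGe
    have := hG (fun e => WithLp.ofLp (G e)) (fun e => hGe e)
    simp only [hinner]
    exact this
  · have := ell_mul_avg_sSup_le N' A _ hG
    refine le_trans (le_of_eq ?_) this
    rw [hell]
    congr 2
    ext e
    congr 1
    ext t
    constructor
    · rintro ⟨x, hx, rfl⟩
      exact ⟨WithLp.ofLp x, hx, hinner x e⟩
    · rintro ⟨x, hx, rfl⟩
      exact ⟨WithLp.toLp 2 x, hx, (hinner (WithLp.toLp 2 x) e).symm⟩

end Crest.Agent.R152.WRM6
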