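import Crest.Agent.R152.WrmB2

/-!
# Row 152, weak reverse Minkowski, step (5) part 3

The diagonal path: for a symmetric convex bounded set `V` which is critical in the diagonal
direction `h`, the Gaussian mass does not increase along `x ↦ exp (t h) x`.
-/

set_option autoImplicit false

open MeasureTheory Set
open scoped ENNReal

namespace Crest.Agent.R152.WrmB

variable {m : ℕ}

/-- differentiation under the integral sign on a bounded set. -/
lemma hasDerivAt_setInt {V : Set (Fin m → ℝ)} (hVb : Bornology.IsBounded V)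
    {F F' : ℝ → (Fin m → ℝ) → ℝ}
    (hF : Continuous (fun p : ℝ × (Fin m → ℝ) => F p.1 p.2))
    (hF' : Continuous (fun p : ℝ × (Fin m → ℝ) => F' p.1 p.2))
    (hd : ∀ t x, HasDerivAt (fun t => F t x) (F' t x) t) (t₀ : ℝ) :
    HasDerivAt (fun t => ∫ x in V, F t x) (∫ x in V, F' t₀ x) t₀ := by
  have hc1 : IsCompact (Metric.closedBall t₀ 1 ×ˢ closure V) :=
    (isCompact_closedBall t₀ 1).prod hVb.isCompact_closure
  obtain ⟨C, hC⟩ := hc1.exists_bound_of_continuousOn hF'.continuousOn
  have hFt : ∀ t, Continuous (F t) := fun t => hF.comp (Continuous.prodMk_right t)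
  have hF't : ∀ t, Continuous (F' t) := fun t => hF'.comp (Continuous.prodMk_right t)
  have hfin : volume V < ∞ := hVb.measure_lt_top
  have : IsFiniteMeasure ((volume : Measure (Fin m → ℝ)).restrict V) :=
    ⟨by rwa [Measure.restrict_apply_univ]⟩
  have hsub : ∀ᵐ x ∂((volume : Measure (Fin m → ℝ)).restrict V), x ∈ closure V := by
    have h0 : ∀ᵐ x ∂((volume : Measure (Fin m → ℝ)).restrict (closure V)), x ∈ closure V :=
      ae_restrict_mem isClosed_closure.measurableSet
    exact ae_mono (Measure.restrict_mono subset_closure le_rfl) h0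
  refine (hasDerivAt_integral_of_dominated_loc_of_deriv_le (s := Metric.closedBall t₀ 1)
    (bound := fun _ => C) (Metric.closedBall_mem_nhds t₀ one_pos) ?_ ?_ ?_ ?_ ?_ ?_).2
  · exact Filter.Eventually.of_forall fun t => (hFt t).aestronglyMeasurable
  · exact intOn hVb (hFt t₀)
  · exact (hF't t₀).aestronglyMeasurable
  · filter_upwards [hsub] with x hx t ht
    exact hC (t, x) ⟨ht, hx⟩
  · exact integrable_const C
  · exact Filter.Eventually.of_forall fun x t _ => hd t x

/-- weights along the path. -/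
noncomputable def wt (h : Fin m → ℝ) (t : ℝ) : Fin m → ℝ := fun i => Real.exp (2 * t * h i)

lemma continuous_wsq_wt (h : Fin m → ℝ) :
    Continuous (fun p : ℝ × (Fin m → ℝ) => wsq (wt h p.1) p.2) := by
  unfold wsq wt; fun_prop

lemma continuous_qf_wt (h : Fin m → ℝ) :
    Continuous (fun p : ℝ × (Fin m → ℝ) => qf h (wt h p.1) p.2) := by
  unfold qf wt; fun_prop

lemma hasDerivAt_wsq_wt (h x : Fin m → ℝ) (t : ℝ) :
    HasDerivAt (fun t => wsq (wt h t) x) (2 * qf h (wt h t) x) t := by
  unfold wsq wt qf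
  rw [Finset.mul_sum]
  refine HasDerivAt.fun_sum fun i _ => ?_
  have h1 : HasDerivAt (fun t : ℝ => Real.exp (2 * t * h i)) (Real.exp (2 * t * h i) * (2 * h i)) t := by
    have := (((hasDerivAt_id t).const_mul 2).mul_const (h i)).exp
    simpa using this
  have h2 := h1.mul_const (x i ^ 2)
  refine h2.congr_deriv ?_
  ring

lemma hasDerivAt_qf_wt (h x : Fin m → ℝ) (t : ℝ) :
    HasDerivAt (fun t => qf h (wt h t) x) (2 * ∑ i, (wt h t) i * h i ^ 2 * x i ^ 2) t := by
  unfold qf wt
  rw [Finset.mul_sum]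
  refine HasDerivAt.fun_sum fun i _ => ?_
  have h1 : HasDerivAt (fun t : ℝ => Real.exp (2 * t * h i)) (Real.exp (2 * t * h i) * (2 * h i)) t := by
    have := (((hasDerivAt_id t).const_mul 2).mul_const (h i)).exp
    simpa using this
  have h2 := (h1.const_mul (h i)).mul_const (x i ^ 2)
  refine h2.congr_deriv ?_
  ring

/-- Gaussian mass along the diagonal path. -/
noncomputable def gm (V : Set (Fin m → ℝ)) (c : ℝ) (h : Fin m → ℝ) (t : ℝ) : ℝ :=
  ∫ x in V, Real.exp (-c * wsq (wt h t) x)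

lemma hasDerivAt_gm {V : Set (Fin m → ℝ)} (hVb : Bornology.IsBounded V) (c : ℝ)
    (h : Fin m → ℝ) (t : ℝ) :
    HasDerivAt (gm V c h) (-(2 * c) * ∫ x in V, qf h (wt h t) x * Real.exp (-c * wsq (wt h t) x))
      t := by
  have h1 := continuous_wsq_wt h
  have h2 := continuous_qf_wt h
  have := hasDerivAt_setInt hVb (F := fun t x => Real.exp (-c * wsq (wt h t) x))
    (F' := fun t x => -(2 * c) * (qf h (wt h t) x * Real.exp (-c * wsq (wt h t) x)))
    (by fun_prop) (by fun_prop) (fun t x => by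
      have h3 := ((hasDerivAt_wsq_wt h x t).const_mul (-c)).exp
      refine h3.congr_deriv ?_
      ring) t
  rw [integral_const_mul] at this
  exact this

lemma hasDerivAt_gm' {V : Set (Fin m → ℝ)} (hVb : Bornology.IsBounded V) (c : ℝ)
    (h : Fin m → ℝ) (t : ℝ) :
    HasDerivAt (fun t => ∫ x in V, qf h (wt h t) x * Real.exp (-c * wsq (wt h t) x))
      (2 * (∫ x in V, (∑ i, (wt h t) i * h i ^ 2 * x i ^ 2) * Real.exp (-c * wsq (wt h t) x))
        - 2 * c * ∫ x in V, qf h (wt h t) x ^ 2 * Real.exp (-c * wsq (wt h t) x)) t := by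
  have h1 := continuous_wsq_wt h
  have h2 := continuous_qf_wt h
  have h4 : Continuous (fun p : ℝ × (Fin m → ℝ) => ∑ i, (wt h p.1) i * h i ^ 2 * p.2 i ^ 2) := by
    unfold wt; fun_prop
  have := hasDerivAt_setInt hVb (F := fun t x => qf h (wt h t) x * Real.exp (-c * wsq (wt h t) x))
    (F' := fun t x => 2 * ((∑ i, (wt h t) i * h i ^ 2 * x i ^ 2) * Real.exp (-c * wsq (wt h t) x))
      - 2 * c * (qf h (wt h t) x ^ 2 * Real.exp (-c * wsq (wt h t) x)))
    (by fun_prop) (by fun_prop) (fun t x => by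
      have h3 := ((hasDerivAt_wsq_wt h x t).const_mul (-c)).exp
      have h5 := (hasDerivAt_qf_wt h x t).mul h3
      refine h5.congr_deriv ?_
      ring) t
  have hw : Continuous (wsq (wt h t)) := continuous_wsq _
  have hq : Continuous (qf h (wt h t)) := continuous_qf _ _
  rw [integral_sub ((intOn hVb (by fun_prop))) ((intOn hVb (by fun_prop))), integral_const_mul,
    integral_const_mul] at this
  exact this

/-- **Step (5.3)**, weighted form on `Fin m → ℝ`: if `V` is critical in the diagonal direction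
`h`, the Gaussian mass of `exp(h) V` is at most that of `V`. -/
theorem diag_le {V : Set (Fin m → ℝ)} (hVm : MeasurableSet V) (hVc : Convex ℝ V)
    (hVs : ∀ x ∈ V, -x ∈ V) (hVb : Bornology.IsBounded V) {c : ℝ} (hc : 0 < c)
    (h : Fin m → ℝ)
    (hcrit : ∫ x in V, (∑ i, h i * x i ^ 2) * Real.exp (-c * ∑ i, x i ^ 2) = 0) :
    ∫ x in V, Real.exp (-c * ∑ i, Real.exp (2 * h i) * x i ^ 2)
      ≤ ∫ x in V, Real.exp (-c * ∑ i, x i ^ 2) := by
  by_cases hV0 : volume V = 0
  · have : (volume : Measure (Fin m → ℝ)).restrict V = 0 := Measure.restrict_eq_zero.mpr hV0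
    simp [this]
  have hg1 : gm V c h 1 = ∫ x in V, Real.exp (-c * ∑ i, Real.exp (2 * h i) * x i ^ 2) := by
    unfold gm wsq wt; simp
  have hg0 : gm V c h 0 = ∫ x in V, Real.exp (-c * ∑ i, x i ^ 2) := by
    unfold gm wsq wt; simp
  rw [← hg1, ← hg0]
  have hpos : ∀ t, 0 < gm V c h t := by
    intro t
    unfold gm
    have hcw := continuous_wsq (wt h t)
    rw [setIntegral_pos_iff_support_of_nonneg_ae
      (Filter.Eventually.of_forall fun x => (Real.exp_pos _).le) (intOn hVb (by fun_prop))]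
    have : Function.support (fun x => Real.exp (-c * wsq (wt h t) x)) = univ := by
      ext x; simp [Real.exp_ne_zero]
    rw [this, univ_inter]
    exact pos_iff_ne_zero.mpr hV0
  set C : ℝ → ℝ := fun t => ∫ x in V, qf h (wt h t) x * Real.exp (-c * wsq (wt h t) x) with hC
  set R : ℝ → ℝ := fun t => C t / gm V c h t with hR
  have hRd : ∀ t, HasDerivAt R (((2 * (∫ x in V, (∑ i, (wt h t) i * h i ^ 2 * x i ^ 2)
        * Real.exp (-c * wsq (wt h t) x))
        - 2 * c * ∫ x in V, qf h (wt h t) x ^ 2 * Real.exp (-c * wsq (wt h t) x)) * gm V c h t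
        - C t * (-(2 * c) * C t)) / gm V c h t ^ 2) t := fun t =>
    (hasDerivAt_gm' hVb c h t).div (hasDerivAt_gm hVb c h t) (hpos t).ne'
  have hmono : Monotone R := by
    refine monotone_of_hasDerivAt_nonneg hRd fun t => ?_
    refine div_nonneg ?_ (sq_nonneg _)
    have hq := quadVar hVm hVc hVs hVb hc (wt h t) (fun i => (Real.exp_pos _).le) h
    set A := ∫ x in V, qf h (wt h t) x ^ 2 * Real.exp (-c * wsq (wt h t) x)
    set D := ∫ x in V, (∑ i, (wt h t) i * h i ^ 2 * x i ^ 2) * Real.exp (-c * wsq (wt h t) x)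
    have hq' : A * gm V c h t - C t ^ 2 ≤ (1 / c) * D * gm V c h t := hq
    have h1 : c * (A * gm V c h t - C t ^ 2) ≤ D * gm V c h t := by
      have := mul_le_mul_of_nonneg_left hq' hc.le
      have e : c * ((1 / c) * D * gm V c h t) = D * gm V c h t := by field_simp
      rwa [e] at this
    nlinarith [h1]
  have hR0 : R 0 = 0 := by
    have : C 0 = 0 := by
      refine Eq.trans ?_ hcrit
      rw [hC]
      unfold qf wsq wt; simp
    rw [hR]; simp [this]
  have hCpos : ∀ t, 0 ≤ t → 0 ≤ C t := by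
    intro t ht
    have h1 : 0 ≤ R t := hR0 ▸ hmono ht
    have h2 : C t = R t * gm V c h t := by rw [hR]; field_simp [(hpos t).ne']
    rw [h2]; exact mul_nonneg h1 (hpos t).le
  have hanti : AntitoneOn (gm V c h) (Icc 0 1) := by
    refine antitoneOn_of_deriv_nonpos (convex_Icc 0 1)
      (fun t _ => (hasDerivAt_gm hVb c h t).continuousAt.continuousWithinAt)
      (fun t _ => (hasDerivAt_gm hVb c h t).differentiableAt.differentiableWithinAt) ?_
    intro t ht
    rw [interior_Icc] at ht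
    rw [(hasDerivAt_gm hVb c h t).deriv]
    have := hCpos t ht.1.le
    have h2 : 0 ≤ 2 * c * ∫ x in V, qf h (wt h t) x * Real.exp (-c * wsq (wt h t) x) :=
      mul_nonneg (by linarith) this
    linarith
  exact hanti (left_mem_Icc.mpr zero_le_one) (right_mem_Icc.mpr zero_le_one) zero_le_one

/-- **Step (5.3)** on `EuclideanSpace ℝ (Fin m)`. -/
theorem diag_le_euclidean {V : Set (EuclideanSpace ℝ (Fin m))} (hVm : MeasurableSet V)
    (hVc : Convex ℝ V) (hVs : ∀ x ∈ V, -x ∈ V) (hVb : Bornology.IsBounded V) {c : ℝ} (hc : 0 < c)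
    (h : Fin m → ℝ)
    (hcrit : ∫ x in V, (∑ i, h i * x i ^ 2) * Real.exp (-c * ‖x‖ ^ 2) = 0) :
    ∫ x in V, Real.exp (-c * ∑ i, Real.exp (2 * h i) * x i ^ 2)
      ≤ ∫ x in V, Real.exp (-c * ‖x‖ ^ 2) := by
  have hmp := PiLp.volume_preserving_toLp (Fin m)
  have hemb : MeasurableEmbedding (WithLp.toLp 2 : (Fin m → ℝ) → EuclideanSpace ℝ (Fin m)) :=
    (MeasurableEquiv.toLp 2 (Fin m → ℝ)).measurableEmbedding
  have tr : ∀ f : EuclideanSpace ℝ (Fin m) → ℝ,
      ∫ x in V, f x = ∫ x in (WithLp.toLp 2 : (Fin m → ℝ) → _) ⁻¹' V, f (WithLp.toLp 2 x) := by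
    intro f
    exact (hmp.setIntegral_preimage_emb hemb f V).symm
  have hn : ∀ x : Fin m → ℝ, ‖(WithLp.toLp 2 x : EuclideanSpace ℝ (Fin m))‖ ^ 2 = ∑ i, x i ^ 2 := by
    intro x
    rw [EuclideanSpace.norm_sq_eq]
    simp
  rw [tr, tr]
  rw [tr] at hcrit
  simp only [hn] at hcrit ⊢
  refine diag_le (hVm.preimage hmp.measurable) ?_ ?_ ?_ hc h hcrit
  · intro x hx y hy p q hp hq hpq
    exact hVc hx hy hp hq hpq
  · intro x hx
    exact hVs _ hx
  · have h1 := (PiLp.antilipschitzWith_toLp 2 (fun _ : Fin m => ℝ))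
    exact h1.isBounded_preimage hVb

end Crest.Agent.R152.WrmB
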