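import Crest.Agent.R152.WRM7C
import Crest.Agent.R152.WRM5d
import Crest.Agent.R152.WrmB3
import Crest.Agent.R152.WRM6D

/-!
# WRM-7, part D: critical convex bodies have large gaussian measure

`gauss_body_ge`: a compact convex symmetric body `V` of volume `≥ 1` with
`closedBall 0 r ⊆ V ⊆ closedBall 0 R` which is critical for the gaussian measure
`exp (-(π / s²) ‖x‖²)` satisfies
`(1 - s * C * Q ^ (2 / K) * log (m + 2)) * s ^ m ≤ ∫ x in V, exp (-(π / s²) ‖x‖²)`.
-/

set_option autoImplicit false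

open MeasureTheory Set Real
open scoped ENNReal Pointwise

namespace Crest.Agent.R152.WRM7

lemma exists_seminorm {m : ℕ} {V : Set (Eu m)} (hVcl : IsClosed V) (hVc : Convex ℝ V)
    (hVs : ∀ x ∈ V, -x ∈ V) {r R : ℝ} (hr : 0 < r) (hball : Metric.closedBall 0 r ⊆ V)
    (hR : V ⊆ Metric.closedBall 0 R) :
    ∃ N : Seminorm ℝ (Eu m), ub N = V ∧ (∀ x, N x ≤ (1 / r) * ‖x‖) ∧ (∀ x, ‖x‖ ≤ R * N x) := by
  have h0 : (0 : Eu m) ∈ V := hball (by simp [hr.le])
  have hnhds : V ∈ nhds (0 : Eu m) := Filter.mem_of_superset (Metric.closedBall_mem_nhds _ hr) hball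
  have hbal : Balanced ℝ V := by
    rw [balanced_iff_smul_mem]
    intro a ha x hx
    rw [Real.norm_eq_abs] at ha
    rcases le_or_gt 0 a with h | h
    · rw [abs_of_nonneg h] at ha
      have := hVc hx h0 h (by linarith : (0:ℝ) ≤ 1 - a) (by ring)
      simpa using this
    · rw [abs_of_neg h] at ha
      have := hVc (hVs x hx) h0 (by linarith : (0:ℝ) ≤ -a) (by linarith : (0:ℝ) ≤ 1 - (-a)) (by ring)
      simpa using this
  have habs : Absorbent ℝ V := absorbent_nhds_zero hnhds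
  set N : Seminorm ℝ (Eu m) := gaugeSeminorm hbal hVc habs with hN
  have hub : ub N = V := by
    ext x
    show gauge V x ≤ 1 ↔ x ∈ V
    rw [gauge_le_one_iff_mem_closure hVc hnhds, hVcl.closure_eq]
  refine ⟨N, hub, ?_, ?_⟩
  · intro x
    rcases eq_or_ne x 0 with rfl | hx
    · simp
    · have hx0 : 0 < ‖x‖ := norm_pos_iff.mpr hx
      have h1 : (r / ‖x‖) • x ∈ V := by
        apply hball
        rw [mem_closedBall_zero_iff, norm_smul, Real.norm_of_nonneg (by positivity)]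
        field_simp
        exact le_refl _
      rw [← hub] at h1
      have h2 : N ((r / ‖x‖) • x) ≤ 1 := h1
      rw [map_smul_eq_mul, Real.norm_of_nonneg (by positivity)] at h2
      rw [div_mul_eq_mul_div, div_le_one hx0] at h2
      rw [one_div, inv_mul_eq_div, le_div_iff₀ hr]
      linarith
  · intro x
    rcases (apply_nonneg N x).eq_or_lt with h | h
    · have h1 : ∀ n : ℕ, (n : ℝ) * ‖x‖ ≤ R := by
        intro n
        have h2 : (n : ℝ) • x ∈ V := by
          rw [← hub]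
          show N ((n : ℝ) • x) ≤ 1
          rw [map_smul_eq_mul, ← h, mul_zero]
          norm_num
        have h3 := hR h2
        rw [mem_closedBall_zero_iff, norm_smul, Real.norm_of_nonneg (Nat.cast_nonneg n)] at h3
        exact h3
      have hx0 : ‖x‖ = 0 := by
        by_contra hne
        have hpos : 0 < ‖x‖ := lt_of_le_of_ne (norm_nonneg x) (Ne.symm hne)
        obtain ⟨n, hn⟩ := exists_nat_gt (R / ‖x‖)
        have := h1 n
        rw [div_lt_iff₀ hpos] at hn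
        linarith
      rw [← h, hx0, mul_zero]
    · have h1 : (N x)⁻¹ • x ∈ V := by
        rw [← hub]
        show N ((N x)⁻¹ • x) ≤ 1
        rw [map_smul_eq_mul, Real.norm_of_nonneg (by positivity), inv_mul_cancel₀ h.ne']
      have h2 := hR h1
      rw [mem_closedBall_zero_iff, norm_smul, Real.norm_of_nonneg (by positivity)] at h2
      rw [inv_mul_eq_div, div_le_iff₀ h] at h2
      exact h2

/-- booleans and units of `ℤ` -/
def bu : Bool ≃ ℤˣ where
  toFun b := if b then 1 else -1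
  invFun u := decide (u = 1)
  left_inv b := by cases b <;> simp
  right_inv u := by
    rcases Int.units_eq_one_or u with h | h <;> simp [h]

lemma sgE_bu {m : ℕ} (e : Fin m → Bool) : WRM6.sgE (fun i => bu (e i)) = sgv e := by
  ext i
  show WRM6.sv (bu (e i)) = sg (e i)
  cases e i <;> simp [bu, sg]

/-- index change -/
def buE (m : ℕ) : (Fin m → Bool) ≃ WRM6.Sg m := Equiv.piCongrRight (fun _ => bu)

lemma avg_eq {m : ℕ} (f : WRM6.Sg m → ℝ) :
    WRM6.avg f = (∑ e : Fin m → Bool, f (fun i => bu (e i))) / 2 ^ m := by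
  rw [WRM6.avg, ← Equiv.sum_comp (buE m) f, div_eq_inv_mul]
  rfl

lemma diagMax (m : ℕ) {c : ℝ} (hc : 0 < c) : Crest.Agent.R152.DiagMax m c := fun _ hm hcx hs hb h hcrit =>
  WrmB.diag_le_euclidean hm hcx hs hb hc h hcrit

/-- **Critical bodies have large gaussian measure.** -/
theorem gauss_body_ge (K : ℕ) (hK : 1 ≤ K) : ∃ C : ℝ, 0 < C ∧ ∀ (m : ℕ) (V : Set (Eu m)),
    0 < m → IsClosed V → Convex ℝ V → (∀ x ∈ V, -x ∈ V) → ∀ r Q : ℝ, 0 < r → 1 ≤ Q → 1 / r ≤ Q →
    Metric.closedBall 0 r ⊆ V → V ⊆ Metric.closedBall 0 Q → 1 ≤ volume V → ∀ s : ℝ, 0 < s →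
    (∀ H : Eu m →ₗ[ℝ] Eu m, H.IsSymmetric → LinearMap.trace ℝ _ H = 0 →
      ∫ x in V, inner ℝ x (H x) * Real.exp (-(Real.pi / s ^ 2) * ‖x‖ ^ 2) = 0) →
    (1 - s * (C * Q ^ ((2:ℝ) / K) * Real.log (m + 2))) * s ^ m ≤
      ∫ x in V, Real.exp (-(Real.pi / s ^ 2) * ‖x‖ ^ 2) := by
  obtain ⟨C₀, hC₀, hgood⟩ := WRM6.good_position_euclid K hK
  refine ⟨4 * Real.pi * C₀, by have := Real.pi_pos; positivity, ?_⟩
  intro m V hm hVcl hVc hVs r Q hr hQ hrQ hball hVQ hvol s hs hcrit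
  obtain ⟨N, hub, hN1, hN2⟩ := exists_seminorm hVcl hVc hVs hr hball hVQ
  have hN1' : ∀ x, N x ≤ Q * ‖x‖ := fun x =>
    (hN1 x).trans (mul_le_mul_of_nonneg_right hrQ (norm_nonneg x))
  obtain ⟨A, hdet, hA, -⟩ := hgood m N Q hQ hN1' hN2
  have hc : 0 < Real.pi / s ^ 2 := by have := Real.pi_pos; positivity
  have hdet0 : LinearMap.det A ≠ 0 := by rw [hdet]; exact one_ne_zero
  let e : Eu m ≃ₗ[ℝ] Eu m := LinearMap.equivOfDetNeZero A hdet0
  have he : ∀ x, e x = A x := fun x => rfl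
  let ec : Eu m ≃L[ℝ] Eu m := e.toContinuousLinearEquiv
  have hec : ∀ x, ec x = A x := fun x => rfl
  -- the transported seminorm
  set N' : Seminorm ℝ (Eu m) := N.comp A with hN'
  have hN'x : ∀ x, N' x = N (A x) := fun x => rfl
  have hub' : ub N' = A ⁻¹' V := by
    ext x
    rw [← hub]
    rfl
  have hQ0 : (0:ℝ) < Q := by linarith
  have hb' : ∀ x, N' x ≤ (Q * ‖(ec : Eu m →L[ℝ] Eu m)‖) * ‖x‖ := by
    intro x
    rw [hN'x, mul_assoc]
    refine (hN1' _).trans (mul_le_mul_of_nonneg_left ?_ hQ0.le)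
    exact (ec : Eu m →L[ℝ] Eu m).le_opNorm x
  set D : ℝ := ‖(ec.symm : Eu m →L[ℝ] Eu m)‖ * Q + 1 with hD
  have hD0 : 0 < D := by positivity
  have ha' : ∀ x, (1 / D) * ‖x‖ ≤ N' x := by
    intro x
    rw [one_div, inv_mul_le_iff₀ hD0, hN'x]
    have h1 : ‖x‖ ≤ ‖(ec.symm : Eu m →L[ℝ] Eu m)‖ * ‖A x‖ := by
      have := (ec.symm : Eu m →L[ℝ] Eu m).le_opNorm (A x)
      have h2 : (ec.symm : Eu m →L[ℝ] Eu m) (A x) = x := by
        rw [← hec]; simp
      rwa [h2] at this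
    have h3 := hN2 (A x)
    have h4 : ‖(ec.symm : Eu m →L[ℝ] Eu m)‖ * ‖A x‖ ≤
        ‖(ec.symm : Eu m →L[ℝ] Eu m)‖ * (Q * N (A x)) :=
      mul_le_mul_of_nonneg_left h3 (norm_nonneg _)
    have h5 : 0 ≤ N (A x) := apply_nonneg N _
    rw [hD]
    nlinarith
  have hmp : MeasurePreserving A (volume : Measure (Eu m)) volume := by
    refine ⟨ec.continuous.measurable, ?_⟩
    rw [Measure.map_linearMap_addHaar_eq_smul_addHaar volume hdet0, hdet]
    simp
  have hemb : MeasurableEmbedding A := ec.toHomeomorph.measurableEmbedding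
  have hvol' : 1 ≤ volume (ub N') := by
    rw [hub', hmp.measure_preimage hVcl.measurableSet.nullMeasurableSet]
    exact hvol
  have hK' : ∀ F : (Fin m → Bool) → Eu m, (∀ e, N' (F e) ≤ 1) →
      rad N' * ((∑ e, inner ℝ (F e) (sgv e)) / 2 ^ m) ≤ m * (C₀ * Q ^ ((2:ℝ) / K)) := by
    intro F hF
    have h1 := hA (fun u => F ((buE m).symm u)) (fun u => hF _)
    rw [avg_eq, avg_eq] at h1
    have h2 : ∀ e : Fin m → Bool, (buE m).symm (fun i => bu (e i)) = e := fun e =>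
      (buE m).symm_apply_apply e
    simp only [sgE_bu, h2] at h1
    exact h1
  have h1 := gauss_ball_ge (N := N') hm (by positivity : (0:ℝ) < 1 / D) ha' hb' hvol' hK' hs
  have h2 : ∫ x in ub N', Real.exp (-(Real.pi / s ^ 2) * ‖x‖ ^ 2) =
      ∫ y in V, Real.exp (-(Real.pi / s ^ 2) * ‖(e.symm : Eu m →ₗ[ℝ] Eu m) y‖ ^ 2) := by
    have hch := hmp.setIntegral_preimage_emb hemb
      (fun y => Real.exp (-(Real.pi / s ^ 2) * ‖(e.symm : Eu m →ₗ[ℝ] Eu m) y‖ ^ 2)) V
    rw [hub', ← hch]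
    have : ∀ x, (e.symm : Eu m →ₗ[ℝ] Eu m) (A x) = x := by
      intro x
      rw [← he]; simp
    simp only [this]
  have h3 := Crest.Agent.R152.crit_max_of_diag (diagMax m hc) hVcl.measurableSet hVc hVs
    ((Metric.isBounded_closedBall).subset hVQ) hcrit (e.symm : Eu m →ₗ[ℝ] Eu m) (by
      rw [LinearEquiv.det_coe_symm]
      have : LinearMap.det (e : Eu m →ₗ[ℝ] Eu m) = 1 := hdet
      rw [this]; simp)
  rw [h2] at h1
  refine le_trans (le_of_eq ?_) (h1.trans h3)
  ring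

end Crest.Agent.R152.WRM7
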