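import Mathlib
import Crest.Agent.R152.WRM2d
import Crest.Agent.R152.WRM3f
import Crest.Agent.R152.WRM4e
import Crest.Agent.R152.WRM7D

set_option autoImplicit false

/-!
# Row 152: the weak reverse Minkowski theorem (helper254's note 9813), final assembly
-/

namespace Crest.Agent.R152.WRM

open Matrix MeasureTheory Filter

/-- stable critical lattices have large `fV` -/
theorem fV_ge_of_crit (K : ℕ) (hK : 1 ≤ K) : ∃ C : ℝ, 0 < C ∧ ∀ (m : ℕ), 0 < m →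
    ∀ G : Matrix (Fin m) (Fin m) ℝ, Stable G → ∀ s : ℝ, 0 < s →
    (∀ᶠ G' in nhds G, G'.PosDef → G'.det = 1 → fV s G ≤ fV s G') →
    1 - s * (C * ((m : ℝ) + 1) ^ ((2:ℝ) / K) * Real.log (m + 2)) ≤ fV s G := by
  obtain ⟨C, hC, h⟩ := WRM7.gauss_body_ge K hK
  refine ⟨C, hC, ?_⟩
  intro m hm G hG s hs hmin
  obtain ⟨A, hGA, hA0⟩ := exists_factor hG.posDef
  subst hGA
  have hA : |A.det| = 1 := by
    have h1 := hG.det_eq
    rw [det_mul, det_transpose] at h1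
    have h2 : |A.det| * |A.det| = 1 := by rw [abs_mul_abs_self]; exact h1
    nlinarith [abs_nonneg A.det]
  have hm1 : (1 : ℝ) ≤ m := by exact_mod_cast hm
  have hball : Metric.closedBall (0 : EuclideanSpace ℝ (Fin m)) (1 / 2) ⊆ WRM4.VE A := by
    apply WRM4.ball_subset_VE
    intro z hz
    have := WRM3.Stable.one_le hG hz
    norm_num
    exact this
  have hsub : WRM4.VE A ⊆ Metric.closedBall (0 : EuclideanSpace ℝ (Fin m)) ((m : ℝ) + 1) := by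
    apply WRM4.VE_subset_ball hA (by positivity)
    intro x
    obtain ⟨z, hz⟩ := WRM3.cover_stable hG x
    refine ⟨z, hz.trans ?_⟩
    nlinarith
  have hmain := h m (WRM4.VE A) hm (WRM4.isClosed_VE A) (WRM4.convex_VE A)
    (fun x hx => WRM4.neg_mem_VE hx) (1 / 2) ((m : ℝ) + 1) (by norm_num) (by linarith)
    (by norm_num; linarith) hball hsub (WRM4.volume_VE hA hG.posDef).ge s hs
    (fun H hH htr => WRM4.crit_VE hA hG.posDef hs hmin H hH htr)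
  rw [WRM4.fV_eq_VE hA hG.posDef s, Fintype.card_fin]
  have hsm : 0 < s ^ m := pow_pos hs m
  rw [one_div, ← div_eq_inv_mul, le_div_iff₀ hsm]
  exact hmain

/-- the minimiser hypothesis of `rho_le_of_min` -/
theorem hmin_of {s : ℝ} (hs : 0 < s) {q : ℝ} (K : ℕ) (hK : 1 ≤ K) (n : ℕ) (C : ℝ)
    (hC : ∀ (m : ℕ), 0 < m →
      ∀ G : Matrix (Fin m) (Fin m) ℝ, Stable G →
      (∀ᶠ G' in nhds G, G'.PosDef → G'.det = 1 → fV s G ≤ fV s G') →
      1 - s * (C * ((m : ℝ) + 1) ^ ((2:ℝ) / K) * Real.log (m + 2)) ≤ fV s G)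
    (hC0 : 0 < C)
    (hq : q ≤ 1 - s * (C * ((n : ℝ) + 1) ^ ((2:ℝ) / K) * Real.log (n + 2))) :
    ∀ k, 1 ≤ k → k ≤ n → ∃ G0 : Matrix (Fin k) (Fin k) ℝ, Stable G0 ∧
      (∀ G : Matrix (Fin k) (Fin k) ℝ, Stable G → fV s G0 ≤ fV s G) ∧
      ((∃ j, 0 < j ∧ j < k ∧ ∃ Z : Matrix (Fin k) (Fin j) ℤ, ((im Z)ᵀ * G0 * im Z).det = 1) ∨
        q ≤ fV s G0) := by
  intro k hk hkn
  obtain ⟨G0, hst, hle⟩ := WRM3.exists_min_stable k (fV s) (WRM4.continuousOn_fV s) (by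
    intro G U hG hU
    have h1 : U * U⁻¹ = 1 := mul_nonsing_inv U hU
    exact fV_conj s hG U U⁻¹ h1)
  refine ⟨G0, hst, hle, ?_⟩
  by_cases h : ∃ j, 0 < j ∧ j < k ∧ ∃ Z : Matrix (Fin k) (Fin j) ℤ,
      ((im Z)ᵀ * G0 * im Z).det = 1
  · exact Or.inl h
  · right
    have hno : ∀ (j : ℕ) (Z : Matrix (Fin k) (Fin j) ℤ), 0 < j → j < k →
        (WRM3.gr G0 Z).det ≠ 1 := by
      intro j Z hj hjk h1
      exact h ⟨j, hj, hjk, Z, h1⟩
    have hev := WRM3.eventually_stable hst hno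
    have h1 := hC k hk G0 hst (by
      filter_upwards [hev] with G' hG' hp hd
      exact hle G' (hG' hp hd))
    refine le_trans hq (le_trans ?_ h1)
    have hkn' : (k : ℝ) ≤ n := by exact_mod_cast hkn
    have hk0 : (0 : ℝ) ≤ k := by positivity
    have e1 : ((k : ℝ) + 1) ^ ((2:ℝ) / K) ≤ ((n : ℝ) + 1) ^ ((2:ℝ) / K) :=
      Real.rpow_le_rpow (by positivity) (by linarith) (by positivity)
    have e2 : Real.log ((k : ℝ) + 2) ≤ Real.log ((n : ℝ) + 2) :=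
      Real.log_le_log (by positivity) (by linarith)
    have e3 : 0 ≤ Real.log ((k : ℝ) + 2) := Real.log_nonneg (by linarith)
    have e4 : 0 ≤ ((k : ℝ) + 1) ^ ((2:ℝ) / K) := by positivity
    have e5 : C * ((k : ℝ) + 1) ^ ((2:ℝ) / K) * Real.log (k + 2) ≤
        C * ((n : ℝ) + 1) ^ ((2:ℝ) / K) * Real.log (n + 2) := by
      gcongr
    nlinarith

/-- **weak reverse Minkowski theorem**, Gaussian sum form -/
theorem wrm_rho {δ : ℝ} (hδ : 0 < δ) : ∃ n0 : ℕ, ∀ n : ℕ, n0 ≤ n → 1 ≤ n ∧ ∀ m ≤ n,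
    ∀ G : Matrix (Fin m) (Fin m) ℝ, G.PosDef → SubDet G →
      rho ((n : ℝ) ^ (-δ)) G ≤ Real.exp (2 * (n : ℝ) ^ (-(δ / 4)) * m) := by
  -- choose `K` with `2 / K ≤ δ / 2`
  obtain ⟨K, hK⟩ := exists_nat_ge (max 1 (4 / δ))
  have hK1 : 1 ≤ K := by
    have : (1 : ℝ) ≤ K := le_trans (le_max_left _ _) hK
    exact_mod_cast this
  have hK2 : (2 : ℝ) / K ≤ δ / 2 := by
    have h1 : 4 / δ ≤ K := le_trans (le_max_right _ _) hK
    have hKpos : (0 : ℝ) < K := by exact_mod_cast hK1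
    rw [div_le_iff₀ hδ] at h1
    rw [div_le_div_iff₀ hKpos (by norm_num)]
    nlinarith
  obtain ⟨C, hC, hcrit⟩ := fV_ge_of_crit K hK1
  -- asymptotics
  have hasym : ∀ᶠ n : ℕ in atTop, 1 ≤ n ∧
      (n : ℝ) ^ (-δ) * (C * ((n : ℝ) + 1) ^ ((2:ℝ) / K) * Real.log (n + 2)) ≤
        (n : ℝ) ^ (-(δ / 4)) ∧ (n : ℝ) ^ (-(δ / 4)) ≤ 1 / 2 := by
    have h1 : Tendsto (fun n : ℕ => (n : ℝ) ^ (-(δ / 4))) atTop (nhds 0) :=
      (tendsto_rpow_neg_atTop (by positivity)).comp tendsto_natCast_atTop_atTop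
    have h2 : Tendsto (fun n : ℕ => C * 2 ^ (δ / 2) * (3 * (Real.log (n : ℝ) / (n : ℝ) ^ (δ / 4))))
        atTop (nhds 0) := by
      have h3 : Tendsto (fun x : ℝ => Real.log x / x ^ (δ / 4)) atTop (nhds 0) :=
        (isLittleO_log_rpow_atTop (by positivity)).tendsto_div_nhds_zero
      have h4 := h3.comp (tendsto_natCast_atTop_atTop (R := ℝ))
      have h5 := (h4.const_mul 3).const_mul (C * 2 ^ (δ / 2))
      simpa using h5
    filter_upwards [h1.eventually_le_const (show (0:ℝ) < 1 / 2 by norm_num),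
      h2.eventually_le_const (show (0:ℝ) < 1 by norm_num), eventually_ge_atTop 2] with n hn1 hn2 hn3
    refine ⟨by omega, ?_, hn1⟩
    have hn : (2 : ℝ) ≤ n := by exact_mod_cast hn3
    have hn0 : (0 : ℝ) < n := by linarith
    have e1 : ((n : ℝ) + 1) ^ ((2:ℝ) / K) ≤ 2 ^ (δ / 2) * (n : ℝ) ^ (δ / 2) := by
      calc ((n : ℝ) + 1) ^ ((2:ℝ) / K) ≤ ((n : ℝ) + 1) ^ (δ / 2) :=
            Real.rpow_le_rpow_of_exponent_le (by linarith) hK2
        _ ≤ (2 * n) ^ (δ / 2) := Real.rpow_le_rpow (by positivity) (by linarith) (by positivity)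
        _ = _ := Real.mul_rpow (by norm_num) hn0.le
    have e2 : Real.log ((n : ℝ) + 2) ≤ 3 * Real.log n := by
      have e3 : (n : ℝ) + 2 ≤ (n : ℝ) ^ 3 := by nlinarith [sq_nonneg ((n : ℝ) - 1)]
      calc Real.log ((n : ℝ) + 2) ≤ Real.log ((n : ℝ) ^ 3) := Real.log_le_log (by positivity) e3
        _ = 3 * Real.log n := by rw [Real.log_pow]; norm_num
    have e4 : 0 ≤ Real.log n := Real.log_nonneg (by linarith)
    have e5 : 0 ≤ Real.log ((n : ℝ) + 2) := Real.log_nonneg (by linarith)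
    calc (n : ℝ) ^ (-δ) * (C * ((n : ℝ) + 1) ^ ((2:ℝ) / K) * Real.log (n + 2))
        ≤ (n : ℝ) ^ (-δ) * (C * (2 ^ (δ / 2) * (n : ℝ) ^ (δ / 2)) * (3 * Real.log n)) := by
          gcongr
      _ = (n : ℝ) ^ (-(δ / 4)) *
          (C * 2 ^ (δ / 2) * (3 * (Real.log (n : ℝ) / (n : ℝ) ^ (δ / 4)))) := by
          have e6 : (n : ℝ) ^ (-δ) * (n : ℝ) ^ (δ / 2) =
              (n : ℝ) ^ (-(δ / 4)) * ((n : ℝ) ^ (δ / 4))⁻¹ := by
            rw [← Real.rpow_neg hn0.le, ← Real.rpow_add hn0, ← Real.rpow_add hn0]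
            congr 1
            ring
          rw [div_eq_mul_inv]
          calc (n : ℝ) ^ (-δ) * (C * (2 ^ (δ / 2) * (n : ℝ) ^ (δ / 2)) * (3 * Real.log n))
              = ((n : ℝ) ^ (-δ) * (n : ℝ) ^ (δ / 2)) * (C * 2 ^ (δ / 2) * (3 * Real.log n)) := by
                ring
            _ = _ := by rw [e6]; ring
      _ ≤ (n : ℝ) ^ (-(δ / 4)) * 1 := by
          gcongr
      _ = _ := mul_one _
  obtain ⟨n0, hn0⟩ := eventually_atTop.1 hasym
  refine ⟨n0, fun n hn => ?_⟩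
  obtain ⟨hn1, hb, hhalf⟩ := hn0 n hn
  refine ⟨hn1, ?_⟩
  intro m hm G hG hsub
  have hnpos : (0 : ℝ) < n := by exact_mod_cast hn1
  have hs : 0 < (n : ℝ) ^ (-δ) := Real.rpow_pos_of_pos hnpos _
  set η := (n : ℝ) ^ (-(δ / 4)) with hη
  have hη0 : 0 < η := Real.rpow_pos_of_pos hnpos _
  have hmin := hmin_of (q := 1 - η) hs K hK1 n C (fun m hm G hG => hcrit m hm G hG _ hs) hC
    (by linarith)
  have h1 := rho_le_of_min hs (q := 1 - η) (by linarith) (by linarith) n hmin m hm G hG hsub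
  refine h1.trans ?_
  have h2 : (1 - η)⁻¹ ≤ Real.exp (2 * η) := by
    rw [inv_le_comm₀ (by linarith) (Real.exp_pos _), ← Real.exp_neg]
    -- `exp(-2η) ≤ 1 - η` for `0 ≤ η ≤ 1/2`
    have h3 : Real.exp (-(2 * η)) ≤ 1 / (1 + 2 * η) := by
      rw [Real.exp_neg, ← one_div]
      exact one_div_le_one_div_of_le (by linarith) (by linarith [Real.add_one_le_exp (2 * η)])
    refine h3.trans ?_
    rw [div_le_iff₀ (by linarith)]
    nlinarith
  calc ((1 - η)⁻¹) ^ m ≤ (Real.exp (2 * η)) ^ m := by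
        have : 0 ≤ (1 - η)⁻¹ := inv_nonneg.2 (by linarith)
        gcongr
    _ = Real.exp (2 * η * m) := by rw [← Real.exp_nat_mul]; ring_nf

/-- **weak reverse Minkowski theorem**, counting form, general index type -/
theorem wrm {δ : ℝ} (hδ : 0 < δ) : ∃ n0 : ℕ, ∀ n : ℕ, n0 ≤ n → 1 ≤ n ∧
    ∀ (ι : Type) [Fintype ι] [DecidableEq ι], Fintype.card ι ≤ n →
    ∀ G : Matrix ι ι ℝ, G.PosDef → SubDet G → ∀ r : ℝ,
      {z : ι → ℤ | qf G (iv z) ≤ r}.Finite ∧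
      ({z : ι → ℤ | qf G (iv z) ≤ r}.ncard : ℝ) ≤
        Real.exp (2 * (n : ℝ) ^ (1 - δ / 4) + Real.pi * (n : ℝ) ^ (2 * δ) * r) := by
  obtain ⟨n0, h⟩ := wrm_rho hδ
  refine ⟨n0, fun n hn => ?_⟩
  obtain ⟨hn1, h⟩ := h n hn
  refine ⟨hn1, ?_⟩
  intro ι _ _ hι G hG hsub r
  have hnpos : (0 : ℝ) < n := by exact_mod_cast hn1
  have hs : 0 < (n : ℝ) ^ (-δ) := Real.rpow_pos_of_pos hnpos _
  let e : Fin (Fintype.card ι) ≃ ι := (Fintype.equivFin ι).symm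
  have h1 := h _ hι (G.submatrix e e) (posDef_reindex e hG) (subDet_reindex e hsub)
  rw [rho_reindex] at h1
  obtain ⟨hf, hc⟩ := count_le hs hG h1 r
  refine ⟨hf, hc.trans ?_⟩
  rw [← Real.exp_add]
  apply Real.exp_le_exp.2
  have e1 : Real.pi / ((n : ℝ) ^ (-δ)) ^ 2 * r = Real.pi * (n : ℝ) ^ (2 * δ) * r := by
    have : ((n : ℝ) ^ (-δ)) ^ 2 = ((n : ℝ) ^ (2 * δ))⁻¹ := by
      rw [← Real.rpow_natCast, ← Real.rpow_mul hnpos.le, ← Real.rpow_neg hnpos.le]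
      congr 1
      push_cast
      ring
    rw [this, div_inv_eq_mul]
  rw [e1]
  have e2 : 2 * (n : ℝ) ^ (-(δ / 4)) * (Fintype.card ι : ℝ) ≤ 2 * (n : ℝ) ^ (1 - δ / 4) := by
    have e3 : (n : ℝ) ^ (1 - δ / 4) = (n : ℝ) ^ (-(δ / 4)) * n := by
      rw [show (1 - δ / 4 : ℝ) = -(δ / 4) + 1 by ring, Real.rpow_add hnpos, Real.rpow_one]
    have e4 : (Fintype.card ι : ℝ) ≤ n := by exact_mod_cast hι
    rw [e3]
    have e5 : 0 < (n : ℝ) ^ (-(δ / 4)) := Real.rpow_pos_of_pos hnpos _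
    nlinarith
  linarith

end Crest.Agent.R152.WRM
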