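import Crest.Agent.R152.Rel1
import Crest.Agent.R152.Cheap1
import Crest.Agent.R152.WRM8

set_option autoImplicit false
set_option linter.unusedSectionVars false

/-!
# Row 152, module REL, part 2: relative bases, counting classes mod `F`, short generators
-/

namespace Crest.Agent.R152.Rel

open Matrix Module Crest.Agent.R152.Lat Crest.Agent.R152.WRM

variable {ι : Type*} [Fintype ι]

/-- `F` is saturated in `M` -/
def Sat (F M : Submodule ℤ (ι → ℤ)) : Prop := ∀ z ∈ M, ∀ k : ℤ, k ≠ 0 → k • z ∈ F → z ∈ F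

/-- relative Gram matrix -/
noncomputable def relG {β : Type*} (F : Submodule ℤ (ι → ℤ)) (c : β → ι → ℤ) : Matrix β β ℝ :=
  gram ℝ (fun j => pr F (ev (c j)))

theorem relG_apply {β : Type*} (F : Submodule ℤ (ι → ℤ)) (c : β → ι → ℤ) (i j : β) :
    relG F c i j = inner ℝ (pr F (ev (c i))) (pr F (ev (c j))) := rfl

theorem relG_diag {β : Type*} (F : Submodule ℤ (ι → ℤ)) (c : β → ι → ℤ) (j : β) :
    relG F c j j = nq F (c j) := by
  rw [relG_apply, nq, real_inner_self_eq_norm_sq]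

theorem relG_posDef {β : Type*} [Fintype β] [DecidableEq β] {F : Submodule ℤ (ι → ℤ)}
    {c : β → ι → ℤ} (h : (relG F c).det ≠ 0) : (relG F c).PosDef :=
  ((posSemidef_gram ℝ _).posDef_iff_det_ne_zero).2 h

theorem ev_comb {β : Type*} [Fintype β] (c : β → ι → ℤ) (x : β → ℤ) :
    ev (∑ i, x i • c i) = ∑ i, (x i : ℝ) • ev (c i) := by
  rw [map_sum]
  refine Finset.sum_congr rfl fun i _ => ?_
  rw [map_smul, ← Int.cast_smul_eq_zsmul ℝ]

theorem gr_relG {β γ : Type*} [Fintype β] (F : Submodule ℤ (ι → ℤ)) (c : β → ι → ℤ)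
    (Z : Matrix β γ ℤ) : WRM3.gr (relG F c) Z = relG F (fun l => ∑ i, Z i l • c i) := by
  have h1 := gram_comb (fun j => pr F (ev (c j))) (im Z)
  unfold WRM3.gr
  rw [relG, ← h1, relG]
  congr 1
  funext l
  rw [ev_comb, map_sum]
  refine Finset.sum_congr rfl fun i _ => ?_
  rw [map_smul]
  rfl

theorem nq_add_comb {β : Type*} [Fintype β] {F : Submodule ℤ (ι → ℤ)} (c : β → ι → ℤ)
    {f : ι → ℤ} (hf : f ∈ F) (x : β → ℤ) :
    nq F (f + ∑ i, x i • c i) = qf (relG F c) (iv x) := by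
  unfold nq qf
  rw [map_add, map_add, pr_ev_of_mem hf, zero_add, ev_comb, map_sum, relG, ← norm_sq_comb]
  congr 2
  refine Finset.sum_congr rfl fun i _ => ?_
  rw [map_smul]
  rfl

theorem exists_rel_basis {F M : Submodule ℤ (ι → ℤ)} (h : F ≤ M) (hs : Sat F M) :
    ∃ c : Fin (rk M - rk F) → ι → ℤ, (∀ j, c j ∈ M) ∧
      F ⊔ Submodule.span ℤ (Set.range c) = M ∧ (relG F c).det ≠ 0 := by
  classical
  set W : Submodule ℤ M := F.comap M.subtype with hW
  have e : W ≃ₗ[ℤ] F := Submodule.comapSubtypeEquivOfLe h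
  have : IsTorsionFree ℤ (M ⧸ W) := by
    constructor
    intro r hr
    have hr0 : r ≠ 0 := hr.ne_zero
    intro x y hxy
    obtain ⟨x, rfl⟩ := W.mkQ_surjective x
    obtain ⟨y, rfl⟩ := W.mkQ_surjective y
    simp only at hxy
    rw [← map_smul, ← map_smul, ← sub_eq_zero, ← map_sub, Submodule.mkQ_apply,
      Submodule.Quotient.mk_eq_zero, ← smul_sub] at hxy
    rw [← sub_eq_zero, ← map_sub, Submodule.mkQ_apply, Submodule.Quotient.mk_eq_zero]
    exact hs _ (x - y).2 r hr0 hxy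
  have hfr : finrank ℤ (M ⧸ W) = rk M - rk F := by
    have h1 := W.finrank_quotient_add_finrank
    have h2 : finrank ℤ W = rk F := LinearEquiv.finrank_eq (Submodule.comapSubtypeEquivOfLe h)
    unfold rk at h2 ⊢
    omega
  set a := Module.Free.chooseBasis ℤ F with ha
  set bW : Basis _ ℤ W := a.map (Submodule.comapSubtypeEquivOfLe h).symm with hbW
  set bQ : Basis (Fin (rk M - rk F)) ℤ (M ⧸ W) := (Module.finBasis ℤ (M ⧸ W)).reindex
    (finCongr hfr) with hbQ
  set b := bW.sumQuot bQ with hb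
  set c : Fin (rk M - rk F) → ι → ℤ := fun j => ((b (Sum.inr j) : M) : ι → ℤ) with hc
  have hbc : (fun i => ((b i : M) : ι → ℤ)) = Sum.elim (fun i => (a i : ι → ℤ)) c := by
    funext i
    rcases i with i | i
    · simp only [hb, Basis.sumQuot_inl, Sum.elim_inl, hbW, Basis.map_apply]
      rfl
    · rfl
  refine ⟨c, fun j => (b (Sum.inr j) : M).2, ?_, ?_⟩
  · rw [← span_sum_elim a c, ← hbc, span_basis]
  · have h1 := det_gm_sum a c
    rw [← hbc, ← dsc_eq b] at h1
    intro h0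
    unfold relG at h0
    rw [h0, mul_zero] at h1
    have h2 : (0 : ℝ) < dsc M := by exact_mod_cast dsc_pos M
    exact h2.ne' h1

theorem exp_two_lc (L : Submodule ℤ (ι → ℤ)) : Real.exp (2 * lc L) = dsc L := by
  unfold lc
  have h : (0 : ℝ) < dsc L := by exact_mod_cast dsc_pos L
  rw [mul_div_cancel₀ _ (by norm_num : (2:ℝ) ≠ 0), Real.exp_log h]

/-- the relative Gram determinant as an exponential -/
theorem det_relG_eq {β : Type*} [Fintype β] [DecidableEq β] {F : Submodule ℤ (ι → ℤ)}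
    {c : β → ι → ℤ} (h : (relG F c).det ≠ 0) :
    (relG F c).det = Real.exp (2 * (lc (F ⊔ Submodule.span ℤ (Set.range c)) - lc F)) := by
  have h1 := (dsc_sup_span F c h).1
  have h2 : (0 : ℝ) < dsc F := by exact_mod_cast dsc_pos F
  rw [mul_sub, Real.exp_sub, exp_two_lc, exp_two_lc, h1]
  unfold relG
  field_simp

/-- lower bound for sublattice determinants of the relative lattice -/
theorem det_gr_relG_ge {β : Type*} [Fintype β] [DecidableEq β] {F M : Submodule ℤ (ι → ℤ)}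
    (hFM : F ≤ M) {c : β → ι → ℤ} (hc : ∀ j, c j ∈ M) {a b : ℝ}
    (ha : ∀ L : Submodule ℤ (ι → ℤ), F ≤ L → L ≤ M → a * ((rk L : ℝ) - rk F) + b ≤ lc L - lc F)
    {k : ℕ} (Z : Matrix β (Fin k) ℤ) (hZ : (WRM3.gr (relG F c) Z).det ≠ 0) :
    Real.exp (2 * (a * k + b)) ≤ (WRM3.gr (relG F c) Z).det := by
  rw [gr_relG] at hZ ⊢
  set d : Fin k → ι → ℤ := fun l => ∑ i, Z i l • c i with hd
  rw [det_relG_eq hZ]
  have h1 := ha (F ⊔ Submodule.span ℤ (Set.range d)) le_sup_left (by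
    apply sup_le hFM
    rw [Submodule.span_le]
    rintro _ ⟨l, rfl⟩
    exact Submodule.sum_mem _ fun i _ => M.smul_mem _ (hc i))
  have h2 := (dsc_sup_span F d hZ).2
  rw [h2, Fintype.card_fin] at h1
  push_cast at h1
  apply Real.exp_le_exp.2
  linarith

/-- classes mod `F` of the vectors of `M` with squared distance `≤ r` to the span of `F` -/
def cls (F M : Submodule ℤ (ι → ℤ)) (r : ℝ) : Set ((ι → ℤ) ⧸ F) :=
  {q | ∃ z ∈ M, F.mkQ z = q ∧ nq F z ≤ r}

theorem qf_smul_mat {β : Type*} [Fintype β] (t : ℝ) (G : Matrix β β ℝ) (x : β → ℝ) :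
    qf (t • G) x = t * qf G x := by
  unfold qf
  rw [Matrix.smul_mulVec, dotProduct_smul, smul_eq_mul]

/-- **weak reverse Minkowski for `M / F`** -/
theorem count_cls {δ : ℝ} (hδ : 0 < δ) : ∃ n0 : ℕ, ∀ n : ℕ, n0 ≤ n → 1 ≤ n ∧
    ∀ (ι : Type) [Fintype ι], Fintype.card ι ≤ n →
    ∀ F M : Submodule ℤ (ι → ℤ), F ≤ M → Sat F M → ∀ a : ℝ,
      (∀ L : Submodule ℤ (ι → ℤ), F ≤ L → L ≤ M → a * ((rk L : ℝ) - rk F) ≤ lc L - lc F) →
      ∀ r : ℝ, (cls F M r).Finite ∧ ((cls F M r).ncard : ℝ) ≤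
        Real.exp (2 * (n : ℝ) ^ (1 - δ / 4) +
          Real.pi * (n : ℝ) ^ (2 * δ) * (Real.exp (-(2 * a)) * r)) := by
  obtain ⟨n0, h⟩ := wrm hδ
  refine ⟨n0, fun n hn => ?_⟩
  obtain ⟨hn1, h⟩ := h n hn
  refine ⟨hn1, ?_⟩
  intro ι _ hι F M hFM hs a ha r
  classical
  have hrb := exists_rel_basis hFM hs
  generalize hk : rk M - rk F = k at hrb
  obtain ⟨c, hcM, hspan, hdet⟩ := hrb
  have hkn : Fintype.card (Fin k) ≤ n := by
    rw [Fintype.card_fin]
    have := rk_le_card M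
    omega
  set t : ℝ := Real.exp (-(2 * a)) with ht
  have ht0 : 0 < t := Real.exp_pos _
  have hG : (t • relG F c).PosDef := (relG_posDef hdet).smul ht0
  have hsub : SubDet (t • relG F c) := by
    intro j Z hZ
    change (WRM3.gr (t • relG F c) Z).det ≠ 0 at hZ
    change 1 ≤ (WRM3.gr (t • relG F c) Z).det
    rw [Cheap.gr_smul, Matrix.det_smul, Fintype.card_fin] at hZ ⊢
    have h1 : (WRM3.gr (relG F c) Z).det ≠ 0 := fun h0 => hZ (by rw [h0, mul_zero])
    have h2 := det_gr_relG_ge hFM hcM (a := a) (b := 0)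
      (fun L h1 h2 => by have := ha L h1 h2; linarith) Z h1
    rw [add_zero] at h2
    have h3 : t ^ j * Real.exp (2 * (a * j)) = 1 := by
      rw [ht, ← Real.exp_nat_mul, ← Real.exp_add]
      rw [show (j : ℝ) * -(2 * a) + 2 * (a * j) = 0 by ring, Real.exp_zero]
    rw [← h3]
    exact mul_le_mul_of_nonneg_left h2 (pow_pos ht0 _).le
  obtain ⟨hfin, hcard⟩ := h (Fin k) hkn (t • relG F c) hG hsub (t * r)
  set B : Set (Fin k → ℤ) := {z | qf (t • relG F c) (iv z) ≤ t * r} with hB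
  have himg : cls F M r ⊆ (fun x : Fin k → ℤ => F.mkQ (∑ i, x i • c i)) '' B := by
    rintro q ⟨z, hz, rfl, hr⟩
    rw [← hspan] at hz
    obtain ⟨f, hf, y, hy, rfl⟩ := Submodule.mem_sup.1 hz
    obtain ⟨x, rfl⟩ := (Submodule.mem_span_range_iff_exists_fun ℤ).1 hy
    refine ⟨x, ?_, ?_⟩
    · change qf (t • relG F c) (iv x) ≤ t * r
      rw [qf_smul_mat]
      rw [nq_add_comb c hf] at hr
      exact mul_le_mul_of_nonneg_left hr ht0.le
    · simp only [map_add]
      have : F.mkQ f = 0 := by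
        rw [Submodule.mkQ_apply, Submodule.Quotient.mk_eq_zero]; exact hf
      rw [this, zero_add]
  have hfin2 : ((fun x : Fin k → ℤ => F.mkQ (∑ i, x i • c i)) '' B).Finite := hfin.image _
  refine ⟨hfin2.subset himg, ?_⟩
  have h5 : (cls F M r).ncard ≤ B.ncard :=
    (Set.ncard_le_ncard himg hfin2).trans (Set.ncard_image_le hfin)
  calc ((cls F M r).ncard : ℝ) ≤ (B.ncard : ℝ) := by exact_mod_cast h5
    _ ≤ _ := hcard

/-- **short generators** of `M` over `F` -/
theorem exists_short_gens {F M : Submodule ℤ (ι → ℤ)} (h : F ≤ M) (hs : Sat F M)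
    {T : ℝ} (hT : 0 ≤ T)
    (hlow : ∀ L : Submodule ℤ (ι → ℤ), F ≤ L → L ≤ M → lc M - T ≤ lc L) :
    ∃ c : Fin (rk M - rk F) → ι → ℤ, (∀ j, c j ∈ M) ∧
      F ⊔ Submodule.span ℤ (Set.range c) = M ∧
      ∀ j, nq F (c j) ≤ 4 * ((rk M - rk F : ℕ) : ℝ) ^ 2 * Real.exp (2 * T) := by
  classical
  have hrb := exists_rel_basis h hs
  generalize hk : rk M - rk F = k at hrb ⊢
  obtain ⟨c, hcM, hspan, hdet⟩ := hrb
  have hdetM : (relG F c).det = Real.exp (2 * (lc M - lc F)) := by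
    rw [det_relG_eq hdet, hspan]
  have hD : WRM3.DetGe ((relG F c).det / Real.exp (2 * T)) (relG F c) := by
    intro j Z hZ
    have h2 := det_gr_relG_ge h hcM (a := 0) (b := lc M - lc F - T)
      (fun L h1 h2 => by have := hlow L h1 h2; linarith) Z hZ
    rw [hdetM, ← Real.exp_sub]
    refine le_trans (le_of_eq ?_) h2
    congr 1
    ring
  obtain ⟨U, hU, hUj⟩ := Cheap.short_basis k (Real.exp (2 * T))
    (Real.one_le_exp (by positivity)) (relG F c) (relG_posDef hdet) hD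
  rw [gr_relG] at hUj
  refine ⟨fun l => ∑ i, U i l • c i, fun l => Submodule.sum_mem _ fun i _ =>
    M.smul_mem _ (hcM i), ?_, fun j => ?_⟩
  · rw [← hspan]
    congr 1
    apply le_antisymm
    · rw [Submodule.span_le]
      rintro _ ⟨l, rfl⟩
      exact Submodule.sum_mem _ fun i _ => Submodule.smul_mem _ _ (Submodule.subset_span ⟨i, rfl⟩)
    · rw [Submodule.span_le]
      rintro _ ⟨j, rfl⟩
      have hUi : U * U⁻¹ = 1 := Matrix.mul_nonsing_inv _ hU
      have h3 : c j = ∑ l, (U⁻¹) l j • ∑ i, U i l • c i := by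
        simp only [Finset.smul_sum, smul_smul]
        rw [Finset.sum_comm]
        simp only [← Finset.sum_smul]
        have h4 : ∀ i, ∑ l, (U⁻¹) l j * U i l = (1 : Matrix (Fin k) (Fin k) ℤ) i j := by
          intro i
          rw [← hUi, Matrix.mul_apply]
          exact Finset.sum_congr rfl fun l _ => mul_comm _ _
        simp only [h4, Matrix.one_apply, ite_smul, one_smul, zero_smul, Finset.sum_ite_eq',
          Finset.mem_univ, if_true]
      rw [h3]
      exact Submodule.sum_mem _ fun l _ => Submodule.smul_mem _ _ (Submodule.subset_span ⟨l, rfl⟩)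
  · have := hUj j
    rwa [relG_diag] at this

end Crest.Agent.R152.Rel
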