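import Crest.Agent.R152.Lat3
import Crest.Agent.R152.Rel2
import Crest.Agent.R152.Cheap2
import Crest.Agent.R152.ROD4

set_option autoImplicit false
set_option linter.unusedSectionVars false

/-!
# Row 152, robust core (helper745)

`dl S` is the lattice generated by the differences of a finite set `S` of integer vectors, `Rob θ S`
says that `S` is `θ`-robust: every coset of every lattice `V` contains at most the proportion
`2^(-θ (rk (dl S) - rk V))` of `S`.
-/

namespace Crest.Agent.R152.Glop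

open Module Crest.Agent.R152.Lat

variable {ι : Type*} [Fintype ι]

/-- lattice generated by the differences -/
def dl (S : Finset (ι → ℤ)) : Submodule ℤ (ι → ℤ) :=
  Submodule.span ℤ {z | ∃ x ∈ S, ∃ y ∈ S, z = x - y}

theorem sub_mem_dl {S : Finset (ι → ℤ)} {x y : ι → ℤ} (hx : x ∈ S) (hy : y ∈ S) :
    x - y ∈ dl S := Submodule.subset_span ⟨x, hx, y, hy, rfl⟩

theorem dl_mono {S T : Finset (ι → ℤ)} (h : S ⊆ T) : dl S ≤ dl T := by
  apply Submodule.span_mono
  rintro z ⟨x, hx, y, hy, rfl⟩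
  exact ⟨x, h hx, y, h hy, rfl⟩

theorem dl_le {S : Finset (ι → ℤ)} {V : Submodule ℤ (ι → ℤ)} {a : ι → ℤ}
    (h : ∀ x ∈ S, x - a ∈ V) : dl S ≤ V := by
  unfold dl
  rw [Submodule.span_le]
  rintro z ⟨x, hx, y, hy, rfl⟩
  have h1 : x - y = (x - a) - (y - a) := by abel
  rw [h1]
  exact V.sub_mem (h x hx) (h y hy)

open Classical in
/-- `θ`-robust sets -/
def Rob (θ : ℝ) (S : Finset (ι → ℤ)) : Prop :=
  ∀ (V : Submodule ℤ (ι → ℤ)) (a : ι → ℤ),
    ((S.filter (fun y => y - a ∈ V)).card : ℝ) ≤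
      (2 : ℝ) ^ (-(θ * ((rk (dl S) : ℝ) - rk V))) * S.card

/-- every nonempty set contains a large robust subset -/
theorem exists_rob {θ : ℝ} (hθ : 0 ≤ θ) {S : Finset (ι → ℤ)} (hS : S.Nonempty) :
    ∃ T ⊆ S, T.Nonempty ∧ Rob θ T ∧
      (S.card : ℝ) * (2 : ℝ) ^ (-(θ * ((rk (dl S) : ℝ) - rk (dl T)))) ≤ T.card := by
  classical
  set g : Finset (ι → ℤ) → ℝ := fun T => (T.card : ℝ) * (2 : ℝ) ^ (-(θ * (rk (dl T) : ℝ)))
    with hg
  set P : Finset (Finset (ι → ℤ)) := S.powerset.filter (fun T => T.Nonempty) with hP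
  have hSP : S ∈ P := by simp [hP, hS]
  obtain ⟨T, hT, hmax⟩ := Finset.exists_max_image P g ⟨S, hSP⟩
  have hTS : T ⊆ S := by
    have := (Finset.mem_filter.mp hT).1
    exact Finset.mem_powerset.mp this
  have hTne : T.Nonempty := (Finset.mem_filter.mp hT).2
  have key : ∀ T' ∈ P, (T'.card : ℝ) ≤
      (2 : ℝ) ^ (-(θ * ((rk (dl T) : ℝ) - rk (dl T')))) * T.card := by
    intro T' hT'
    have h1 := hmax T' hT'
    simp only [hg] at h1
    have h2 : (0 : ℝ) < (2 : ℝ) ^ (θ * (rk (dl T') : ℝ)) := Real.rpow_pos_of_pos two_pos _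
    have h3 := mul_le_mul_of_nonneg_right h1 h2.le
    rw [mul_assoc, ← Real.rpow_add two_pos, mul_assoc, ← Real.rpow_add two_pos] at h3
    have h4 : (-(θ * (rk (dl T') : ℝ)) + θ * (rk (dl T') : ℝ)) = 0 := by ring
    rw [h4, Real.rpow_zero, mul_one] at h3
    have h5 : -(θ * ((rk (dl T) : ℝ) - rk (dl T'))) =
        -(θ * (rk (dl T) : ℝ)) + θ * (rk (dl T') : ℝ) := by ring
    rw [mul_comm, h5]
    exact h3
  refine ⟨T, hTS, hTne, ?_, ?_⟩
  · intro V a
    rcases (T.filter (fun y => y - a ∈ V)).eq_empty_or_nonempty with h0 | h0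
    · have h1 : ((T.filter (fun y => y - a ∈ V)).card : ℝ) = 0 := by
        rw [h0]; simp
      rw [h1]
      positivity
    · have h1 : T.filter (fun y => y - a ∈ V) ∈ P := by
        rw [hP, Finset.mem_filter, Finset.mem_powerset]
        exact ⟨(Finset.filter_subset _ _).trans hTS, h0⟩
      have h2 := key _ h1
      refine h2.trans ?_
      have h3 : dl (T.filter (fun y => y - a ∈ V)) ≤ V :=
        dl_le (a := a) fun x hx => (Finset.mem_filter.mp hx).2
      have h4 : (rk (dl (T.filter (fun y => y - a ∈ V))) : ℝ) ≤ rk V := by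
        exact_mod_cast rk_mono h3
      apply mul_le_mul_of_nonneg_right _ (Nat.cast_nonneg _)
      apply Real.rpow_le_rpow_of_exponent_le one_le_two
      nlinarith
  · have h1 := key S hSP
    have h2 : (0 : ℝ) < (2 : ℝ) ^ (-(θ * ((rk (dl S) : ℝ) - rk (dl T)))) :=
      Real.rpow_pos_of_pos two_pos _
    have h3 := mul_le_mul_of_nonneg_right h1 h2.le
    refine h3.trans_eq ?_
    rw [mul_right_comm, ← Real.rpow_add two_pos]
    have h4 : -(θ * ((rk (dl T) : ℝ) - rk (dl S))) + -(θ * ((rk (dl S) : ℝ) - rk (dl T))) = 0 := by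
      ring
    rw [h4, Real.rpow_zero, one_mul]

theorem exists_rob' {θ : ℝ} (hθ : 0 ≤ θ) {S : Finset (ι → ℤ)} (hS : S.Nonempty) :
    ∃ T ⊆ S, T.Nonempty ∧ Rob θ T ∧
      (S.card : ℝ) * (2 : ℝ) ^ (-(θ * (Fintype.card ι : ℝ))) ≤ T.card := by
  obtain ⟨T, h1, h2, h3, h4⟩ := exists_rob hθ hS
  refine ⟨T, h1, h2, h3, le_trans ?_ h4⟩
  apply mul_le_mul_of_nonneg_left _ (Nat.cast_nonneg _)
  apply Real.rpow_le_rpow_of_exponent_le one_le_two
  have h5 : (rk (dl S) : ℝ) ≤ Fintype.card ι := by exact_mod_cast rk_le_card _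
  have h6 : (0 : ℝ) ≤ rk (dl T) := Nat.cast_nonneg _
  nlinarith

/-- a lattice generated by short vectors has small covolume over any sublattice -/
theorem lc_le_of_gen {D : Set (ι → ℤ)} {ρ : ℝ} (hD : ∀ y ∈ D, ‖ev y‖ ≤ ρ)
    {F : Submodule ℤ (ι → ℤ)} (hF : F ≤ Submodule.span ℤ D) :
    lc (Submodule.span ℤ D) ≤ lc F + ((rk (Submodule.span ℤ D) : ℝ) - rk F) * Real.log ρ := by
  set L := Submodule.span ℤ D with hL
  obtain ⟨k, hk⟩ : ∃ k : ℕ, rk L = rk F + k := ⟨rk L - rk F, by have := rk_mono hF; omega⟩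
  induction k generalizing F with
  | zero =>
    have h1 := lc_le_of_le hF (by omega)
    have h2 : (rk L : ℝ) = rk F := by rw [hk]; simp
    rw [h2, sub_self, zero_mul]
    linarith
  | succ k ih =>
    obtain ⟨y, hy, hyF⟩ : ∃ y ∈ D, ev y ∉ rsp F := by
      by_contra hcon
      push Not at hcon
      have h1 : L ≤ sat F := by
        rw [hL, Submodule.span_le]
        intro y hy
        exact mem_sat_iff.mpr (hcon y hy)
      have h2 := rk_mono h1
      rw [rk_sat] at h2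
      omega
    have hyL : y ∈ L := Submodule.subset_span hy
    have hF' : F ⊔ Submodule.span ℤ {y} ≤ L :=
      sup_le hF (by rw [Submodule.span_le]; simpa using hyL)
    have hr := rk_sup_span hyF
    have hc := lc_sup_span hyF
    have h1 := ih hF' (by omega)
    have h2 : Real.log (dst F (ev y)) ≤ Real.log ρ :=
      Real.log_le_log (dst_pos hyF) ((dst_le_norm F (ev y)).trans (hD y hy))
    rw [hr, hc] at h1
    push_cast at h1
    linarith

/-- real estimate -/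
theorem est {δ κ : ℝ} (hδ : 0 < δ) (hκ : 0 < κ) : ∃ n0 : ℕ, ∀ n : ℕ, n0 ≤ n →
    2 * (n : ℝ) ^ (1 - δ / 2 / 4) + Real.pi * (n : ℝ) ^ (2 * (δ / 2)) *
      (Real.exp (-(2 * (δ * Real.log n))) * (4 * n)) ≤ κ * n := by
  have h1 : Filter.Tendsto (fun n : ℕ => 2 * (n : ℝ) ^ (-(δ / 8)) +
      4 * Real.pi * (n : ℝ) ^ (-δ)) Filter.atTop (nhds (2 * 0 + 4 * Real.pi * 0)) := by
    apply Filter.Tendsto.add
    · exact ((tendsto_rpow_neg_atTop (by positivity : 0 < δ / 8)).comp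
        tendsto_natCast_atTop_atTop).const_mul 2
    · exact ((tendsto_rpow_neg_atTop hδ).comp tendsto_natCast_atTop_atTop).const_mul _
  rw [mul_zero, mul_zero, add_zero] at h1
  have h2 := (h1.eventually (gt_mem_nhds hκ)).and (Filter.eventually_ge_atTop 1)
  rw [Filter.eventually_atTop] at h2
  obtain ⟨n0, h2⟩ := h2
  refine ⟨n0, fun n hn => ?_⟩
  obtain ⟨h3, h4⟩ := h2 n hn
  have hn0 : (0 : ℝ) < n := by exact_mod_cast h4
  have e1 : (n : ℝ) ^ (1 - δ / 2 / 4) = (n : ℝ) ^ (-(δ / 8)) * n := by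
    rw [show (1 - δ / 2 / 4 : ℝ) = -(δ / 8) + 1 by ring, Real.rpow_add hn0, Real.rpow_one]
  have e2 : Real.exp (-(2 * (δ * Real.log n))) = (n : ℝ) ^ (-(2 * δ)) := by
    rw [Real.rpow_def_of_pos hn0]; congr 1; ring
  have e3 : (n : ℝ) ^ (2 * (δ / 2)) * (n : ℝ) ^ (-(2 * δ)) = (n : ℝ) ^ (-δ) := by
    rw [← Real.rpow_add hn0]; congr 1; ring
  rw [e1, e2]
  have e4 : Real.pi * (n : ℝ) ^ (2 * (δ / 2)) * ((n : ℝ) ^ (-(2 * δ)) * (4 * n)) =
      4 * Real.pi * ((n : ℝ) ^ (2 * (δ / 2)) * (n : ℝ) ^ (-(2 * δ))) * n := by ring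
  rw [e4, e3]
  have : 2 * ((n : ℝ) ^ (-(δ / 8)) * n) + 4 * Real.pi * (n : ℝ) ^ (-δ) * n =
      (2 * (n : ℝ) ^ (-(δ / 8)) + 4 * Real.pi * (n : ℝ) ^ (-δ)) * n := by ring
  rw [this]
  exact mul_le_mul_of_nonneg_right h3.le hn0.le

theorem norm_ev_le {v : ι → ℤ} {m : ℕ} (hv : ∀ i, |v i| ≤ m) :
    ‖ev v‖ ^ 2 ≤ (m : ℝ) ^ 2 * Fintype.card ι := by
  rw [norm_ev_sq]
  have h1 : v ⬝ᵥ v ≤ ∑ _i : ι, (m : ℤ) ^ 2 := by
    unfold dotProduct
    apply Finset.sum_le_sum
    intro i _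
    have := hv i
    rw [← abs_mul_abs_self]
    have h0 := abs_nonneg (v i)
    nlinarith
  rw [Finset.sum_const, Finset.card_univ, nsmul_eq_mul] at h1
  have h2 : ((v ⬝ᵥ v : ℤ) : ℝ) ≤ ((Fintype.card ι * (m : ℤ) ^ 2 : ℤ) : ℝ) := by exact_mod_cast h1
  push_cast at h2
  linarith

/-- **robust core**: a robust set of sign vectors generates a lattice of small covolume -/
theorem g1 {θ ε : ℝ} (hθ : 0 < θ) (hε : 0 < ε) :
    ∃ n0 : ℕ, ∀ n : ℕ, n0 ≤ n → ∀ (ι : Type) [Fintype ι],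
    Fintype.card ι ≤ n → ∀ S : Finset (ι → ℤ), S.Nonempty → (∀ x ∈ S, ∀ i, |x i| ≤ 1) →
      Rob θ S → lc (dl S) ≤ ε * n * Real.log n := by
  classical
  set κ : ℝ := ε / 2 * (θ * Real.log 2) with hκ
  have hκ0 : 0 < κ := by
    have := Real.log_pos (by norm_num : (1 : ℝ) < 2)
    positivity
  obtain ⟨n1, h1⟩ := Rel.count_cls (δ := ε / 2 / 2) (by positivity)
  obtain ⟨n2, h2⟩ := est (δ := ε / 2) (κ := κ) (by positivity) hκ0
  refine ⟨max (max n1 n2) 4, fun n hn ι _ hι S hS hsign hrob => ?_⟩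
  have hn1 : n1 ≤ n := by omega
  have hn2 : n2 ≤ n := by omega
  have hn4 : 4 ≤ n := by omega
  have hnpos : (0 : ℝ) < n := by positivity
  have hlog : 0 ≤ Real.log n := Real.log_nonneg (by exact_mod_cast (by omega : 1 ≤ n))
  set t : ℝ := ε / 2 * Real.log n with ht
  set L := dl S with hL
  obtain ⟨F, hF⟩ := exists_isMin (-t) (bot_le : (⊥ : Submodule ℤ (ι → ℤ)) ≤ L)
  have hFlc : lc F ≤ t * rk F := by
    have := hF.min ⊥ le_rfl bot_le
    unfold fK at this
    rw [lc_bot, rk_bot] at this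
    push_cast at this
    linarith
  have hmin : ∀ H, F ≤ H → H ≤ L → t * ((rk H : ℝ) - rk F) ≤ lc H - lc F := by
    intro H h3 h4
    have := hF.lc_above h3 h4
    linarith
  have hsat : Rel.Sat F L := by
    intro z hz k hk hkz
    have h3 : F ⊔ Submodule.span ℤ {z} ≤ L := sup_le hF.ge (by
      rw [Submodule.span_le]; simpa using hz)
    have h4 : rk F = rk (F ⊔ Submodule.span ℤ {z}) :=
      (rk_sup_span_of_mem (mem_sat_iff.mp ⟨k, hk, hkz⟩)).symm
    have h5 := hmin _ le_sup_left h3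
    rw [← h4, sub_self, mul_zero] at h5
    have h6 := eq_of_lc_eq (le_sup_left : F ≤ F ⊔ Submodule.span ℤ {z}) h4 (by linarith)
    rw [h6]
    exact Submodule.mem_sup_right (Submodule.mem_span_singleton_self z)
  have hnorm : ∀ x ∈ S, ∀ y ∈ S, ‖ev (x - y)‖ ^ 2 ≤ 4 * n := by
    intro x hx y hy
    have h3 := norm_ev_le (v := x - y) (m := 2) (fun i => by
      have h3 := abs_le.mp (hsign x hx i)
      have h4 := abs_le.mp (hsign y hy i)
      rw [abs_le]
      simp only [Pi.sub_apply]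
      constructor <;> push_cast <;> linarith [h3.1, h3.2, h4.1, h4.2])
    have h4 : (Fintype.card ι : ℝ) ≤ n := by exact_mod_cast hι
    push_cast at h3
    nlinarith
  obtain ⟨_, h1'⟩ := h1 n hn1
  obtain ⟨hCfin, hCc⟩ := h1' ι hι F L hF.ge hsat t hmin (4 * n)
  obtain ⟨x0, hx0⟩ := hS
  have hne : ∀ q : (ι → ℤ) ⧸ F, ∃ z, F.mkQ z = q := Submodule.mkQ_surjective F
  choose rp hrp using hne
  set C := hCfin.toFinset with hCdef
  have hcov : S ⊆ C.biUnion (fun q => S.filter (fun y => y - (x0 + rp q) ∈ F)) := by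
    intro x hx
    rw [Finset.mem_biUnion]
    refine ⟨F.mkQ (x - x0), ?_, Finset.mem_filter.mpr ⟨hx, ?_⟩⟩
    · rw [hCdef, Set.Finite.mem_toFinset]
      exact ⟨x - x0, sub_mem_dl hx hx0, rfl, (Rel.nq_le F _).trans (by
        rw [← norm_ev_sq]; exact hnorm x hx x0 hx0)⟩
    · have h3 : F.mkQ (x - (x0 + rp (F.mkQ (x - x0)))) = 0 := by
        have h4 : x - (x0 + rp (F.mkQ (x - x0))) = (x - x0) - rp (F.mkQ (x - x0)) := by abel
        rw [h4, map_sub, hrp, sub_self]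
      rwa [Submodule.mkQ_apply, Submodule.Quotient.mk_eq_zero] at h3
  have hcard : (S.card : ℝ) ≤ C.card *
      ((2 : ℝ) ^ (-(θ * ((rk L : ℝ) - rk F))) * S.card) := by
    have h3 := (Finset.card_le_card hcov).trans Finset.card_biUnion_le
    have h4 : (S.card : ℝ) ≤ ∑ q ∈ C, ((S.filter (fun y => y - (x0 + rp q) ∈ F)).card : ℝ) := by
      exact_mod_cast h3
    refine h4.trans ?_
    rw [← nsmul_eq_mul, ← Finset.sum_const]
    exact Finset.sum_le_sum fun q _ => hrob F (x0 + rp q)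
  have hSpos : (0 : ℝ) < S.card := by exact_mod_cast Finset.card_pos.mpr ⟨x0, hx0⟩
  have h3 : (2 : ℝ) ^ (θ * ((rk L : ℝ) - rk F)) ≤ C.card := by
    have h4 : (0 : ℝ) < (2 : ℝ) ^ (θ * ((rk L : ℝ) - rk F)) := Real.rpow_pos_of_pos two_pos _
    rw [Real.rpow_neg two_pos.le] at hcard
    have h5 : (1 : ℝ) ≤ C.card * ((2 : ℝ) ^ (θ * ((rk L : ℝ) - rk F)))⁻¹ := by
      have h6 : (S.card : ℝ) * 1 ≤ S.card *
          (C.card * ((2 : ℝ) ^ (θ * ((rk L : ℝ) - rk F)))⁻¹) := by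
        calc (S.card : ℝ) * 1 = S.card := mul_one _
          _ ≤ _ := hcard
          _ = _ := by ring
      exact le_of_mul_le_mul_left h6 hSpos
    rw [← div_eq_mul_inv, le_div_iff₀ h4, one_mul] at h5
    exact h5
  have hCc' : (C.card : ℝ) ≤ Real.exp (2 * (n : ℝ) ^ (1 - ε / 2 / 2 / 4) +
      Real.pi * (n : ℝ) ^ (2 * (ε / 2 / 2)) * (Real.exp (-(2 * t)) * (4 * n))) := by
    rw [hCdef, ← Set.ncard_eq_toFinset_card _ hCfin]; exact hCc
  have h4 : θ * ((rk L : ℝ) - rk F) * Real.log 2 ≤ κ * n := by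
    have h5 := h3.trans hCc'
    have h6 := Real.log_le_log (Real.rpow_pos_of_pos two_pos _) h5
    rw [Real.log_rpow two_pos, Real.log_exp] at h6
    exact h6.trans (h2 n hn2)
  have h5 : ((rk L : ℝ) - rk F) ≤ ε / 2 * n := by
    have hl2 : 0 < Real.log 2 := Real.log_pos (by norm_num)
    have h6 : (θ * Real.log 2) * ((rk L : ℝ) - rk F) ≤ (θ * Real.log 2) * (ε / 2 * n) := by
      calc (θ * Real.log 2) * ((rk L : ℝ) - rk F) = θ * ((rk L : ℝ) - rk F) * Real.log 2 := by ring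
        _ ≤ κ * n := h4
        _ = _ := by rw [hκ]; ring
    exact le_of_mul_le_mul_left h6 (by positivity)
  have h1n : (1 : ℝ) ≤ n := by exact_mod_cast (by omega : 1 ≤ n)
  have h4n : (4 : ℝ) ≤ n := by exact_mod_cast hn4
  set R : ℝ := Real.sqrt (4 * n) with hR
  have hR1 : 1 ≤ R := by
    rw [hR]
    exact Real.one_le_sqrt.mpr (by linarith)
  have hRn : R ≤ n := by
    rw [hR]
    apply Real.sqrt_le_iff.mpr
    constructor
    · positivity
    · nlinarith
  have h6 : lc L ≤ lc F + ((rk L : ℝ) - rk F) * Real.log R := by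
    rw [hL]
    unfold dl
    apply lc_le_of_gen
    · rintro y ⟨u, hu, v, hv, rfl⟩
      exact Real.le_sqrt_of_sq_le (hnorm u hu v hv)
    · exact hF.ge
  have h7 : Real.log R ≤ Real.log n := Real.log_le_log (by linarith) hRn
  have h8 : (0 : ℝ) ≤ (rk L : ℝ) - rk F := by
    have : (rk F : ℝ) ≤ rk L := by exact_mod_cast rk_mono hF.ge
    linarith
  have h9 : (rk F : ℝ) ≤ n := by
    have : (rk F : ℝ) ≤ Fintype.card ι := by exact_mod_cast rk_le_card F
    exact this.trans (by exact_mod_cast hι)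
  calc lc L ≤ t * rk F + ((rk L : ℝ) - rk F) * Real.log R := by linarith
    _ ≤ t * n + (ε / 2 * n) * Real.log n := by
        apply add_le_add
        · exact mul_le_mul_of_nonneg_left h9 (by rw [ht]; positivity)
        · exact mul_le_mul h5 h7 (Real.log_nonneg hR1) (by positivity)
    _ = ε * n * Real.log n := by rw [ht]; ring

/-- `Rob` in helper877's form -/
theorem Rob.robust {θ : ℝ} {S : Finset (ι → ℤ)} (h : Rob θ S) :
    Cheap.Robust θ (sat (dl S)) S := by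
  classical
  refine ⟨fun x hx y hy => le_sat _ (sub_mem_dl hx hy), fun L x0 hx0 => ?_⟩
  have h1 := h (L ⊓ sat (dl S)) x0
  rw [rk_sat]
  have h2 : S.filter (fun y => y - x0 ∈ L ⊓ sat (dl S)) = S.filter (fun y => y - x0 ∈ L) := by
    apply Finset.filter_congr
    intro y hy
    rw [Submodule.mem_inf]
    exact ⟨fun h => h.1, fun h => ⟨h, le_sat _ (sub_mem_dl hy hx0)⟩⟩
  rw [h2] at h1
  rw [neg_mul]
  exact h1

/-- Odlyzko's lemma, counting form -/
theorem card_le_two_pow {S : Finset (ι → ℤ)} (hS : ∀ x ∈ S, ∀ i, x i = 1 ∨ x i = -1) :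
    S.card ≤ 2 ^ rk (dl S) := by
  classical
  rcases S.eq_empty_or_nonempty with rfl | ⟨x0, hx0⟩
  · simp
  set T : Finset (ι → Bool) := Finset.univ.filter
    (fun z => (fun i => Base.sg (z i)) ∈ S) with hT
  have hST : S ⊆ T.image (fun z i => Base.sg (z i)) := by
    intro x hx
    rw [Finset.mem_image]
    have h1 : (fun i => Base.sg (decide (x i = 1))) = x := by
      funext i
      rcases hS x hx i with h | h <;> simp [Base.sg, h]
    refine ⟨fun i => decide (x i = 1), ?_, h1⟩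
    rw [hT, Finset.mem_filter]
    refine ⟨Finset.mem_univ _, ?_⟩
    rw [h1]; exact hx
  have hcard : S.card ≤ T.card := (Finset.card_le_card hST).trans Finset.card_image_le
  let V : Submodule ℝ (ι → ℝ) := (rsp (dl S)).map
    (WithLp.linearEquiv 2 ℝ (ι → ℝ)).toLinearMap
  have hV : finrank ℝ V = rk (dl S) := by
    rw [← finrank_rsp]
    exact LinearEquiv.finrank_map_eq (WithLp.linearEquiv 2 ℝ (ι → ℝ)) _
  have h1 := ROD.odlyzko_sign (K := ℝ) (p := 1 / 2) (M := 1 / 2) (by norm_num) (by norm_num)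
    (by norm_num) (by norm_num) (by norm_num) two_ne_zero V (fun i => (x0 i : ℝ))
  have h2 : Crest.FinProb.bernoulliProb (1 / 2) (T : Set (ι → Bool)) ≤
      (1 / 2 : ℝ) ^ (Fintype.card ι - finrank ℝ V) := by
    refine le_trans (Base.prob_mono (by norm_num) (by norm_num) ?_) h1
    intro z hz
    have hz' : (fun i => Base.sg (z i)) ∈ S := by
      have := Finset.mem_coe.mp hz
      rw [hT, Finset.mem_filter] at this
      exact this.2
    change (fun i => ((Base.sg (z i) : ℤ) : ℝ)) - (fun i => (x0 i : ℝ)) ∈ V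
    refine ⟨ev ((fun i => Base.sg (z i)) - x0), ev_mem_rsp (sub_mem_dl hz' hx0), ?_⟩
    ext i
    simp [ev]
  rw [ROD.prob_half_eq, hV, div_le_iff₀ (by positivity)] at h2
  have h3 : rk (dl S) ≤ Fintype.card ι := rk_le_card _
  have h4 : (T.card : ℝ) ≤ 2 ^ rk (dl S) := by
    refine h2.trans (le_of_eq ?_)
    obtain ⟨k, hk⟩ : ∃ k, Fintype.card ι = rk (dl S) + k := ⟨_, (Nat.add_sub_cancel' h3).symm⟩
    rw [hk, Nat.add_sub_cancel_left, pow_add, one_div, inv_pow]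
    field_simp
  have h5 : T.card ≤ 2 ^ rk (dl S) := by exact_mod_cast h4
  exact hcard.trans h5

/-- **ROBUST CORE** -/
theorem core {θ ε : ℝ} (hθ : 0 < θ) (hε : 0 < ε) :
    ∃ n0 : ℕ, ∀ n : ℕ, n0 ≤ n → ∀ (ι : Type) [Fintype ι],
    Fintype.card ι ≤ n → ∀ S : Finset (ι → ℤ), S.Nonempty →
    (∀ x ∈ S, ∀ i, x i = 1 ∨ x i = -1) →
    ∃ T ⊆ S, T.Nonempty ∧ Rob θ T ∧ Cheap.Robust θ (sat (dl T)) T ∧
      (S.card : ℝ) * (2 : ℝ) ^ (-(θ * (n : ℝ))) ≤ T.card ∧ T.card ≤ 2 ^ rk (dl T) ∧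
      lc (dl T) ≤ ε * n * Real.log n ∧ lc (sat (dl T)) ≤ ε * n * Real.log n ∧
      (ind (dl T) (sat (dl T)) : ℝ) ≤ (n : ℝ) ^ (ε * n) := by
  obtain ⟨n0, h⟩ := g1 hθ hε
  refine ⟨max n0 1, fun n hn ι _ hι S hS hsign => ?_⟩
  obtain ⟨T, hTS, hTne, hTr, hTc⟩ := exists_rob' hθ.le hS
  have hn0 : (0 : ℝ) < n := by exact_mod_cast (by omega : 0 < n)
  have h1 : lc (dl T) ≤ ε * n * Real.log n := h n (by omega) ι hι T hTne (fun x hx i => by
    rcases hsign x (hTS hx) i with h | h <;> rw [h] <;> norm_num) hTr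
  have h2 := lc_sat (dl T)
  have h3 := lc_nonneg (sat (dl T))
  refine ⟨T, hTS, hTne, hTr, hTr.robust, le_trans ?_ hTc,
    card_le_two_pow fun x hx => hsign x (hTS hx), h1, (lc_sat_le _).trans h1, ?_⟩
  · apply mul_le_mul_of_nonneg_left _ (Nat.cast_nonneg _)
    apply Real.rpow_le_rpow_of_exponent_le one_le_two
    have : (Fintype.card ι : ℝ) ≤ n := by exact_mod_cast hι
    nlinarith
  · have h4 : (0 : ℝ) < ind (dl T) (sat (dl T)) := by
      exact_mod_cast ind_pos (le_sat _) (rk_sat _).symm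
    rw [Real.rpow_def_of_pos hn0, ← Real.log_le_iff_le_exp h4]
    linarith

end Crest.Agent.R152.Glop
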