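import Crest.Agent.R152.Cheap4
import Crest.Agent.R152.GlopG1

set_option autoImplicit false
set_option linter.unusedSectionVars false

/-!
# Row 152, module CHEAP, part 5: CHEAP for robust sets in the sense of `GlopG1.Rob`
-/

namespace Crest.Agent.R152.Cheap

open Matrix Module Filter Crest.Agent.R152.Lat Crest.Agent.R152.Rel Crest.Agent.R152.Glop

/-- **CHEAP**, form used by GLO -/
theorem family_rob {θ κ e0 ε : ℝ} (hθ : 0 < θ) (hκ : 0 < κ) (he0 : 0 < e0) (hε : 0 < ε) :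
    ∃ n0 : ℕ, ∀ n : ℕ, n0 ≤ n → ∀ (ι : Type) [Fintype ι] [DecidableEq ι],
      Fintype.card ι = n → ∃ VV : Finset (Submodule ℤ (ι → ℤ)),
        (VV.card : ℝ) ≤ (2 : ℝ) ^ (ε * (n : ℝ) ^ 2) ∧
        ∀ S : Finset (ι → ℤ), (∀ x ∈ S, ∀ i, x i = 1 ∨ x i = -1) → S.Nonempty → Rob θ S →
          ∃ V ∈ VV, sat V = V ∧ (rk V : ℝ) ≤ rk (V ⊓ sat (dl S)) + κ * n ∧
            (rk (sat (dl S)) : ℝ) ≤ rk (V ⊓ sat (dl S)) + κ * n ∧
            (rk (sat (dl S)) : ℝ) ≤ rk V + κ * n ∧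
            lc V ≤ e0 * n * Real.log n := by
  obtain ⟨η, hη, hev⟩ := family (θ := θ) (κ := κ) (ε := min e0 ε) hθ hκ (lt_min he0 hε)
  obtain ⟨n1, h1⟩ := eventually_atTop.1 hev
  obtain ⟨n2, h2⟩ := g1 hθ hη
  refine ⟨max (max n1 n2) 1, fun n hn ι _ _ hcard => ?_⟩
  have hn1 : n1 ≤ n := by omega
  have hn2 : n2 ≤ n := by omega
  have hn3 : 1 ≤ n := by omega
  have hlog : 0 ≤ Real.log n := Real.log_nonneg (by exact_mod_cast hn3)
  have hn0 : (0 : ℝ) ≤ n := Nat.cast_nonneg _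
  obtain ⟨V, hV1, hV2, hV3⟩ := h1 n hn1 ι hcard
  refine ⟨V, hV1.trans ?_, ?_⟩
  · apply Real.rpow_le_rpow_of_exponent_le (by norm_num)
    exact mul_le_mul_of_nonneg_right (min_le_right _ _) (by positivity)
  · intro S hS hne hrob
    have h3 : lc (sat (dl S)) ≤ η * n * Real.log n := by
      refine (lc_sat_le _).trans (h2 n hn2 ι hcard.le S hne ?_ hrob)
      intro x hx i
      rcases hS x hx i with h | h <;> rw [h] <;> norm_num
    obtain ⟨F, hF, h4, h5⟩ := hV3 S (sat (dl S)) hS hne hrob.robust h3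
    refine ⟨F, hF, (hV2 F hF).1, h4, h5, ?_, (hV2 F hF).2.trans ?_⟩
    · have h6 : (rk (F ⊓ sat (dl S)) : ℝ) ≤ rk F := by
        exact_mod_cast rk_mono inf_le_left
      linarith
    · apply mul_le_mul_of_nonneg_right _ hlog
      exact mul_le_mul_of_nonneg_right (min_le_left _ _) hn0

end Crest.Agent.R152.Cheap
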