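import Crest.Agent.R152.FixV
import Crest.Agent.R152.AsmDefs
import Crest.Agent.R152.TopP

set_option autoImplicit false
set_option linter.unusedSectionVars false

/-!
# Row 152, module TOP: reduction from corank `≥ 2` to corank one
-/

open Crest.FinProb Crest.ProbabilityR.SignMatrix

namespace Crest.Agent.R152.Crk

open Base FixV Matrix Module

/-- singular, with a nonsingular principal minor of size one less -/
def CorankOne {n : ℕ} (M : Matrix (Fin (n + 1)) (Fin (n + 1)) ℤ) : Prop :=
  M.det = 0 ∧ ∃ i, (Asm.del M i).det ≠ 0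

/-- the probability of `CorankOne` -/
noncomputable def c1 (n : ℕ) (p : ℝ) : ℝ :=
  bernoulliProb p {w : Sym2 (Fin (n + 1)) → Bool | CorankOne (symMat w)}

/-! ### Deterministic part -/

/-- a principal submatrix on independent spanning rows is nonsingular -/
theorem principal {n m : ℕ} (A : Matrix (Fin n) (Fin n) ℚ) (hA : Aᵀ = A) (g : Fin m → Fin n)
    (hli : LinearIndependent ℚ (fun i => A (g i)))
    (hsp : ∀ i, A i ∈ Submodule.span ℚ (Set.range (fun i => A (g i)))) :
    (A.submatrix g g).det ≠ 0 := by
  intro hdet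
  obtain ⟨v, hv0, hv⟩ := Matrix.exists_mulVec_eq_zero_iff.2 hdet
  have hs : ∀ i j, A i j = A j i := fun i j => by
    have := congrFun (congrFun hA j) i
    rwa [transpose_apply] at this
  -- the functional
  let φ : (Fin n → ℚ) →ₗ[ℚ] ℚ := ∑ j, v j • LinearMap.proj (R := ℚ) (φ := fun _ : Fin n => ℚ) (g j)
  have hφ : ∀ r, φ r = ∑ j, v j * r (g j) := fun r => by
    simp [φ]
  have h1 : ∀ i, φ (A (g i)) = 0 := fun i => by
    have := congrFun hv i
    rw [hφ]
    simp only [mulVec, dotProduct, submatrix_apply, Pi.zero_apply] at this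
    rw [← this]
    exact Finset.sum_congr rfl fun j _ => mul_comm _ _
  have h2 : ∀ i, φ (A i) = 0 := fun i => by
    have h3 : Submodule.span ℚ (Set.range (fun i => A (g i))) ≤ LinearMap.ker φ := by
      rw [Submodule.span_le]
      rintro _ ⟨a, rfl⟩
      exact h1 a
    exact h3 (hsp i)
  have h4 : ∑ j, v j • A (g j) = 0 := by
    funext i
    rw [Finset.sum_apply, Pi.zero_apply, ← h2 i, hφ]
    exact Finset.sum_congr rfl fun j _ => by rw [Pi.smul_apply, smul_eq_mul, hs]
  apply hv0
  funext j
  exact Fintype.linearIndependent_iff.1 hli v h4 j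

theorem det_mq {n : ℕ} (w : Sym2 (Fin n) → Bool) {m : ℕ} (f : Fin m → Fin n) :
    ((mq w).submatrix f f).det = (((symMat w).submatrix f f).det : ℚ) := by
  have h := (Int.castRingHom ℚ).map_det ((symMat w).submatrix f f)
  rw [eq_intCast] at h
  rw [h]
  rfl

theorem mq_transpose {α : Type*} (b : Sym2 α → Bool) : (mq b)ᵀ = mq b := by
  ext i j
  exact mq_symm b j i

/-- The deterministic selection of a corank one principal submatrix. -/
theorem select {n : ℕ} (w : Sym2 (Fin n) → Bool) {m : ℕ} (hm : m < n)
    (hr : (mq w).rank = m) :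
    ∃ J ∈ Finset.powersetCard (m + 1) (Finset.univ : Finset (Fin n)),
      ∀ f : Fin (m + 1) → Fin n, Function.Injective f → Set.range f = (J : Set (Fin n)) →
        CorankOne ((symMat w).submatrix f f) := by
  classical
  obtain ⟨κ, a, hinj, hspan, hli⟩ := exists_linearIndependent' ℚ (fun i => mq w i)
  have : Finite κ := Finite.of_injective a hinj
  let _ : Fintype κ := Fintype.ofFinite κ
  have hcard : Fintype.card κ = m := by
    rw [← hr, Matrix.rank_eq_finrank_span_row]
    have h1 := finrank_span_eq_card hli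
    rw [← h1]
    have h2 : Submodule.span ℚ (Set.range ((fun i => mq w i) ∘ a)) =
        Submodule.span ℚ (Set.range (mq w).row) := hspan
    rw [h2]
  let e : Fin m ≃ κ := (Fintype.equivFinOfCardEq hcard).symm
  let g : Fin m → Fin n := a ∘ e
  have hg : Function.Injective g := hinj.comp e.injective
  obtain ⟨j0, hj0⟩ : ∃ j0, j0 ∉ Set.range g := by
    by_contra hcon
    push Not at hcon
    have : Function.Surjective g := fun x => hcon x
    have h3 := Fintype.card_le_of_surjective g this
    simp at h3
    omega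
  let J : Finset (Fin n) := insert j0 (Finset.univ.image g)
  have hJ : J.card = m + 1 := by
    rw [Finset.card_insert_of_notMem, Finset.card_image_of_injective _ hg]
    · simp
    · intro h
      rw [Finset.mem_image] at h
      obtain ⟨x, _, hx⟩ := h
      exact hj0 ⟨x, hx⟩
  refine ⟨J, Finset.mem_powersetCard.2 ⟨Finset.subset_univ _, hJ⟩, ?_⟩
  intro f hf hfr
  have hA := mq_transpose w
  -- any injection with the range of `g` gives a nonsingular minor
  have hmin : ∀ g' : Fin m → Fin n, Function.Injective g' → Set.range g' = Set.range g →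
      ((mq w).submatrix g' g').det ≠ 0 := by
    intro g' hg' hr'
    have hσ : ∃ σ : Fin m ≃ Fin m, g' = g ∘ σ := by
      have h4 : ∀ x, ∃ y, g y = g' x := fun x => by
        have : g' x ∈ Set.range g := hr' ▸ Set.mem_range_self x
        exact this
      choose σ hσ using h4
      have hσi : Function.Injective σ := fun x y hxy => by
        apply hg'
        rw [← hσ x, ← hσ y, hxy]
      refine ⟨Equiv.ofBijective σ (Finite.injective_iff_bijective.1 hσi), ?_⟩
      funext x
      exact (hσ x).symm
    obtain ⟨σ, hσ⟩ := hσ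
    subst hσ
    refine principal (mq w) hA (g ∘ σ) ?_ ?_
    · have : (fun i => mq w ((g ∘ σ) i)) = ((fun i => mq w i) ∘ a) ∘ (fun x => e (σ x)) := rfl
      rw [this]
      exact hli.comp _ (e.injective.comp σ.injective)
    · intro i
      have h5 : Set.range (fun i => mq w ((g ∘ σ) i)) = Set.range ((fun i => mq w i) ∘ a) := by
        have : (fun i => mq w ((g ∘ σ) i)) = ((fun i => mq w i) ∘ a) ∘ (σ.trans e) := rfl
        rw [this]
        exact (σ.trans e).surjective.range_comp _
      rw [h5, hspan]
      exact Submodule.subset_span ⟨i, rfl⟩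
  constructor
  · -- the determinant vanishes
    have h6 : ((mq w).submatrix f f).det = 0 := by
      by_contra hne
      have h7 : ((mq w).submatrix f f).rank = m + 1 := by
        rw [Matrix.rank_of_isUnit _ ((Matrix.isUnit_iff_isUnit_det _).2 (isUnit_iff_ne_zero.2 hne))]
        simp
      have h8 : ((mq w).submatrix f f).rank ≤ (mq w).rank := by
        exact Matrix.rank_submatrix_le _ _ _
      omega
    rw [det_mq] at h6
    exact_mod_cast h6
  · have hj : j0 ∈ Set.range f := by
      rw [hfr]
      exact Finset.mem_coe.2 (Finset.mem_insert_self _ _)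
    obtain ⟨i, hi⟩ := hj
    refine ⟨i, ?_⟩
    have h9 := hmin (f ∘ i.succAbove) (hf.comp Fin.succAbove_right_injective) ?_
    · rw [det_mq] at h9
      intro h10
      apply h9
      have h11 : Asm.del ((symMat w).submatrix f f) i =
          (symMat w).submatrix (f ∘ i.succAbove) (f ∘ i.succAbove) := rfl
      rw [h11] at h10
      rw [h10]
      simp
    · ext x
      constructor
      · rintro ⟨y, rfl⟩
        have h12 : f (i.succAbove y) ∈ (J : Set (Fin n)) := hfr ▸ Set.mem_range_self _
        rw [Finset.mem_coe, Finset.mem_insert] at h12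
        rcases h12 with h12 | h12
        · exfalso
          rw [← hi] at h12
          exact Fin.succAbove_ne i y (hf h12)
        · rw [Finset.mem_image] at h12
          obtain ⟨z, _, hz⟩ := h12
          exact ⟨z, hz⟩
      · rintro ⟨y, rfl⟩
        have h13 : g y ∈ Set.range f := by
          rw [hfr, Finset.mem_coe, Finset.mem_insert]
          exact Or.inr (Finset.mem_image.2 ⟨y, Finset.mem_univ _, rfl⟩)
        obtain ⟨z, hz⟩ := h13
        have hzi : z ≠ i := by
          rintro rfl
          apply hj0
          rw [← hi, hz]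
          exact ⟨y, rfl⟩
        obtain ⟨u, hu⟩ := Fin.exists_succAbove_eq hzi
        exact ⟨u, by rw [Function.comp_apply, hu, hz]⟩

/-! ### Probability -/

theorem ker_le_Rad {n : ℕ} (A : Matrix (Fin n) (Fin n) ℚ) :
    LinearMap.ker A.mulVecLin ≤ Rad A ⊤ := by
  intro w hw
  rw [LinearMap.mem_ker, mulVecLin_apply] at hw
  refine ⟨Submodule.mem_top, fun u _ => ?_⟩
  rw [hw, dotProduct_zero]

theorem rank_add_ker {n : ℕ} (A : Matrix (Fin n) (Fin n) ℚ) :
    A.rank + finrank ℚ (LinearMap.ker A.mulVecLin) = n := by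
  have := LinearMap.finrank_range_add_finrank_ker A.mulVecLin
  simpa [Matrix.rank] using this

theorem prob_sub {p : ℝ} (hp0 : 0 ≤ p) (hp1 : p ≤ 1) {n m : ℕ} (J : Finset (Fin n))
    (hJ : J.card = m + 1) :
    bernoulliProb p {w : Sym2 (Fin n) → Bool | ∀ f : Fin (m + 1) → Fin n, Function.Injective f →
      Set.range f = (J : Set (Fin n)) → CorankOne ((symMat w).submatrix f f)} ≤ c1 m p := by
  classical
  let f := J.orderEmbOfFin hJ
  have hf : Function.Injective f := f.injective
  have hfr : Set.range f = (J : Set (Fin n)) := by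
    simp [f]
  have hmap : Function.Injective (Sym2.map f) := Sym2.map.injective hf
  unfold c1
  rw [← Top.prob_inj hmap]
  refine prob_mono hp0 hp1 ?_
  intro w hw
  have h1 := hw f hf hfr
  show CorankOne (symMat (w ∘ Sym2.map f))
  have h2 : symMat (w ∘ Sym2.map f) = (symMat w).submatrix f f := by
    ext i j
    simp [symMat]
  rw [h2]
  exact h1

/-- **Reduction to corank one**, finite form. -/
theorem corank_sum {p q : ℝ} (hp0 : 0 ≤ p) (hp1 : p ≤ 1) (hpq : p ≤ q) (hpq' : 1 - p ≤ q)
    (hq1 : q ≤ 1) (n s : ℕ) :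
    singularProb n p ≤ (∑ m ∈ (Finset.range n).filter (fun m => n ≤ m + s),
      (n.choose (m + 1) : ℝ) * c1 m p) + 2 ^ n * q ^ (s + 1).choose 2 := by
  classical
  rw [singularProb_eq]
  let E : ℕ → Finset (Fin n) → Set (Sym2 (Fin n) → Bool) := fun m J =>
    {w | ∀ f : Fin (m + 1) → Fin n, Function.Injective f →
      Set.range f = (J : Set (Fin n)) → CorankOne ((symMat w).submatrix f f)}
  have hsub : {b : Sym2 (Fin n) → Bool | (symMat b).det = 0} ⊆
      (⋃ m ∈ (Finset.range n).filter (fun m => n ≤ m + s),
        ⋃ J ∈ Finset.powersetCard (m + 1) (Finset.univ : Finset (Fin n)), E m J) ∪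
      {b : Sym2 (Fin n) → Bool | s + 1 ≤ finrank ℚ (Rad (mq b) ⊤)} := by
    intro b hb
    have hb0 : (symMat b).det = 0 := hb
    have hmq : (mq b).det = 0 := by
      have h := det_mq b (id : Fin n → Fin n)
      rw [submatrix_id_id, submatrix_id_id, hb0] at h
      simpa using h
    have hker : 0 < finrank ℚ (LinearMap.ker (mq b).mulVecLin) := by
      obtain ⟨v, hv0, hv⟩ := Matrix.exists_mulVec_eq_zero_iff.2 hmq
      rw [Module.finrank_pos_iff_exists_ne_zero]
      exact ⟨⟨v, by rw [LinearMap.mem_ker, mulVecLin_apply, hv]⟩, fun h => hv0 (by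
        simpa using congrArg Subtype.val h)⟩
    have hrk := rank_add_ker (mq b)
    set m := (mq b).rank with hm
    by_cases hs : n ≤ m + s
    · left
      obtain ⟨J, hJ, hJ'⟩ := select b (m := m) (by omega) rfl
      simp only [Set.mem_iUnion, Finset.mem_filter, Finset.mem_range]
      exact ⟨m, ⟨by omega, hs⟩, J, hJ, hJ'⟩
    · right
      have h1 := Submodule.finrank_mono (ker_le_Rad (mq b))
      show s + 1 ≤ finrank ℚ (Rad (mq b) ⊤)
      omega
  refine (prob_mono hp0 hp1 hsub).trans ?_
  refine (prob_union_le hp0 hp1 _ _).trans ?_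
  refine add_le_add ?_ ?_
  · refine (prob_biUnion_le hp0 hp1 _ _).trans ?_
    refine Finset.sum_le_sum fun m _ => ?_
    refine (prob_biUnion_le hp0 hp1 _ _).trans ?_
    have h2 : ∀ J ∈ Finset.powersetCard (m + 1) (Finset.univ : Finset (Fin n)),
        bernoulliProb p (E m J) ≤ c1 m p := fun J hJ =>
      prob_sub hp0 hp1 J (Finset.mem_powersetCard.1 hJ).2
    refine (Finset.sum_le_sum h2).trans ?_
    rw [Finset.sum_const, Finset.card_powersetCard, Finset.card_univ, Fintype.card_fin,
      nsmul_eq_mul]
  · have h3 := fixV hp0 hp1 hpq hpq' hq1 (⊤ : Submodule ℚ (Fin n → ℚ)) (s + 1)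
    simpa using h3

end Crest.Agent.R152.Crk
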