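import Mathlib
import Crest.Agent.R152.WRM2c

set_option autoImplicit false

/-!
# Row 152, module DET, part 1: linear algebra

* `Det.gram_lower` : the Gram determinant of the columns of `A⁻¹ B` (`A`, `B` integral) is either
  zero or at least `(det A)⁻²` (generalised Cramer rule).
* `Det.det_rel` : a determinant estimate for a positive semidefinite form which is small, relative
  to a positive definite form, on a subspace of small codimension.
-/

namespace Crest.Agent.R152.Det

open Matrix Crest.Agent.R152.WRM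

section cramer

variable {ι : Type*} [Fintype ι] [DecidableEq ι]

/-- generalised Cramer rule -/
theorem minor_int (A : Matrix ι ι ℤ) (hA : A.det ≠ 0) {k : ℕ} (B : Matrix ι (Fin k) ℤ)
    (I : Fin k → ι) :
    ∃ m : ℤ, (A.det : ℝ) * (((im A)⁻¹ * im B).submatrix I id).det = (m : ℝ) := by
  classical
  by_cases hI : Function.Injective I
  · set W := (im A)⁻¹ * im B with hW
    have hAu : IsUnit (im A).det := by
      rw [isUnit_iff_ne_zero, det_im]
      exact_mod_cast hA
    have hAW : im A * W = im B := by
      rw [hW, ← Matrix.mul_assoc, mul_nonsing_inv _ hAu, Matrix.one_mul]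
    let e : Fin k ⊕ {j : ι // j ∉ Set.range I} ≃ ι :=
      (Equiv.sumCongr (Equiv.ofInjective I hI) (Equiv.refl _)).trans
        (Equiv.Set.sumCompl (Set.range I))
    have he1 : ∀ a, e (Sum.inl a) = I a := fun a => rfl
    have he2 : ∀ a, e (Sum.inr a) = (a : ι) := fun a => rfl
    let M : Matrix ι ι ℝ := Matrix.of fun i j => Sum.elim (fun b => W i b)
      (fun j' : {j : ι // j ∉ Set.range I} => if i = j'.1 then (1 : ℝ) else 0) (e.symm j)
    let N : Matrix ι ι ℤ := Matrix.of fun l j => Sum.elim (fun b => B l b)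
      (fun j' : {j : ι // j ∉ Set.range I} => A l j'.1) (e.symm j)
    have hM1 : ∀ i b, M i (e (Sum.inl b)) = W i b := by
      intro i b
      simp only [M, Matrix.of_apply, Equiv.symm_apply_apply, Sum.elim_inl]
    have hM2 : ∀ i (j' : {j : ι // j ∉ Set.range I}),
        M i (e (Sum.inr j')) = if i = j'.1 then (1 : ℝ) else 0 := by
      intro i b
      simp only [M, Matrix.of_apply, Equiv.symm_apply_apply, Sum.elim_inr]
    have hN1 : ∀ i b, N i (e (Sum.inl b)) = B i b := by
      intro i b
      simp only [N, Matrix.of_apply, Equiv.symm_apply_apply, Sum.elim_inl]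
    have hN2 : ∀ i (j' : {j : ι // j ∉ Set.range I}), N i (e (Sum.inr j')) = A i j'.1 := by
      intro i b
      simp only [N, Matrix.of_apply, Equiv.symm_apply_apply, Sum.elim_inr]
    have hMN : im A * M = im N := by
      ext l j
      obtain ⟨c, rfl⟩ := e.surjective j
      rcases c with b | j'
      · have h1 := congrFun (congrFun hAW l) b
        simp only [Matrix.mul_apply, im, Matrix.map_apply, hM1, hN1] at h1 ⊢
        exact h1
      · simp only [Matrix.mul_apply, im, Matrix.map_apply, hM2, hN2]
        simp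
    have hMdet : M.det = (W.submatrix I id).det := by
      rw [← det_submatrix_equiv_self e M]
      have h1 : M.submatrix e e = fromBlocks (W.submatrix I id) 0
          (W.submatrix (Subtype.val : {j : ι // j ∉ Set.range I} → ι) id)
          (1 : Matrix {j : ι // j ∉ Set.range I} {j : ι // j ∉ Set.range I} ℝ) := by
        ext i j
        rcases i with i | i <;> rcases j with j | j
        · rw [submatrix_apply, hM1]
          rfl
        · have h2 : e (Sum.inl i) ≠ j.1 := fun h => j.2 ⟨i, h⟩
          rw [submatrix_apply, hM2, if_neg h2]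
          rfl
        · rw [submatrix_apply, hM1]
          rfl
        · rw [submatrix_apply, hM2, he2]
          simp [Matrix.one_apply, Subtype.ext_iff]
      rw [h1, det_fromBlocks_zero₁₂, det_one, mul_one]
    refine ⟨N.det, ?_⟩
    rw [← hMdet, ← det_im A, ← det_mul, hMN, det_im]
  · refine ⟨0, ?_⟩
    have : ∃ a b, I a = I b ∧ a ≠ b := by
      simpa [Function.Injective] using hI
    obtain ⟨a, b, hab, hne⟩ := this
    rw [det_zero_of_row_eq hne]
    · simp
    · funext j
      simp [hab]

/-- the Gram determinant of `A⁻¹ B` is zero or at least `(det A)⁻²` -/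
theorem gram_lower (A : Matrix ι ι ℤ) (hA : A.det ≠ 0) {k : ℕ} (B : Matrix ι (Fin k) ℤ)
    (h0 : (((im A)⁻¹ * im B)ᵀ * ((im A)⁻¹ * im B)).det ≠ 0) :
    1 ≤ (A.det : ℝ) ^ 2 * (((im A)⁻¹ * im B)ᵀ * ((im A)⁻¹ * im B)).det := by
  classical
  set W := (im A)⁻¹ * im B with hW
  have h1 := det_gram_eq W
  -- a nonzero minor
  obtain ⟨I, hI⟩ : ∃ I : Fin k → ι, (W.submatrix I id).det ≠ 0 := by
    by_contra hcon
    push Not at hcon
    apply h0
    rw [h1]
    simp [hcon]
  have hinj : Function.Injective I := by
    intro a b hab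
    by_contra hne
    exact hI (det_zero_of_row_eq hne (by funext j; simp [hab]))
  have hge : ∀ σ : Equiv.Perm (Fin k),
      1 ≤ (A.det : ℝ) ^ 2 * (W.submatrix (I ∘ σ) id).det ^ 2 := by
    intro σ
    obtain ⟨m, hm⟩ := minor_int A hA B (I ∘ σ)
    rw [← hW] at hm
    have hne : (W.submatrix (I ∘ σ) id).det ≠ 0 := by
      have h2 : W.submatrix (I ∘ σ) id = (W.submatrix I id).submatrix σ id := by
        ext i j; simp
      rw [h2, det_permute]
      refine mul_ne_zero ?_ hI
      rcases Int.units_eq_one_or (Equiv.Perm.sign σ) with h | h <;> rw [h] <;> simp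
    have hm0 : m ≠ 0 := by
      rintro rfl
      simp only [Int.cast_zero] at hm
      rcases mul_eq_zero.1 hm with h | h
      · exact hA (by exact_mod_cast h)
      · exact hne h
    rw [← mul_pow, hm]
    have : (1 : ℤ) ≤ m ^ 2 := by
      have := sq_nonneg m
      have h3 : m ^ 2 ≠ 0 := pow_ne_zero 2 hm0
      omega
    exact_mod_cast this
  have hsum : (k.factorial : ℝ) ≤ ∑ J : Fin k → ι, (A.det : ℝ) ^ 2 * (W.submatrix J id).det ^ 2 := by
    have hinj2 : Function.Injective (fun σ : Equiv.Perm (Fin k) => I ∘ σ) := by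
      intro σ τ hστ
      apply Equiv.ext
      intro x
      exact hinj (congrFun hστ x)
    calc (k.factorial : ℝ) = ∑ _σ : Equiv.Perm (Fin k), (1 : ℝ) := by
          simp [Fintype.card_perm]
      _ ≤ ∑ σ : Equiv.Perm (Fin k), (A.det : ℝ) ^ 2 * (W.submatrix (I ∘ σ) id).det ^ 2 :=
          Finset.sum_le_sum fun σ _ => hge σ
      _ = ∑ J ∈ Finset.univ.image (fun σ : Equiv.Perm (Fin k) => I ∘ σ),
            (A.det : ℝ) ^ 2 * (W.submatrix J id).det ^ 2 := by
          rw [Finset.sum_image (fun σ _ τ _ h => hinj2 h)]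
      _ ≤ _ := Finset.sum_le_sum_of_subset_of_nonneg (Finset.subset_univ _)
          (fun J _ _ => by positivity)
  rw [h1, ← mul_assoc, mul_comm ((A.det : ℝ) ^ 2), mul_assoc, Finset.mul_sum]
  rw [← inv_mul_cancel₀ (show (k.factorial : ℝ) ≠ 0 by positivity)]
  gcongr

end cramer

section rel

variable {e : Type*} [Fintype e] [DecidableEq e]

/-- simultaneous diagonalisation -/
theorem exists_simul {P R : Matrix e e ℝ} (hP : P.PosDef) (hR : R.PosSemidef) :
    ∃ (Q : Matrix e e ℝ) (d : e → ℝ), Q.det ≠ 0 ∧ P = Qᵀ * Q ∧ R = Qᵀ * diagonal d * Q ∧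
      ∀ i, 0 ≤ d i := by
  obtain ⟨C, hC, hC1⟩ := exists_factor hP
  have hCu : IsUnit C.det := by
    rw [isUnit_iff_ne_zero]
    exact hC1
  have hCt : IsUnit Cᵀ.det := by rwa [det_transpose]
  set K : Matrix e e ℝ := (Cᵀ)⁻¹ * R * C⁻¹ with hK
  have hKp : K.PosSemidef := by
    have h1 := hR.conjTranspose_mul_mul_same C⁻¹
    rw [conjTranspose_eq_transpose_of_trivial, transpose_nonsing_inv] at h1
    exact h1
  have hRK : R = Cᵀ * K * C := by
    rw [hK]
    calc R = 1 * R * 1 := by simp
      _ = (Cᵀ * (Cᵀ)⁻¹) * R * (C⁻¹ * C) := by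
          rw [mul_nonsing_inv _ hCt, nonsing_inv_mul _ hCu]
      _ = _ := by simp only [Matrix.mul_assoc]
  have hH := hKp.1
  have hspec := hH.spectral_theorem
  set U : Matrix e e ℝ := (hH.eigenvectorUnitary : Matrix e e ℝ) with hU
  have hUU : U * Uᵀ = 1 := by
    have := (Matrix.mem_unitaryGroup_iff (A := U)).1 hH.eigenvectorUnitary.2
    rwa [star_eq_conjTranspose, conjTranspose_eq_transpose_of_trivial] at this
  have hspec' : K = U * diagonal hH.eigenvalues * Uᵀ := by
    conv_lhs => rw [hspec]
    rw [Unitary.conjStarAlgAut_apply, star_eq_conjTranspose,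
      conjTranspose_eq_transpose_of_trivial]
    rfl
  refine ⟨Uᵀ * C, hH.eigenvalues, ?_, ?_, ?_, fun i => hKp.eigenvalues_nonneg i⟩
  · rw [det_mul]
    refine mul_ne_zero ?_ hC1
    intro h0
    have := congrArg det hUU
    rw [det_mul, h0, mul_zero, det_one] at this
    exact zero_ne_one this
  · rw [transpose_mul, transpose_transpose, Matrix.mul_assoc, ← Matrix.mul_assoc U, hUU,
      Matrix.one_mul, hC]
  · have h5 : Cᵀ * K * C = Cᵀ * (U * diagonal hH.eigenvalues * Uᵀ) * C :=
      congrArg (fun X => Cᵀ * X * C) hspec'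
    rw [hRK, h5, transpose_mul, transpose_transpose]
    simp only [Matrix.mul_assoc]

theorem qf_simul (Q : Matrix e e ℝ) (d : e → ℝ) (x : e → ℝ) :
    qf (Qᵀ * diagonal d * Q) x = ∑ i, d i * (Q *ᵥ x) i ^ 2 := by
  unfold qf
  rw [← mulVec_mulVec, ← mulVec_mulVec, dotProduct_mulVec, vecMul_transpose]
  simp only [dotProduct, mulVec_diagonal]
  exact Finset.sum_congr rfl fun i _ => by ring

theorem qf_simul_one (Q : Matrix e e ℝ) (x : e → ℝ) :
    qf (Qᵀ * Q) x = ∑ i, (Q *ᵥ x) i ^ 2 := by
  have := qf_simul Q (fun _ => 1) x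
  rw [show diagonal (fun _ : e => (1 : ℝ)) = 1 from diagonal_one] at this
  simpa using this

/-- relative determinant estimate -/
theorem det_rel {P R : Matrix e e ℝ} (hP : P.PosDef) (hR : R.PosSemidef) {K v : ℝ}
    (hv : 0 < v) (hvK : v ≤ K) (hK1 : 1 ≤ K) (h1 : ∀ x, qf R x ≤ K * qf P x)
    (T : Submodule ℝ (e → ℝ)) (h2 : ∀ x ∈ T, qf R x ≤ v * qf P x) (s : ℕ)
    (hs : Fintype.card e ≤ Module.finrank ℝ T + s) (hv1 : v ≤ 1) :
    R.det ≤ K ^ s * v ^ (Fintype.card e - s) * P.det := by
  classical
  obtain ⟨Q, d, hQ, hPQ, hRQ, hd⟩ := exists_simul hP hR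
  have hQu : IsUnit Q.det := isUnit_iff_ne_zero.2 hQ
  -- all `d i ≤ K`
  have hdK : ∀ i, d i ≤ K := by
    intro i
    have h3 := h1 (Q⁻¹ *ᵥ Pi.single i 1)
    rw [hRQ, hPQ, qf_simul, qf_simul_one, mulVec_mulVec, mul_nonsing_inv _ hQu, one_mulVec] at h3
    simpa [Pi.single_apply] using h3
  set big : Finset e := Finset.univ.filter (fun i => v < d i) with hbig
  -- number of large `d i`
  have hcard : big.card ≤ s := by
    let f : (e → ℝ) →ₗ[ℝ] ({i : e // i ∉ big} → ℝ) :=
      (LinearMap.funLeft ℝ ℝ (Subtype.val : {i : e // i ∉ big} → e)).comp (Matrix.mulVecLin Q)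
    have hf : ∀ x i, f x i = (Q *ᵥ x) (i : e) := fun x i => rfl
    have hinj : Function.Injective (f.domRestrict T) := by
      rw [← LinearMap.ker_eq_bot, LinearMap.ker_eq_bot']
      rintro ⟨x, hx⟩ hfx
      have hz : ∀ i, i ∉ big → (Q *ᵥ x) i = 0 := by
        intro i hi
        have := congrFun hfx ⟨i, hi⟩
        exact this
      have h3 := h2 x hx
      rw [hRQ, hPQ, qf_simul, qf_simul_one, Finset.mul_sum] at h3
      have h4 : ∑ i, (d i - v) * (Q *ᵥ x) i ^ 2 ≤ 0 := by
        have : ∑ i, (d i - v) * (Q *ᵥ x) i ^ 2 =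
            ∑ i, d i * (Q *ᵥ x) i ^ 2 - ∑ i, v * (Q *ᵥ x) i ^ 2 := by
          rw [← Finset.sum_sub_distrib]
          exact Finset.sum_congr rfl fun i _ => by ring
        linarith
      have h5 : ∀ i ∈ (Finset.univ : Finset e), 0 ≤ (d i - v) * (Q *ᵥ x) i ^ 2 := by
        intro i _
        by_cases hi : i ∈ big
        · have : v < d i := (Finset.mem_filter.1 hi).2
          have h6 : 0 ≤ d i - v := by linarith
          positivity
        · rw [hz i hi]; simp
      have h6 := (Finset.sum_eq_zero_iff_of_nonneg h5).1 (le_antisymm h4 (Finset.sum_nonneg h5))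
      have h7 : Q *ᵥ x = 0 := by
        funext i
        by_cases hi : i ∈ big
        · have h8 := h6 i (Finset.mem_univ i)
          have : v < d i := (Finset.mem_filter.1 hi).2
          have h9 : d i - v ≠ 0 := (sub_pos.2 this).ne'
          have := (mul_eq_zero.1 h8).resolve_left h9
          simpa using this
        · exact hz i hi
      have h8 : x = 0 := by
        have := congrArg (fun w => Q⁻¹ *ᵥ w) h7
        simpa [mulVec_mulVec, nonsing_inv_mul _ hQu] using this
      exact Subtype.ext h8
    have h3 := LinearMap.finrank_le_finrank_of_injective hinj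
    rw [Module.finrank_fintype_fun_eq_card] at h3
    have h4 : Fintype.card {i : e // i ∉ big} = Fintype.card e - big.card := by
      rw [Fintype.card_subtype_compl]
      simp
    have h5 : big.card ≤ Fintype.card e := Finset.card_le_univ big
    omega
  -- the determinants
  have hdetP : P.det = Q.det ^ 2 := by rw [hPQ, det_mul, det_transpose]; ring
  have hdetR : R.det = Q.det ^ 2 * ∏ i, d i := by
    rw [hRQ, det_mul, det_mul, det_transpose, det_diagonal]; ring
  have hprod : ∏ i, d i ≤ K ^ s * v ^ (Fintype.card e - s) := by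
    have h3 : ∏ i, d i = (∏ i ∈ big, d i) * ∏ i ∈ bigᶜ, d i := by
      rw [Finset.prod_mul_prod_compl]
    have h4 : ∏ i ∈ big, d i ≤ K ^ big.card := by
      rw [← Finset.prod_const]
      exact Finset.prod_le_prod (fun i _ => hd i) (fun i _ => hdK i)
    have h5 : ∏ i ∈ bigᶜ, d i ≤ v ^ bigᶜ.card := by
      rw [← Finset.prod_const]
      refine Finset.prod_le_prod (fun i _ => hd i) (fun i hi => ?_)
      have : i ∉ big := Finset.mem_compl.1 hi
      by_contra h
      exact this (Finset.mem_filter.2 ⟨Finset.mem_univ _, not_le.1 h⟩)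
    have h6 : bigᶜ.card = Fintype.card e - big.card := Finset.card_compl big
    have hbc : big.card ≤ Fintype.card e := Finset.card_le_univ big
    calc ∏ i, d i ≤ K ^ big.card * v ^ bigᶜ.card := by
          rw [h3]
          exact mul_le_mul h4 h5 (Finset.prod_nonneg fun i _ => hd i) (by positivity)
      _ ≤ K ^ s * v ^ (Fintype.card e - s) := by
          rw [h6]
          by_cases hse : s ≤ Fintype.card e
          · have e1 : Fintype.card e - big.card = (s - big.card) + (Fintype.card e - s) := by omega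
            have e2 : K ^ s = K ^ big.card * K ^ (s - big.card) := by
              rw [← pow_add]; congr 1; omega
            rw [e1, pow_add, e2, ← mul_assoc]
            have e3 : v ^ (s - big.card) ≤ K ^ (s - big.card) := pow_le_pow_left₀ hv.le hvK _
            have e4 : 0 ≤ K ^ big.card := by positivity
            have e5 : 0 ≤ v ^ (Fintype.card e - s) := by positivity
            exact mul_le_mul_of_nonneg_right (mul_le_mul_of_nonneg_left e3 e4) e5
          · have e1 : Fintype.card e - s = 0 := by omega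
            rw [e1, pow_zero, mul_one]
            have e2 : v ^ (Fintype.card e - big.card) ≤ 1 := pow_le_one₀ hv.le hv1
            have e3 : K ^ big.card ≤ K ^ s := pow_le_pow_right₀ hK1 hcard
            have e4 : 0 ≤ K ^ big.card := by positivity
            nlinarith
  rw [hdetR, hdetP]
  have : 0 ≤ Q.det ^ 2 := sq_nonneg _
  nlinarith

end rel

end Crest.Agent.R152.Det
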