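import Mathlib
import Crest.Agent.R152.WRM2c

set_option autoImplicit false

/-!
# Row 152, module DET, part 2: minimiser of the potential `log det - lam * rank` and splitting

For a Gram matrix `G` on `ℤⁿ` (positive definite, all sublattices have determinant at least one)
and `0 ≤ lam` there is a sublattice `L` (the columns of `Z`) minimising `log det - lam * rank`; it
is saturated, and in the quotient `ℤⁿ / L` (Schur complement) all sublattices have
`det ≥ exp (lam * rank)`.
-/

namespace Crest.Agent.R152.Det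

open Matrix Module Crest.Agent.R152.WRM

theorem exists_min_pot {n : ℕ} {G : Matrix (Fin n) (Fin n) ℝ} (hG : G.PosDef) {lam : ℝ}
    (hlam : 0 ≤ lam) :
    ∃ (k : ℕ) (Z : Matrix (Fin n) (Fin k) ℤ), ((im Z)ᵀ * G * im Z).det ≠ 0 ∧
      ((im Z)ᵀ * G * im Z).det ≤ Real.exp (lam * k) ∧
      ∀ (j : ℕ) (Y : Matrix (Fin n) (Fin j) ℤ), ((im Y)ᵀ * G * im Y).det ≠ 0 →
        Real.exp (-(lam * k)) * ((im Z)ᵀ * G * im Z).det ≤
          Real.exp (-(lam * j)) * ((im Y)ᵀ * G * im Y).det := by
  classical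
  let S : Set (ℕ × ℝ) := {q | q.1 ≤ n ∧ q.2 ≠ 0 ∧ q.2 ≤ Real.exp (lam * n) ∧
    ∃ Z : Matrix (Fin n) (Fin q.1) ℤ, q.2 = ((im Z)ᵀ * G * im Z).det}
  have hSfin : S.Finite := by
    have h1 : S ⊆ ⋃ k ∈ Finset.Icc 0 n, (fun d => (k, d)) ''
        {d : ℝ | d ≤ Real.exp (lam * n) ∧ ∃ Z : Matrix (Fin n) (Fin k) ℤ,
          d = ((im Z)ᵀ * G * im Z).det} := by
      rintro ⟨k, d⟩ ⟨h2, h3, h4, h5⟩
      simp only [Set.mem_iUnion]
      exact ⟨k, Finset.mem_Icc.2 ⟨Nat.zero_le _, h2⟩, d, ⟨h4, h5⟩, rfl⟩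
    refine Set.Finite.subset ?_ h1
    refine Set.Finite.biUnion (Finset.finite_toSet _) fun k _ => ?_
    exact (det_values_finite hG k _).image _
  have h0mem : ((0 : ℕ), (1 : ℝ)) ∈ S := by
    refine ⟨Nat.zero_le _, one_ne_zero, Real.one_le_exp (by positivity), 0, ?_⟩
    simp
  obtain ⟨⟨k, d⟩, hkd, hmin⟩ :=
    Set.exists_min_image S (fun q => Real.exp (-(lam * q.1)) * q.2) hSfin ⟨_, h0mem⟩
  obtain ⟨hkn, hd0, hdC, Z, hZ⟩ := hkd
  simp only at hkn hd0 hdC Z hZ
  have hle1 : Real.exp (-(lam * k)) * d ≤ 1 := by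
    have := hmin _ h0mem
    simpa using this
  refine ⟨k, Z, by rw [← hZ]; exact hd0, ?_, ?_⟩
  · rw [← hZ]
    rw [Real.exp_neg, inv_mul_le_iff₀ (Real.exp_pos _), mul_one] at hle1
    exact hle1
  · intro j Y hY
    have hjn : j ≤ n := by
      by_contra h
      exact hY (det_eq_zero_of_lt (by rw [Fintype.card_fin]; omega) Y)
    by_cases hle : ((im Y)ᵀ * G * im Y).det ≤ Real.exp (lam * n)
    · have := hmin (j, ((im Y)ᵀ * G * im Y).det) ⟨hjn, hY, hle, Y, rfl⟩
      rw [← hZ]
      exact this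
    · push Not at hle
      rw [← hZ]
      refine hle1.trans ?_
      have h1 : (1 : ℝ) ≤ Real.exp (-(lam * j)) * Real.exp (lam * n) := by
        rw [← Real.exp_add]
        apply Real.one_le_exp
        have : (j : ℝ) ≤ n := by exact_mod_cast hjn
        nlinarith
      exact h1.trans (mul_le_mul_of_nonneg_left hle.le (Real.exp_pos _).le)

/-- splitting along a minimiser of the potential -/
theorem split_min {n : ℕ} {G : Matrix (Fin n) (Fin n) ℝ} (hG : G.PosDef) {lam : ℝ}
    (hlam : 0 ≤ lam) :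
    ∃ (r l : ℕ) (e : Fin r ⊕ Fin l ≃ Fin n) (U V : Matrix (Fin n) (Fin n) ℤ)
      (A : Matrix (Fin r) (Fin r) ℝ) (B : Matrix (Fin r) (Fin l) ℝ)
      (D : Matrix (Fin l) (Fin l) ℝ) (Z : Matrix (Fin n) (Fin r) ℤ), r + l = n ∧ U * V = 1 ∧
      ((im U)ᵀ * G * im U).submatrix e e = blk A B D ∧ (blk A B D).PosDef ∧
      Z = U.submatrix id (fun j => e (Sum.inl j)) ∧
      A = (im Z)ᵀ * G * im Z ∧ A.det ≤ Real.exp (lam * r) ∧ SubC lam (schur A B D) := by
  classical
  obtain ⟨k, Z, hZ0, hZle, hmin⟩ := exists_min_pot hG hlam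
  have hli := linearIndependent_cols Z hZ0
  set v : Fin k → (Fin n → ℤ) := fun j i => Z i j with hv
  set N : Submodule ℤ (Fin n → ℤ) := Submodule.span ℤ (Set.range v) with hN
  obtain ⟨r, snf⟩ := Submodule.smithNormalForm (Pi.basisFun ℤ (Fin n)) N
  have hr : r = k := by
    have h1 := Module.finrank_eq_card_basis snf.bN
    have h2 := Module.finrank_eq_card_basis (Basis.span hli)
    rw [h1] at h2
    simpa using h2
  subst hr
  -- the base change
  set U : Matrix (Fin n) (Fin n) ℤ := (Pi.basisFun ℤ (Fin n)).toMatrix snf.bM with hU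
  set V : Matrix (Fin n) (Fin n) ℤ := snf.bM.toMatrix (Pi.basisFun ℤ (Fin n)) with hV
  have hUV : U * V = 1 := Basis.toMatrix_mul_toMatrix_flip _ _
  have hUapp : ∀ i j, U i j = snf.bM j i := by
    intro i j
    rw [hU, Basis.toMatrix_apply, Pi.basisFun_repr]
  -- complement of the range of `f`
  let l := Fintype.card {i : Fin n // i ∉ Set.range snf.f}
  let e : Fin r ⊕ Fin l ≃ Fin n :=
    (Equiv.sumCongr (Equiv.ofInjective snf.f snf.f.injective)
      (Fintype.equivFin {i : Fin n // i ∉ Set.range snf.f}).symm).trans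
      (Equiv.Set.sumCompl (Set.range snf.f))
  have he : ∀ j, e (Sum.inl j) = snf.f j := fun j => rfl
  set M := ((im U)ᵀ * G * im U).submatrix e e with hM
  have hMpos : M.PosDef := posDef_reindex e (posDef_conj hG U V hUV)
  -- the sublattice spanned by the `bM (f j)`
  set Z' : Matrix (Fin n) (Fin r) ℤ := U.submatrix id snf.f with hZ'
  have hA : M.toBlocks₁₁ = (im Z')ᵀ * G * im Z' := by
    ext i j
    simp [M, toBlocks₁₁, he, hZ', im_submatrix, Matrix.mul_apply]
  -- `Z = Z' * T`
  have hvmem : ∀ j, v j ∈ N := fun j => Submodule.subset_span ⟨j, rfl⟩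
  set T : Matrix (Fin r) (Fin r) ℤ := fun i j => snf.bN.repr ⟨v j, hvmem j⟩ i * snf.a i with hT
  have hZT : Z = Z' * T := by
    ext i' j
    have h1 := snf.bN.sum_repr ⟨v j, hvmem j⟩
    have h2 := congrArg (fun w : N => (w : Fin n → ℤ) i') h1
    simp only [AddSubmonoidClass.coe_finsetSum, Submodule.coe_smul, Finset.sum_apply,
      Pi.smul_apply, smul_eq_mul] at h2
    rw [Matrix.mul_apply]
    change v j i' = _
    rw [← h2]
    apply Finset.sum_congr rfl
    intro i _
    rw [snf.snf i, hT, hZ', submatrix_apply, hUapp]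
    simp only [Pi.smul_apply, smul_eq_mul, id]
    ring
  have hdet : ((im Z)ᵀ * G * im Z).det = (T.det : ℝ) ^ 2 * M.toBlocks₁₁.det := by
    have h1 : (im Z)ᵀ * G * im Z = (im T)ᵀ * M.toBlocks₁₁ * im T := by
      rw [hA, hZT, im_mul, transpose_mul]
      simp only [Matrix.mul_assoc]
    rw [h1, det_mul, det_mul, det_transpose, det_im]
    ring
  have hT0 : T.det ≠ 0 := by
    intro h0
    rw [h0] at hdet
    simp at hdet
    exact hZ0 hdet
  have hT1 : (1 : ℝ) ≤ (T.det : ℝ) ^ 2 := by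
    have h2 : (1 : ℤ) ≤ T.det ^ 2 := by
      have := sq_nonneg T.det
      have h3 : T.det ^ 2 ≠ 0 := pow_ne_zero 2 hT0
      omega
    exact_mod_cast h2
  have hblk := eq_blk hMpos
  have hpos' : (blk M.toBlocks₁₁ M.toBlocks₁₂ M.toBlocks₂₂).PosDef := by rw [← hblk]; exact hMpos
  have hApos : M.toBlocks₁₁.PosDef := posDef_of_blk hpos'
  have hAdet : 0 < M.toBlocks₁₁.det := hApos.det_pos
  have hAle : M.toBlocks₁₁.det ≤ ((im Z)ᵀ * G * im Z).det := by
    rw [hdet]
    nlinarith
  refine ⟨r, l, e, U, V, M.toBlocks₁₁, M.toBlocks₁₂, M.toBlocks₂₂, Z', ?_, hUV, hblk, hpos', rfl,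
    hA, hAle.trans hZle, ?_⟩
  · have := Fintype.card_congr e
    simpa using this
  · intro j W hW
    set A := M.toBlocks₁₁ with hAd
    set B := M.toBlocks₁₂
    set D := M.toBlocks₂₂
    -- the sublattice of `ℤⁿ`
    set Y0 : Matrix (Fin r ⊕ Fin l) (Fin (r + j)) ℤ :=
      (fromBlocks (1 : Matrix (Fin r) (Fin r) ℤ) 0 0 W).submatrix id finSumFinEquiv.symm with hY0
    have h1 : ((im Y0)ᵀ * blk A B D * im Y0).det = A.det * ((im W)ᵀ * schur A B D * im W).det := by
      have h2 : (im Y0)ᵀ * blk A B D * im Y0 =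
          (blk A (B * im W) ((im W)ᵀ * D * im W)).submatrix finSumFinEquiv.symm
            finSumFinEquiv.symm := by
        rw [← gram_lift W, hY0, im_submatrix]
        ext a b
        simp [Matrix.mul_apply]
      rw [h2, det_submatrix_equiv_self, det_blk hApos, schur_lift]
    set Y : Matrix (Fin n) (Fin (r + j)) ℤ := U * Y0.submatrix e.symm id with hY
    have h3 : (im Y)ᵀ * G * im Y = (im Y0)ᵀ * blk A B D * im Y0 := by
      have e1 : im Y = im U * (im Y0).submatrix e.symm id := by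
        rw [hY, im_mul, im_submatrix]
      have e2 : blk A B D = ((im U)ᵀ * G * im U).submatrix e e := hblk.symm
      rw [e1, e2, transpose_mul, transpose_submatrix]
      have e3 : (im Y0).submatrix e.symm id = (im Y0).submatrix e.symm (Equiv.refl _) := rfl
      have e4 : ((im Y0)ᵀ * ((im U)ᵀ * G * im U).submatrix e e * im Y0) =
          ((im Y0)ᵀ.submatrix id e.symm) * ((im U)ᵀ * G * im U) *
            ((im Y0).submatrix e.symm id) := by
        ext a b
        simp only [Matrix.mul_apply, submatrix_apply, id]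
        rw [← Equiv.sum_comp e]
        simp only [Equiv.symm_apply_apply]
        refine Finset.sum_congr rfl fun c _ => ?_
        congr 1
        rw [← Equiv.sum_comp e]
        simp only [Equiv.symm_apply_apply]
      rw [e4]
      simp only [Matrix.mul_assoc]
    have h4 := hmin (r + j) Y (by
      rw [h3, h1]
      exact mul_ne_zero hAdet.ne' hW)
    rw [h3, h1] at h4
    have h5 : Real.exp (-(lam * r)) * A.det ≤
        Real.exp (-(lam * ((r + j : ℕ) : ℝ))) * (A.det * ((im W)ᵀ * schur A B D * im W).det) :=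
      (mul_le_mul_of_nonneg_left hAle (Real.exp_pos _).le).trans h4
    have h6 : Real.exp (-(lam * ((r + j : ℕ) : ℝ))) = Real.exp (-(lam * r)) * Real.exp (-(lam * j)) := by
      rw [← Real.exp_add]
      congr 1
      push_cast
      ring
    rw [h6] at h5
    have h7 : 0 < Real.exp (-(lam * r)) * A.det := mul_pos (Real.exp_pos _) hAdet
    have h8 : 1 ≤ Real.exp (-(lam * j)) * ((im W)ᵀ * schur A B D * im W).det := by
      have h9 : Real.exp (-(lam * r)) * A.det * 1 ≤ Real.exp (-(lam * r)) * A.det *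
          (Real.exp (-(lam * j)) * ((im W)ᵀ * schur A B D * im W).det) := by
        rw [mul_one]
        calc _ ≤ _ := h5
          _ = _ := by ring
      exact le_of_mul_le_mul_left h9 h7
    rw [Real.exp_neg, inv_mul_eq_div, le_div_iff₀ (Real.exp_pos _), one_mul] at h8
    exact h8

end Crest.Agent.R152.Det
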