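import Mathlib
import Crest.Agent.R152.WRM8
import Crest.Agent.R152.ROD4
import Crest.Agent.R152.Det2

set_option autoImplicit false

/-!
# Row 152, module DET, part 3: counting sign vectors of bounded `G`-diameter
-/

namespace Crest.Agent.R152.Det

open Matrix Module Crest.Agent.R152.WRM Crest.Agent.R152.Base Crest.FinProb

/-- sign vector with integer entries -/
def sgv {ι : Type*} (x : ι → Bool) : ι → ℤ := fun i => sg (x i)

theorem subDet_smul_of_subC {m : ℕ} {lam : ℝ} {H : Matrix (Fin m) (Fin m) ℝ} (h : SubC lam H) :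
    SubDet (Real.exp (-lam) • H) := by
  intro k Z hZ
  have e1 : (im Z)ᵀ * (Real.exp (-lam) • H) * im Z = Real.exp (-lam) • ((im Z)ᵀ * H * im Z) := by
    rw [Matrix.mul_smul, Matrix.smul_mul]
  rw [e1, det_smul, Fintype.card_fin] at hZ ⊢
  have h0 : ((im Z)ᵀ * H * im Z).det ≠ 0 := fun h0 => hZ (by rw [h0, mul_zero])
  have h1 := h k Z h0
  rw [← Real.exp_nat_mul]
  calc (1 : ℝ) = Real.exp (k * -lam) * Real.exp (lam * k) := by
        rw [← Real.exp_add]; simp [mul_comm]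
    _ ≤ _ := mul_le_mul_of_nonneg_left h1 (Real.exp_pos _).le

theorem posDef_smul' {m : ℕ} {c : ℝ} (hc : 0 < c) {H : Matrix (Fin m) (Fin m) ℝ} (h : H.PosDef) :
    (c • H).PosDef := h.smul hc

theorem card_affine_le {n : ℕ} (W : Submodule ℝ (Fin n → ℝ)) (x0 : Fin n → ℝ)
    (s : Finset (Fin n → Bool)) (hs : ∀ z ∈ s, (fun i => ((sg (z i) : ℤ) : ℝ)) - x0 ∈ W) :
    (s.card : ℝ) ≤ 2 ^ finrank ℝ W := by
  have h1 := ROD.odlyzko_sign (p := 1 / 2) (M := 1 / 2) (by norm_num) (by norm_num) (by norm_num)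
    (by norm_num) (by norm_num) (K := ℝ) two_ne_zero W x0
  have h2 : bernoulliProb (1 / 2) (s : Set (Fin n → Bool)) ≤
      (1 / 2 : ℝ) ^ (Fintype.card (Fin n) - finrank ℝ W) :=
    le_trans (prob_mono (by norm_num) (by norm_num) fun z hz => hs z hz) h1
  rw [ROD.prob_half_eq, div_le_iff₀ (by positivity), Fintype.card_fin] at h2
  refine h2.trans (le_of_eq ?_)
  have hle : finrank ℝ W ≤ n := by
    have := Submodule.finrank_le W
    rwa [finrank_fintype_fun_eq_card, Fintype.card_fin] at this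
  have e1 : (2 : ℝ) ^ n = 2 ^ finrank ℝ W * 2 ^ (n - finrank ℝ W) := by
    rw [← pow_add]; congr 1; omega
  rw [e1, one_div, inv_pow]
  field_simp

theorem qf_submatrix {n r l : ℕ} (M : Matrix (Fin n) (Fin n) ℝ) (e : Fin r ⊕ Fin l ≃ Fin n)
    (x : Fin n → ℝ) : qf (M.submatrix e e) (x ∘ e) = qf M x := by
  unfold qf
  rw [submatrix_mulVec_equiv]
  simp only [Function.comp_def, Equiv.apply_symm_apply]
  exact Equiv.sum_comp e (fun i => x i * (M *ᵥ x) i)

/-- **Counting.** `ct` is the number of points of `ℤˡ` of `schur`-norm at most `ρ`. -/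
theorem card_le_of_split {n r l : ℕ} {G : Matrix (Fin n) (Fin n) ℝ} {ρ : ℝ}
    (e : Fin r ⊕ Fin l ≃ Fin n) (U V : Matrix (Fin n) (Fin n) ℤ)
    (A : Matrix (Fin r) (Fin r) ℝ) (B : Matrix (Fin r) (Fin l) ℝ) (D : Matrix (Fin l) (Fin l) ℝ)
    (hUV : U * V = 1) (hblk : ((im U)ᵀ * G * im U).submatrix e e = blk A B D)
    (hpos : (blk A B D).PosDef) (ct : ℝ)
    (hfin : {w : Fin l → ℤ | qf (schur A B D) (iv w) ≤ ρ}.Finite)
    (hct : ({w : Fin l → ℤ | qf (schur A B D) (iv w) ≤ ρ}.ncard : ℝ) ≤ ct)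
    (S : Finset (Fin n → Bool)) (x0 : Fin n → Bool)
    (hS : ∀ x ∈ S, qf G (iv (sgv x - sgv x0)) ≤ ρ) :
    (S.card : ℝ) ≤ ct * 2 ^ r := by
  classical
  have hApos := posDef_of_blk hpos
  -- the class of `x`
  let cl : (Fin n → Bool) → (Fin l → ℤ) := fun x j => (V *ᵥ (sgv x - sgv x0)) (e (Sum.inr j))
  have hUVv : ∀ z : Fin n → ℤ, U *ᵥ (V *ᵥ z) = z := by
    intro z
    rw [mulVec_mulVec, hUV, one_mulVec]
  have hcl : ∀ x ∈ S, qf (schur A B D) (iv (cl x)) ≤ ρ := by
    intro x hx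
    refine le_trans ?_ (hS x hx)
    set z := sgv x - sgv x0 with hz
    have h1 : qf G (iv z) = qf ((im U)ᵀ * G * im U) (iv (V *ᵥ z)) := by
      rw [qf_conj, im_mulVec_iv, hUVv]
    rw [h1, ← qf_submatrix _ e, hblk]
    have h2 : iv (V *ᵥ z) ∘ e = Sum.elim (fun i => iv (V *ᵥ z) (e (Sum.inl i))) (iv (cl x)) := by
      funext c
      rcases c with c | c
      · rfl
      · rfl
    rw [h2, qf_blk hApos]
    have := qf_nonneg hApos.posSemidef
      ((fun i => iv (V *ᵥ z) (e (Sum.inl i))) + (A⁻¹ * B) *ᵥ iv (cl x))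
    linarith
  -- the fibres
  have hfib : ∀ w : Fin l → ℤ, ((S.filter (fun x => cl x = w)).card : ℝ) ≤ 2 ^ r := by
    intro w
    rcases (S.filter (fun x => cl x = w)).eq_empty_or_nonempty with h | ⟨x1, hx1⟩
    · rw [h]; simp
    · let f : (Fin r → ℝ) →ₗ[ℝ] (Fin n → ℝ) :=
        Matrix.mulVecLin (im (U.submatrix id (fun j => e (Sum.inl j))))
      have hW := card_affine_le (LinearMap.range f) (iv (sgv x1)) (S.filter (fun x => cl x = w)) (by
        intro x hx
        have hx2 := (Finset.mem_filter.1 hx).2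
        have hx12 := (Finset.mem_filter.1 hx1).2
        refine ⟨fun j => iv (V *ᵥ (sgv x - sgv x1)) (e (Sum.inl j)), ?_⟩
        have h3 : ∀ j, (V *ᵥ (sgv x - sgv x1)) (e (Sum.inr j)) = 0 := by
          intro j
          have h4 : V *ᵥ (sgv x - sgv x1) = V *ᵥ (sgv x - sgv x0) - V *ᵥ (sgv x1 - sgv x0) := by
            rw [← mulVec_sub]
            congr 1
            abel
          rw [h4, Pi.sub_apply]
          have h5 := congrFun (hx2.trans hx12.symm) j
          simp only [cl] at h5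
          rw [h5, sub_self]
        have h4 : ∀ i, (iv (sgv x) - iv (sgv x1)) i = ∑ j, (U i j : ℝ) *
            iv (V *ᵥ (sgv x - sgv x1)) j := by
          intro i
          have h5 := congrFun (hUVv (sgv x - sgv x1)) i
          have h6 : (((U *ᵥ (V *ᵥ (sgv x - sgv x1))) i : ℤ) : ℝ) =
              (((sgv x - sgv x1) i : ℤ) : ℝ) := by rw [h5]
          simp only [mulVec, dotProduct, Int.cast_sum, Int.cast_mul] at h6
          rw [← iv_sub]
          change (((sgv x - sgv x1) i : ℤ) : ℝ) = _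
          rw [← h6]
          refine Finset.sum_congr rfl fun j _ => ?_
          congr 1
          simp only [iv, mulVec, dotProduct, Int.cast_sum, Int.cast_mul]
        funext i
        change ∑ j, im (U.submatrix id (fun j => e (Sum.inl j))) i j *
          iv (V *ᵥ (sgv x - sgv x1)) (e (Sum.inl j)) = _
        have h7 : (fun i => ((sg (x i) : ℤ) : ℝ)) = iv (sgv x) := rfl
        rw [h7, h4 i, ← Equiv.sum_comp e, Fintype.sum_sum_type]
        have h8 : ∑ j, (U i (e (Sum.inr j)) : ℝ) * iv (V *ᵥ (sgv x - sgv x1)) (e (Sum.inr j)) = 0 := by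
          apply Finset.sum_eq_zero
          intro j _
          simp only [iv, h3 j]
          simp
        rw [h8, add_zero]
        rfl)
      refine hW.trans ?_
      have h9 : finrank ℝ (LinearMap.range f) ≤ r := by
        have := LinearMap.finrank_range_le f
        rwa [finrank_fintype_fun_eq_card, Fintype.card_fin] at this
      exact pow_le_pow_right₀ (by norm_num) h9
  have h1 : S.card = ∑ w ∈ S.image cl, (S.filter (fun x => cl x = w)).card :=
    Finset.card_eq_sum_card_image cl S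
  have h2 : ((S.image cl).card : ℝ) ≤ ct := by
    refine le_trans ?_ hct
    have h3 : ((S.image cl : Finset (Fin l → ℤ)) : Set (Fin l → ℤ)) ⊆
        {w : Fin l → ℤ | qf (schur A B D) (iv w) ≤ ρ} := by
      intro w hw
      rw [Finset.mem_coe, Finset.mem_image] at hw
      obtain ⟨x, hx, rfl⟩ := hw
      exact hcl x hx
    have h4 := Set.ncard_le_ncard h3 hfin
    rw [Set.ncard_coe_finset] at h4
    exact_mod_cast h4
  rw [h1]
  push_cast
  calc ∑ w ∈ S.image cl, ((S.filter (fun x => cl x = w)).card : ℝ)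
      ≤ ∑ _w ∈ S.image cl, (2 : ℝ) ^ r := Finset.sum_le_sum fun w _ => hfib w
    _ = ((S.image cl).card : ℝ) * 2 ^ r := by rw [Finset.sum_const, nsmul_eq_mul]
    _ ≤ ct * 2 ^ r := by gcongr

/-- counting, with the weak reverse Minkowski theorem -/
theorem card_le_wrm {δ : ℝ} (hδ : 0 < δ) : ∃ n0 : ℕ, ∀ n : ℕ, n0 ≤ n → 1 ≤ n ∧
    ∀ (r l : ℕ) (G : Matrix (Fin n) (Fin n) ℝ) (ρ lam : ℝ)
      (e : Fin r ⊕ Fin l ≃ Fin n) (U V : Matrix (Fin n) (Fin n) ℤ)
      (A : Matrix (Fin r) (Fin r) ℝ) (B : Matrix (Fin r) (Fin l) ℝ)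
      (D : Matrix (Fin l) (Fin l) ℝ), r + l = n →
      U * V = 1 → ((im U)ᵀ * G * im U).submatrix e e = blk A B D →
      (blk A B D).PosDef → SubC lam (schur A B D) →
      ∀ (S : Finset (Fin n → Bool)) (x0 : Fin n → Bool),
      (∀ x ∈ S, qf G (iv (sgv x - sgv x0)) ≤ ρ) →
      (S.card : ℝ) ≤ Real.exp (2 * (n : ℝ) ^ (1 - δ / 4) +
        Real.pi * (n : ℝ) ^ (2 * δ) * (Real.exp (-lam) * ρ)) * 2 ^ r := by
  obtain ⟨n0, h⟩ := wrm hδ
  refine ⟨n0, fun n hn => ⟨(h n hn).1, ?_⟩⟩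
  intro r l G ρ lam e U V A B D hrl hUV hblk hpos hsub S x0 hS
  have h1 := (h n hn).2 (Fin l) (by rw [Fintype.card_fin]; omega) (Real.exp (-lam) • schur A B D)
    (posDef_smul' (Real.exp_pos _) (schur_posDef hpos)) (subDet_smul_of_subC hsub)
    (Real.exp (-lam) * ρ)
  have h2 : {z : Fin l → ℤ | qf (Real.exp (-lam) • schur A B D) (iv z) ≤ Real.exp (-lam) * ρ} =
      {w : Fin l → ℤ | qf (schur A B D) (iv w) ≤ ρ} := by
    ext z
    simp only [Set.mem_setOf_eq, qf_smul_mat]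
    exact mul_le_mul_iff_right₀ (Real.exp_pos _)
  rw [h2] at h1
  exact card_le_of_split e U V A B D hUV hblk hpos _ h1.1 h1.2 S x0 hS

end Crest.Agent.R152.Det
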