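import Mathlib
import Crest.Agent.R152.Det1
import Crest.Agent.R152.Det3

set_option autoImplicit false

/-!
# Row 152, module DET, part 4: the deterministic theorem

If `|det A| ≤ n ^ (η n)`, `A⁻¹` is contracting by `n^{-1/4}` on a subspace of codimension at most
`ε₁ n`, and `S` is a set of sign vectors with `|A⁻¹ (x - y)| ≤ n ^ C` on `S`, then
`|S| ≤ 2 ^ (b n)`.
-/

namespace Crest.Agent.R152.Det

open Matrix Module Filter Crest.Agent.R152.WRM Crest.Agent.R152.Base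

/-- squared Euclidean norm -/
def nsq {κ : Type*} [Fintype κ] (v : κ → ℝ) : ℝ := v ⬝ᵥ v

theorem nsq_nonneg {κ : Type*} [Fintype κ] (v : κ → ℝ) : 0 ≤ nsq v := by
  unfold nsq dotProduct
  exact Finset.sum_nonneg fun i _ => mul_self_nonneg _

theorem nsq_eq_zero {κ : Type*} [Fintype κ] {v : κ → ℝ} (h : nsq v = 0) : v = 0 := by
  funext i
  unfold nsq dotProduct at h
  have := (Finset.sum_eq_zero_iff_of_nonneg (fun i _ => mul_self_nonneg (v i))).1 h i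
    (Finset.mem_univ i)
  simpa using this

theorem qf_gram {κ μ : Type*} [Fintype κ] [Fintype μ] (W : Matrix κ μ ℝ) (c : μ → ℝ) :
    qf (Wᵀ * W) c = nsq (W *ᵥ c) := by
  unfold qf nsq
  rw [← mulVec_mulVec, dotProduct_mulVec, vecMul_transpose]

section metric

variable {n : ℕ}

/-- the metric `|z|² + τ |A⁻¹ z|²` -/
noncomputable def Gm (A : Matrix (Fin n) (Fin n) ℤ) (τ : ℝ) : Matrix (Fin n) (Fin n) ℝ :=
  1 + τ • (((im A)⁻¹)ᵀ * (im A)⁻¹)

theorem gram_psd {κ μ : Type*} [Fintype κ] [Fintype μ] [DecidableEq μ] (W : Matrix κ μ ℝ) :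
    (Wᵀ * W).PosSemidef := by
  have := posSemidef_conjTranspose_mul_self W
  rwa [conjTranspose_eq_transpose_of_trivial] at this

theorem Gm_posDef (A : Matrix (Fin n) (Fin n) ℤ) {τ : ℝ} (hτ : 0 ≤ τ) : (Gm A τ).PosDef := by
  unfold Gm
  exact PosDef.one.add_posSemidef ((gram_psd _).smul hτ)

theorem qf_Gm (A : Matrix (Fin n) (Fin n) ℤ) (τ : ℝ) (x : Fin n → ℝ) :
    qf (Gm A τ) x = nsq x + τ * nsq ((im A)⁻¹ *ᵥ x) := by
  have h1 : qf (Gm A τ) x = qf 1 x + τ * qf (((im A)⁻¹)ᵀ * (im A)⁻¹) x := by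
    unfold Gm qf
    rw [Matrix.add_mulVec, Matrix.smul_mulVec, dotProduct_add, dotProduct_smul, smul_eq_mul]
  rw [h1, qf_gram]
  congr 1
  unfold qf nsq
  rw [one_mulVec]

theorem finrank_comap_ge {r : ℕ} (f : (Fin r → ℝ) →ₗ[ℝ] (Fin n → ℝ))
    (T₀ : Submodule ℝ (Fin n → ℝ)) :
    r ≤ finrank ℝ (T₀.comap f) + (n - finrank ℝ T₀) := by
  have h1 := Submodule.finrank_quotient_add_finrank (T₀.comap f)
  have h2 := Submodule.finrank_quotient_add_finrank T₀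
  rw [finrank_fintype_fun_eq_card, Fintype.card_fin] at h1 h2
  have hinj : Function.Injective (Submodule.mapQ (T₀.comap f) T₀ f le_rfl) := by
    rw [← LinearMap.ker_eq_bot]
    rw [Submodule.ker_mapQ]
    exact Submodule.mkQ_map_self _
  have h3 := LinearMap.finrank_le_finrank_of_injective hinj
  omega

/-- the rank bound -/
theorem rank_le {A : Matrix (Fin n) (Fin n) ℤ} (hA : A.det ≠ 0) {τ K v : ℝ} (hτ : 0 < τ)
    (hK : K * τ = 1) (hv : 0 < v) (hv1 : v ≤ 1) (hK1 : 1 ≤ K)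
    (T₀ : Submodule ℝ (Fin n → ℝ))
    (hT : ∀ x ∈ T₀, nsq ((im A)⁻¹ *ᵥ x) ≤ v * nsq x)
    {r : ℕ} (Z : Matrix (Fin n) (Fin r) ℤ) (hP : ((im Z)ᵀ * Gm A τ * im Z).PosDef) :
    1 ≤ (A.det : ℝ) ^ 2 * (K ^ (n - finrank ℝ T₀) * v ^ (r - (n - finrank ℝ T₀)) *
      ((im Z)ᵀ * Gm A τ * im Z).det) := by
  set W := (im A)⁻¹ * im Z with hW
  have hAu : IsUnit (im A).det := by
    rw [isUnit_iff_ne_zero, det_im]
    exact_mod_cast hA
  have hqP : ∀ c, qf ((im Z)ᵀ * Gm A τ * im Z) c = nsq (im Z *ᵥ c) + τ * nsq (W *ᵥ c) := by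
    intro c
    rw [qf_conj, qf_Gm, mulVec_mulVec]
  have hR : (Wᵀ * W).PosSemidef := gram_psd W
  have hdet0 : (Wᵀ * W).det ≠ 0 := by
    intro h0
    obtain ⟨c, hc, hc0⟩ := Matrix.exists_mulVec_eq_zero_iff.2 h0
    have h1 : nsq (W *ᵥ c) = 0 := by
      rw [← qf_gram]
      unfold qf
      rw [hc0, dotProduct_zero]
    have h2 : W *ᵥ c = 0 := nsq_eq_zero h1
    have h3 : im Z *ᵥ c = 0 := by
      have : im Z = im A * W := by
        rw [hW, ← Matrix.mul_assoc, mul_nonsing_inv _ hAu, Matrix.one_mul]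
      rw [this, ← mulVec_mulVec, h2, mulVec_zero]
    have h4 := qf_pos hP hc
    rw [hqP, h3, h2] at h4
    simp [nsq] at h4
  have hg := gram_lower A hA Z (by rw [← hW]; exact hdet0)
  rw [← hW] at hg
  have hle := det_rel hP hR hv (hv1.trans hK1) hK1 (fun x => by
      rw [qf_gram, hqP, mul_add, ← mul_assoc, hK, one_mul]
      have := nsq_nonneg (im Z *ᵥ x)
      have : 0 ≤ K * nsq (im Z *ᵥ x) := by positivity
      linarith)
    (T₀.comap (Matrix.mulVecLin (im Z))) (fun x hx => by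
      have hx' : im Z *ᵥ x ∈ T₀ := hx
      rw [qf_gram, hqP]
      have h1 := hT _ hx'
      rw [mulVec_mulVec, ← hW] at h1
      have h2 : 0 ≤ v * (τ * nsq (W *ᵥ x)) := by
        have := nsq_nonneg (W *ᵥ x)
        positivity
      linarith) (n - finrank ℝ T₀) (by
      rw [Fintype.card_fin]
      exact finrank_comap_ge _ T₀) hv1
  rw [Fintype.card_fin] at hle
  refine hg.trans ?_
  exact mul_le_mul_of_nonneg_left hle (sq_nonneg _)

end metric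

theorem nsq_sgv_le {n : ℕ} (x y : Fin n → Bool) : nsq (iv (sgv x - sgv y)) ≤ 4 * n := by
  unfold nsq dotProduct
  calc ∑ i, iv (sgv x - sgv y) i * iv (sgv x - sgv y) i ≤ ∑ _i : Fin n, (4 : ℝ) := by
        apply Finset.sum_le_sum
        intro i _
        simp only [iv, sgv, Pi.sub_apply, sg]
        split_ifs <;> norm_num
    _ = 4 * n := by simp [mul_comm]

/-- asymptotics -/
theorem asym {b : ℝ} (hb : 0 < b) : ∃ n0 : ℕ, ∀ n : ℕ, n0 ≤ n → 2 ≤ n ∧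
    2 * (n : ℝ) ^ (1 - (1 / 16 : ℝ) / 4) + Real.pi * (n : ℝ) ^ (2 * (1 / 16 : ℝ)) *
      (Real.exp (-(1 / 4 * Real.log n)) * (4 * n + 1)) ≤ b / 2 * Real.log 2 * n := by
  have h1 : Tendsto (fun n : ℕ => (n : ℝ) ^ (-(1 / 64 : ℝ))) atTop (nhds 0) :=
    (tendsto_rpow_neg_atTop (by norm_num)).comp tendsto_natCast_atTop_atTop
  have h2 : Tendsto (fun n : ℕ => (n : ℝ) ^ (-(1 / 8 : ℝ))) atTop (nhds 0) :=
    (tendsto_rpow_neg_atTop (by norm_num)).comp tendsto_natCast_atTop_atTop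
  have h3 : Tendsto (fun n : ℕ => 2 * (n : ℝ) ^ (-(1 / 64 : ℝ)) +
      5 * Real.pi * (n : ℝ) ^ (-(1 / 8 : ℝ))) atTop (nhds 0) := by
    have := (h1.const_mul 2).add (h2.const_mul (5 * Real.pi))
    simpa using this
  have hpos : 0 < b / 2 * Real.log 2 := by
    have := Real.log_pos (by norm_num : (1 : ℝ) < 2)
    positivity
  obtain ⟨n0, hn0⟩ := eventually_atTop.1
    ((h3.eventually_le_const hpos).and (eventually_ge_atTop 2))
  refine ⟨n0, fun n hn => ?_⟩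
  obtain ⟨h4, h5⟩ := hn0 n hn
  refine ⟨h5, ?_⟩
  have hnr : (2 : ℝ) ≤ n := by exact_mod_cast h5
  have hn0' : (0 : ℝ) < n := by linarith
  have e1 : Real.exp (-(1 / 4 * Real.log n)) = (n : ℝ) ^ (-(1 / 4 : ℝ)) := by
    rw [Real.rpow_def_of_pos hn0']
    congr 1
    ring
  have e2 : (n : ℝ) ^ (1 - (1 / 16 : ℝ) / 4) = (n : ℝ) ^ (-(1 / 64 : ℝ)) * n := by
    rw [show (1 - (1 / 16 : ℝ) / 4) = -(1 / 64 : ℝ) + 1 by norm_num, Real.rpow_add hn0',
      Real.rpow_one]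
  have e3 : (n : ℝ) ^ (2 * (1 / 16 : ℝ)) * (n : ℝ) ^ (-(1 / 4 : ℝ)) = (n : ℝ) ^ (-(1 / 8 : ℝ)) := by
    rw [← Real.rpow_add hn0']
    norm_num
  rw [e1, e2]
  have e4 : Real.pi * (n : ℝ) ^ (2 * (1 / 16 : ℝ)) * ((n : ℝ) ^ (-(1 / 4 : ℝ)) * (4 * n + 1)) =
      Real.pi * (n : ℝ) ^ (-(1 / 8 : ℝ)) * (4 * n + 1) := by
    rw [← e3]; ring
  rw [e4]
  have e5 : Real.pi * (n : ℝ) ^ (-(1 / 8 : ℝ)) * (4 * n + 1) ≤
      Real.pi * (n : ℝ) ^ (-(1 / 8 : ℝ)) * (5 * n) := by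
    apply mul_le_mul_of_nonneg_left (by linarith)
    have := Real.pi_pos
    positivity
  nlinarith

/-- **DET.** -/
theorem det_main {C b : ℝ} (hC : 0 ≤ C) (hb : 0 < b) :
    ∃ η : ℝ, 0 < η ∧ ∃ ε₁ : ℝ, 0 < ε₁ ∧ ∃ n0 : ℕ, ∀ n : ℕ, n0 ≤ n →
    ∀ A : Matrix (Fin n) (Fin n) ℤ, A.det ≠ 0 → |(A.det : ℝ)| ≤ (n : ℝ) ^ (η * n) →
    ∀ T₀ : Submodule ℝ (Fin n → ℝ), (n : ℝ) ≤ finrank ℝ T₀ + ε₁ * n →
    (∀ x ∈ T₀, nsq ((im A)⁻¹ *ᵥ x) ≤ (n : ℝ) ^ (-(1 / 2 : ℝ)) * nsq x) →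
    ∀ S : Finset (Fin n → Bool),
    (∀ x ∈ S, ∀ y ∈ S, nsq ((im A)⁻¹ *ᵥ iv (sgv x - sgv y)) ≤ (n : ℝ) ^ (2 * C)) →
    (S.card : ℝ) ≤ (2 : ℝ) ^ (b * n) := by
  obtain ⟨n1, h1⟩ := card_le_wrm (δ := 1 / 16) (by norm_num)
  obtain ⟨n2, h2⟩ := asym hb
  refine ⟨b / 64, by positivity, b / (8 * (8 * C + 2)), by positivity, max n1 n2, ?_⟩
  intro n hn A hA hdet T₀ hT₀ hT S hS
  obtain ⟨-, h1⟩ := h1 n (le_trans (le_max_left _ _) hn)
  obtain ⟨hn2, h2⟩ := h2 n (le_trans (le_max_right _ _) hn)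
  rcases S.eq_empty_or_nonempty with hSe | ⟨x0, hx0⟩
  · rw [hSe]; simp; positivity
  have hnr : (2 : ℝ) ≤ n := by exact_mod_cast hn2
  have hn0 : (0 : ℝ) < n := by linarith
  have hL : 0 < Real.log n := Real.log_pos (by linarith)
  set τ : ℝ := (n : ℝ) ^ (-(2 * C)) with hτ
  have hτ0 : 0 < τ := Real.rpow_pos_of_pos hn0 _
  set K : ℝ := (n : ℝ) ^ (2 * C) with hK
  have hKτ : K * τ = 1 := by
    rw [hK, hτ, ← Real.rpow_add hn0]; simp
  have hK1 : 1 ≤ K := Real.one_le_rpow (by linarith) (by positivity)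
  set v : ℝ := (n : ℝ) ^ (-(1 / 2 : ℝ)) with hv
  have hv0 : 0 < v := Real.rpow_pos_of_pos hn0 _
  have hv1 : v ≤ 1 := Real.rpow_le_one_of_one_le_of_nonpos (by linarith) (by norm_num)
  obtain ⟨r, l, e, U, V, P, B, D, Z, hrl, hUV, hblk, hpos, hZ, hP, hPdet, hsub⟩ :=
    split_min (Gm_posDef A hτ0.le) (lam := 1 / 4 * Real.log n) (by positivity)
  have hPpos : P.PosDef := posDef_of_blk hpos
  -- the rank bound
  have hrk := rank_le hA hτ0 hKτ hv0 hv1 hK1 T₀ hT Z (by rw [← hP]; exact hPpos)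
  rw [← hP] at hrk
  set s := n - finrank ℝ T₀ with hs
  have hfin : finrank ℝ T₀ ≤ n := by
    have := Submodule.finrank_le T₀
    rwa [finrank_fintype_fun_eq_card, Fintype.card_fin] at this
  have hsr : (s : ℝ) ≤ b / (8 * (8 * C + 2)) * n := by
    rw [hs, Nat.cast_sub hfin]
    linarith
  have hr : (r : ℝ) ≤ b / 4 * n := by
    have hrk2 : 1 ≤ (A.det : ℝ) ^ 2 * (K ^ s * v ^ (r - s) * Real.exp (1 / 4 * Real.log n * r)) := by
      refine hrk.trans ?_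
      gcongr
    have hdet0 : (A.det : ℝ) ≠ 0 := by exact_mod_cast hA
    have hlog := Real.log_le_log one_pos hrk2
    rw [Real.log_one, Real.log_mul (pow_ne_zero 2 hdet0) (by positivity), Real.log_mul
      (by positivity) (Real.exp_pos _).ne', Real.log_mul (by positivity) (by positivity),
      Real.log_exp, Real.log_pow, Real.log_pow, Real.log_pow, hK, hv, Real.log_rpow hn0,
      Real.log_rpow hn0] at hlog
    have hd1 : Real.log (A.det : ℝ) ≤ b / 64 * n * Real.log n := by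
      rw [← Real.log_abs, ← Real.log_rpow hn0]
      exact Real.log_le_log (abs_pos.2 hdet0) hdet
    have hrs : (r : ℝ) - s ≤ ((r - s : ℕ) : ℝ) := by
      by_cases h : s ≤ r
      · rw [Nat.cast_sub h]
      · push Not at h
        have : (r : ℝ) < s := by exact_mod_cast h
        have h0 : (0 : ℝ) ≤ ((r - s : ℕ) : ℝ) := Nat.cast_nonneg _
        linarith
    have h3 : ((r - s : ℕ) : ℝ) * (-(1 / 2) * Real.log n) ≤ ((r : ℝ) - s) * (-(1 / 2) * Real.log n) := by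
      nlinarith
    simp only [Nat.cast_ofNat] at hlog
    have h4 : 0 ≤ (2 * (b / 64 * n) + s * (2 * C) - 1 / 2 * ((r : ℝ) - s) + 1 / 4 * r) *
        Real.log n := by
      nlinarith
    have h5 : 0 ≤ 2 * (b / 64 * n) + s * (2 * C) - 1 / 2 * ((r : ℝ) - s) + 1 / 4 * r :=
      nonneg_of_mul_nonneg_left h4 hL
    have h6 : (s : ℝ) * (8 * C + 2) ≤ b / 8 * n := by
      calc (s : ℝ) * (8 * C + 2) ≤ b / (8 * (8 * C + 2)) * n * (8 * C + 2) := by gcongr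
        _ = b / 8 * n := by field_simp
    linarith
  -- counting
  have hcount := h1 r l (Gm A τ) (4 * n + 1) (1 / 4 * Real.log n) e U V P B D hrl hUV hblk hpos
    hsub S x0 (fun x hx => by
      rw [qf_Gm]
      have h3 := nsq_sgv_le x x0
      have h4 := hS x hx x0 hx0
      have h5 : τ * nsq ((im A)⁻¹ *ᵥ iv (sgv x - sgv x0)) ≤ 1 := by
        rw [← hKτ, mul_comm K]
        exact mul_le_mul_of_nonneg_left h4 hτ0.le
      linarith)
  refine hcount.trans ?_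
  have h3 : Real.exp (2 * (n : ℝ) ^ (1 - (1 / 16 : ℝ) / 4) + Real.pi * (n : ℝ) ^ (2 * (1 / 16 : ℝ)) *
      (Real.exp (-(1 / 4 * Real.log n)) * (4 * n + 1))) ≤ (2 : ℝ) ^ (b / 2 * n) := by
    rw [Real.rpow_def_of_pos (by norm_num : (0 : ℝ) < 2)]
    apply Real.exp_le_exp.2
    refine h2.trans (le_of_eq ?_)
    ring
  have h4 : (2 : ℝ) ^ r ≤ (2 : ℝ) ^ (b / 4 * n) := by
    rw [← Real.rpow_natCast]
    exact Real.rpow_le_rpow_of_exponent_le (by norm_num) hr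
  calc _ ≤ (2 : ℝ) ^ (b / 2 * n) * (2 : ℝ) ^ (b / 4 * n) := by gcongr
    _ = (2 : ℝ) ^ (b / 2 * n + b / 4 * n) := by rw [Real.rpow_add (by norm_num)]
    _ ≤ _ := by
        apply Real.rpow_le_rpow_of_exponent_le (by norm_num)
        have : 0 ≤ b * n := by positivity
        linarith

end Crest.Agent.R152.Det
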