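import Mathlib
import Crest.Agent.R152.Det4
import Crest.Agent.R152.Spec6
import Crest.Agent.R152.TPS
import Crest.Agent.R152.AsmDefs

set_option autoImplicit false

/-!
# Row 152, module DET, part 5: (T1')
-/

namespace Crest.Agent.R152.Det

open Matrix Module Filter Crest.Agent.R152.WRM Crest.Agent.R152.Base
open Crest.FinProb Crest.ProbabilityR.SignMatrix

theorem sv_eq_sgv {ι : Type*} (x : ι → Bool) : Asm.sv x = sgv x := rfl

theorem im_det' {n : ℕ} (A : Matrix (Fin n) (Fin n) ℤ) : (im A).det = (A.det : ℝ) :=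
  ((Int.castRingHom ℝ).map_det A).symm

/-- the good subspace -/
theorem exists_T0 {n : ℕ} (A : Matrix (Fin n) (Fin n) ℤ) (hA : A.transpose = A) (hdet : A.det ≠ 0)
    (L : ℕ) (hL : 0 < L) (t2 : ℝ) (ht : 0 < t2)
    (hbad : ¬ ∃ U : Submodule ℝ (Fin n → ℝ), 4 * L ≤ Module.finrank ℝ U ∧
      ∀ u ∈ U, ∑ q, (∑ j, im A q j * u j) ^ 2 ≤ t2 * ∑ j, u j ^ 2) :
    ∃ T₀ : Submodule ℝ (Fin n → ℝ), n ≤ finrank ℝ T₀ + 4 * L ∧
      ∀ x ∈ T₀, nsq ((im A)⁻¹ *ᵥ x) ≤ t2⁻¹ * nsq x := by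
  have hA' : (im A).transpose = im A := by
    conv_rhs => rw [← hA]
    rfl
  obtain ⟨c, -, hc⟩ := TP.exists_coords (im A) hA' L hL t2 ht hbad
  have hu : IsUnit (im A).det := by
    rw [isUnit_iff_ne_zero, im_det']
    exact_mod_cast hdet
  set f : (Fin n → ℝ) →ₗ[ℝ] (Fin (4 * L) → ℝ) := LinearMap.pi c with hf
  refine ⟨(LinearMap.ker f).map (im A).mulVecLin, ?_, ?_⟩
  · have hinj : Function.Injective (im A).mulVecLin := by
      have h := Matrix.mulVec_injective_iff_isUnit.mpr ((Matrix.isUnit_iff_isUnit_det _).mpr hu)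
      intro x y hxy
      exact h hxy
    rw [← LinearEquiv.finrank_eq (Submodule.equivMapOfInjective _ hinj (LinearMap.ker f))]
    have h1 := LinearMap.finrank_range_add_finrank_ker f
    have h2 : finrank ℝ (LinearMap.range f) ≤ 4 * L := by
      have := Submodule.finrank_le (LinearMap.range f)
      rwa [finrank_fintype_fun_eq_card, Fintype.card_fin] at this
    rw [finrank_fintype_fun_eq_card, Fintype.card_fin] at h1
    omega
  · rintro _ ⟨v, hv, rfl⟩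
    have hv' : ∀ l, c l v = 0 := by
      intro l
      have := congrFun (LinearMap.mem_ker.mp hv) l
      simpa [hf] using this
    have h1 := hc v
    simp only [hv', ne_eq, OfNat.ofNat_ne_zero, not_false_eq_true, zero_pow, Finset.sum_const_zero,
      zero_add] at h1
    rw [mulVecLin_apply, mulVec_mulVec, nonsing_inv_mul _ hu, one_mulVec]
    have e1 : nsq v = ∑ j, v j ^ 2 := by
      unfold nsq dotProduct
      exact Finset.sum_congr rfl fun i _ => by ring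
    have e2 : nsq (im A *ᵥ v) = ∑ q, (im A *ᵥ v) q ^ 2 := by
      unfold nsq dotProduct
      exact Finset.sum_congr rfl fun i _ => by ring
    rw [e1, e2]
    rw [div_eq_inv_mul] at h1
    exact h1

/-- rational inverse to real inverse -/
theorem qinv_cast {n : ℕ} (A : Matrix (Fin n) (Fin n) ℤ) (hdet : A.det ≠ 0) (x : Fin n → ℤ)
    (i : Fin n) :
    ((Asm.qinv A x i : ℚ) : ℝ) = ((im A)⁻¹ *ᵥ iv x) i := by
  unfold Asm.qinv
  have h1 : ((A.map (Int.cast : ℤ → ℚ))⁻¹).map (Rat.cast : ℚ → ℝ) = (im A)⁻¹ := by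
    symm
    apply Matrix.inv_eq_left_inv
    have hu : IsUnit (A.map (Int.cast : ℤ → ℚ)).det := by
      have h2 : (A.map (Int.cast : ℤ → ℚ)).det = (A.det : ℚ) :=
        ((Int.castRingHom ℚ).map_det A).symm
      rw [isUnit_iff_ne_zero, h2]
      exact_mod_cast hdet
    have h3 := nonsing_inv_mul _ hu
    have h4 := congrArg (fun M : Matrix (Fin n) (Fin n) ℚ => M.map (Rat.castHom ℝ)) h3
    simp only [Matrix.map_mul, Matrix.map_one _ (map_zero (Rat.castHom ℝ)) (map_one _)] at h4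
    rw [← h4]
    congr 1
  rw [← h1]
  simp only [mulVec, dotProduct, Matrix.map_apply]
  push_cast
  rfl

theorem nsq_diff_le {n : ℕ} (A : Matrix (Fin n) (Fin n) ℤ) (hdet : A.det ≠ 0) {C : ℕ} (hn : 2 ≤ n)
    {x y : Fin n → Bool} (hx : ∀ i, |Asm.qinv A (Asm.sv x) i| ≤ (n : ℚ) ^ C)
    (hy : ∀ i, |Asm.qinv A (Asm.sv y) i| ≤ (n : ℚ) ^ C) :
    nsq ((im A)⁻¹ *ᵥ iv (sgv x - sgv y)) ≤ (n : ℝ) ^ (2 * ((C : ℝ) + 2)) := by
  have hnr : (2 : ℝ) ≤ n := by exact_mod_cast hn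
  have hn0 : (0 : ℝ) < n := by linarith
  have h1 : iv (sgv x - sgv y) = iv (sgv x) - iv (sgv y) := by
    funext i; simp [iv]
  rw [h1, mulVec_sub]
  have hb : ∀ (z : Fin n → Bool), (∀ i, |Asm.qinv A (Asm.sv z) i| ≤ (n : ℚ) ^ C) →
      ∀ i, |((im A)⁻¹ *ᵥ iv (sgv z)) i| ≤ (n : ℝ) ^ C := by
    intro z hz i
    rw [← sv_eq_sgv, ← qinv_cast A hdet]
    have := hz i
    exact_mod_cast this
  have h2 : ∀ i, (((im A)⁻¹ *ᵥ iv (sgv x) - (im A)⁻¹ *ᵥ iv (sgv y)) i) ^ 2 ≤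
      4 * ((n : ℝ) ^ C) ^ 2 := by
    intro i
    have ha := abs_le.1 (hb x hx i)
    have hb' := abs_le.1 (hb y hy i)
    rw [Pi.sub_apply]
    have h3 : |((im A)⁻¹ *ᵥ iv (sgv x)) i - ((im A)⁻¹ *ᵥ iv (sgv y)) i| ≤ 2 * (n : ℝ) ^ C := by
      rw [abs_le]; constructor <;> linarith [ha.1, ha.2, hb'.1, hb'.2]
    calc _ = |((im A)⁻¹ *ᵥ iv (sgv x)) i - ((im A)⁻¹ *ᵥ iv (sgv y)) i| ^ 2 := by rw [sq_abs]
      _ ≤ (2 * (n : ℝ) ^ C) ^ 2 := pow_le_pow_left₀ (abs_nonneg _) h3 2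
      _ = _ := by ring
  have h4 : nsq ((im A)⁻¹ *ᵥ iv (sgv x) - (im A)⁻¹ *ᵥ iv (sgv y)) ≤ n * (4 * ((n : ℝ) ^ C) ^ 2) := by
    unfold nsq dotProduct
    calc _ ≤ ∑ _i : Fin n, 4 * ((n : ℝ) ^ C) ^ 2 := by
          apply Finset.sum_le_sum
          intro i _
          have := h2 i
          rwa [pow_two] at this
      _ = _ := by rw [Finset.sum_const, Finset.card_univ, Fintype.card_fin, nsmul_eq_mul]
  refine h4.trans ?_
  have h5 : (n : ℝ) ^ (2 * ((C : ℝ) + 2)) = ((n : ℝ) ^ C) ^ 2 * (n : ℝ) ^ 4 := by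
    have : (2 * ((C : ℝ) + 2)) = ((2 * C + 4 : ℕ) : ℝ) := by push_cast; ring
    rw [this, Real.rpow_natCast, pow_add, ← pow_mul, mul_comm 2 C]
  rw [h5]
  have h6 : (0 : ℝ) ≤ ((n : ℝ) ^ C) ^ 2 := by positivity
  have h7 : (n : ℝ) * 4 ≤ (n : ℝ) ^ 4 := by
    have h8 : (8 : ℝ) ≤ (n : ℝ) ^ 3 := by
      calc (8 : ℝ) = 2 ^ 3 := by norm_num
        _ ≤ (n : ℝ) ^ 3 := pow_le_pow_left₀ (by norm_num) hnr 3
    nlinarith
  nlinarith [mul_le_mul_of_nonneg_left h7 h6]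

theorem asym_L {ε : ℝ} (hε : 0 < ε) : ∃ n0 : ℕ, ∀ n : ℕ, n0 ≤ n → 2 ≤ n ∧
    (n : ℝ) ^ (1 - 1 / 8 : ℝ) + 4 ≤ ε * n := by
  have hnat := tendsto_natCast_atTop_atTop (R := ℝ)
  have h1 : ∀ᶠ n : ℕ in atTop, 2 / ε ≤ (n : ℝ) ^ (1 / 8 : ℝ) :=
    ((tendsto_rpow_atTop (by norm_num : (0 : ℝ) < 1 / 8)).comp hnat).eventually_ge_atTop _
  have h2 : ∀ᶠ n : ℕ in atTop, 8 / ε ≤ (n : ℝ) := hnat.eventually_ge_atTop _
  have h6 : ∀ᶠ n : ℕ in atTop, 2 ≤ n := eventually_ge_atTop 2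
  obtain ⟨n0, hn0⟩ := eventually_atTop.mp (h1.and (h2.and h6))
  refine ⟨n0, fun n hn => ?_⟩
  obtain ⟨g1, g2, g3⟩ := hn0 n hn
  refine ⟨g3, ?_⟩
  have hnr : (2 : ℝ) ≤ n := by exact_mod_cast g3
  have hnpos : (0 : ℝ) < n := by linarith
  have e1 : (n : ℝ) ^ (1 - 1 / 8 : ℝ) * (n : ℝ) ^ (1 / 8 : ℝ) = n := by
    rw [← Real.rpow_add hnpos]; norm_num
  have e2 : 0 < (n : ℝ) ^ (1 - 1 / 8 : ℝ) := by positivity
  have e3 : (n : ℝ) ^ (1 - 1 / 8 : ℝ) * 2 ≤ ε * n := by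
    have := mul_le_mul_of_nonneg_left g1 e2.le
    rw [e1, ← mul_div_assoc, div_le_iff₀ hε] at this
    linarith
  rw [div_le_iff₀ hε] at g2
  linarith

/-- **(T1')** -/
theorem T1p_all {p : ℝ} (hp0 : 0 < p) (hp1 : p < 1) : Asm.T1p p := by
  classical
  intro C b hb
  obtain ⟨η, hη, ε₁, hε₁, n1, h1⟩ := det_main (C := (C : ℝ) + 2) (by positivity) hb
  obtain ⟨n2, h2⟩ := Spec.spec_coord hp0 hp1 (c := 1 / 8) (d := 1 / 4) (by norm_num) (by norm_num)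
  obtain ⟨n3, h3⟩ := asym_L hε₁
  refine ⟨η, hη, max n1 (max n2 n3), fun n hn => ?_⟩
  have hn1 := le_trans (le_max_left _ _) hn
  have hn2 := le_trans (le_trans (le_max_left _ _) (le_max_right _ _)) hn
  have hn3 := le_trans (le_trans (le_max_right _ _) (le_max_right _ _)) hn
  obtain ⟨hn4, hL4⟩ := h3 n hn3
  have hnr : (2 : ℝ) ≤ n := by exact_mod_cast hn4
  have hnpos : (0 : ℝ) < n := by linarith
  refine le_trans (prob_mono hp0.le hp1.le ?_) (h2 n hn2)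
  rintro w ⟨hdet, hsmall, hmany⟩
  by_contra hw
  set A := symMat w with hAdef
  set L := ⌈(n : ℝ) ^ (1 - 1 / 8 : ℝ) / 4⌉₊ with hLdef
  have hL0 : 0 < L := Nat.ceil_pos.mpr (by positivity)
  have hL1 : (n : ℝ) ^ (1 - 1 / 8 : ℝ) ≤ ((4 * L : ℕ) : ℝ) := by
    have := Nat.le_ceil ((n : ℝ) ^ (1 - 1 / 8 : ℝ) / 4)
    rw [← hLdef] at this
    push_cast
    linarith
  have hL2 : ((4 * L : ℕ) : ℝ) ≤ ε₁ * n := by
    have := Nat.ceil_lt_add_one (a := (n : ℝ) ^ (1 - 1 / 8 : ℝ) / 4) (by positivity)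
    rw [← hLdef] at this
    push_cast
    linarith
  have ht : (0 : ℝ) < (n : ℝ) ^ (1 - 2 * (1 / 4) : ℝ) := by positivity
  obtain ⟨T₀, hT₀, hT⟩ := exists_T0 A (symMat_symm w) hdet L hL0 _ ht (by
    rintro ⟨U, hU, hu⟩
    apply hw
    refine ⟨U, hL1.trans (by exact_mod_cast hU), ?_⟩
    intro u hu'
    exact hu u hu')
  have hti : ((n : ℝ) ^ (1 - 2 * (1 / 4) : ℝ))⁻¹ = (n : ℝ) ^ (-(1 / 2 : ℝ)) := by
    rw [← Real.rpow_neg hnpos.le]; norm_num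
  rw [hti] at hT
  have hT₀' : (n : ℝ) ≤ finrank ℝ T₀ + ε₁ * n := by
    have : (n : ℝ) ≤ finrank ℝ T₀ + ((4 * L : ℕ) : ℝ) := by exact_mod_cast hT₀
    linarith
  have hdet' : |(A.det : ℝ)| ≤ (n : ℝ) ^ (η * n) := by
    have : |(A.det : ℝ)| = (A.det.natAbs : ℝ) := by
      rw [← Int.cast_abs, Int.abs_eq_natAbs]
      simp
    rw [this]
    exact hsmall
  set S : Finset (Fin n → Bool) := Finset.univ.filter (fun x =>
    (∃ t : ℤ, Asm.bil A (Asm.sv x) (Asm.sv x) = t) ∧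
      ∀ i, |Asm.qinv A (Asm.sv x) i| ≤ (n : ℚ) ^ C) with hS
  have hcard : (Nat.card {x : Fin n → Bool // (∃ t : ℤ, Asm.bil A (Asm.sv x) (Asm.sv x) = t) ∧
      ∀ i, |Asm.qinv A (Asm.sv x) i| ≤ (n : ℚ) ^ C} : ℝ) = S.card := by
    rw [Nat.card_eq_fintype_card, Fintype.card_subtype]
  rw [hcard] at hmany
  have := h1 n hn1 A hdet hdet' T₀ hT₀' hT S (by
    intro x hx y hy
    rw [hS, Finset.mem_filter] at hx hy
    exact nsq_diff_le A hdet hn4 hx.2.2 hy.2.2)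
  linarith

end Crest.Agent.R152.Det
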