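import Mathlib

/-! Row 152, module DIV: an integer `m ≤ n^(C n)` has at most `2^(ε n)` divisors `d ≤ n^(z n)`
(Rankin's trick). -/

set_option autoImplicit false
set_option linter.unusedSectionVars false
set_option linter.unusedSimpArgs false

namespace Crest.Agent.R152.Div

open Finset

/-- Rankin's multiplicative bound. -/
theorem sum_rpow_le (s : ℝ) (hs : 0 < s) (m : ℕ) (hm : 0 < m) :
    ∑ d ∈ Nat.divisors m, (d : ℝ) ^ (-s) ≤ ∏ p ∈ m.primeFactors, (1 - (p : ℝ) ^ (-s))⁻¹ := by
  induction m using Nat.recOnPosPrimePosCoprime with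
  | prime_pow p k hp hk =>
    rw [Nat.primeFactors_prime_pow hk.ne' hp, Finset.prod_singleton, Nat.sum_divisors_prime_pow hp]
    have hp0 : (0 : ℝ) < p := by exact_mod_cast hp.pos
    have hp1 : (1 : ℝ) < p := by exact_mod_cast hp.one_lt
    have hx0 : 0 ≤ (p : ℝ) ^ (-s) := Real.rpow_nonneg hp0.le _
    have hx1 : (p : ℝ) ^ (-s) < 1 := Real.rpow_lt_one_of_one_lt_of_neg hp1 (by linarith)
    have h1 : ∀ j ∈ Finset.range (k + 1), (((p ^ j : ℕ) : ℝ)) ^ (-s) = ((p : ℝ) ^ (-s)) ^ j := by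
      intro j _
      push_cast
      rw [← Real.rpow_natCast, ← Real.rpow_natCast, ← Real.rpow_mul hp0.le, ← Real.rpow_mul hp0.le,
        mul_comm]
    rw [Finset.sum_congr rfl h1]
    have hsum := (summable_geometric_of_lt_one hx0 hx1).sum_le_tsum (Finset.range (k + 1))
      (fun i _ => pow_nonneg hx0 i)
    rwa [tsum_geometric_of_lt_one hx0 hx1] at hsum
  | zero => exact absurd hm (lt_irrefl 0)
  | one => simp
  | coprime a b ha hb hab iha ihb =>
    rw [Nat.Coprime.primeFactors_mul hab, Finset.prod_union hab.disjoint_primeFactors]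
    have h1 : ∑ d ∈ Nat.divisors (a * b), (d : ℝ) ^ (-s) =
        (∑ d ∈ Nat.divisors a, (d : ℝ) ^ (-s)) * ∑ d ∈ Nat.divisors b, (d : ℝ) ^ (-s) := by
      rw [Nat.divisors_mul, Finset.mul_def, Finset.sum_image hab.mul_injOn_divisors,
        Finset.sum_product, Finset.sum_mul_sum]
      refine Finset.sum_congr rfl fun x _ => Finset.sum_congr rfl fun y _ => ?_
      push_cast
      exact Real.mul_rpow (Nat.cast_nonneg x) (Nat.cast_nonneg y)
    rw [h1]
    refine mul_le_mul (iha (by omega)) (ihb (by omega)) ?_ ?_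
    · exact Finset.sum_nonneg fun d _ => Real.rpow_nonneg (Nat.cast_nonneg d) _
    · refine Finset.prod_nonneg fun p hp => ?_
      have hp' := Nat.prime_of_mem_primeFactors hp
      have hp1 : (1 : ℝ) < p := by exact_mod_cast hp'.one_lt
      have hx1 : (p : ℝ) ^ (-s) < 1 := Real.rpow_lt_one_of_one_lt_of_neg hp1 (by linarith)
      exact inv_nonneg.2 (by linarith)

/-- `1 - 2^(-s) ≥ s/2` for `0 ≤ s ≤ 1`. -/
theorem one_sub_two_rpow {s : ℝ} (h0 : 0 ≤ s) (h1 : s ≤ 1) : s / 2 ≤ 1 - (2 : ℝ) ^ (-s) := by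
  have hc : ConvexOn ℝ Set.univ (fun x : ℝ => (2 : ℝ) ^ x) := by
    have := (convexOn_exp).comp_linearMap (LinearMap.mul ℝ ℝ (Real.log 2))
    refine this.congr ?_ |>.subset (Set.subset_univ _) convex_univ
    intro x _
    simp [Real.rpow_def_of_pos]
  have h2 := hc.2 (Set.mem_univ (-1 : ℝ)) (Set.mem_univ (0 : ℝ)) h0 (sub_nonneg.2 h1) (by ring)
  simp only [smul_eq_mul] at h2
  have e1 : s * (-1) + (1 - s) * 0 = -s := by ring
  rw [e1] at h2
  have e2 : (2 : ℝ) ^ (-1 : ℝ) = 1 / 2 := by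
    rw [Real.rpow_neg_one]; norm_num
  rw [e2, Real.rpow_zero] at h2
  linarith

/-- number of prime factors at least `√n`. -/
theorem card_large_le {n m : ℕ} (hn : 2 ≤ n) (hm : 0 < m) {C : ℝ} 
    (hmn : (m : ℝ) ≤ (n : ℝ) ^ (C * n)) :
    (((m.primeFactors).filter (fun p => n ≤ p * p)).card : ℝ) ≤ 2 * C * n := by
  set F := (m.primeFactors).filter (fun p => n ≤ p * p) with hF
  have hn0 : (0 : ℝ) < n := by positivity
  have hL : 0 < Real.log n := Real.log_pos (by exact_mod_cast (by omega : 1 < n))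
  have h1 : (∏ p ∈ F, p) ≤ m := by
    refine le_trans ?_ (Nat.le_of_dvd hm (Nat.prod_primeFactors_dvd m))
    refine Finset.prod_le_prod_of_subset_of_one_le' (Finset.filter_subset _ _) ?_
    intro p hp _
    exact (Nat.prime_of_mem_primeFactors hp).one_lt.le
  have h2 : (n : ℝ) ^ ((F.card : ℝ)) ≤ (m : ℝ) * m := by
    rw [Real.rpow_natCast]
    have : n ^ F.card ≤ (∏ p ∈ F, p) * (∏ p ∈ F, p) := by
      rw [← Finset.prod_mul_distrib, ← Finset.prod_const]
      exact Finset.prod_le_prod' fun p hp => (Finset.mem_filter.1 hp).2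
    have h3 : n ^ F.card ≤ m * m := this.trans (Nat.mul_le_mul h1 h1)
    exact_mod_cast h3
  have h4 : (n : ℝ) ^ ((F.card : ℝ)) ≤ (n : ℝ) ^ (2 * C * n) := by
    refine h2.trans ?_
    calc (m : ℝ) * m ≤ (n : ℝ) ^ (C * n) * (n : ℝ) ^ (C * n) :=
          mul_le_mul hmn hmn (Nat.cast_nonneg m) (Real.rpow_nonneg hn0.le _)
      _ = (n : ℝ) ^ (2 * C * n) := by rw [← Real.rpow_add hn0]; ring_nf
  exact (Real.rpow_le_rpow_left_iff (by exact_mod_cast (by omega : 1 < n))).1 h4

theorem card_small_le (n m : ℕ) :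
    ((m.primeFactors).filter (fun p => ¬ n ≤ p * p)).card ≤ Nat.sqrt n + 1 := by
  have : (m.primeFactors).filter (fun p => ¬ n ≤ p * p) ⊆ Finset.range (Nat.sqrt n + 1) := by
    intro p hp
    rw [Finset.mem_filter] at hp
    rw [Finset.mem_range]
    by_contra hcon
    push Not at hcon hp
    have h1 : Nat.sqrt n + 1 ≤ p := hcon
    have h2 := Nat.sqrt_lt'.1 (lt_of_lt_of_le (Nat.lt_succ_self _) h1)
    nlinarith [hp.2]
  simpa using Finset.card_le_card this

/-- Rankin: explicit form. `L = log n`, `s = 2K/L`. -/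
theorem count_explicit {n m : ℕ} (hm : 0 < m) {C z K : ℝ} (hC : 0 ≤ C) (hK : 1 ≤ K)
    (hz : 0 < z) (hn : 2 * K ≤ Real.log n) (hmn : (m : ℝ) ≤ (n : ℝ) ^ (C * n)) :
    (((Nat.divisors m).filter (fun d : ℕ => (d : ℝ) ≤ (n : ℝ) ^ (z * n))).card : ℝ) ≤
      Real.exp (2 * K * z * n + (Nat.sqrt n + 1) * Real.log (Real.log n) +
        4 * C * Real.exp (-K) * n) := by
  have hn2 : 2 ≤ n := by
    by_contra hcon
    have : n = 0 ∨ n = 1 := by omega
    rcases this with rfl | rfl <;> simp at hn <;> linarith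
  have hn0 : (0 : ℝ) < n := by positivity
  set L := Real.log n with hLdef
  have hL2 : 2 ≤ L := by linarith
  have hL0 : 0 < L := by linarith
  set s := 2 * K / L with hs
  have hs0 : 0 < s := by positivity
  have hs1 : s ≤ 1 := by rw [hs, div_le_one hL0]; exact hn
  set D := (Nat.divisors m).filter (fun d : ℕ => (d : ℝ) ≤ (n : ℝ) ^ (z * n)) with hD
  -- Rankin
  have h1 : (D.card : ℝ) ≤ ((n : ℝ) ^ (z * n)) ^ s * ∑ d ∈ Nat.divisors m, (d : ℝ) ^ (-s) := by
    rw [Finset.mul_sum]
    calc (D.card : ℝ) = ∑ d ∈ D, (1 : ℝ) := by simp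
      _ ≤ ∑ d ∈ D, ((n : ℝ) ^ (z * n)) ^ s * (d : ℝ) ^ (-s) := by
        refine Finset.sum_le_sum fun d hd => ?_
        rw [hD, Finset.mem_filter] at hd
        have hd0 : (0 : ℝ) < d := by exact_mod_cast Nat.pos_of_mem_divisors hd.1
        rw [Real.rpow_neg hd0.le, ← div_eq_mul_inv, le_div_iff₀ (Real.rpow_pos_of_pos hd0 _), one_mul]
        exact Real.rpow_le_rpow hd0.le hd.2 hs0.le
      _ ≤ ∑ d ∈ Nat.divisors m, ((n : ℝ) ^ (z * n)) ^ s * (d : ℝ) ^ (-s) := by
        refine Finset.sum_le_sum_of_subset_of_nonneg (Finset.filter_subset _ _) fun d _ _ => ?_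
        exact mul_nonneg (Real.rpow_nonneg (Real.rpow_nonneg hn0.le _) _)
          (Real.rpow_nonneg (Nat.cast_nonneg d) _)
  have h2 : ((n : ℝ) ^ (z * n)) ^ s = Real.exp (2 * K * z * n) := by
    rw [← Real.rpow_mul hn0.le, Real.rpow_def_of_pos hn0, ← hLdef, hs]
    congr 1; field_simp
  have hfac : ∀ p ∈ m.primeFactors, 0 ≤ (1 - (p : ℝ) ^ (-s))⁻¹ := by
    intro p hp
    have hp' := Nat.prime_of_mem_primeFactors hp
    have hp1 : (1 : ℝ) < p := by exact_mod_cast hp'.one_lt
    have hx1 : (p : ℝ) ^ (-s) < 1 := Real.rpow_lt_one_of_one_lt_of_neg hp1 (by linarith)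
    exact inv_nonneg.2 (by linarith)
  have h3 : ∏ p ∈ m.primeFactors, (1 - (p : ℝ) ^ (-s))⁻¹ =
      (∏ p ∈ m.primeFactors.filter (fun p => n ≤ p * p), (1 - (p : ℝ) ^ (-s))⁻¹) *
      ∏ p ∈ m.primeFactors.filter (fun p => ¬ n ≤ p * p), (1 - (p : ℝ) ^ (-s))⁻¹ :=
    (Finset.prod_filter_mul_prod_filter_not _ _ _).symm
  -- large primes
  have h4 : ∏ p ∈ m.primeFactors.filter (fun p => n ≤ p * p), (1 - (p : ℝ) ^ (-s))⁻¹ ≤
      Real.exp (4 * C * Real.exp (-K) * n) := by
    calc ∏ p ∈ m.primeFactors.filter (fun p => n ≤ p * p), (1 - (p : ℝ) ^ (-s))⁻¹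
        ≤ ∏ p ∈ m.primeFactors.filter (fun p => n ≤ p * p), Real.exp (2 * Real.exp (-K)) := by
          refine Finset.prod_le_prod (fun p hp => hfac p (Finset.mem_filter.1 hp).1) fun p hp => ?_
          rw [Finset.mem_filter] at hp
          have hp' := Nat.prime_of_mem_primeFactors hp.1
          have hp0 : (0 : ℝ) < p := by exact_mod_cast hp'.pos
          have hlog : L / 2 ≤ Real.log p := by
            have : Real.log n ≤ Real.log ((p : ℝ) * p) :=
              Real.log_le_log hn0 (by exact_mod_cast hp.2)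
            rw [Real.log_mul hp0.ne' hp0.ne'] at this
            linarith
          have hx : (p : ℝ) ^ (-s) ≤ Real.exp (-K) := by
            rw [Real.rpow_def_of_pos hp0, Real.exp_le_exp]
            have : s * (L / 2) = K := by rw [hs]; field_simp
            have h6 : s * (L / 2) ≤ s * Real.log p := mul_le_mul_of_nonneg_left hlog hs0.le
            nlinarith
          have hK2 : Real.exp (-K) ≤ 1 / 2 := by
            have : Real.exp (-K) ≤ Real.exp (-1) := Real.exp_le_exp.2 (by linarith)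
            have h7 : Real.exp (-1) ≤ 1 / 2 := by
              rw [Real.exp_neg, inv_le_comm₀ (Real.exp_pos _) (by norm_num)]
              have := Real.add_one_le_exp (1 : ℝ)
              norm_num; linarith
            linarith
          have hpos : 0 < 1 - Real.exp (-K) := by linarith
          calc (1 - (p : ℝ) ^ (-s))⁻¹ ≤ (1 - Real.exp (-K))⁻¹ :=
                inv_anti₀ hpos (by linarith)
            _ ≤ Real.exp (2 * Real.exp (-K)) := by
                rw [inv_le_comm₀ hpos (Real.exp_pos _), ← Real.exp_neg]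
                have h8 : Real.exp (-(2 * Real.exp (-K))) ≤ 1 / (1 + 2 * Real.exp (-K)) := by
                  rw [Real.exp_neg, ← one_div]
                  refine one_div_le_one_div_of_le (by positivity) ?_
                  have := Real.add_one_le_exp (2 * Real.exp (-K))
                  linarith
                refine h8.trans ?_
                have hE : 0 < Real.exp (-K) := Real.exp_pos _
                rw [div_le_iff₀ (by positivity)]
                nlinarith
      _ = Real.exp (2 * Real.exp (-K)) ^ (m.primeFactors.filter (fun p => n ≤ p * p)).card := by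
          rw [Finset.prod_const]
      _ = Real.exp (2 * Real.exp (-K) * (m.primeFactors.filter (fun p => n ≤ p * p)).card) := by
          rw [← Real.exp_nat_mul]; congr 1; ring
      _ ≤ Real.exp (4 * C * Real.exp (-K) * n) := by
          rw [Real.exp_le_exp]
          have := card_large_le hn2 hm hmn
          have hE : 0 < Real.exp (-K) := Real.exp_pos _
          nlinarith
  -- small primes
  have h5 : ∏ p ∈ m.primeFactors.filter (fun p => ¬ n ≤ p * p), (1 - (p : ℝ) ^ (-s))⁻¹ ≤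
      Real.exp ((Nat.sqrt n + 1) * Real.log L) := by
    have hlogL : 0 ≤ Real.log L := Real.log_nonneg (by linarith)
    calc ∏ p ∈ m.primeFactors.filter (fun p => ¬ n ≤ p * p), (1 - (p : ℝ) ^ (-s))⁻¹
        ≤ ∏ p ∈ m.primeFactors.filter (fun p => ¬ n ≤ p * p), L := by
          refine Finset.prod_le_prod (fun p hp => hfac p (Finset.mem_filter.1 hp).1) fun p hp => ?_
          have hp' := Nat.prime_of_mem_primeFactors (Finset.mem_filter.1 hp).1
          have hp2 : (2 : ℝ) ≤ p := by exact_mod_cast hp'.two_le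
          have hx : (p : ℝ) ^ (-s) ≤ (2 : ℝ) ^ (-s) :=
            Real.rpow_le_rpow_of_nonpos (by norm_num) hp2 (by linarith)
          have h6 := one_sub_two_rpow hs0.le hs1
          have hpos : 0 < s / 2 := by positivity
          calc (1 - (p : ℝ) ^ (-s))⁻¹ ≤ (s / 2)⁻¹ := inv_anti₀ hpos (by linarith)
            _ = L / K := by rw [hs]; field_simp
            _ ≤ L := div_le_self hL0.le hK
      _ = L ^ (m.primeFactors.filter (fun p => ¬ n ≤ p * p)).card := by rw [Finset.prod_const]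
      _ ≤ L ^ (Nat.sqrt n + 1) := pow_le_pow_right₀ (by linarith) (card_small_le n m)
      _ = Real.exp ((Nat.sqrt n + 1) * Real.log L) := by
          rw [← Real.exp_log hL0, ← Real.exp_nat_mul, Real.log_exp]; push_cast; rfl
  calc (D.card : ℝ) ≤ Real.exp (2 * K * z * n) * ∏ p ∈ m.primeFactors, (1 - (p : ℝ) ^ (-s))⁻¹ := by
        refine h1.trans ?_
        rw [h2]
        exact mul_le_mul_of_nonneg_left (sum_rpow_le s hs0 m hm) (Real.exp_pos _).le
    _ ≤ Real.exp (2 * K * z * n) * (Real.exp (4 * C * Real.exp (-K) * n) *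
          Real.exp ((Nat.sqrt n + 1) * Real.log L)) := by
        rw [h3]
        refine mul_le_mul_of_nonneg_left (mul_le_mul h4 h5 ?_ (Real.exp_pos _).le)
          (Real.exp_pos _).le
        exact Finset.prod_nonneg fun p hp => hfac p (Finset.mem_filter.1 hp).1
    _ = _ := by rw [← Real.exp_add, ← Real.exp_add]; congr 1; ring

/-- DIV: few small divisors. -/
theorem div_count (C ε : ℝ) (hε : 0 < ε) : ∃ z : ℝ, 0 < z ∧ ∃ n0 : ℕ, ∀ n : ℕ, n0 ≤ n →
    ∀ m : ℕ, 0 < m → (m : ℝ) ≤ (n : ℝ) ^ (C * n) →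
      (((Nat.divisors m).filter (fun d : ℕ => (d : ℝ) ≤ (n : ℝ) ^ (z * n))).card : ℝ) ≤
        (2 : ℝ) ^ (ε * n) := by
  set C' := max C 0 with hC'
  have hC0 : 0 ≤ C' := le_max_right _ _
  set δ := ε * Real.log 2 / 3 with hδ
  have hlog2 : 0 < Real.log 2 := Real.log_pos (by norm_num)
  have hδ0 : 0 < δ := by positivity
  -- choose K
  obtain ⟨K, hK1, hK2⟩ : ∃ K : ℝ, 1 ≤ K ∧ 4 * C' * Real.exp (-K) ≤ δ := by
    have h1 : Filter.Tendsto (fun K : ℝ => 4 * C' * Real.exp (-K)) Filter.atTop (nhds (4 * C' * 0)) :=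
      (Real.tendsto_exp_neg_atTop_nhds_zero).const_mul _
    rw [mul_zero] at h1
    have h2 := (h1.eventually (ge_mem_nhds hδ0)).and (Filter.eventually_ge_atTop 1)
    obtain ⟨K, hK, hK'⟩ := h2.exists
    exact ⟨K, hK', hK⟩
  have hK0 : 0 < K := by linarith
  refine ⟨δ / (2 * K), by positivity, ?_⟩
  -- choose n0
  have hev : ∀ᶠ x : ℝ in Filter.atTop, (Real.sqrt x + 1) * Real.log (Real.log x) ≤ δ * x ∧
      2 * K ≤ Real.log x ∧ 1 ≤ x := by
    refine Filter.Eventually.and ?_ ((Real.tendsto_log_atTop.eventually_ge_atTop _).and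
      (Filter.eventually_ge_atTop 1))
    -- (√x+1) loglog x ≤ 2 √x · log x ≤ δ x
    have h1 : (fun x : ℝ => Real.log x) =o[Filter.atTop] (fun x : ℝ => x ^ (1 / 2 : ℝ)) :=
      isLittleO_log_rpow_atTop (by norm_num)
    have h2 := h1.def (show (0 : ℝ) < δ / 2 by positivity)
    filter_upwards [h2, Filter.eventually_ge_atTop (Real.exp 1)] with x hx hx1
    have hx0 : 1 ≤ x := le_trans (Real.one_le_exp (by norm_num)) hx1
    have hl1 : 1 ≤ Real.log x := by
      rw [Real.le_log_iff_exp_le (by linarith)]; exact hx1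
    have hll : Real.log (Real.log x) ≤ Real.log x := by
      have := Real.log_le_sub_one_of_pos (show 0 < Real.log x by linarith)
      linarith
    rw [Real.norm_eq_abs, Real.norm_eq_abs, abs_of_nonneg (by linarith),
      abs_of_nonneg (Real.rpow_nonneg (by linarith) _), ← Real.sqrt_eq_rpow] at hx
    have hs1 : 1 ≤ Real.sqrt x := Real.one_le_sqrt.2 hx0
    have hsq : Real.sqrt x * Real.sqrt x = x := Real.mul_self_sqrt (by linarith)
    calc (Real.sqrt x + 1) * Real.log (Real.log x) ≤ (Real.sqrt x + 1) * Real.log x :=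
          mul_le_mul_of_nonneg_left hll (by linarith)
      _ ≤ (2 * Real.sqrt x) * (δ / 2 * Real.sqrt x) := by
          refine mul_le_mul (by linarith) hx (by linarith) (by linarith)
      _ = δ * (Real.sqrt x * Real.sqrt x) := by ring
      _ = δ * x := by rw [hsq]
  obtain ⟨N, hN⟩ := (Filter.eventually_atTop.1 (tendsto_natCast_atTop_atTop.eventually hev))
  refine ⟨N, fun n hn m hm hmn => ?_⟩
  obtain ⟨hA, hB, hone⟩ := hN n hn
  have hmn' : (m : ℝ) ≤ (n : ℝ) ^ (C' * n) := by
    refine hmn.trans (Real.rpow_le_rpow_of_exponent_le hone ?_)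
    exact mul_le_mul_of_nonneg_right (le_max_left _ _) (Nat.cast_nonneg n)
  have hz0 : 0 < δ / (2 * K) := by positivity
  refine (count_explicit hm hC0 hK1 hz0 hB hmn').trans ?_
  rw [Real.rpow_def_of_pos (by norm_num : (0 : ℝ) < 2), Real.exp_le_exp]
  have e1 : 2 * K * (δ / (2 * K)) * n = δ * n := by field_simp
  have hsqrt : ((Nat.sqrt n : ℕ) : ℝ) ≤ Real.sqrt n := Real.nat_sqrt_le_real_sqrt
  have hll0 : 0 ≤ Real.log (Real.log n) := Real.log_nonneg (by linarith)
  have e2 : ((Nat.sqrt n : ℕ) + 1 : ℝ) * Real.log (Real.log n) ≤ δ * n :=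
    (mul_le_mul_of_nonneg_right (by linarith) hll0).trans hA
  have e3 : 4 * C' * Real.exp (-K) * n ≤ δ * n :=
    mul_le_mul_of_nonneg_right hK2 (Nat.cast_nonneg n)
  rw [e1]
  have e4 : Real.log 2 * (ε * n) = δ * n + δ * n + δ * n := by rw [hδ]; ring
  linarith

/-- number of distinct prime factors of `m ≤ n^(C n)`. -/
theorem card_primeFactors_le {m : ℕ} (hm : 0 < m) : (m.primeFactors.card : ℝ) * Real.log 2 ≤ Real.log m := by
  have h1 : 2 ^ m.primeFactors.card ≤ m := by
    refine le_trans ?_ (Nat.le_of_dvd hm (Nat.prod_primeFactors_dvd m))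
    rw [← Finset.prod_const]
    exact Finset.prod_le_prod' fun p hp => (Nat.prime_of_mem_primeFactors hp).two_le
  rw [← Real.log_pow]
  exact Real.log_le_log (by positivity) (by exact_mod_cast h1)

/-- the small divisors -/
noncomputable def small (z : ℝ) (n m : ℕ) : Finset ℕ :=
  (Nat.divisors m).filter (fun d : ℕ => (d : ℝ) ≤ (n : ℝ) ^ (z * n))

/-- products of a small divisor and `p^(g p)`, `p` a prime factor -/
noncomputable def cand (g : ℕ → ℕ) (z : ℝ) (n m : ℕ) : Finset ℕ :=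
  ((small z n m) ×ˢ m.primeFactors).image (fun q => q.1 * q.2 ^ g q.2)

theorem card_cand_le (g : ℕ → ℕ) (z : ℝ) (n m : ℕ) :
    (cand g z n m).card ≤ (small z n m).card * m.primeFactors.card := by
  unfold cand
  refine Finset.card_image_le.trans ?_
  rw [Finset.card_product]

/-- a divisor `f ≥ Y > 1` has a divisor `f' ≥ Y` of the form small * prime. -/
theorem exists_min {Y : ℝ} (hY : 1 < Y) : ∀ f : ℕ, 0 < f → Y ≤ f →
    ∃ f' : ℕ, f' ∣ f ∧ Y ≤ f' ∧ ∃ p d : ℕ, p.Prime ∧ f' = d * p ∧ (d : ℝ) < Y := by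
  intro f
  induction f using Nat.strong_induction_on with
  | _ f ih =>
    intro hf hYf
    have hf1 : f ≠ 1 := by
      rintro rfl
      simp at hYf
      linarith
    obtain ⟨p, hp, hpf⟩ := Nat.exists_prime_and_dvd hf1
    obtain ⟨d, rfl⟩ := hpf
    have hd : 0 < d := Nat.pos_of_mul_pos_left hf
    by_cases hdY : (d : ℝ) < Y
    · exact ⟨p * d, dvd_rfl, hYf, p, d, hp, by ring, hdY⟩
    · push Not at hdY
      have hlt : d < p * d := by nlinarith [hp.two_le]
      obtain ⟨f', h1, h2, h3⟩ := ih d hlt hd hdY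
      exact ⟨f', h1.trans (dvd_mul_left _ _), h2, h3⟩

/-- unitary version. -/
theorem exists_min_unitary {Y : ℝ} (hY : 1 < Y) {m : ℕ} (hm : 0 < m) : ∀ f : ℕ, f ∣ m →
    Nat.Coprime f (m / f) → Y ≤ f →
    ∃ f' : ℕ, f' ∣ f ∧ f' ∣ m ∧ Nat.Coprime f' (m / f') ∧ Y ≤ f' ∧
      ∃ p d : ℕ, p.Prime ∧ p ∣ m ∧ d ∣ m ∧ f' = d * p ^ m.factorization p ∧ (d : ℝ) < Y := by
  intro f
  induction f using Nat.strong_induction_on with
  | _ f ih =>
    intro hfm hcop hYf
    have hf : 0 < f := Nat.pos_of_dvd_of_pos hfm hm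
    have hf1 : f ≠ 1 := by
      rintro rfl
      simp at hYf
      linarith
    obtain ⟨p, hp, hpf⟩ := Nat.exists_prime_and_dvd hf1
    set d := f / p ^ f.factorization p with hd
    have hfd : p ^ f.factorization p * d = f := Nat.ordProj_mul_ordCompl_eq_self f p
    have hd0 : 0 < d := Nat.ordCompl_pos p hf.ne'
    have hvp : f.factorization p = m.factorization p := by
      obtain ⟨e, he⟩ := hfm
      have hme : m / f = e := by rw [he, Nat.mul_div_cancel_left _ hf]
      rw [hme] at hcop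
      have hpe : ¬ p ∣ e := fun hpe => by
        have := Nat.dvd_gcd hpf hpe
        rw [hcop] at this
        exact hp.one_lt.ne' (Nat.dvd_one.1 this)
      have he0 : e ≠ 0 := by rintro rfl; omega
      rw [he, Nat.factorization_mul hf.ne' he0, Finsupp.add_apply,
        Nat.factorization_eq_zero_of_not_dvd hpe, add_zero]
    have hdf : d ∣ f := ⟨p ^ f.factorization p, by rw [mul_comm]; exact hfd.symm⟩
    have hdm : d ∣ m := hdf.trans hfm
    by_cases hdY : (d : ℝ) < Y
    · refine ⟨f, dvd_rfl, hfm, hcop, hYf, p, d, hp, hpf.trans hfm, hdm, ?_, hdY⟩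
      rw [← hvp, mul_comm]; exact hfd.symm
    · push Not at hdY
      have hv1 : 1 ≤ f.factorization p := (hp.dvd_iff_one_le_factorization hf.ne').1 hpf
      have hlt : d < f := by
        have : 2 ≤ p ^ f.factorization p := by
          calc 2 ≤ p := hp.two_le
            _ = p ^ 1 := (pow_one p).symm
            _ ≤ p ^ f.factorization p := Nat.pow_le_pow_right hp.pos hv1
        nlinarith [hfd]
      have hcd : Nat.Coprime d (m / d) := by
        have hpd : ¬ p ∣ d := Nat.not_dvd_ordCompl hp hf.ne'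
        have hcop2 : Nat.Coprime d (p ^ f.factorization p) :=
          Nat.Coprime.pow_right _ ((Nat.Prime.coprime_iff_not_dvd hp).2 hpd).symm
        have hmd : m / d = p ^ f.factorization p * (m / f) := by
          obtain ⟨e, he⟩ := hfm
          have hme : m / f = e := by rw [he, Nat.mul_div_cancel_left _ hf]
          rw [hme]
          refine Nat.div_eq_of_eq_mul_right hd0 ?_
          rw [he, ← hfd]
          have : (p ^ f.factorization p * d).factorization p = f.factorization p := by rw [hfd]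
          rw [hfd]
          conv_lhs => rw [← hfd]
          ring
        rw [hmd]
        exact hcop2.mul_right (Nat.Coprime.coprime_dvd_left hdf hcop)
      obtain ⟨f', h1, h2, h3, h4, h5⟩ := ih d hlt hdm hcd hdY
      exact ⟨f', h1.trans hdf, h2, h3, h4, h5⟩

/-- DIV: the three statements (a), (b), (c) with one `z0`, valid for all `0 < z ≤ z0`. -/
theorem div_all (C ε : ℝ) (hε : 0 < ε) : ∃ z0 : ℝ, 0 < z0 ∧ ∃ n0 : ℕ, ∀ z : ℝ, 0 < z → z ≤ z0 →
    ∀ n : ℕ, n0 ≤ n → ∀ m : ℕ, 0 < m → (m : ℝ) ≤ (n : ℝ) ^ (C * n) →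
      ((((Nat.divisors m).filter (fun d : ℕ => (d : ℝ) ≤ (n : ℝ) ^ (z * n))).card : ℝ) ≤
        (2 : ℝ) ^ (ε * n)) ∧
      (∃ F : Finset ℕ, (F.card : ℝ) ≤ (2 : ℝ) ^ (ε * n) ∧
        (∀ f' ∈ F, f' ∣ m ∧ (n : ℝ) ^ (z * n) ≤ f') ∧
        ∀ f : ℕ, f ∣ m → (n : ℝ) ^ (z * n) ≤ f → ∃ f' ∈ F, f' ∣ f) ∧
      (∃ F : Finset ℕ, (F.card : ℝ) ≤ (2 : ℝ) ^ (ε * n) ∧
        (∀ f' ∈ F, f' ∣ m ∧ Nat.Coprime f' (m / f') ∧ (n : ℝ) ^ (z * n) ≤ f') ∧
        ∀ f : ℕ, f ∣ m → Nat.Coprime f (m / f) → (n : ℝ) ^ (z * n) ≤ f → ∃ f' ∈ F, f' ∣ f) := by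
  obtain ⟨z0, hz0, N, hN⟩ := div_count C (ε / 2) (by positivity)
  have hlog2 : 0 < Real.log 2 := Real.log_pos (by norm_num)
  -- eventually the number of primes is at most 2^(ε n/2)
  have hev : ∀ᶠ x : ℝ in Filter.atTop,
      |C| * (x * Real.log x) / Real.log 2 ≤ (2 : ℝ) ^ (ε / 2 * x) := by
    have h1 : (fun x : ℝ => x ^ (2 : ℝ)) =o[Filter.atTop] (fun x : ℝ => Real.exp ((ε / 2 * Real.log 2) * x)) :=
      isLittleO_rpow_exp_pos_mul_atTop 2 (by positivity)
    have h2 := h1.def (show (0 : ℝ) < 1 / (|C| / Real.log 2 + 1) by positivity)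
    filter_upwards [h2, Filter.eventually_ge_atTop 1] with x hx hx1
    have hl : Real.log x ≤ x := by
      have := Real.log_le_sub_one_of_pos (show 0 < x by linarith)
      linarith
    have hl0 : 0 ≤ Real.log x := Real.log_nonneg hx1
    rw [Real.norm_eq_abs, Real.norm_eq_abs, abs_of_nonneg (Real.rpow_nonneg (by linarith) _),
      abs_of_pos (Real.exp_pos _)] at hx
    have hx2 : x ^ (2 : ℝ) = x * x := by
      rw [show (2 : ℝ) = ((2 : ℕ) : ℝ) by norm_num, Real.rpow_natCast]; ring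
    rw [hx2] at hx
    have hA : 0 < |C| / Real.log 2 + 1 := by positivity
    calc |C| * (x * Real.log x) / Real.log 2 = (|C| / Real.log 2) * (x * Real.log x) := by ring
      _ ≤ (|C| / Real.log 2 + 1) * (x * x) := by
          refine mul_le_mul (by linarith) (mul_le_mul_of_nonneg_left hl (by linarith))
            (mul_nonneg (by linarith) hl0) hA.le
      _ ≤ (|C| / Real.log 2 + 1) * (1 / (|C| / Real.log 2 + 1) *
            Real.exp ((ε / 2 * Real.log 2) * x)) := mul_le_mul_of_nonneg_left hx hA.le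
      _ = Real.exp ((ε / 2 * Real.log 2) * x) := by field_simp
      _ = (2 : ℝ) ^ (ε / 2 * x) := by
          rw [Real.rpow_def_of_pos (by norm_num)]; congr 1; ring
  obtain ⟨N', hN'⟩ := Filter.eventually_atTop.1 (tendsto_natCast_atTop_atTop.eventually hev)
  refine ⟨z0, hz0, max (max N N') 2, fun z hz hzz n hn m hm hmn => ?_⟩
  have hnN : N ≤ n := le_trans (le_trans (le_max_left _ _) (le_max_left _ _)) hn
  have hnN' : N' ≤ n := le_trans (le_trans (le_max_right _ _) (le_max_left _ _)) hn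
  have hn2 : 2 ≤ n := le_trans (le_max_right _ _) hn
  have hn1 : (1 : ℝ) < n := by exact_mod_cast (by omega : 1 < n)
  have hn0 : (0 : ℝ) < n := by linarith
  have hY : 1 < (n : ℝ) ^ (z * n) := Real.one_lt_rpow hn1 (by positivity)
  -- small divisors
  have hsm : ((small z n m).card : ℝ) ≤ (2 : ℝ) ^ (ε / 2 * n) := by
    refine le_trans ?_ (hN n hnN m hm hmn)
    have hsub : small z n m ⊆ (Nat.divisors m).filter (fun d : ℕ => (d : ℝ) ≤ (n : ℝ) ^ (z0 * n)) := by
      intro d hd
      unfold small at hd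
      rw [Finset.mem_filter] at hd ⊢
      refine ⟨hd.1, hd.2.trans (Real.rpow_le_rpow_of_exponent_le hn1.le ?_)⟩
      exact mul_le_mul_of_nonneg_right hzz hn0.le
    exact_mod_cast Finset.card_le_card hsub
  have hpf : (m.primeFactors.card : ℝ) ≤ (2 : ℝ) ^ (ε / 2 * n) := by
    have h1 := card_primeFactors_le hm
    have h2 : Real.log m ≤ |C| * (n * Real.log n) := by
      have hm0 : (0 : ℝ) < m := by exact_mod_cast hm
      have h3 : Real.log m ≤ Real.log ((n : ℝ) ^ (C * n)) := Real.log_le_log hm0 hmn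
      rw [Real.log_rpow hn0] at h3
      have h4 : C * n * Real.log n ≤ |C| * (n * Real.log n) := by
        have := mul_le_mul_of_nonneg_right (le_abs_self C)
          (mul_nonneg hn0.le (Real.log_nonneg hn1.le))
        linarith
      linarith
    have h5 : (m.primeFactors.card : ℝ) ≤ |C| * (n * Real.log n) / Real.log 2 := by
      rw [le_div_iff₀ hlog2]; linarith
    exact h5.trans (hN' n hnN')
  have h22 : (2 : ℝ) ^ (ε / 2 * n) * (2 : ℝ) ^ (ε / 2 * n) = (2 : ℝ) ^ (ε * n) := by
    rw [← Real.rpow_add (by norm_num)]; ring_nf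
  have hcand : ∀ g : ℕ → ℕ, ((cand g z n m).card : ℝ) ≤ (2 : ℝ) ^ (ε * n) := by
    intro g
    calc ((cand g z n m).card : ℝ) ≤ ((small z n m).card * m.primeFactors.card : ℕ) := by
          exact_mod_cast card_cand_le g z n m
      _ = ((small z n m).card : ℝ) * m.primeFactors.card := by push_cast; ring
      _ ≤ (2 : ℝ) ^ (ε / 2 * n) * (2 : ℝ) ^ (ε / 2 * n) :=
          mul_le_mul hsm hpf (Nat.cast_nonneg _) (Real.rpow_nonneg (by norm_num) _)
      _ = _ := h22
  refine ⟨?_, ?_, ?_⟩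
  · refine hsm.trans ?_
    refine Real.rpow_le_rpow_of_exponent_le (by norm_num) ?_
    nlinarith [hn0, hε]
  · refine ⟨(cand (fun _ => 1) z n m).filter (fun f' : ℕ => f' ∣ m ∧ (n : ℝ) ^ (z * n) ≤ f'),
      ?_, ?_, ?_⟩
    · refine le_trans ?_ (hcand fun _ => 1)
      exact_mod_cast Finset.card_filter_le _ _
    · intro f' hf'
      exact (Finset.mem_filter.1 hf').2
    · intro f hfm hYf
      have hf : 0 < f := Nat.pos_of_dvd_of_pos hfm hm
      obtain ⟨f', h1, h2, p, d, hp, hfd, hdY⟩ := exists_min hY f hf hYf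
      refine ⟨f', ?_, h1⟩
      rw [Finset.mem_filter]
      refine ⟨?_, h1.trans hfm, h2⟩
      unfold cand
      rw [Finset.mem_image]
      refine ⟨(d, p), ?_, by simp [hfd]⟩
      rw [Finset.mem_product]
      refine ⟨?_, ?_⟩
      · unfold small
        rw [Finset.mem_filter, Nat.mem_divisors]
        refine ⟨⟨?_, hm.ne'⟩, hdY.le⟩
        exact (Dvd.intro _ hfd.symm).trans (h1.trans hfm)
      · rw [Nat.mem_primeFactors]
        exact ⟨hp, (Dvd.intro_left _ hfd.symm).trans (h1.trans hfm), hm.ne'⟩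
  · refine ⟨(cand (fun p => m.factorization p) z n m).filter
      (fun f' : ℕ => f' ∣ m ∧ Nat.Coprime f' (m / f') ∧ (n : ℝ) ^ (z * n) ≤ f'), ?_, ?_, ?_⟩
    · refine le_trans ?_ (hcand fun p => m.factorization p)
      exact_mod_cast Finset.card_filter_le _ _
    · intro f' hf'
      exact (Finset.mem_filter.1 hf').2
    · intro f hfm hcop hYf
      obtain ⟨f', h1, h2, h3, h4, p, d, hp, hpm, hdm, hfd, hdY⟩ :=
        exists_min_unitary hY hm f hfm hcop hYf
      refine ⟨f', ?_, h1⟩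
      rw [Finset.mem_filter]
      refine ⟨?_, h2, h3, h4⟩
      unfold cand
      rw [Finset.mem_image]
      refine ⟨(d, p), ?_, hfd.symm⟩
      rw [Finset.mem_product]
      refine ⟨?_, ?_⟩
      · unfold small
        rw [Finset.mem_filter, Nat.mem_divisors]
        exact ⟨⟨hdm, hm.ne'⟩, hdY.le⟩
      · rw [Nat.mem_primeFactors]
        exact ⟨hp, hpm, hm.ne'⟩

end Crest.Agent.R152.Div
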