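import Crest.Agent.R152.Asm5
import Crest.Agent.R152.Glo5
import Crest.Agent.R152.TP4
import Crest.Agent.R152.Sparse6
import Crest.Agent.R152.TopN4
import Crest.Agent.R152.TopX2
import Crest.Agent.R152.Div2

set_option autoImplicit false

open Crest.FinProb Crest.ProbabilityR.SignMatrix Crest.Agent.R152.Base Filter Topology

namespace Crest.Agent.R152.Fin
open Crest.Agent.R152 Crest.Agent.R152.Asm

theorem spk {p : ℝ} (hp0 : 0 < p) (hp1 : p < 1) : SPK p := by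
  intro ε hε
  obtain ⟨c, hc, n0, h⟩ := Sparse.sp4 hp0 hp1 ε hε
  refine ⟨c, hc, n0, fun n hn => (prob_mono hp0.le hp1.le ?_).trans (h n hn)⟩
  rintro w ⟨k, hk, hkp, q, hq, hlt⟩ hd
  exact absurd (Sparse.Dense.prime hd hk hkp hq) (not_lt.2 hlt.le)

theorem divh : DIV := by
  intro ε hε
  obtain ⟨z0, hz0, h⟩ := Div.div_asm ε hε
  refine ⟨z0, hz0, fun z hz hzz => ?_⟩
  obtain ⟨n0, h0⟩ := h z hz hzz
  exact ⟨n0, fun n hn => h0 n hn⟩

theorem topHyp {p : ℝ} (hp0 : 0 < p) (hp1 : p < 1) : Top.TopHyp p := by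
  intro ε hε
  obtain ⟨δ, hδ, R, h1, h2⟩ := H_holds hp0 hp1 (Glo.glo hp0 hp1) (TP.T1p_all hp0 hp1)
    (spk hp0 hp1) (Top.nmz hp0 hp1) divh ε hε
  refine ⟨δ, hδ, R, ?_, h2⟩
  filter_upwards [h1] with n hn
  refine (prob_mono hp0.le hp1.le ?_).trans hn
  rintro w ⟨hc, hlt⟩
  refine ⟨hc.1, hc.2, ?_⟩
  have hset : {i | (del (symMat w) i).det ≠ 0 ∧ rowB w i ∈ R n (del (symMat w) i)} =
      Top.gi (R n) (symMat w) := by
    ext i
    simp only [Set.mem_ofPred_eq, Top.gi]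
    constructor
    · rintro ⟨ha, hb⟩
      exact ⟨ha, rowB w i, hb, (sv_rowB w i).symm⟩
    · rintro ⟨ha, x, hx, hxe⟩
      refine ⟨ha, ?_⟩
      have : rowB w i = x := by
        have h3 : sv (rowB w i) = sv x := by rw [sv_rowB]; exact hxe
        funext j
        exact sg_injective (congrFun h3 j)
      rw [this]; exact hx
  rw [hset]
  refine lt_of_lt_of_le hlt ?_
  push_cast
  nlinarith

theorem upper {p : ℝ} (hp0 : 0 < p) (hp1 : p < 1) : ∀ ε : ℝ, 0 < ε →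
    ∀ᶠ n : ℕ in atTop, singularProb n p ≤ (rate p + ε) ^ n :=
  Crest.Agent.R152.Top.top hp0 hp1 (topHyp hp0 hp1)

end Crest.Agent.R152.Fin
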