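import Mathlib
import Crest.Agent.R152.WRM1c

set_option autoImplicit false

/-!
# Row 152: monotonicity of the determinant and Fischer's inequality (real matrices)
-/

namespace Crest.Agent.R152.WRM

open Matrix
open scoped ComplexOrder

variable {e : Type*} [Fintype e] [DecidableEq e]

/-- `det (1 + K) ≥ 1` for positive semidefinite `K` -/
theorem one_le_det_one_add {K : Matrix e e ℝ} (hK : K.PosSemidef) : 1 ≤ (1 + K).det := by
  have hH : (1 + K).IsHermitian := Matrix.isHermitian_one.add hK.1
  rw [hH.det_eq_prod_eigenvalues]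
  have h3 : ∀ i, 1 ≤ hH.eigenvalues i := by
    intro i
    have h4 := hH.eigenvalues_eq i
    rw [h4, Matrix.add_mulVec, Matrix.one_mulVec, dotProduct_add, map_add]
    have h5 : RCLike.re (star (⇑(hH.eigenvectorBasis i)) ⬝ᵥ ⇑(hH.eigenvectorBasis i)) = (1:ℝ) := by
      have h6 := hH.eigenvectorBasis.orthonormal.1 i
      have h7 : inner ℝ (hH.eigenvectorBasis i) (hH.eigenvectorBasis i) = (1 : ℝ) := by
        rw [real_inner_self_eq_norm_sq, h6]; simp
      rw [EuclideanSpace.inner_eq_star_dotProduct] at h7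
      rw [dotProduct_comm, h7]
      simp
    rw [h5]
    have h8 := hK.re_dotProduct_nonneg (⇑(hH.eigenvectorBasis i))
    linarith
  calc (1 : ℝ) = ∏ _i : e, (1 : ℝ) := by simp
    _ ≤ ∏ i, hH.eigenvalues i := Finset.prod_le_prod (fun _ _ => zero_le_one) (fun i _ => h3 i)
    _ = _ := by simp

/-- monotonicity of the determinant on positive definite matrices -/
theorem det_le_det_of_posSemidef_sub {X Y : Matrix e e ℝ} (hX : X.PosDef)
    (hXY : (Y - X).PosSemidef) : X.det ≤ Y.det := by
  obtain ⟨A, hA, hA1⟩ := exists_factor hX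
  have hdet : X.det = A.det * A.det := by rw [hA, det_mul, det_transpose]
  have hXpos := hX.det_pos
  have hA0 : IsUnit A.det := by
    rw [isUnit_iff_ne_zero]
    exact hA1
  have hAt : IsUnit Aᵀ.det := by rwa [det_transpose]
  set K : Matrix e e ℝ := (Aᵀ)⁻¹ * (Y - X) * A⁻¹ with hK
  have hKp : K.PosSemidef := by
    have h1 := hXY.conjTranspose_mul_mul_same A⁻¹
    rw [conjTranspose_eq_transpose_of_trivial, transpose_nonsing_inv] at h1
    exact h1
  have hY : Y = Aᵀ * (1 + K) * A := by
    have h1 : Aᵀ * K * A = Y - X := by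
      rw [hK]
      calc Aᵀ * ((Aᵀ)⁻¹ * (Y - X) * A⁻¹) * A = (Aᵀ * (Aᵀ)⁻¹) * (Y - X) * (A⁻¹ * A) := by
            simp only [Matrix.mul_assoc]
        _ = Y - X := by
            rw [mul_nonsing_inv _ hAt, nonsing_inv_mul _ hA0, Matrix.one_mul, Matrix.mul_one]
    rw [Matrix.mul_add, Matrix.add_mul, h1, Matrix.mul_one, ← hA]
    abel
  have hdY : Y.det = X.det * (1 + K).det := by
    conv_lhs => rw [hY]
    rw [det_mul, det_mul, det_transpose, hdet]
    ring
  rw [hdY]
  have := one_le_det_one_add hKp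
  nlinarith

variable {ι κ : Type*} [Fintype ι] [DecidableEq ι] [Fintype κ] [DecidableEq κ]
variable {A : Matrix ι ι ℝ} {B : Matrix ι κ ℝ} {D : Matrix κ κ ℝ}

/-- **Fischer's inequality** -/
theorem fischer (h : (blk A B D).PosDef) : (blk A B D).det ≤ A.det * D.det := by
  have hA := posDef_of_blk h
  have hS := schur_posDef h
  rw [det_blk hA]
  refine mul_le_mul_of_nonneg_left ?_ hA.det_pos.le
  apply det_le_det_of_posSemidef_sub hS
  have h1 : D - schur A B D = Bᵀ * A⁻¹ * B := by unfold schur; abel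
  rw [h1]
  have h2 := hA.inv.posSemidef.conjTranspose_mul_mul_same B
  rwa [conjTranspose_eq_transpose_of_trivial] at h2

/-- Fischer's inequality, positive semidefinite case -/
theorem fischer_psd (h : (blk A B D).PosSemidef) : (blk A B D).det ≤ A.det * D.det := by
  by_cases h0 : (blk A B D).det = 0
  · rw [h0]
    have hA : A.PosSemidef := by
      have h1 := h.submatrix (Sum.inl : ι → ι ⊕ κ)
      have h2 : (blk A B D).submatrix (Sum.inl : ι → ι ⊕ κ) Sum.inl = A := by
        ext i j; rfl
      rwa [h2] at h1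
    have hD : D.PosSemidef := by
      have h1 := h.submatrix (Sum.inr : κ → ι ⊕ κ)
      have h2 : (blk A B D).submatrix (Sum.inr : κ → ι ⊕ κ) Sum.inr = D := by
        ext i j; rfl
      rwa [h2] at h1
    exact mul_nonneg hA.det_nonneg hD.det_nonneg
  · exact fischer (h.posDef_iff_det_ne_zero.2 h0)

end Crest.Agent.R152.WRM
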