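import Crest.Agent.R152.Base3

set_option autoImplicit false
set_option linter.unusedSectionVars false

/-!
# Row 152, fixed subspace bound

`Rad A E` = radical of the form `A` restricted to `E`.  For a fixed subspace `E ≤ ℚ^α`, the
probability that the random symmetric sign matrix has a radical of dimension `≥ s` on `E` is at most
`2^|α| q^{s(s-1)/2}`, `q = max p (1-p)`.
-/

open Crest.FinProb Crest.ProbabilityR.SignMatrix

namespace Crest.Agent.R152.FixV

open Base Matrix Module

/-- sign vector as rational vector -/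
def sq {α : Type*} (x : α → Bool) : α → ℚ := fun a => (sg (x a) : ℚ)

/-- the symmetric sign matrix over `ℚ` -/
def mq {α : Type*} (b : Sym2 α → Bool) : Matrix α α ℚ := (symMat b).map (fun z => (z : ℚ))

theorem mq_apply {α : Type*} (b : Sym2 α → Bool) (i j : α) : mq b i j = (sg (b s(i, j)) : ℚ) := rfl

theorem mq_symm {α : Type*} (b : Sym2 α → Bool) (i j : α) : mq b i j = mq b j i := by
  rw [mq_apply, mq_apply, Sym2.eq_swap]

/-- radical of the form `A` on `E` -/
def Rad {α : Type*} [Fintype α] (A : Matrix α α ℚ) (E : Submodule ℚ (α → ℚ)) :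
    Submodule ℚ (α → ℚ) where
  carrier := {w | w ∈ E ∧ ∀ u ∈ E, u ⬝ᵥ A *ᵥ w = 0}
  add_mem' := by
    rintro a b ⟨ha, ha'⟩ ⟨hb, hb'⟩
    refine ⟨E.add_mem ha hb, fun u hu => ?_⟩
    rw [mulVec_add, dotProduct_add, ha' u hu, hb' u hu, add_zero]
  zero_mem' := ⟨E.zero_mem, fun u _ => by simp⟩
  smul_mem' := by
    rintro c a ⟨ha, ha'⟩
    refine ⟨E.smul_mem c ha, fun u hu => ?_⟩
    rw [mulVec_smul, dotProduct_smul, ha' u hu, smul_zero]

theorem mem_Rad {α : Type*} [Fintype α] {A : Matrix α α ℚ} {E : Submodule ℚ (α → ℚ)} {w : α → ℚ} :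
    w ∈ Rad A E ↔ w ∈ E ∧ ∀ u ∈ E, u ⬝ᵥ A *ᵥ w = 0 := Iff.rfl

/-- vectors of `ℚ^(Option α)` from a last coordinate and a vector -/
def cons {α : Type*} (c : ℚ) (g : α → ℚ) : Option α → ℚ := fun o => o.elim c g

@[simp] theorem cons_none {α : Type*} (c : ℚ) (g : α → ℚ) : cons c g none = c := rfl
@[simp] theorem cons_some {α : Type*} (c : ℚ) (g : α → ℚ) (a : α) : cons c g (some a) = g a := rfl

theorem cons_eta {α : Type*} (w : Option α → ℚ) : cons (w none) (fun a => w (some a)) = w := by
  funext o
  cases o <;> rfl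

/-- extension by zero -/
def ext0 {α : Type*} : (α → ℚ) →ₗ[ℚ] (Option α → ℚ) where
  toFun g := cons 0 g
  map_add' g h := by
    funext o
    cases o <;> simp
  map_smul' c g := by
    funext o
    cases o <;> simp

@[simp] theorem ext0_apply {α : Type*} (g : α → ℚ) : ext0 g = cons 0 g := rfl

theorem ext0_injective {α : Type*} : Function.Injective (ext0 (α := α)) := by
  intro g h hgh
  funext a
  have := congrFun hgh (some a)
  simpa using this

theorem dot_cons {α : Type*} [Fintype α] (c d : ℚ) (g h : α → ℚ) :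
    cons c g ⬝ᵥ cons d h = c * d + g ⬝ᵥ h := by
  simp [dotProduct, Fintype.sum_option]

/-- the part of `E` with vanishing last coordinate -/
def low {α : Type*} (E : Submodule ℚ (Option α → ℚ)) : Submodule ℚ (α → ℚ) := E.comap ext0

theorem mem_low {α : Type*} {E : Submodule ℚ (Option α → ℚ)} {g : α → ℚ} :
    g ∈ low E ↔ cons 0 g ∈ E := Iff.rfl

theorem finrank_le_low {α : Type*} [Finite α] (E : Submodule ℚ (Option α → ℚ)) :
    finrank ℚ E ≤ finrank ℚ (low E) + 1 := by
  classical
  -- the last coordinate as a functional on `E`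
  let φ : E →ₗ[ℚ] ℚ := (LinearMap.proj (R := ℚ) (φ := fun _ : Option α => ℚ) none).comp E.subtype
  have h1 := LinearMap.finrank_range_add_finrank_ker φ
  have h2 : finrank ℚ (LinearMap.range φ) ≤ 1 := by
    have := Submodule.finrank_le (LinearMap.range φ)
    simpa using this
  have h3 : finrank ℚ (LinearMap.ker φ) ≤ finrank ℚ (low E) := by
    let ψ : LinearMap.ker φ →ₗ[ℚ] low E :=
      { toFun := fun w => ⟨fun a => (w : E).1 (some a), by
          have h0 : (w : E).1 none = 0 := w.2
          rw [mem_low, ← h0, cons_eta]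
          exact (w : E).2⟩
        map_add' := fun a b => rfl
        map_smul' := fun c a => rfl }
    refine LinearMap.finrank_le_finrank_of_injective (f := ψ) ?_
    intro a b hab
    apply Subtype.ext
    apply Subtype.ext
    funext o
    cases o with
    | none =>
      have ha : (a : E).1 none = 0 := a.2
      have hb : (b : E).1 none = 0 := b.2
      rw [ha, hb]
    | some i =>
      have := congrArg (fun (w : low E) => w.1 i) hab
      exact this
  omega

theorem finrank_low_le {α : Type*} [Finite α] (E : Submodule ℚ (Option α → ℚ)) :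
    finrank ℚ (low E) ≤ finrank ℚ E := by
  let ψ : low E →ₗ[ℚ] E :=
    { toFun := fun w => ⟨cons 0 w.1, w.2⟩
      map_add' := fun a b => by
        apply Subtype.ext
        exact ext0.map_add a.1 b.1
      map_smul' := fun c a => by
        apply Subtype.ext
        exact ext0.map_smul c a.1 }
  refine LinearMap.finrank_le_finrank_of_injective (f := ψ) ?_
  intro a b hab
  apply Subtype.ext
  have := congrArg (fun w : E => w.1) hab
  exact ext0_injective this

/-! ### Odlyzko -/

/-- Odlyzko's bound on `α` -/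
def OD (p q : ℝ) (α : Type*) [Fintype α] [DecidableEq α] : Prop :=
  ∀ (N : Submodule ℚ (α → ℚ)) (τ : (α → ℚ) → ℚ),
    bernoulliProb p {x : α → Bool | ∀ w ∈ N, w ⬝ᵥ sq x = τ w} ≤ q ^ finrank ℚ N

theorem finrank_map_equiv {V W : Type*} [AddCommGroup V] [Module ℚ V] [AddCommGroup W] [Module ℚ W]
    (L : V ≃ₗ[ℚ] W) (N : Submodule ℚ W) :
    finrank ℚ (N.comap L.toLinearMap) = finrank ℚ N := by
  have h1 := LinearEquiv.finrank_eq (L.submoduleMap (N.comap L.toLinearMap))
  have h2 : Submodule.map (L : V →ₗ[ℚ] W) (N.comap L.toLinearMap) = N :=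
    Submodule.map_comap_eq_of_surjective L.surjective N
  rw [h1]
  exact LinearEquiv.finrank_eq (LinearEquiv.ofEq _ _ h2)

/-- relabelling of vectors -/
def rel {α β : Type*} (e : α ≃ β) : (α → ℚ) ≃ₗ[ℚ] (β → ℚ) := LinearEquiv.funCongrLeft ℚ ℚ e.symm

theorem rel_apply {α β : Type*} (e : α ≃ β) (w : α → ℚ) (b : β) : rel e w b = w (e.symm b) := rfl

theorem rel_dot {α β : Type*} [Fintype α] [Fintype β] (e : α ≃ β) (v w : α → ℚ) :
    rel e v ⬝ᵥ rel e w = v ⬝ᵥ w :=
  Fintype.sum_equiv e.symm _ _ (fun _ => rfl)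

theorem od_congr {p q : ℝ} {α β : Type*} [Fintype α] [DecidableEq α] [Fintype β] [DecidableEq β]
    (e : α ≃ β) (h : OD p q α) : OD p q β := by
  intro N τ
  rw [prob_comp e.symm]
  have h1 := h (N.comap (rel e).toLinearMap) (fun w => τ (rel e w))
  rw [finrank_map_equiv] at h1
  refine le_trans (le_of_eq ?_) h1
  congr 1
  ext x
  have key : ∀ w : α → ℚ, (rel e w) ⬝ᵥ sq (x ∘ e.symm) = w ⬝ᵥ sq x := by
    intro w
    exact rel_dot e w (sq x)
  constructor
  · intro hx w hw
    rw [← key]
    exact hx (rel e w) hw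
  · intro hx w hw
    have h4 := hx ((rel e).symm w) (by
      change rel e ((rel e).symm w) ∈ N
      rwa [LinearEquiv.apply_symm_apply])
    rw [← key, LinearEquiv.apply_symm_apply] at h4
    exact h4

theorem low_of_top {α : Type*} {N : Submodule ℚ (Option α → ℚ)} {τ : (Option α → ℚ) → ℚ}
    [Fintype α] {c : Bool} {x : α → Bool}
    (h : ∀ w ∈ N, w ⬝ᵥ sq (fun o : Option α => o.elim c x) = τ w) :
    ∀ w ∈ low N, w ⬝ᵥ sq x = τ (cons 0 w) := by
  intro w hw
  rw [← h (cons 0 w) hw]
  simp [dotProduct, Fintype.sum_option, sq]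

theorem od_option {p q : ℝ} (hp0 : 0 ≤ p) (hp1 : p ≤ 1) (hpq : p ≤ q) (hpq' : 1 - p ≤ q)
    (hq1 : q ≤ 1)
    {α : Type*} [Fintype α] [DecidableEq α] (h : OD p q α) : OD p q (Option α) := by
  classical
  have hq0 : 0 ≤ q := hp0.trans hpq
  intro N τ
  rw [prob_eq_ex, ex_option]
  have hlow := h (low N) (fun w => τ (cons 0 w))
  rw [prob_eq_ex] at hlow
  by_cases hN : ∃ w0 ∈ N, w0 none ≠ 0
  · obtain ⟨w0, hw0, hne⟩ := hN
    -- the value of the last coin is determined
    have hdet : ∀ x : α → Bool,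
        (∀ w ∈ N, w ⬝ᵥ sq (fun o : Option α => o.elim true x) = τ w) →
        (∀ w ∈ N, w ⬝ᵥ sq (fun o : Option α => o.elim false x) = τ w) → False := by
      intro x h1 h2
      have h3 := h1 w0 hw0
      have h4 := h2 w0 hw0
      simp only [dotProduct, Fintype.sum_option, sq, Option.elim_none, Option.elim_some] at h3 h4
      have h5 : w0 none * ((sg true : ℤ) : ℚ) = w0 none * ((sg false : ℤ) : ℚ) := by linarith
      simp only [sg, if_true, Bool.false_eq_true, if_false] at h5
      push_cast at h5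
      apply hne
      linarith
    have hr : finrank ℚ N ≤ finrank ℚ (low N) + 1 := finrank_le_low N
    calc _ ≤ ex p (fun x : α → Bool => q * (if x ∈ {x : α → Bool | ∀ w ∈ low N,
            w ⬝ᵥ sq x = τ (cons 0 w)} then (1:ℝ) else 0)) := by
          refine ex_mono hp0 hp1 fun x => ?_
          simp only [Set.mem_ofPred_eq]
          by_cases h1 : ∀ w ∈ N, w ⬝ᵥ sq (fun o : Option α => o.elim true x) = τ w
          · have h2 : ¬ ∀ w ∈ N, w ⬝ᵥ sq (fun o : Option α => o.elim false x) = τ w :=
              fun h2 => hdet x h1 h2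
            have h3 := low_of_top h1
            rw [if_pos h1, if_neg h2, if_pos h3]
            linarith
          · by_cases h2 : ∀ w ∈ N, w ⬝ᵥ sq (fun o : Option α => o.elim false x) = τ w
            · have h3 := low_of_top h2
              rw [if_neg h1, if_pos h2, if_pos h3]
              linarith
            · rw [if_neg h1, if_neg h2]
              have : (0:ℝ) ≤ q * (if ∀ w ∈ low N,
                w ⬝ᵥ sq x = τ (cons 0 w) then (1:ℝ) else 0) := by
                split_ifs <;> simp [hq0]
              linarith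
      _ = q * ex p (fun x : α → Bool => (if x ∈ {x : α → Bool | ∀ w ∈ low N,
            w ⬝ᵥ sq x = τ (cons 0 w)} then (1:ℝ) else 0)) := ex_smul _ _ _
      _ ≤ q * q ^ finrank ℚ (low N) := by gcongr
      _ = q ^ (finrank ℚ (low N) + 1) := by ring
      _ ≤ q ^ finrank ℚ N := pow_le_pow_of_le_one hq0 hq1 hr
  · push Not at hN
    have hr : finrank ℚ N ≤ finrank ℚ (low N) := by
      let ψ : N →ₗ[ℚ] low N :=
        { toFun := fun w => ⟨fun a => w.1 (some a), by
            rw [mem_low, ← hN w.1 w.2, cons_eta]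
            exact w.2⟩
          map_add' := fun a b => rfl
          map_smul' := fun c a => rfl }
      refine LinearMap.finrank_le_finrank_of_injective (f := ψ) ?_
      intro a b hab
      apply Subtype.ext
      funext o
      cases o with
      | none => rw [hN a.1 a.2, hN b.1 b.2]
      | some i =>
        have := congrArg (fun (w : low N) => w.1 i) hab
        exact this
    calc _ ≤ ex p (fun x : α → Bool => (if x ∈ {x : α → Bool | ∀ w ∈ low N,
            w ⬝ᵥ sq x = τ (cons 0 w)} then (1:ℝ) else 0)) := by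
          refine ex_mono hp0 hp1 fun x => ?_
          simp only [Set.mem_ofPred_eq]
          by_cases h3 : ∀ w ∈ low N, w ⬝ᵥ sq x = τ (cons 0 w)
          · rw [if_pos h3]
            split_ifs <;> linarith
          · have h1 : ¬ ∀ w ∈ N, w ⬝ᵥ sq (fun o : Option α => o.elim true x) = τ w :=
              fun h => h3 (low_of_top h)
            have h2 : ¬ ∀ w ∈ N, w ⬝ᵥ sq (fun o : Option α => o.elim false x) = τ w :=
              fun h => h3 (low_of_top h)
            rw [if_neg h3, if_neg h1, if_neg h2]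
            linarith
      _ ≤ q ^ finrank ℚ (low N) := hlow
      _ ≤ q ^ finrank ℚ N := pow_le_pow_of_le_one hq0 hq1 hr

theorem od_empty {p q : ℝ} (hp0 : 0 ≤ p) (hp1 : p ≤ 1) {α : Type*} [Fintype α] [DecidableEq α]
    [IsEmpty α] : OD p q α := by
  intro N τ
  have : finrank ℚ N = 0 := by
    have h := Submodule.finrank_le N
    simpa using h
  rw [this, pow_zero]
  exact prob_le_one hp0 hp1 _

theorem od_fin {p q : ℝ} (hp0 : 0 ≤ p) (hp1 : p ≤ 1) (hpq : p ≤ q) (hpq' : 1 - p ≤ q)
    (hq1 : q ≤ 1) (n : ℕ) : OD p q (Fin n) := by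
  induction n with
  | zero => exact od_empty hp0 hp1
  | succ n ih => exact od_congr (finSuccEquiv n).symm (od_option hp0 hp1 hpq hpq' hq1 ih)

/-- **Odlyzko's lemma**: the mass of the sign vectors with prescribed scalar products with a
subspace `N` is at most `q^{dim N}`. -/
theorem odlyzko {p q : ℝ} (hp0 : 0 ≤ p) (hp1 : p ≤ 1) (hpq : p ≤ q) (hpq' : 1 - p ≤ q)
    (hq1 : q ≤ 1) {α : Type*} [Fintype α] [DecidableEq α] (N : Submodule ℚ (α → ℚ))
    (τ : (α → ℚ) → ℚ) :
    bernoulliProb p {x : α → Bool | ∀ w ∈ N, w ⬝ᵥ sq x = τ w} ≤ q ^ finrank ℚ N :=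
  od_congr (Fintype.equivFin α).symm (od_fin hp0 hp1 hpq hpq' hq1 _) N τ

/-! ### the radical on a fixed subspace -/

theorem glue_bil {α : Type*} [Fintype α] (b : Sym2 α → Bool) (x : α → Bool) (d : Bool) (c c' : ℚ)
    (g h : α → ℚ) :
    cons c g ⬝ᵥ (mq (glue b x d)) *ᵥ (cons c' h) =
      c * c' * (sg d : ℚ) + c * (h ⬝ᵥ sq x) + c' * (g ⬝ᵥ sq x) + g ⬝ᵥ mq b *ᵥ h := by
  have h1 : (mq (glue b x d)) *ᵥ (cons c' h) =
      cons (c' * (sg d : ℚ) + h ⬝ᵥ sq x) (c' • sq x + mq b *ᵥ h) := by
    funext o
    cases o with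
    | none =>
      simp only [mulVec, dotProduct, Fintype.sum_option, cons_none, cons_some, mq_apply,
        glue_none_none, glue_none_some, sq]
      rw [mul_comm]
      congr 1
      exact Finset.sum_congr rfl fun i _ => by ring
    | some a =>
      simp only [mulVec, dotProduct, Fintype.sum_option, cons_none, cons_some, mq_apply,
        glue_some_none, glue_some, sq, Pi.add_apply, Pi.smul_apply, smul_eq_mul]
      ring
  rw [h1, dot_cons, dotProduct_add, dotProduct_smul, smul_eq_mul]
  ring

theorem mq_bil_symm {α : Type*} [Fintype α] (b : Sym2 α → Bool) (g h : α → ℚ) :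
    g ⬝ᵥ mq b *ᵥ h = h ⬝ᵥ mq b *ᵥ g := by
  have h1 : (mq b)ᵀ = mq b := by
    ext i j
    exact mq_symm b j i
  rw [dotProduct_mulVec, dotProduct_comm, ← mulVec_transpose, h1]

/-- bound on `α` -/
def FV (p q : ℝ) (α : Type*) [Fintype α] [DecidableEq α] : Prop :=
  ∀ (E : Submodule ℚ (α → ℚ)) (s : ℕ),
    bernoulliProb p {b : Sym2 α → Bool | s ≤ finrank ℚ (Rad (mq b) E)} ≤
      2 ^ Fintype.card α * q ^ s.choose 2

theorem low_Rad_le {α : Type*} [Fintype α] (E : Submodule ℚ (Option α → ℚ)) (b : Sym2 α → Bool)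
    (x : α → Bool) (d : Bool) : low (Rad (mq (glue b x d)) E) ≤ Rad (mq b) (low E) := by
  intro w hw
  rw [mem_low, mem_Rad] at hw
  refine ⟨hw.1, fun u hu => ?_⟩
  have h1 := hw.2 (cons 0 u) hu
  rw [glue_bil] at h1
  simpa using h1

theorem step_claim {α : Type*} [Fintype α] (E : Submodule ℚ (Option α → ℚ)) {g : α → ℚ}
    (hf : cons 1 g ∈ E) (b : Sym2 α → Bool) (x : α → Bool) (d : Bool) {t : ℕ}
    (h : t + 1 ≤ finrank ℚ (Rad (mq (glue b x d)) E)) :
    t + 2 ≤ finrank ℚ (Rad (mq b) (low E)) ∨ (t ≤ finrank ℚ (Rad (mq b) (low E)) ∧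
      ∀ u ∈ Rad (mq b) (low E), u ⬝ᵥ sq x = - (u ⬝ᵥ mq b *ᵥ g)) := by
  have h1 := finrank_le_low (Rad (mq (glue b x d)) E)
  have h2 := Submodule.finrank_mono (low_Rad_le E b x d)
  by_cases hx : ∀ u ∈ Rad (mq b) (low E), u ⬝ᵥ sq x = - (u ⬝ᵥ mq b *ᵥ g)
  · right
    exact ⟨by omega, hx⟩
  · left
    push Not at hx
    obtain ⟨u0, hu0, hne⟩ := hx
    -- all radical vectors have last coordinate zero
    have hz : ∀ w ∈ Rad (mq (glue b x d)) E, w none = 0 := by
      intro w hw
      rw [mem_Rad] at hw
      set c := w none with hc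
      set w' : α → ℚ := fun a => w (some a) - c * g a with hw'
      have e1 : w = cons c (w' + c • g) := by
        funext o
        cases o with
        | none => rfl
        | some a => simp [hw']
      have hw'E : w' ∈ low E := by
        rw [mem_low]
        have : cons 0 w' = w - c • cons 1 g := by
          funext o
          cases o with
          | none => simp [hc]
          | some a => simp [hw']
        rw [this]
        exact E.sub_mem hw.1 (E.smul_mem c hf)
      have h3 := hw.2 (cons 0 u0) hu0.1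
      rw [e1, glue_bil, mulVec_add, mulVec_smul, dotProduct_add, dotProduct_smul, smul_eq_mul,
        mq_bil_symm b u0 w', hu0.2 w' hw'E] at h3
      have h4 : c * (u0 ⬝ᵥ sq x + u0 ⬝ᵥ mq b *ᵥ g) = 0 := by linarith
      rcases mul_eq_zero.1 h4 with h5 | h5
      · exact h5
      · exact absurd (by linarith) hne
    -- so the radical embeds into a proper subspace of `N'`
    have h3 : finrank ℚ (Rad (mq (glue b x d)) E) ≤ finrank ℚ (low (Rad (mq (glue b x d)) E)) := by
      let ψ : Rad (mq (glue b x d)) E →ₗ[ℚ] low (Rad (mq (glue b x d)) E) :=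
        { toFun := fun w => ⟨fun a => w.1 (some a), by
            rw [mem_low, ← hz w.1 w.2, cons_eta]
            exact w.2⟩
          map_add' := fun a b => rfl
          map_smul' := fun c a => rfl }
      refine LinearMap.finrank_le_finrank_of_injective (f := ψ) ?_
      intro a b' hab
      apply Subtype.ext
      funext o
      cases o with
      | none => rw [hz a.1 a.2, hz b'.1 b'.2]
      | some i =>
        have := congrArg (fun (w : low (Rad (mq (glue b x d)) E)) => w.1 i) hab
        exact this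
    have h4 : low (Rad (mq (glue b x d)) E) < Rad (mq b) (low E) := by
      refine lt_of_le_of_ne (low_Rad_le E b x d) ?_
      intro he
      apply hne
      rw [← he, mem_low, mem_Rad] at hu0
      have h5 := hu0.2 (cons 1 g) hf
      rw [glue_bil, mq_bil_symm b g u0] at h5
      linarith
    have h5 := Submodule.finrank_lt_finrank_of_lt h4
    omega

theorem rad_congr {α β : Type*} [Fintype α] [Fintype β] (e : α ≃ β)
    (E : Submodule ℚ (β → ℚ)) (b : Sym2 α → Bool) :
    finrank ℚ (Rad (mq (b ∘ (symEquiv e.symm))) E) =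
      finrank ℚ (Rad (mq b) (E.comap (rel e).toLinearMap)) := by
  rw [← finrank_map_equiv (rel e) (Rad (mq (b ∘ (symEquiv e.symm))) E)]
  have hbil : ∀ u w : α → ℚ, rel e u ⬝ᵥ mq (b ∘ (symEquiv e.symm)) *ᵥ rel e w = u ⬝ᵥ mq b *ᵥ w := by
    intro u w
    have h1 : mq (b ∘ (symEquiv e.symm)) *ᵥ rel e w = rel e (mq b *ᵥ w) := by
      funext i
      simp only [mulVec, dotProduct, rel_apply]
      exact Fintype.sum_equiv e.symm _ _ (fun j => rfl)
    rw [h1, rel_dot]
  refine LinearEquiv.finrank_eq (LinearEquiv.ofEq _ _ ?_)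
  ext w
  simp only [Submodule.mem_comap, mem_Rad]
  refine and_congr Iff.rfl ?_
  constructor
  · intro h u hu
    rw [← hbil]
    exact h (rel e u) hu
  · intro h u hu
    have h2 := h ((rel e).symm u) (by
      change rel e ((rel e).symm u) ∈ E
      rwa [LinearEquiv.apply_symm_apply])
    rw [← hbil, LinearEquiv.apply_symm_apply] at h2
    exact h2

theorem fv_congr {p q : ℝ} {α β : Type*} [Fintype α] [DecidableEq α] [Fintype β] [DecidableEq β]
    (e : α ≃ β) (h : FV p q α) : FV p q β := by
  intro E s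
  rw [prob_comp (symEquiv e.symm), ← Fintype.card_congr e]
  refine le_trans (le_of_eq ?_) (h (E.comap (rel e).toLinearMap) s)
  congr 1
  ext b
  simp only [Set.mem_ofPred_eq]
  rw [rad_congr e E b]

open Classical in
/-- indicator -/
noncomputable def ind (P : Prop) : ℝ := if P then 1 else 0

theorem ind_of {P : Prop} (h : P) : ind P = 1 := by unfold ind; rw [if_pos h]
theorem ind_not {P : Prop} (h : ¬ P) : ind P = 0 := by unfold ind; rw [if_neg h]
theorem ind_nonneg (P : Prop) : 0 ≤ ind P := by unfold ind; split_ifs <;> norm_num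
theorem ind_le_one (P : Prop) : ind P ≤ 1 := by unfold ind; split_ifs <;> norm_num
theorem ind_mono {P Q : Prop} (h : P → Q) : ind P ≤ ind Q := by
  by_cases hP : P
  · rw [ind_of hP, ind_of (h hP)]
  · rw [ind_not hP]
    exact ind_nonneg _

theorem prob_ind {ι : Type*} [Fintype ι] [DecidableEq ι] (p : ℝ) (P : (ι → Bool) → Prop) :
    bernoulliProb p {ω | P ω} = ex p (fun ω => ind (P ω)) := by
  classical
  rw [prob_eq_ex]
  refine ex_congr p fun ω => ?_
  by_cases h : P ω
  · rw [ind_of h]
    exact if_pos h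
  · rw [ind_not h]
    exact if_neg h

theorem fv_option {p q : ℝ} (hp0 : 0 ≤ p) (hp1 : p ≤ 1) (hpq : p ≤ q) (hpq' : 1 - p ≤ q)
    (hq1 : q ≤ 1) {α : Type*} [Fintype α] [DecidableEq α] (h : FV p q α) :
    FV p q (Option α) := by
  have hq0 : 0 ≤ q := hp0.trans hpq
  intro E s
  rcases Nat.eq_zero_or_pos s with hs | hs
  · subst hs
    refine (prob_le_one hp0 hp1 _).trans ?_
    simp only [Nat.choose_zero_succ, pow_zero, mul_one]
    exact one_le_pow₀ (by norm_num)
  obtain ⟨t, rfl⟩ : ∃ t, s = t + 1 := ⟨s - 1, by omega⟩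
  rw [prob_ind, ex_glue]
  by_cases hE : ∃ f ∈ E, f none ≠ 0
  · obtain ⟨f, hf, hne⟩ := hE
    set g : α → ℚ := fun a => (f none)⁻¹ * f (some a) with hg
    have hgE : cons 1 g ∈ E := by
      have : cons 1 g = (f none)⁻¹ • f := by
        funext o
        cases o with
        | none => simp [hne]
        | some a => simp [hg]
      rw [this]
      exact E.smul_mem _ hf
    set N : (Sym2 α → Bool) → Submodule ℚ (α → ℚ) := fun b => Rad (mq b) (low E) with hN
    have hA := h (low E) (t + 2)
    have hB := h (low E) t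
    rw [prob_ind] at hA hB
    have key : ∀ b : Sym2 α → Bool,
        ex p (fun x : α → Bool => p * ind (t + 1 ≤ finrank ℚ (Rad (mq (glue b x true)) E)) +
          (1 - p) * ind (t + 1 ≤ finrank ℚ (Rad (mq (glue b x false)) E))) ≤
        ind (t + 2 ≤ finrank ℚ (N b)) + q ^ t * ind (t ≤ finrank ℚ (N b)) := by
      intro b
      have hod := odlyzko hp0 hp1 hpq hpq' hq1 (N b) (fun u => - (u ⬝ᵥ mq b *ᵥ g))
      rw [prob_ind] at hod
      calc _ ≤ ex p (fun x : α → Bool => ind (t + 2 ≤ finrank ℚ (N b)) +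
            ind (t ≤ finrank ℚ (N b)) *
              ind (∀ u ∈ N b, u ⬝ᵥ sq x = - (u ⬝ᵥ mq b *ᵥ g))) := by
            refine ex_mono hp0 hp1 fun x => ?_
            have hd : ∀ d : Bool, ind (t + 1 ≤ finrank ℚ (Rad (mq (glue b x d)) E)) ≤
                ind (t + 2 ≤ finrank ℚ (N b)) + ind (t ≤ finrank ℚ (N b)) *
                  ind (∀ u ∈ N b, u ⬝ᵥ sq x = - (u ⬝ᵥ mq b *ᵥ g)) := by
              intro d
              by_cases h1 : t + 1 ≤ finrank ℚ (Rad (mq (glue b x d)) E)
              · rw [ind_of h1]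
                rcases step_claim E hgE b x d h1 with h2 | ⟨h2, h3⟩
                · rw [ind_of (P := t + 2 ≤ finrank ℚ (N b)) h2]
                  have := mul_nonneg (ind_nonneg (t ≤ finrank ℚ (N b)))
                    (ind_nonneg (∀ u ∈ N b, u ⬝ᵥ sq x = - (u ⬝ᵥ mq b *ᵥ g)))
                  linarith
                · rw [ind_of (P := t ≤ finrank ℚ (N b)) h2, ind_of (P := ∀ u ∈ N b,
                    u ⬝ᵥ sq x = - (u ⬝ᵥ mq b *ᵥ g)) h3]
                  have := ind_nonneg (t + 2 ≤ finrank ℚ (N b))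
                  linarith
              · rw [ind_not h1]
                have := mul_nonneg (ind_nonneg (t ≤ finrank ℚ (N b)))
                    (ind_nonneg (∀ u ∈ N b, u ⬝ᵥ sq x = - (u ⬝ᵥ mq b *ᵥ g)))
                have := ind_nonneg (t + 2 ≤ finrank ℚ (N b))
                linarith
            have h1 := hd true
            have h2 := hd false
            nlinarith
        _ = ind (t + 2 ≤ finrank ℚ (N b)) + ind (t ≤ finrank ℚ (N b)) *
              ex p (fun x : α → Bool => ind (∀ u ∈ N b, u ⬝ᵥ sq x = - (u ⬝ᵥ mq b *ᵥ g))) := by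
            rw [ex_add, ex_const, ex_smul]
        _ ≤ ind (t + 2 ≤ finrank ℚ (N b)) + q ^ t * ind (t ≤ finrank ℚ (N b)) := by
            by_cases h1 : t ≤ finrank ℚ (N b)
            · rw [ind_of h1]
              have h2 : q ^ finrank ℚ (N b) ≤ q ^ t := pow_le_pow_of_le_one hq0 hq1 h1
              linarith
            · rw [ind_not h1]
              simp
    calc _ ≤ ex p (fun b : Sym2 α → Bool => ind (t + 2 ≤ finrank ℚ (N b)) +
          q ^ t * ind (t ≤ finrank ℚ (N b))) := ex_mono hp0 hp1 key
      _ = ex p (fun b : Sym2 α → Bool => ind (t + 2 ≤ finrank ℚ (N b))) +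
          q ^ t * ex p (fun b : Sym2 α → Bool => ind (t ≤ finrank ℚ (N b))) := by
          rw [ex_add, ex_smul]
      _ ≤ 2 ^ Fintype.card α * q ^ (t + 2).choose 2 +
          q ^ t * (2 ^ Fintype.card α * q ^ t.choose 2) :=
          add_le_add hA (mul_le_mul_of_nonneg_left hB (pow_nonneg hq0 _))
      _ ≤ 2 ^ Fintype.card (Option α) * q ^ (t + 1).choose 2 := by
          have e1 : (t + 2).choose 2 = (t + 1) + (t + 1).choose 2 := by
            rw [Nat.choose_succ_succ' (t + 1) 1, Nat.choose_one_right]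
          have e2 : (t + 1).choose 2 = t + t.choose 2 := by
            rw [Nat.choose_succ_succ' t 1, Nat.choose_one_right]
          have e3 : q ^ (t + 2).choose 2 ≤ q ^ (t + 1).choose 2 :=
            pow_le_pow_of_le_one hq0 hq1 (by omega)
          have e4 : q ^ t * (2 ^ Fintype.card α * q ^ t.choose 2) =
              2 ^ Fintype.card α * q ^ (t + 1).choose 2 := by
            rw [e2, pow_add]
            ring
          rw [e4, Fintype.card_option, pow_succ]
          have : (0:ℝ) < 2 ^ Fintype.card α := by positivity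
          nlinarith
  · push Not at hE
    have hz : ∀ (b : Sym2 α → Bool) (x : α → Bool) (d : Bool),
        finrank ℚ (Rad (mq (glue b x d)) E) ≤ finrank ℚ (Rad (mq b) (low E)) := by
      intro b x d
      refine le_trans ?_ (Submodule.finrank_mono (low_Rad_le E b x d))
      let ψ : Rad (mq (glue b x d)) E →ₗ[ℚ] low (Rad (mq (glue b x d)) E) :=
        { toFun := fun w => ⟨fun a => w.1 (some a), by
            rw [mem_low, ← hE w.1 w.2.1, cons_eta]
            exact w.2⟩
          map_add' := fun a b => rfl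
          map_smul' := fun c a => rfl }
      refine LinearMap.finrank_le_finrank_of_injective (f := ψ) ?_
      intro a b' hab
      apply Subtype.ext
      funext o
      cases o with
      | none => rw [hE a.1 a.2.1, hE b'.1 b'.2.1]
      | some i =>
        have := congrArg (fun (w : low (Rad (mq (glue b x d)) E)) => w.1 i) hab
        exact this
    have hA := h (low E) (t + 1)
    rw [prob_ind] at hA
    calc _ ≤ ex p (fun b : Sym2 α → Bool => ind (t + 1 ≤ finrank ℚ (Rad (mq b) (low E)))) := by
          refine ex_mono hp0 hp1 fun b => ?_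
          rw [← ex_const (ι := α) p (ind (t + 1 ≤ finrank ℚ (Rad (mq b) (low E))))]
          refine ex_mono hp0 hp1 fun x => ?_
          have hd : ∀ d : Bool, ind (t + 1 ≤ finrank ℚ (Rad (mq (glue b x d)) E)) ≤
              ind (t + 1 ≤ finrank ℚ (Rad (mq b) (low E))) := by
            intro d
            exact ind_mono fun h1 => h1.trans (hz b x d)
          have h1 := hd true
          have h2 := hd false
          nlinarith
      _ ≤ 2 ^ Fintype.card α * q ^ (t + 1).choose 2 := hA
      _ ≤ 2 ^ Fintype.card (Option α) * q ^ (t + 1).choose 2 := by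
          rw [Fintype.card_option, pow_succ]
          have : (0:ℝ) ≤ 2 ^ Fintype.card α * q ^ (t + 1).choose 2 := by positivity
          linarith

theorem fv_empty {p q : ℝ} (hp0 : 0 ≤ p) (hp1 : p ≤ 1) (hq0 : 0 ≤ q) {α : Type*} [Fintype α]
    [DecidableEq α] [IsEmpty α] : FV p q α := by
  intro E s
  rcases Nat.eq_zero_or_pos s with hs | hs
  · subst hs
    refine (prob_le_one hp0 hp1 _).trans ?_
    simp
  · have h0 : {b : Sym2 α → Bool | s ≤ finrank ℚ (Rad (mq b) E)} = ∅ := by
      ext b
      simp only [Set.mem_ofPred_eq, Set.mem_empty_iff_false, iff_false, not_le]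
      have h := Submodule.finrank_le (Rad (mq b) E)
      have h' : finrank ℚ (α → ℚ) = 0 := by simp
      omega
    rw [h0, prob_empty]
    positivity

theorem fv_fin {p q : ℝ} (hp0 : 0 ≤ p) (hp1 : p ≤ 1) (hpq : p ≤ q) (hpq' : 1 - p ≤ q)
    (hq1 : q ≤ 1) (n : ℕ) : FV p q (Fin n) := by
  induction n with
  | zero => exact fv_empty hp0 hp1 (hp0.trans hpq)
  | succ n ih => exact fv_congr (finSuccEquiv n).symm (fv_option hp0 hp1 hpq hpq' hq1 ih)

/-- **Fixed subspace bound**: the radical of the random symmetric sign matrix on a fixed subspace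
has dimension at least `s` with probability at most `2^|α| q^{s(s-1)/2}`. -/
theorem fixV {p q : ℝ} (hp0 : 0 ≤ p) (hp1 : p ≤ 1) (hpq : p ≤ q) (hpq' : 1 - p ≤ q)
    (hq1 : q ≤ 1) {α : Type*} [Fintype α] [DecidableEq α] (E : Submodule ℚ (α → ℚ)) (s : ℕ) :
    bernoulliProb p {b : Sym2 α → Bool | s ≤ finrank ℚ (Rad (mq b) E)} ≤
      2 ^ Fintype.card α * q ^ s.choose 2 :=
  fv_congr (Fintype.equivFin α).symm (fv_fin hp0 hp1 hpq hpq' hq1 _) E s

end Crest.Agent.R152.FixV
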