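import Crest.Agent.R152.Base3

set_option autoImplicit false
set_option linter.unusedSectionVars false
set_option linter.deprecated false

/-! Row 152, module GI (good index), part 1: splitting the coins, conditional bounds, and the
abstract "shrinking" lemma: independent random rows that all have to annihilate a common good
vector of a module of small length. -/

open Crest.FinProb Crest.ProbabilityR.SignMatrix
open Crest.Agent.R152.Base

namespace Crest.Agent.R152.GI

section Split
variable {I : Type*} [Fintype I] [DecidableEq I]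

/-- glue coins on `P` and coins on the complement -/
def mrg (P : I → Prop) [DecidablePred P] (a : {z // P z} → Bool) (c : {z // ¬ P z} → Bool) :
    I → Bool := fun z => if h : P z then a ⟨z, h⟩ else c ⟨z, h⟩

theorem mrg_pos (P : I → Prop) [DecidablePred P] (a : {z // P z} → Bool)
    (c : {z // ¬ P z} → Bool) {z : I} (h : P z) : mrg P a c z = a ⟨z, h⟩ := by
  simp [mrg, h]

theorem mrg_neg (P : I → Prop) [DecidablePred P] (a : {z // P z} → Bool)
    (c : {z // ¬ P z} → Bool) {z : I} (h : ¬ P z) : mrg P a c z = c ⟨z, h⟩ := by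
  simp [mrg, h]

theorem ex_split (P : I → Prop) [DecidablePred P] (p : ℝ) (F : (I → Bool) → ℝ) :
    ex p F = ex p (fun a : {z // P z} → Bool => ex p (fun c : {z // ¬ P z} → Bool =>
      F (mrg P a c))) := by
  rw [ex_comp (Equiv.sumCompl P).symm, ex_sumType]
  refine ex_congr p fun a => ex_congr p fun c => ?_
  congr 1
  funext z
  by_cases h : P z
  · simp [mrg, h, Equiv.sumCompl_symm_apply_of_pos h]
  · simp [mrg, h, Equiv.sumCompl_symm_apply_of_neg h]

/-- conditional bound: fix the coins on `P` -/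
theorem prob_le_cond (P : I → Prop) [DecidablePred P] {p : ℝ} (hp0 : 0 ≤ p) (hp1 : p ≤ 1)
    (E : Set (I → Bool)) {δ : ℝ}
    (h : ∀ a : {z // P z} → Bool,
      bernoulliProb p {c : {z // ¬ P z} → Bool | mrg P a c ∈ E} ≤ δ) :
    bernoulliProb p E ≤ δ := by
  classical
  rw [prob_eq_ex, ex_split P]
  calc _ ≤ ex p (fun _ : {z // P z} → Bool => δ) := ex_mono hp0 hp1 fun a => ?_
    _ = δ := ex_const p δ
  have := h a
  rw [prob_eq_ex] at this
  simpa using this

/-- conditional bound, with an exceptional set depending on the coins on `P` only -/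
theorem prob_le_cond_add (P : I → Prop) [DecidablePred P] {p : ℝ} (hp0 : 0 ≤ p) (hp1 : p ≤ 1)
    (E : Set (I → Bool)) (B : Set ({z // P z} → Bool)) {δ : ℝ} (hδ : 0 ≤ δ)
    (h : ∀ a : {z // P z} → Bool, a ∉ B →
      bernoulliProb p {c : {z // ¬ P z} → Bool | mrg P a c ∈ E} ≤ δ) :
    bernoulliProb p E ≤ bernoulliProb p B + δ := by
  classical
  rw [prob_eq_ex, ex_split P, prob_eq_ex]
  calc _ ≤ ex p (fun a : {z // P z} → Bool => (if a ∈ B then (1:ℝ) else 0) + δ) :=
        ex_mono hp0 hp1 fun a => ?_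
    _ = _ := by rw [ex_add, ex_const]
  by_cases ha : a ∈ B
  · have h1 : ex p (fun c : {z // ¬ P z} → Bool => if mrg P a c ∈ E then (1:ℝ) else 0) ≤ 1 := by
      have := prob_le_one hp0 hp1 {c : {z // ¬ P z} → Bool | mrg P a c ∈ E}
      rw [prob_eq_ex] at this
      simpa using this
    simp only [ha, if_true]
    linarith
  · have := h a ha
    rw [prob_eq_ex] at this
    simpa [ha] using this

/-- the event only depends on the coins in `P` -/
theorem prob_of_left (P : I → Prop) [DecidablePred P] (p : ℝ)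
    (E : Set (I → Bool)) (B : Set ({z // P z} → Bool))
    (h : ∀ a c, mrg P a c ∈ E ↔ a ∈ B) :
    bernoulliProb p E = bernoulliProb p B := by
  classical
  rw [prob_eq_ex, ex_split P, prob_eq_ex]
  refine ex_congr p fun a => ?_
  simp only [h]
  exact ex_const p _

end Split

section Shrink
variable {J : Type*} [Fintype J] [DecidableEq J]

/-- **Shrinking lemma.**  `H` = current module (element of a meet semilattice with a strictly
monotone length), `Rr x` = elements annihilated by the row `x`. If for every good `H` a random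
row annihilates all of `H` with probability at most `ρ`, then the probability that all rows of a
family of `m` independent random rows annihilate a common good `H' ≤ H` is at most `Bd m (len H)`,
for every function `Bd` that satisfies the natural recursion. -/
theorem shrink {p : ℝ} (hp0 : 0 ≤ p) (hp1 : p ≤ 1) {L : Type*} [SemilatticeInf L]
    (Rr : (J → Bool) → L) (len : L → ℕ) (good : L → Prop)
    (hgood : ∀ H H' : L, H' ≤ H → good H' → good H)
    (hlen : ∀ H H' : L, H' < H → len H' < len H)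
    (ρ : ℝ) (hρ0 : 0 ≤ ρ)
    (hρ : ∀ H : L, good H → bernoulliProb p {x : J → Bool | H ≤ Rr x} ≤ ρ)
    (Bd : ℕ → ℕ → ℝ) (hB0 : ∀ s, 1 ≤ Bd 0 s) (hBmono : ∀ m s s', s ≤ s' → Bd m s ≤ Bd m s')
    (hBnn : ∀ m s, 0 ≤ Bd m s)
    (hBs : ∀ m s, ρ * Bd m (s + 1) + Bd m s ≤ Bd (m + 1) (s + 1))
    (hBz : ∀ m, ρ * Bd m 0 ≤ Bd (m + 1) 0)
    (R : Type*) [Fintype R] [DecidableEq R] (H : L) :
    bernoulliProb p {ω : R × J → Bool | ∃ H' ≤ H, good H' ∧ ∀ i : R, H' ≤ Rr (fun j => ω (i, j))} ≤
      Bd (Fintype.card R) (len H) := by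
  classical
  -- reduce to `Fin m`
  suffices hfin : ∀ (m : ℕ) (H : L),
      bernoulliProb p {ω : Fin m × J → Bool |
        ∃ H' ≤ H, good H' ∧ ∀ i : Fin m, H' ≤ Rr (fun j => ω (i, j))} ≤ Bd m (len H) by
    have h := hfin (Fintype.card R) H
    have h2 := prob_comp (Equiv.prodCongrLeft (fun _ : J => (Fintype.equivFin R))) p
      {ω : R × J → Bool | ∃ H' ≤ H, good H' ∧ ∀ i : R, H' ≤ Rr (fun j => ω (i, j))}
    rw [h2]
    refine le_trans (le_of_eq ?_) h
    congr 1
    ext ω
    simp only [Set.mem_setOf_eq]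
    constructor
    · rintro ⟨H', h1, h3, h4⟩
      refine ⟨H', h1, h3, fun i => ?_⟩
      have := h4 ((Fintype.equivFin R).symm i)
      simpa using this
    · rintro ⟨H', h1, h3, h4⟩
      refine ⟨H', h1, h3, fun i => ?_⟩
      have := h4 ((Fintype.equivFin R) i)
      simpa using this
  intro m
  induction m with
  | zero =>
    intro H
    exact (prob_le_one hp0 hp1 _).trans (hB0 _)
  | succ m ih =>
    intro H
    -- if `H` is not good the event is empty
    by_cases hg : good H
    swap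
    · have : {ω : Fin (m + 1) × J → Bool |
          ∃ H' ≤ H, good H' ∧ ∀ i : Fin (m + 1), H' ≤ Rr (fun j => ω (i, j))} = ∅ := by
        ext ω
        simp only [Set.mem_setOf_eq, Set.mem_empty_iff_false, iff_false]
        rintro ⟨H', h1, h2, -⟩
        exact hg (hgood _ _ h1 h2)
      rw [this, prob_empty]
      exact hBnn _ _
    -- split off the first row
    let e : Fin (m + 1) × J ≃ J ⊕ Fin m × J :=
      (Equiv.prodCongrLeft (fun _ : J => finSuccEquiv m)).trans optionProdEquiv
    have key : ∀ x : J → Bool, bernoulliProb p {ω' : Fin m × J → Bool |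
        (Sum.elim x ω') ∘ e ∈ {ω : Fin (m + 1) × J → Bool |
          ∃ H' ≤ H, good H' ∧ ∀ i : Fin (m + 1), H' ≤ Rr (fun j => ω (i, j))}} ≤
        Bd m (len (H ⊓ Rr x)) := by
      intro x
      refine (prob_mono hp0 hp1 ?_).trans (ih (H ⊓ Rr x))
      intro ω' hω'
      obtain ⟨H', h1, h2, h3⟩ := hω'
      refine ⟨H', le_inf h1 ?_, h2, fun i => ?_⟩
      · have := h3 0
        simpa [e] using this
      · have := h3 i.succ
        simpa [e] using this
    rw [prob_eq_ex, ex_comp e, ex_sumType]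
    have hle : ∀ x : J → Bool, ex p (fun ω' : Fin m × J → Bool =>
        (if (Sum.elim x ω') ∘ e ∈ {ω : Fin (m + 1) × J → Bool |
          ∃ H' ≤ H, good H' ∧ ∀ i : Fin (m + 1), H' ≤ Rr (fun j => ω (i, j))} then (1:ℝ) else 0)) ≤
        Bd m (len (H ⊓ Rr x)) := by
      intro x
      have := key x
      rwa [prob_eq_ex] at this
    rcases Nat.eq_zero_or_pos (len H) with h0 | hpos
    · -- length zero: every row annihilates
      have hall : ∀ x, len (H ⊓ Rr x) < len H → False := by
        intro x hx; omega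
      calc ex p (fun x : J → Bool => ex p (fun ω' : Fin m × J → Bool =>
            (if (Sum.elim x ω') ∘ e ∈ {ω : Fin (m + 1) × J → Bool |
              ∃ H' ≤ H, good H' ∧ ∀ i : Fin (m + 1), H' ≤ Rr (fun j => ω (i, j))} then (1:ℝ) else 0)))
          ≤ ex p (fun x : J → Bool => Bd m 0 * (if x ∈ {x : J → Bool | H ≤ Rr x} then (1:ℝ) else 0)) := by
            refine ex_mono hp0 hp1 fun x => ?_
            by_cases hx : H ≤ Rr x
            · have h1 := hle x
              rw [inf_eq_left.2 hx, h0] at h1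
              have h5 : x ∈ {x : J → Bool | H ≤ Rr x} := hx
              rw [if_pos h5, mul_one]
              exact h1
            · exfalso
              exact hall x (hlen _ _ (lt_of_le_of_ne inf_le_left (fun h => hx (inf_eq_left.1 h))))
        _ = Bd m 0 * bernoulliProb p {x : J → Bool | H ≤ Rr x} := by
            rw [ex_smul, ← prob_eq_ex]
        _ ≤ Bd m 0 * ρ := mul_le_mul_of_nonneg_left (hρ H hg) (hBnn _ _)
        _ ≤ Bd (m + 1) (len H) := by rw [h0, mul_comm]; exact hBz m
    · obtain ⟨s, hs⟩ : ∃ s, len H = s + 1 := ⟨len H - 1, by omega⟩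
      calc ex p (fun x : J → Bool => ex p (fun ω' : Fin m × J → Bool =>
            (if (Sum.elim x ω') ∘ e ∈ {ω : Fin (m + 1) × J → Bool |
              ∃ H' ≤ H, good H' ∧ ∀ i : Fin (m + 1), H' ≤ Rr (fun j => ω (i, j))} then (1:ℝ) else 0)))
          ≤ ex p (fun x : J → Bool => Bd m (s + 1) *
              (if x ∈ {x : J → Bool | H ≤ Rr x} then (1:ℝ) else 0) + Bd m s) := by
            refine ex_mono hp0 hp1 fun x => ?_
            by_cases hx : H ≤ Rr x
            · have h1 := hle x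
              rw [inf_eq_left.2 hx, hs] at h1
              have h5 : x ∈ {x : J → Bool | H ≤ Rr x} := hx
              rw [if_pos h5, mul_one]
              exact h1.trans (by linarith [hBnn m s])
            · have h1 := hle x
              have h2 : len (H ⊓ Rr x) < len H :=
                hlen _ _ (lt_of_le_of_ne inf_le_left (fun h => hx (inf_eq_left.1 h)))
              have h3 := hBmono m (len (H ⊓ Rr x)) s (by omega)
              have h5 : x ∉ {x : J → Bool | H ≤ Rr x} := hx
              rw [if_neg h5, mul_zero, zero_add]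
              exact h1.trans h3
        _ = Bd m (s + 1) * bernoulliProb p {x : J → Bool | H ≤ Rr x} + Bd m s := by
            rw [ex_add, ex_smul, ← prob_eq_ex, ex_const]
        _ ≤ Bd m (s + 1) * ρ + Bd m s := by
            have := mul_le_mul_of_nonneg_left (hρ H hg) (hBnn m (s + 1))
            linarith
        _ ≤ Bd (m + 1) (len H) := by
            rw [hs, mul_comm]; exact hBs m s

/-- first explicit bound: `2^m ρ^(m-s)` -/
theorem shrink_two {p : ℝ} (hp0 : 0 ≤ p) (hp1 : p ≤ 1) {L : Type*} [SemilatticeInf L]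
    (Rr : (J → Bool) → L) (len : L → ℕ) (good : L → Prop)
    (hgood : ∀ H H' : L, H' ≤ H → good H' → good H)
    (hlen : ∀ H H' : L, H' < H → len H' < len H)
    (ρ : ℝ) (hρ0 : 0 ≤ ρ) (hρ1 : ρ ≤ 1)
    (hρ : ∀ H : L, good H → bernoulliProb p {x : J → Bool | H ≤ Rr x} ≤ ρ)
    (R : Type*) [Fintype R] [DecidableEq R] (H : L) :
    bernoulliProb p {ω : R × J → Bool | ∃ H' ≤ H, good H' ∧ ∀ i : R, H' ≤ Rr (fun j => ω (i, j))} ≤
      2 ^ (Fintype.card R) * ρ ^ (Fintype.card R - len H) := by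
  refine shrink hp0 hp1 Rr len good hgood hlen ρ hρ0 hρ (fun m s => 2 ^ m * ρ ^ (m - s)) ?_ ?_ ?_ ?_ ?_
    R H
  · intro s; simp
  · intro m s s' h
    exact mul_le_mul_of_nonneg_left (pow_le_pow_of_le_one hρ0 hρ1 (by omega)) (by positivity)
  · intro m s; positivity
  · intro m s
    have e1 : m + 1 - (s + 1) = m - s := by omega
    have h1 : ρ * ρ ^ (m - (s + 1)) ≤ ρ ^ (m - s) := by
      rw [← pow_succ']
      exact pow_le_pow_of_le_one hρ0 hρ1 (by omega)
    have h2 : (0:ℝ) < 2 ^ m := by positivity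
    simp only [e1]
    calc ρ * (2 ^ m * ρ ^ (m - (s + 1))) + 2 ^ m * ρ ^ (m - s)
        = 2 ^ m * (ρ * ρ ^ (m - (s + 1))) + 2 ^ m * ρ ^ (m - s) := by ring
      _ ≤ 2 ^ m * ρ ^ (m - s) + 2 ^ m * ρ ^ (m - s) := by
          have := mul_le_mul_of_nonneg_left h1 h2.le
          linarith
      _ = _ := by ring
  · intro m
    simp only [Nat.sub_zero]
    have : (0:ℝ) ≤ 2 ^ m * ρ ^ (m + 1) := by positivity
    calc ρ * (2 ^ m * ρ ^ m) = 2 ^ m * ρ ^ (m + 1) := by ring
      _ ≤ 2 ^ (m + 1) * ρ ^ (m + 1) := by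
          have : 2 ^ (m+1) * ρ ^ (m + 1) = 2 * (2 ^ m * ρ ^ (m + 1)) := by ring
          linarith

/-- second explicit bound: `(m+1)^s ρ^(m-s)` -/
theorem shrink_poly {p : ℝ} (hp0 : 0 ≤ p) (hp1 : p ≤ 1) {L : Type*} [SemilatticeInf L]
    (Rr : (J → Bool) → L) (len : L → ℕ) (good : L → Prop)
    (hgood : ∀ H H' : L, H' ≤ H → good H' → good H)
    (hlen : ∀ H H' : L, H' < H → len H' < len H)
    (ρ : ℝ) (hρ0 : 0 ≤ ρ) (hρ1 : ρ ≤ 1)
    (hρ : ∀ H : L, good H → bernoulliProb p {x : J → Bool | H ≤ Rr x} ≤ ρ)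
    (R : Type*) [Fintype R] [DecidableEq R] (H : L) :
    bernoulliProb p {ω : R × J → Bool | ∃ H' ≤ H, good H' ∧ ∀ i : R, H' ≤ Rr (fun j => ω (i, j))} ≤
      ((Fintype.card R : ℝ) + 1) ^ (len H) * ρ ^ (Fintype.card R - len H) := by
  refine shrink hp0 hp1 Rr len good hgood hlen ρ hρ0 hρ
    (fun m s => ((m : ℝ) + 1) ^ s * ρ ^ (m - s)) ?_ ?_ ?_ ?_ ?_ R H
  · intro s; simp
  · intro m s s' h
    have h1 : ((m:ℝ) + 1) ^ s ≤ ((m:ℝ) + 1) ^ s' :=
      pow_le_pow_right₀ (by have : (0:ℝ) ≤ m := Nat.cast_nonneg m; linarith) h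
    exact mul_le_mul h1 (pow_le_pow_of_le_one hρ0 hρ1 (by omega)) (by positivity) (by positivity)
  · intro m s; positivity
  · intro m s
    have e1 : m + 1 - (s + 1) = m - s := by omega
    have h1 : ρ * ρ ^ (m - (s + 1)) ≤ ρ ^ (m - s) := by
      rw [← pow_succ']
      exact pow_le_pow_of_le_one hρ0 hρ1 (by omega)
    have hm : (0:ℝ) ≤ m := Nat.cast_nonneg m
    have h2 : (0:ℝ) < ((m:ℝ) + 1) ^ (s + 1) := by positivity
    have h3 : ((m:ℝ) + 1) ^ (s + 1) + ((m:ℝ) + 1) ^ s ≤ ((m:ℝ) + 1 + 1) ^ (s + 1) := by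
      have h4 : ((m:ℝ) + 1) ^ s ≤ ((m:ℝ) + 1 + 1) ^ s :=
        pow_le_pow_left₀ (by linarith) (by linarith) s
      calc ((m:ℝ) + 1) ^ (s + 1) + ((m:ℝ) + 1) ^ s = ((m:ℝ) + 1) ^ s * (m + 1 + 1) := by ring
        _ ≤ ((m:ℝ) + 1 + 1) ^ s * (m + 1 + 1) := mul_le_mul_of_nonneg_right h4 (by linarith)
        _ = _ := by ring
    simp only [e1]
    push_cast
    calc ρ * (((m:ℝ) + 1) ^ (s + 1) * ρ ^ (m - (s + 1))) + ((m:ℝ) + 1) ^ s * ρ ^ (m - s)
        = ((m:ℝ) + 1) ^ (s + 1) * (ρ * ρ ^ (m - (s + 1))) + ((m:ℝ) + 1) ^ s * ρ ^ (m - s) := by ring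
      _ ≤ ((m:ℝ) + 1) ^ (s + 1) * ρ ^ (m - s) + ((m:ℝ) + 1) ^ s * ρ ^ (m - s) := by
          have := mul_le_mul_of_nonneg_left h1 h2.le
          linarith
      _ = (((m:ℝ) + 1) ^ (s + 1) + ((m:ℝ) + 1) ^ s) * ρ ^ (m - s) := by ring
      _ ≤ _ := mul_le_mul_of_nonneg_right h3 (by positivity)
  · intro m
    simp only [Nat.sub_zero, pow_zero, one_mul]
    exact le_of_eq (pow_succ' ρ m).symm

end Shrink

end Crest.Agent.R152.GI
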