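import Crest.Agent.R152.GI1

set_option autoImplicit false
set_option linter.unusedSectionVars false
set_option linter.deprecated false

/-! Row 152, module GI, part 2: a qualitative Littlewood-Offord lemma in arbitrary abelian groups.
If many of the `v j` have infinite or large order, then every value of the random subset sum
`∑_j ω_j v_j` has small probability. -/

open Crest.FinProb Crest.ProbabilityR.SignMatrix
open Crest.Agent.R152.Base

namespace Crest.Agent.R152.GI

section LO
variable {W : Type*} [AddCommGroup W]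

/-- random subset sum -/
def ssum {J : Type*} [Fintype J] (v : J → W) (ω : J → Bool) : W := ∑ j, if ω j then v j else 0

/-- order infinite or at least `Q` -/
def BigOrd (Q : ℕ) (u : W) : Prop := addOrderOf u = 0 ∨ Q ≤ addOrderOf u

theorem BigOrd.injOn {Q : ℕ} {u : W} (h : BigOrd Q u) :
    Set.InjOn (fun n : ℕ => n • u) (Set.Iio Q) := by
  rcases h with h | h
  · intro a _ b _ hab
    have := (injective_nsmul_iff_not_isOfFinAddOrder (x := u)).2 (addOrderOf_eq_zero_iff.1 h)
    exact this hab
  · intro a ha b hb hab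
    have h1 := nsmul_injOn_Iio_addOrderOf (x := u)
    exact h1 (lt_of_lt_of_le ha h) (lt_of_lt_of_le hb h) hab

theorem card_subsetSums [DecidableEq W] {R : Type*} [DecidableEq R] (Q : ℕ) (u : R → W)
    (S : Finset R) (hu : ∀ i ∈ S, BigOrd Q (u i)) :
    min Q (S.card + 1) ≤ (S.powerset.image (fun T => ∑ i ∈ T, u i)).card := by
  induction S using Finset.induction_on with
  | empty => simp
  | insert a S ha ih =>
    have ih' := ih (fun i hi => hu i (Finset.mem_insert_of_mem hi))
    set A := S.powerset.image (fun T => ∑ i ∈ T, u i) with hA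
    set A' := (insert a S).powerset.image (fun T => ∑ i ∈ T, u i) with hA'
    have hsub : A ⊆ A' := by
      refine Finset.image_subset_image ?_
      exact Finset.powerset_mono.2 (Finset.subset_insert a S)
    have hshift : ∀ x ∈ A, x + u a ∈ A' := by
      intro x hx
      obtain ⟨T, hT, rfl⟩ := Finset.mem_image.1 hx
      refine Finset.mem_image.2 ⟨insert a T, ?_, ?_⟩
      · exact Finset.mem_powerset.2 (Finset.insert_subset_insert a (Finset.mem_powerset.1 hT))
      · have : a ∉ T := fun h => ha (Finset.mem_powerset.1 hT h)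
        rw [Finset.sum_insert this, add_comm]
    by_cases hcl : ∀ x ∈ A, x + u a ∈ A
    · -- closed under adding `u a`
      have h0 : (0 : W) ∈ A := Finset.mem_image.2 ⟨∅, by simp, by simp⟩
      have hn : ∀ n : ℕ, n • u a ∈ A := by
        intro n
        induction n with
        | zero => simpa using h0
        | succ n ihn => rw [succ_nsmul]; exact hcl _ ihn
      have hQ : Q ≤ A.card := by
        have hinj := (hu a (Finset.mem_insert_self a S)).injOn
        have : (Finset.range Q).card ≤ A.card := by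
          refine Finset.card_le_card_of_injOn (fun n : ℕ => n • u a) (fun n _ => hn n) ?_
          intro x hx y hy hxy
          exact hinj (by simpa using hx) (by simpa using hy) hxy
        simpa using this
      exact (min_le_left _ _).trans (hQ.trans (Finset.card_le_card hsub))
    · push Not at hcl
      obtain ⟨x, hx, hx'⟩ := hcl
      have h1 : A.card + 1 ≤ A'.card := by
        have : insert (x + u a) A ⊆ A' := by
          intro y hy
          rcases Finset.mem_insert.1 hy with rfl | hy
          · exact hshift x hx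
          · exact hsub hy
        have h2 := Finset.card_le_card this
        rwa [Finset.card_insert_of_notMem hx'] at h2
      rw [Finset.card_insert_of_notMem ha]
      have : min Q (S.card + 1 + 1) ≤ min Q (S.card + 1) + 1 := by omega
      omega

theorem weight_ge {R : Type*} [Fintype R] {p : ℝ} (hp0 : 0 ≤ p) (hp1 : p ≤ 1)
    (ω : R → Bool) : (min p (1 - p)) ^ (Fintype.card R) ≤ bernoulliWeight p ω := by
  unfold bernoulliWeight
  have h0 : 0 ≤ min p (1 - p) := le_min hp0 (by linarith)
  calc (min p (1 - p)) ^ (Fintype.card R) = ∏ _i : R, min p (1 - p) := by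
        simp [Finset.prod_const, Finset.card_univ]
    _ ≤ _ := by
        refine Finset.prod_le_prod (fun i _ => h0) fun i _ => ?_
        split_ifs
        · exact min_le_left _ _
        · exact min_le_right _ _

/-- one block of `r` coins -/
theorem lo_step {R : Type*} [Fintype R] [DecidableEq R] {p : ℝ} (hp0 : 0 < p) (hp1 : p < 1)
    (Q : ℕ) (hQ : 0 < Q) (u : R → W) (hu : ∀ i, BigOrd Q (u i)) (f : W → ℝ) (M : ℝ)
    (hM : 0 ≤ M) (hfM : ∀ c, f c ≤ M) (hf0 : ∀ c, 0 ≤ f c)
    (hsum : ∀ F : Finset W, ∑ c ∈ F, f c ≤ 1) (c : W) :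
    ex p (fun ω : R → Bool => f (c - ssum u ω)) ≤
      max (2 / ((min Q (Fintype.card R + 1) : ℕ) : ℝ))
        ((1 - (min p (1 - p)) ^ (Fintype.card R) / 2) * M) := by
  classical
  set m0 := min p (1 - p) with hm0
  have hm0pos : 0 < m0 := lt_min hp0 (by linarith)
  set r := Fintype.card R with hr
  by_contra hcon
  push Not at hcon
  have h1 : (2 : ℝ) / (min Q (r + 1) : ℕ) < ex p (fun ω : R → Bool => f (c - ssum u ω)) :=
    lt_of_le_of_lt (le_max_left _ _) hcon
  have h2 : (1 - m0 ^ r / 2) * M < ex p (fun ω : R → Bool => f (c - ssum u ω)) :=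
    lt_of_le_of_lt (le_max_right _ _) hcon
  -- every value is large
  have h3 : ∀ ω : R → Bool, M / 2 < f (c - ssum u ω) := by
    intro ω
    have h4 : bernoulliWeight p ω * (M - f (c - ssum u ω)) ≤
        ex p (fun ω' : R → Bool => M - f (c - ssum u ω')) := by
      unfold ex
      exact Finset.single_le_sum (f := fun ω' : R → Bool =>
          bernoulliWeight p ω' * (M - f (c - ssum u ω')))
        (fun ω' _ => mul_nonneg (weight_nonneg hp0.le hp1.le ω') (by linarith [hfM (c - ssum u ω')]))
        (Finset.mem_univ ω)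
    have h5 : ex p (fun ω' : R → Bool => M - f (c - ssum u ω')) =
        M - ex p (fun ω' : R → Bool => f (c - ssum u ω')) := by
      have e1 : ex p (fun ω' : R → Bool => M - f (c - ssum u ω')) +
          ex p (fun ω' : R → Bool => f (c - ssum u ω')) = M := by
        rw [← ex_add]
        simpa using ex_const (ι := R) p M
      linarith
    have h6 : M - ex p (fun ω' : R → Bool => f (c - ssum u ω')) < m0 ^ r / 2 * M := by nlinarith
    have h7 : m0 ^ r * (M - f (c - ssum u ω)) ≤
        bernoulliWeight p ω * (M - f (c - ssum u ω)) :=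
      mul_le_mul_of_nonneg_right (weight_ge hp0.le hp1.le ω) (by linarith [hfM (c - ssum u ω)])
    have h8 : m0 ^ r * (M - f (c - ssum u ω)) < m0 ^ r / 2 * M := by linarith
    have h9 : 0 < m0 ^ r := by positivity
    nlinarith
  -- number of distinct values
  set F : Finset W := (Finset.univ : Finset (R → Bool)).image (fun ω => c - ssum u ω) with hF
  have hcard : min Q (r + 1) ≤ F.card := by
    have h4 := card_subsetSums Q u (Finset.univ : Finset R) (fun i _ => hu i)
    rw [Finset.card_univ] at h4
    refine h4.trans ?_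
    have h5 : ((Finset.univ : Finset R).powerset.image (fun T => ∑ i ∈ T, u i)).image
        (fun x => c - x) ⊆ F := by
      intro y hy
      obtain ⟨x, hx, rfl⟩ := Finset.mem_image.1 hy
      obtain ⟨T, -, rfl⟩ := Finset.mem_image.1 hx
      refine Finset.mem_image.2 ⟨fun i => decide (i ∈ T), Finset.mem_univ _, ?_⟩
      congr 1
      unfold ssum
      simp [Finset.sum_ite_mem]
    calc _ = (((Finset.univ : Finset R).powerset.image (fun T => ∑ i ∈ T, u i)).image
          (fun x => c - x)).card :=
            (Finset.card_image_of_injective _ sub_right_injective).symm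
      _ ≤ _ := Finset.card_le_card h5
  have hF1 : (F.card : ℝ) * (M / 2) ≤ ∑ x ∈ F, f x := by
    rw [← nsmul_eq_mul]
    refine Finset.card_nsmul_le_sum F f (M / 2) ?_
    intro x hx
    obtain ⟨ω, -, rfl⟩ := Finset.mem_image.1 hx
    exact (h3 ω).le
  have hmin : 0 < min Q (r + 1) := by omega
  have hminR : (0:ℝ) < (min Q (r + 1) : ℕ) := by exact_mod_cast hmin
  have hcardR : ((min Q (r + 1) : ℕ) : ℝ) ≤ F.card := by exact_mod_cast hcard
  have hle : ((min Q (r + 1) : ℕ) : ℝ) * (M / 2) ≤ 1 := by
    calc _ ≤ (F.card : ℝ) * (M / 2) := mul_le_mul_of_nonneg_right hcardR (by linarith)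
      _ ≤ _ := hF1
      _ ≤ 1 := hsum F
  have hM2 : M ≤ 2 / ((min Q (r + 1) : ℕ) : ℝ) := by
    rw [le_div_iff₀ hminR]
    linarith
  have hexM : ex p (fun ω : R → Bool => f (c - ssum u ω)) ≤ M := by
    calc _ ≤ ex p (fun _ : R → Bool => M) := ex_mono hp0.le hp1.le fun ω => hfM _
      _ = M := ex_const p M
  linarith

theorem ssum_split {J : Type*} [Fintype J] [DecidableEq J] (P : J → Prop) [DecidablePred P]
    (v : J → W) (a : {z // P z} → Bool) (c : {z // ¬ P z} → Bool) :
    ssum v (mrg P a c) = ssum (fun z : {z // P z} => v z) a +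
      ssum (fun z : {z // ¬ P z} => v z) c := by
  unfold ssum
  rw [← Fintype.sum_subtype_add_sum_subtype P]
  congr 1
  · refine Finset.sum_congr rfl fun z _ => ?_
    rw [mrg_pos P a c z.2]
  · refine Finset.sum_congr rfl fun z _ => ?_
    rw [mrg_neg P a c z.2]

theorem sum_prob_ssum_le {J : Type*} [Fintype J] [DecidableEq J] {p : ℝ} (hp0 : 0 ≤ p)
    (hp1 : p ≤ 1) (v : J → W) (F : Finset W) :
    ∑ c ∈ F, bernoulliProb p {ω : J → Bool | ssum v ω = c} ≤ 1 := by
  classical
  simp_rw [prob_eq_ex]
  rw [← ex_sum]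
  calc _ ≤ ex p (fun _ : J → Bool => (1:ℝ)) := ex_mono hp0 hp1 fun ω => ?_
    _ = 1 := ex_const p 1
  simp only [Set.mem_setOf_eq]
  rw [Finset.sum_ite_eq]
  split_ifs <;> norm_num

/-- iteration -/
theorem lo_iter {p : ℝ} (hp0 : 0 < p) (hp1 : p < 1) (Q : ℕ) (hQ : 0 < Q) (r : ℕ) (t : ℕ) :
    ∀ (J : Type) [Fintype J] [DecidableEq J] (v : J → W) (S : Finset J), r * t ≤ S.card →
    (∀ j ∈ S, BigOrd Q (v j)) → ∀ c : W,
    bernoulliProb p {ω : J → Bool | ssum v ω = c} ≤
      max (2 / ((min Q (r + 1) : ℕ) : ℝ)) ((1 - (min p (1 - p)) ^ r / 2) ^ t) := by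
  classical
  have hm0pos : 0 < min p (1 - p) := lt_min hp0 (by linarith)
  have hm01 : min p (1 - p) ≤ 1 := (min_le_left _ _).trans hp1.le
  have hη : (min p (1 - p)) ^ r ≤ 1 := pow_le_one₀ hm0pos.le hm01
  induction t with
  | zero =>
    intro J _ _ v S _ _ c
    simp only [pow_zero]
    exact (prob_le_one hp0.le hp1.le _).trans (le_max_right _ _)
  | succ t ih =>
    intro J _ _ v S hS hv c
    obtain ⟨S1, hS1, hcard⟩ := Finset.exists_subset_card_eq (s := S) (n := r) (by nlinarith)
    obtain ⟨P, hP⟩ : ∃ P : J → Prop, ∀ z, P z ↔ z ∈ S1 := ⟨fun z => z ∈ S1, fun z => Iff.rfl⟩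
    have : DecidablePred P := Classical.decPred P
    set M := max (2 / ((min Q (r + 1) : ℕ) : ℝ)) ((1 - (min p (1 - p)) ^ r / 2) ^ t) with hMdef
    have hM0 : 0 ≤ M := le_max_of_le_left (by positivity)
    -- law of the rest
    set f : W → ℝ := fun c => bernoulliProb p
      {ω : {z // ¬ P z} → Bool | ssum (fun z : {z // ¬ P z} => v z) ω = c} with hf
    have hfM : ∀ c, f c ≤ M := by
      intro c
      refine ih {z // ¬ P z} (fun z => v z) ((S \ S1).subtype (fun z => ¬ P z)) ?_ ?_ c
      · rw [Finset.card_subtype, Finset.filter_true_of_mem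
            (fun z hz => by rw [hP]; exact (Finset.mem_sdiff.1 hz).2),
          Finset.card_sdiff_of_subset hS1, hcard]
        have : r * (t + 1) = r * t + r := by ring
        omega
      · intro z hz
        rw [Finset.mem_subtype] at hz
        exact hv _ (Finset.mem_sdiff.1 hz).1
    have hstep := lo_step hp0 hp1 Q hQ (fun z : {z // P z} => v z)
      (fun z => hv _ (hS1 ((hP _).1 z.2))) f M hM0 hfM (fun c => prob_nonneg hp0.le hp1.le _)
      (fun F => sum_prob_ssum_le hp0.le hp1.le _ F) c
    have hcardS1 : Fintype.card {z // P z} = r := by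
      rw [← hcard]
      exact Fintype.card_of_subtype S1 (fun z => (hP z).symm)
    rw [hcardS1] at hstep
    have heq : bernoulliProb p {ω : J → Bool | ssum v ω = c} =
        ex p (fun ω : {z // P z} → Bool => f (c - ssum (fun z : {z // P z} => v z) ω)) := by
      rw [prob_eq_ex, ex_split P]
      refine ex_congr p fun a => ?_
      rw [hf]
      simp only
      rw [prob_eq_ex]
      refine ex_congr p fun b => ?_
      simp only [Set.mem_setOf_eq, ssum_split]
      refine if_congr ?_ rfl rfl
      constructor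
      · intro h; rw [← h]; abel
      · intro h; rw [h]; abel
    rw [heq]
    refine hstep.trans (max_le (le_max_left _ _) ?_)
    have h1 : 0 ≤ 1 - (min p (1 - p)) ^ r / 2 := by linarith
    have h2 : 1 - (min p (1 - p)) ^ r / 2 ≤ 1 := by
      have : 0 < (min p (1 - p)) ^ r := by positivity
      linarith
    rw [hMdef, mul_max_of_nonneg _ _ h1]
    refine max_le ?_ ?_
    · refine le_trans ?_ (le_max_left _ _)
      have : (0:ℝ) ≤ 2 / ((min Q (r + 1) : ℕ) : ℝ) := by positivity
      nlinarith
    · rw [← pow_succ']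
      exact le_max_right _ _

/-- **Qualitative Littlewood-Offord lemma in abelian groups.** -/
theorem lo_group {p : ℝ} (hp0 : 0 < p) (hp1 : p < 1) {ρ : ℝ} (hρ : 0 < ρ) :
    ∃ K Q : ℕ, 0 < K ∧ 0 < Q ∧ ∀ (W : Type) [AddCommGroup W] (J : Type) [Fintype J] [DecidableEq J]
      (v : J → W) (S : Finset J), K ≤ S.card → (∀ j ∈ S, BigOrd Q (v j)) → ∀ c : W,
      bernoulliProb p {ω : J → Bool | ssum v ω = c} ≤ ρ := by
  obtain ⟨r, hr⟩ := exists_nat_ge (2 / ρ)
  have hm0pos : 0 < min p (1 - p) := lt_min hp0 (by linarith)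
  have hm01 : min p (1 - p) ≤ 1 := (min_le_left _ _).trans hp1.le
  have hη : (min p (1 - p)) ^ r ≤ 1 := pow_le_one₀ hm0pos.le hm01
  have hη0 : 0 < (min p (1 - p)) ^ r := by positivity
  obtain ⟨t, ht⟩ := exists_pow_lt_of_lt_one hρ (show 1 - (min p (1 - p)) ^ r / 2 < 1 by linarith)
  refine ⟨r * t + 1, r + 1, by omega, by omega, ?_⟩
  intro W _ J _ _ v S hS hv c
  refine (lo_iter hp0 hp1 (r + 1) (by omega) r t J v S (by omega) hv c).trans (max_le ?_ ht.le)
  rw [min_self]
  rw [div_le_iff₀ (by positivity)]
  rw [div_le_iff₀ hρ] at hr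
  push_cast
  nlinarith

end LO

end Crest.Agent.R152.GI
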