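import Crest.Agent.R152.Lat1

set_option autoImplicit false
set_option linter.unusedSectionVars false

/-!
# Row 152, module GLO (helper184), part 1: duality step

`orth U` = integer vectors orthogonal to `U`; saturation; the key index inequality:
if `Λ' ≥ range A + U` (`A` symmetric, `det A ≠ 0`, `U` saturated), `E = orth U ≤ Np`, then
`A Np` has a superlattice `W` of the same rank with `lc W ≤ lc (A Np) - log [ℤ^ι : Λ']`.
-/

namespace Crest.Agent.R152.Glo

open Matrix Module Crest.Agent.R152.Lat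

variable {ι : Type*} [Fintype ι]

/-- saturated submodules -/
def IsSat (L : Submodule ℤ (ι → ℤ)) : Prop :=
  ∀ (m : ℤ) (x : ι → ℤ), m ≠ 0 → m • x ∈ L → x ∈ L

/-- orthogonal lattice -/
def orth (L : Submodule ℤ (ι → ℤ)) : Submodule ℤ (ι → ℤ) where
  carrier := {e | ∀ u ∈ L, e ⬝ᵥ u = 0}
  add_mem' := by
    intro a b ha hb u hu
    rw [add_dotProduct, ha u hu, hb u hu, add_zero]
  zero_mem' := by intro u _; simp
  smul_mem' := by
    intro c a ha u hu
    rw [smul_dotProduct, ha u hu, smul_zero]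

theorem mem_orth {L : Submodule ℤ (ι → ℤ)} {e : ι → ℤ} : e ∈ orth L ↔ ∀ u ∈ L, e ⬝ᵥ u = 0 :=
  Iff.rfl

theorem isSat_orth (L : Submodule ℤ (ι → ℤ)) : IsSat (orth L) := by
  intro m x hm hx u hu
  have := hx u hu
  rw [smul_dotProduct, smul_eq_mul] at this
  exact (mul_eq_zero.mp this).resolve_left hm

theorem orth_anti {L M : Submodule ℤ (ι → ℤ)} (h : L ≤ M) : orth M ≤ orth L :=
  fun _ he u hu => he u (h hu)

theorem le_orth_orth (L : Submodule ℤ (ι → ℤ)) : L ≤ orth (orth L) := by
  intro x hx e he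
  rw [dotProduct_comm]
  exact he x hx

/-- every functional on `ℤ^ι` is a dot product -/
theorem exists_rep [DecidableEq ι] (φ : (ι → ℤ) →ₗ[ℤ] ℤ) : ∃ v : ι → ℤ, ∀ x, φ x = v ⬝ᵥ x := by
  refine ⟨fun i => φ (Pi.single i 1), fun x => ?_⟩
  conv_lhs => rw [LinearMap.pi_apply_eq_sum_univ φ x]
  simp only [dotProduct, smul_eq_mul]
  refine Finset.sum_congr rfl fun i _ => ?_
  rw [mul_comm]
  congr 2
  funext j
  by_cases h : i = j <;> simp [h, eq_comm]

theorem orth_orth_of_sat [DecidableEq ι] {U : Submodule ℤ (ι → ℤ)} (hU : IsSat U) :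
    orth (orth U) = U := by
  refine le_antisymm ?_ (le_orth_orth U)
  intro x hx
  obtain ⟨k, bM, bN, f, a, snf⟩ := Submodule.smithNormalForm (Pi.basisFun ℤ ι) U
  have ha : ∀ i, a i ≠ 0 := by
    intro i h0
    have h1 := snf i
    rw [h0, zero_smul] at h1
    exact bN.ne_zero i (Subtype.ext h1)
  have hb : ∀ i, bM (f i) ∈ U := by
    intro i
    refine hU (a i) _ (ha i) ?_
    rw [← snf i]
    exact (bN i).2
  have hzero : ∀ j, j ∉ Set.range f → bM.repr x j = 0 := by
    intro j hj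
    obtain ⟨v, hv⟩ := exists_rep (bM.coord j)
    have hvU : v ∈ orth U := by
      intro u hu
      rw [← hv u]
      have := (⟨bM, bN, f, a, snf⟩ : Basis.SmithNormalForm U ι k).le_ker_coord_of_notMem_range hj hu
      exact this
    have h2 := hx v hvU
    rw [dotProduct_comm, ← hv x] at h2
    exact h2
  rw [← bM.sum_repr x]
  refine Submodule.sum_mem _ fun j _ => ?_
  by_cases hj : j ∈ Set.range f
  · obtain ⟨i, rfl⟩ := hj
    exact Submodule.smul_mem _ _ (hb i)
  · rw [hzero j hj, zero_smul]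
    exact Submodule.zero_mem _

section main
variable [DecidableEq ι]

theorem mulVec_injective {A : Matrix ι ι ℤ} (hdet : A.det ≠ 0) :
    Function.Injective (A.mulVecLin : (ι → ℤ) → ι → ℤ) := by
  intro x y h
  have h1 : A *ᵥ (x - y) = 0 := by
    rw [Matrix.mulVec_sub]
    have : A *ᵥ x = A *ᵥ y := h
    rw [this, sub_self]
  have h2 := Matrix.eq_zero_of_mulVec_eq_zero hdet h1
  exact sub_eq_zero.mp h2

/-- The duality/index step. -/
theorem exists_super {A : Matrix ι ι ℤ} (hA : Aᵀ = A) (hdet : A.det ≠ 0)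
    {U Lam Np : Submodule ℤ (ι → ℤ)} (hU : IsSat U)
    (hrange : LinearMap.range A.mulVecLin ≤ Lam) (hUL : U ≤ Lam) (hE : orth U ≤ Np) :
    ∃ W : Submodule ℤ (ι → ℤ), Np.map A.mulVecLin ≤ W ∧ rk W = rk (Np.map A.mulVecLin) ∧
      0 < Nat.card ((ι → ℤ) ⧸ Lam) ∧
      lc W + Real.log (Nat.card ((ι → ℤ) ⧸ Lam)) ≤ lc (Np.map A.mulVecLin) := by
  classical
  set E := orth U with hEdef
  set AE := E.map A.mulVecLin with hAE
  obtain ⟨k, bM, bN, f, a, snf⟩ := Submodule.smithNormalForm (Pi.basisFun ℤ ι) AE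
  have ha : ∀ i, a i ≠ 0 := by
    intro i h0
    have h1 := snf i
    rw [h0, zero_smul] at h1
    exact bN.ne_zero i (Subtype.ext h1)
  -- preimages
  have hpre : ∀ i, ∃ e, e ∈ E ∧ A *ᵥ e = a i • bM (f i) := by
    intro i
    have h1 : ((bN i : AE) : ι → ℤ) ∈ AE := (bN i).2
    obtain ⟨e, he, hee⟩ := Submodule.mem_map.mp h1
    refine ⟨e, he, ?_⟩
    rw [← snf i, ← hee]
    rfl
  choose e he hAe using hpre
  -- E is spanned by the e i
  have hspan : ∀ y ∈ E, ∃ c : Fin k → ℤ, y = ∑ i, c i • e i := by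
    intro y hy
    have h1 : A *ᵥ y ∈ AE := Submodule.mem_map.mpr ⟨y, hy, rfl⟩
    refine ⟨fun i => bN.repr ⟨A *ᵥ y, h1⟩ i, ?_⟩
    apply mulVec_injective hdet
    change A *ᵥ y = A.mulVecLin (∑ i, _)
    rw [map_sum]
    have h2 := bN.sum_repr ⟨A *ᵥ y, h1⟩
    have h3 := congrArg (fun x : AE => (x : ι → ℤ)) h2
    simp only [AddSubmonoidClass.coe_finsetSum, SetLike.val_smul] at h3
    refine h3.symm.trans (Finset.sum_congr rfl fun i _ => ?_)
    rw [map_smul]
    congr 1
    rw [snf i, ← hAe i]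
    rfl
  -- saturation of AE
  let S : Submodule ℤ (ι → ℤ) := Submodule.span ℤ (Set.range fun i => bM (f i))
  have hli : LinearIndependent ℤ (fun i => bM (f i)) := bM.linearIndependent.comp _ f.injective
  let bS : Basis (Fin k) ℤ S := Basis.span hli
  have hbS : ∀ i, (bS i : ι → ℤ) = bM (f i) := fun i => congrArg Subtype.val (Basis.span_apply hli i)
  set q : ℕ := ∏ i, (a i).natAbs with hq
  have hqpos : 0 < q := Finset.prod_pos fun i _ => Int.natAbs_pos.mpr (ha i)
  have hAES : AE ≤ S := by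
    intro y hy
    have h2 := bN.sum_repr ⟨y, hy⟩
    have h3 := congrArg (fun x : AE => (x : ι → ℤ)) h2
    simp only [AddSubmonoidClass.coe_finsetSum, SetLike.val_smul] at h3
    rw [← h3]
    refine Submodule.sum_mem _ fun i _ => Submodule.smul_mem _ _ ?_
    rw [snf i]
    exact Submodule.smul_mem _ _ (Submodule.subset_span ⟨i, rfl⟩)
  have hrkS : rk AE = rk S := by rw [rk_eq bN, rk_eq bS]
  -- index of AE in S
  have hdsc : dsc AE = (q : ℤ) ^ 2 * dsc S := by
    rw [dsc_eq bN, dsc_eq bS]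
    have h1 : (fun i => (bN i : ι → ℤ)) =
        fun i => ∑ j, (Matrix.diagonal a) i j • (bS j : ι → ℤ) := by
      funext i
      rw [snf i]
      simp [Matrix.diagonal_apply, hbS]
    rw [h1, det_gm_comb, Matrix.det_diagonal, hq]
    congr 1
    push_cast
    rw [← Finset.prod_pow, ← Finset.prod_pow]
    exact Finset.prod_congr rfl fun i _ => by rw [sq_abs]
  have hindS : ind AE S = q := by
    have h1 := dsc_of_le hAES hrkS
    rw [hdsc] at h1
    have h2 : (0 : ℤ) < dsc S := dsc_pos S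
    have h3 : ((q : ℤ)) ^ 2 = (ind AE S : ℤ) ^ 2 := by
      have := mul_right_cancel₀ h2.ne' h1
      exact this
    have h4 : (q : ℤ) = (ind AE S : ℤ) := by
      rcases sq_eq_sq_iff_eq_or_eq_neg.mp h3 with h | h
      · exact h
      · have : (0 : ℤ) ≤ ind AE S := by positivity
        have : (0 : ℤ) ≤ q := by positivity
        omega
    exact_mod_cast h4.symm
  -- the superlattice
  set AN := Np.map A.mulVecLin with hAN
  have hAEN : AE ≤ AN := Submodule.map_mono hE
  have hinf : AN ⊓ S = AE := by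
    refine le_antisymm ?_ (le_inf hAEN hAES)
    rintro y ⟨hy1, hy2⟩
    obtain ⟨v, hv, rfl⟩ := Submodule.mem_map.mp hy1
    refine Submodule.mem_map.mpr ⟨v, ?_, rfl⟩
    -- q • y ∈ AE
    have h1 : ∀ y ∈ S, (q : ℤ) • y ∈ AE := by
      intro y hy
      refine Submodule.span_induction (p := fun y _ => (q : ℤ) • y ∈ AE) ?_ ?_ ?_ ?_ hy
      · rintro _ ⟨i, rfl⟩
        have hd : (a i) ∣ (q : ℤ) := by
          have : (a i).natAbs ∣ q := Finset.dvd_prod_of_mem _ (Finset.mem_univ i)
          exact Int.natAbs_dvd.mp (by exact_mod_cast this)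
        obtain ⟨c, hc⟩ := hd
        rw [hc, mul_comm, mul_smul, ← snf i]
        exact Submodule.smul_mem _ _ (bN i).2
      · simp
      · intro x y _ _ hx hy
        rw [smul_add]; exact Submodule.add_mem _ hx hy
      · intro c x _ hx
        rw [smul_comm]; exact Submodule.smul_mem _ _ hx
    have h2 := h1 _ hy2
    obtain ⟨w, hw, hww⟩ := Submodule.mem_map.mp h2
    have h3 : w = (q : ℤ) • v := by
      apply mulVec_injective hdet
      rw [hww, map_smul]
    rw [h3] at hw
    exact isSat_orth U (q : ℤ) v (by exact_mod_cast hqpos.ne') hw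
  have hindW : ind AN (AN ⊔ S) = q := by
    rw [← hindS]
    unfold ind
    have e1 : (AN ⊔ S).toAddSubgroup = S.toAddSubgroup ⊔ AN.toAddSubgroup := by
      rw [sup_comm]
      exact Submodule.sup_toAddSubgroup S AN
    rw [e1, AddSubgroup.relIndex_sup_right]
    have e2 : AE.toAddSubgroup = AN.toAddSubgroup ⊓ S.toAddSubgroup := by
      rw [← hinf]
      rfl
    rw [e2, AddSubgroup.inf_relIndex_right]
  have hrkW : rk AN = rk (AN ⊔ S) := by
    have h1 := rk_modular AN S
    rw [hinf, hrkS] at h1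
    omega
  -- index of Lam
  have hidx : 0 < Nat.card ((ι → ℤ) ⧸ Lam) ∧ Nat.card ((ι → ℤ) ⧸ Lam) ≤ q := by
    have : ∀ i, NeZero (a i).natAbs := fun i => ⟨(Int.natAbs_pos.mpr (ha i)).ne'⟩
    let g : (ι → ℤ) →+ (∀ i : Fin k, ZMod (a i).natAbs) :=
      { toFun := fun z i => ((z ⬝ᵥ e i : ℤ) : ZMod (a i).natAbs)
        map_zero' := by funext i; simp
        map_add' := by intro x y; funext i; simp [add_dotProduct] }
    have hker : g.ker ≤ Lam.toAddSubgroup := by
      intro z hz
      have h1 : ∀ i, ∃ c : ℤ, z ⬝ᵥ e i = a i * c := by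
        intro i
        have h2 : g z i = 0 := congrFun (AddMonoidHom.mem_ker.mp hz) i
        have h3 : (((z ⬝ᵥ e i : ℤ)) : ZMod (a i).natAbs) = 0 := h2
        rw [ZMod.intCast_zmod_eq_zero_iff_dvd] at h3
        have h4 : a i ∣ z ⬝ᵥ e i := by
          have := Int.natAbs_dvd.mp h3
          exact this
        exact h4
      choose c hc using h1
      -- x with x ⬝ bM (f i) = c i
      obtain ⟨x, hx⟩ := exists_rep (∑ i, c i • bM.coord (f i))
      have hx2 : ∀ i, x ⬝ᵥ bM (f i) = c i := by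
        intro i
        rw [← hx]
        simp only [LinearMap.sum_apply, LinearMap.smul_apply, Basis.coord_apply, Basis.repr_self,
          Finsupp.single_apply, EmbeddingLike.apply_eq_iff_eq, smul_eq_mul, mul_ite, mul_one,
          mul_zero]
        simp
      have h5 : z - A *ᵥ x ∈ orth E := by
        intro y hy
        obtain ⟨d, rfl⟩ := hspan y hy
        rw [dotProduct_sum]
        refine Finset.sum_eq_zero fun i _ => ?_
        rw [dotProduct_smul, sub_dotProduct]
        have h6 : (A *ᵥ x) ⬝ᵥ e i = a i * c i := by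
          have : (A *ᵥ x) ⬝ᵥ e i = x ⬝ᵥ (A *ᵥ e i) := by
            rw [Matrix.dotProduct_mulVec, ← Matrix.mulVec_transpose, hA]
          rw [this, hAe i, dotProduct_smul, hx2 i, smul_eq_mul]
        rw [hc i, h6, sub_self, smul_zero]
      have h7 : z - A *ᵥ x ∈ Lam := hUL (by rw [← orth_orth_of_sat hU]; exact h5)
      have h8 : A *ᵥ x ∈ Lam := hrange ⟨x, rfl⟩
      have := Lam.add_mem h7 h8
      simpa using this
    have hcard1 : Nat.card ((ι → ℤ) ⧸ g.ker) ≤ q := by
      have h1 : Nat.card ((ι → ℤ) ⧸ g.ker) ≤ Nat.card (∀ i : Fin k, ZMod (a i).natAbs) :=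
        Nat.card_le_card_of_injective _ (QuotientAddGroup.kerLift_injective g)
      rw [Nat.card_pi] at h1
      simpa [hq] using h1
    have hfin : Finite ((ι → ℤ) ⧸ g.ker) :=
      Finite.of_injective _ (QuotientAddGroup.kerLift_injective g)
    have hne : g.ker.index ≠ 0 := by
      have : Nat.card ((ι → ℤ) ⧸ g.ker) ≠ 0 := Nat.card_pos.ne'
      exact this
    have hdvd : Lam.toAddSubgroup.index ∣ g.ker.index := AddSubgroup.index_dvd_of_le hker
    have hlam : Nat.card ((ι → ℤ) ⧸ Lam) = Lam.toAddSubgroup.index := rfl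
    constructor
    · rw [hlam]
      exact Nat.pos_of_ne_zero fun h0 => hne (by rw [h0] at hdvd; exact Nat.eq_zero_of_zero_dvd hdvd)
    · rw [hlam]
      exact (Nat.le_of_dvd (Nat.pos_of_ne_zero hne) hdvd).trans hcard1
  refine ⟨AN ⊔ S, le_sup_left, hrkW.symm, hidx.1, ?_⟩
  have h1 := lc_of_le (le_sup_left : AN ≤ AN ⊔ S) hrkW
  rw [h1, hindW]
  have h2 : Real.log (Nat.card ((ι → ℤ) ⧸ Lam)) ≤ Real.log q :=
    Real.log_le_log (by exact_mod_cast hidx.1) (by exact_mod_cast hidx.2)
  linarith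

end main

end Crest.Agent.R152.Glo
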