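import Crest.Agent.R152.Glo1
import Crest.Agent.R152.Lat3

set_option autoImplicit false
set_option linter.unusedSectionVars false
set_option linter.unusedVariables false

/-!
# Row 152, module GLO, part 2: the covolume of `A N`

`lc_map_le`: for injective `A`, `lc (A M) ≤ lc M + (r/2) log ((∑ a_ij²)/r)`, `r = rk M`.
-/

namespace Crest.Agent.R152.Glo

open Matrix Module Crest.Agent.R152.Lat

/-- determinant of a positive semidefinite matrix at most (trace / r)^r -/
theorem det_le_trace_pow {κ : Type*} [Fintype κ] [DecidableEq κ] {P : Matrix κ κ ℝ}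
    (hP : P.PosSemidef) (hr : 0 < Fintype.card κ) :
    P.det ≤ (P.trace / Fintype.card κ) ^ Fintype.card κ := by
  have h1 := hP.1.det_eq_prod_eigenvalues
  have h2 := hP.1.trace_eq_sum_eigenvalues
  simp only [RCLike.ofReal_real_eq_id, id_eq] at h1 h2
  rw [h1, h2]
  have hr' : (0 : ℝ) < Fintype.card κ := by exact_mod_cast hr
  have hnn : ∀ i, 0 ≤ hP.1.eigenvalues i := fun i => hP.eigenvalues_nonneg i
  have h3 := Real.geom_mean_le_arith_mean_weighted Finset.univ
    (fun _ : κ => (1 : ℝ) / Fintype.card κ) (fun i => hP.1.eigenvalues i)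
    (fun i _ => by positivity)
    (by simp only [Finset.sum_const, Finset.card_univ, nsmul_eq_mul]; field_simp)
    (fun i _ => hnn i)
  have h4 : (∏ i, hP.1.eigenvalues i ^ ((1 : ℝ) / Fintype.card κ)) ^ (Fintype.card κ) =
      ∏ i, hP.1.eigenvalues i := by
    rw [← Finset.prod_pow]
    refine Finset.prod_congr rfl fun i _ => ?_
    rw [← Real.rpow_natCast, ← Real.rpow_mul (hnn i), one_div,
      inv_mul_cancel₀ hr'.ne', Real.rpow_one]
  rw [← h4]
  have h5 : (∑ i, (1 : ℝ) / Fintype.card κ * hP.1.eigenvalues i) =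
      (∑ i, hP.1.eigenvalues i) / Fintype.card κ := by
    rw [← Finset.mul_sum]; ring
  rw [← h5]
  exact pow_le_pow_left₀ (Finset.prod_nonneg fun i _ => Real.rpow_nonneg (hnn i) _) h3 _

section abstract_map

variable {E F : Type*} [NormedAddCommGroup E] [InnerProductSpace ℝ E]
  [NormedAddCommGroup F] [InnerProductSpace ℝ F]

/-- gram matrix of a combination -/
theorem gram_comb {κ κ' : Type*} [Fintype κ] (C : Matrix κ' κ ℝ) (u : κ → E) :
    Matrix.gram ℝ (fun i => ∑ j, C i j • u j) = C * Matrix.gram ℝ u * Cᵀ := by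
  ext i j
  simp only [Matrix.gram_apply, Matrix.mul_apply, Matrix.transpose_apply, sum_inner, inner_sum,
    real_inner_smul_left, real_inner_smul_right, Finset.sum_mul]
  refine Finset.sum_congr rfl fun a _ => Finset.sum_congr rfl fun b _ => ?_
  ring

theorem gram_orthonormal {κ : Type*} [DecidableEq κ] {u : κ → E} (hu : Orthonormal ℝ u) :
    Matrix.gram ℝ u = 1 := by
  ext i j
  rw [Matrix.gram_apply, Matrix.one_apply]
  exact (orthonormal_iff_ite.mp hu) i j

theorem det_gram_map_le {κ : Type*} [Fintype κ] [DecidableEq κ] (T : E →ₗ[ℝ] F) (τ : ℝ)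
    (hτ : ∀ u : κ → E, Orthonormal ℝ u → ∑ j, ‖T (u j)‖ ^ 2 ≤ τ) {v : κ → E}
    (hv : LinearIndependent ℝ v) (hr : 0 < Fintype.card κ) :
    (Matrix.gram ℝ (fun i => T (v i))).det ≤
      (Matrix.gram ℝ v).det * (τ / Fintype.card κ) ^ Fintype.card κ := by
  classical
  set S := Submodule.span ℝ (Set.range v) with hS
  have : FiniteDimensional ℝ S := FiniteDimensional.span_of_finite ℝ (Set.finite_range v)
  have hfin : finrank ℝ S = Fintype.card κ := finrank_span_eq_card hv
  let e : Fin (finrank ℝ S) ≃ κ := (finCongr hfin).trans (Fintype.equivFin κ).symm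
  let w : OrthonormalBasis κ ℝ S := (stdOrthonormalBasis ℝ S).reindex e
  let u : κ → E := fun j => (w j : E)
  have hu : Orthonormal ℝ u := by
    have := w.orthonormal
    exact this.comp_linearIsometry S.subtypeₗᵢ
  have hvS : ∀ i, v i ∈ S := fun i => Submodule.subset_span ⟨i, rfl⟩
  let C : Matrix κ κ ℝ := Matrix.of fun i j => inner ℝ (w j) (⟨v i, hvS i⟩ : S)
  have hvC : ∀ i, v i = ∑ j, C i j • u j := by
    intro i
    have h := w.sum_repr (⟨v i, hvS i⟩ : S)
    have h2 := congrArg (fun z : S => (z : E)) h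
    simp only [Submodule.coe_sum, Submodule.coe_smul] at h2
    rw [← h2]
    refine Finset.sum_congr rfl fun j _ => ?_
    simp only [C, u, Matrix.of_apply, w.repr_apply_apply]
  have hg : Matrix.gram ℝ v = C * Cᵀ := by
    have : v = fun i => ∑ j, C i j • u j := funext hvC
    rw [this, gram_comb, gram_orthonormal hu, Matrix.mul_one]
  have hgT : Matrix.gram ℝ (fun i => T (v i)) = C * Matrix.gram ℝ (fun j => T (u j)) * Cᵀ := by
    have : (fun i => T (v i)) = fun i => ∑ j, C i j • T (u j) := by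
      funext i; rw [hvC i, map_sum]; simp
    rw [this, gram_comb]
  rw [hgT, hg, Matrix.det_mul, Matrix.det_mul, Matrix.det_mul, Matrix.det_transpose]
  have hP : (Matrix.gram ℝ (fun j => T (u j))).PosSemidef := posSemidef_gram _ _
  have h1 := det_le_trace_pow hP hr
  have h2 : (Matrix.gram ℝ (fun j => T (u j))).trace ≤ τ := by
    have : (Matrix.gram ℝ (fun j => T (u j))).trace = ∑ j, ‖T (u j)‖ ^ 2 := by
      simp [Matrix.trace, Matrix.gram_apply]
    rw [this]; exact hτ u hu
  have h0 : 0 ≤ (Matrix.gram ℝ (fun j => T (u j))).trace := by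
    have : (Matrix.gram ℝ (fun j => T (u j))).trace = ∑ j, ‖T (u j)‖ ^ 2 := by
      simp [Matrix.trace, Matrix.gram_apply]
    rw [this]; positivity
  have hr' : (0 : ℝ) < Fintype.card κ := by exact_mod_cast hr
  have h3 : (Matrix.gram ℝ (fun j => T (u j))).det ≤ (τ / Fintype.card κ) ^ Fintype.card κ :=
    h1.trans (pow_le_pow_left₀ (by positivity) (by gcongr) _)
  nlinarith [mul_le_mul_of_nonneg_left h3 (mul_self_nonneg C.det)]

end abstract_map

variable {ι : Type*} [Fintype ι] [DecidableEq ι]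

/-- the real linear map of an integer matrix -/
noncomputable def rT (A : Matrix ι ι ℤ) : EuclideanSpace ℝ ι →ₗ[ℝ] EuclideanSpace ℝ ι :=
  Matrix.toEuclideanLin (A.map (Int.cast : ℤ → ℝ))

theorem rT_apply (A : Matrix ι ι ℤ) (x : EuclideanSpace ℝ ι) (i : ι) :
    rT A x i = ∑ k, (A i k : ℝ) * x k := by
  simp [rT, Matrix.toLpLin_apply, Matrix.mulVec, dotProduct]

theorem rT_ev (A : Matrix ι ι ℤ) (x : ι → ℤ) : rT A (ev x) = ev (A *ᵥ x) := by
  ext i
  rw [rT_apply]
  simp [Matrix.mulVec, dotProduct]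

/-- Bessel: the Hilbert–Schmidt bound -/
theorem sum_norm_rT_le (A : Matrix ι ι ℤ) {κ : Type*} [Fintype κ]
    (u : κ → EuclideanSpace ℝ ι) (hu : Orthonormal ℝ u) :
    ∑ j, ‖rT A (u j)‖ ^ 2 ≤ ∑ i, ∑ k, (A i k : ℝ) ^ 2 := by
  classical
  have h1 : ∀ j, ‖rT A (u j)‖ ^ 2 = ∑ i, ‖inner ℝ (u j) (ev (A i))‖ ^ 2 := by
    intro j
    rw [EuclideanSpace.norm_sq_eq]
    refine Finset.sum_congr rfl fun i _ => ?_
    rw [rT_apply]
    congr 2
  simp_rw [h1]
  rw [Finset.sum_comm]
  refine Finset.sum_le_sum fun i _ => ?_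
  refine (hu.sum_inner_products_le (x := ev (A i)) (s := Finset.univ)).trans ?_
  rw [EuclideanSpace.norm_sq_eq]
  simp

theorem rk_map {A : Matrix ι ι ℤ} (hA : A.det ≠ 0) (M : Submodule ℤ (ι → ℤ)) :
    rk (M.map A.mulVecLin) = rk M := by
  have hinj : Function.Injective A.mulVecLin := mulVec_injective hA
  exact (LinearEquiv.finrank_eq (Submodule.equivMapOfInjective _ hinj M)).symm

/-- **covolume of `A M`** -/
theorem lc_map_le {A : Matrix ι ι ℤ} (hA : A.det ≠ 0) (M : Submodule ℤ (ι → ℤ)) :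
    lc (M.map A.mulVecLin) ≤
      lc M + (rk M : ℝ) / 2 * Real.log ((∑ i, ∑ k, (A i k : ℝ) ^ 2) / rk M) := by
  classical
  have hinj : Function.Injective A.mulVecLin := mulVec_injective hA
  let b : Basis (Fin (rk M)) ℤ M := Module.finBasis ℤ M
  let b' : Basis (Fin (rk M)) ℤ (M.map A.mulVecLin) :=
    b.map (Submodule.equivMapOfInjective _ hinj M)
  have e1 : dsc M = (gm fun i => ((b i : M) : ι → ℤ)).det := dsc_eq b
  have e2 : dsc (M.map A.mulVecLin) = (gm fun i => A *ᵥ ((b i : M) : ι → ℤ)).det := by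
    rw [dsc_eq b']
    congr 2
  have p1 : (0 : ℝ) < dsc M := by exact_mod_cast dsc_pos M
  have p2 : (0 : ℝ) < dsc (M.map A.mulVecLin) := by exact_mod_cast dsc_pos _
  rcases Nat.eq_zero_or_pos (rk M) with h0 | hr
  · have : dsc (M.map A.mulVecLin) = 1 := by
      rw [e2]
      haveI : IsEmpty (Fin (rk M)) := by rw [h0]; infer_instance
      exact Matrix.det_isEmpty
    rw [h0, lc, this]
    simpa using lc_nonneg M
  · have hr' : (0 : ℝ) < rk M := by exact_mod_cast hr
    have key := det_gram_map_le (rT A) (∑ i, ∑ k, (A i k : ℝ) ^ 2)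
      (fun u hu => sum_norm_rT_le A u hu) (v := fun i : Fin (rk M) => ev ((b i : M) : ι → ℤ))
      (linearIndependent_ev (basis_linearIndependent b)) (by simpa using hr)
    simp only [rT_ev] at key
    rw [← det_gm_cast, ← det_gm_cast, ← e1, ← e2, Fintype.card_fin] at key
    set τ : ℝ := ∑ i, ∑ k, (A i k : ℝ) ^ 2 with hτ
    have hτ0 : 0 ≤ τ := by positivity
    have hτp : 0 < τ / rk M := by
      rcases hτ0.eq_or_lt with h | h
      · exfalso
        rw [← h, zero_div, zero_pow (by omega), mul_zero] at key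
        linarith
      · positivity
    have hlog := Real.log_le_log p2 key
    rw [Real.log_mul p1.ne' (pow_pos hτp _).ne', Real.log_pow] at hlog
    rw [lc, lc]
    linarith

end Crest.Agent.R152.Glo
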