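import Crest.Agent.R152.Lat3
import Crest.Agent.R152.Glo1

set_option autoImplicit false
set_option linter.unusedSectionVars false

/-!
# Row 152, module LAT (helper223): the orthogonal lattice has the same covolume
-/

namespace Crest.Agent.R152.Lat

open Matrix Module Crest.Agent.R152.Glo

variable {ι : Type*} [Fintype ι]

/-- Jacobi's complementary minor theorem, block form -/
theorem jacobi {m n R : Type*} [Fintype m] [Fintype n] [DecidableEq m] [DecidableEq n]
    [CommRing R] {M N : Matrix (m ⊕ n) (m ⊕ n) R} (h : M * N = 1) :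
    M.det * N.toBlocks₂₂.det = M.toBlocks₁₁.det := by
  have h1 : M * Matrix.fromBlocks 1 N.toBlocks₁₂ 0 N.toBlocks₂₂ =
      Matrix.fromBlocks M.toBlocks₁₁ 0 M.toBlocks₂₁ 1 := by
    have hM := Matrix.fromBlocks_toBlocks M
    have hN := Matrix.fromBlocks_toBlocks N
    have h2 : Matrix.fromBlocks M.toBlocks₁₁ M.toBlocks₁₂ M.toBlocks₂₁ M.toBlocks₂₂ *
        Matrix.fromBlocks N.toBlocks₁₁ N.toBlocks₁₂ N.toBlocks₂₁ N.toBlocks₂₂ = 1 := by
      rw [hM, hN, h]
    rw [Matrix.fromBlocks_multiply, ← Matrix.fromBlocks_one, Matrix.fromBlocks_inj] at h2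
    conv_lhs => rw [← hM]
    rw [Matrix.fromBlocks_multiply, Matrix.fromBlocks_inj]
    refine ⟨by simp, h2.2.1, by simp, h2.2.2.2⟩
  have h3 := congrArg Matrix.det h1
  rw [Matrix.det_mul, Matrix.det_fromBlocks_zero₂₁, Matrix.det_fromBlocks_zero₁₂,
    Matrix.det_one, Matrix.det_one, one_mul, mul_one] at h3
  exact h3

section dual

variable {κ κ' : Type*} [Fintype κ] [DecidableEq κ] [Fintype κ'] [DecidableEq κ'] [DecidableEq ι]

/-- dual family of a basis of `ℤ^ι` -/
theorem exists_dual {τ : Type*} [Fintype τ] [DecidableEq τ] (b : Basis τ ℤ (ι → ℤ)) :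
    ∃ q : τ → ι → ℤ, (∀ i j, q i ⬝ᵥ b j = if i = j then 1 else 0) ∧
      (∀ x : ι → ℤ, x = ∑ j, (q j ⬝ᵥ x) • b j) ∧ (∀ x : ι → ℤ, x = ∑ j, (b j ⬝ᵥ x) • q j) := by
  choose q hq using fun j => exists_rep (b.coord j)
  have h1 : ∀ i j, q i ⬝ᵥ b j = if i = j then 1 else 0 := by
    intro i j
    rw [← hq i (b j), Basis.coord_apply, Basis.repr_self, Finsupp.single_apply]
    by_cases h : i = j <;> simp [h, eq_comm]
  have h2 : ∀ x : ι → ℤ, x = ∑ j, (q j ⬝ᵥ x) • b j := by
    intro x
    conv_lhs => rw [← b.sum_repr x]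
    refine Finset.sum_congr rfl fun j _ => ?_
    rw [← hq j x, Basis.coord_apply]
  refine ⟨q, h1, h2, fun x => ?_⟩
  -- test against every `y`
  have h3 : ∀ y : ι → ℤ, x ⬝ᵥ y = (∑ j, (b j ⬝ᵥ x) • q j) ⬝ᵥ y := by
    intro y
    conv_lhs => rw [h2 y]
    rw [dotProduct_sum, sum_dotProduct]
    refine Finset.sum_congr rfl fun j _ => ?_
    rw [dotProduct_smul, smul_dotProduct, dotProduct_comm x (b j), smul_eq_mul, smul_eq_mul,
      mul_comm]
  funext i
  have := h3 (Pi.single i 1)
  simpa using this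

theorem gm_dual {τ : Type*} [Fintype τ] [DecidableEq τ] (b : Basis τ ℤ (ι → ℤ))
    {q : τ → ι → ℤ} (h1 : ∀ i j, q i ⬝ᵥ b j = if i = j then 1 else 0)
    (h2 : ∀ x : ι → ℤ, x = ∑ j, (q j ⬝ᵥ x) • b j) :
    gm (fun i => b i) * gm q = 1 := by
  ext i j
  rw [Matrix.mul_apply]
  simp only [gm_apply]
  have h4 : q j ⬝ᵥ b i = ∑ k, (b i ⬝ᵥ b k) * (q k ⬝ᵥ q j) := by
    have := h2 (q j)
    conv_lhs => rw [this]
    rw [sum_dotProduct]
    refine Finset.sum_congr rfl fun k _ => ?_
    rw [smul_dotProduct, smul_eq_mul, mul_comm, dotProduct_comm (b k) (b i)]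
  rw [← h4, h1, Matrix.one_apply]
  by_cases h : i = j <;> simp [h, eq_comm]

/-- block form of the duality -/
theorem dual_block (b : Basis (κ ⊕ κ') ℤ (ι → ℤ)) :
    dsc (orth (Submodule.span ℤ (Set.range fun i => b (Sum.inl i)))) =
      dsc (Submodule.span ℤ (Set.range fun i => b (Sum.inl i))) ∧
    rk (orth (Submodule.span ℤ (Set.range fun i => b (Sum.inl i)))) = Fintype.card κ' := by
  obtain ⟨q, h1, h2, h3⟩ := exists_dual b
  have hG := gm_dual b h1 h2
  have hliL : LinearIndependent ℤ (fun i => b (Sum.inl i)) :=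
    b.linearIndependent.comp _ Sum.inl_injective
  have hliq : LinearIndependent ℤ (fun i => q (Sum.inr i)) := by
    rw [Fintype.linearIndependent_iff]
    intro c hc i
    have h4 := congrArg (fun x => x ⬝ᵥ b (Sum.inr i)) hc
    simp only [sum_dotProduct, smul_dotProduct, h1, zero_dotProduct] at h4
    simpa using h4
  have horth : orth (Submodule.span ℤ (Set.range fun i => b (Sum.inl i))) =
      Submodule.span ℤ (Set.range fun i => q (Sum.inr i)) := by
    apply le_antisymm
    · intro v hv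
      rw [h3 v, Fintype.sum_sum_type]
      refine Submodule.add_mem _ (Submodule.sum_mem _ fun i _ => ?_)
        (Submodule.sum_mem _ fun i _ => Submodule.smul_mem _ _ (Submodule.subset_span ⟨i, rfl⟩))
      have : b (Sum.inl i) ⬝ᵥ v = 0 := by
        rw [dotProduct_comm]; exact hv _ (Submodule.subset_span ⟨i, rfl⟩)
      rw [this, zero_smul]; exact Submodule.zero_mem _
    · rw [Submodule.span_le]
      rintro _ ⟨j, rfl⟩ u hu
      induction hu using Submodule.span_induction with
      | mem w hw => obtain ⟨i, rfl⟩ := hw; simp [h1]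
      | zero => simp
      | add x y _ _ hx hy => rw [dotProduct_add, hx, hy, add_zero]
      | smul c x _ hx => rw [dotProduct_smul, hx, smul_zero]
  rw [horth, dsc_span_range hliq, dsc_span_range hliL, rk_span_range hliq]
  refine ⟨?_, rfl⟩
  have hj := jacobi hG
  have e1 : (gm (fun i => b i)).toBlocks₁₁ = gm (fun i => b (Sum.inl i)) := by
    ext i j; rfl
  have e2 : (gm q).toBlocks₂₂ = gm (fun i => q (Sum.inr i)) := by
    ext i j; rfl
  rw [e1, e2] at hj
  have hdet : (gm (fun i => b i)).det = 1 := by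
    have hpos : 0 < (gm (fun i => b i)).det := det_gm_pos b.linearIndependent
    have hu : IsUnit (gm (fun i => b i)).det := by
      have := congrArg Matrix.det hG
      rw [Matrix.det_mul, Matrix.det_one] at this
      exact IsUnit.of_mul_eq_one _ this
    rcases Int.isUnit_iff.mp hu with h | h
    · exact h
    · omega
  rw [hdet, one_mul] at hj
  exact hj

end dual

theorem sat_iff_isSat {L : Submodule ℤ (ι → ℤ)} : sat L = L ↔ IsSat L := by
  constructor
  · intro h m x hm hx
    rw [← h]; exact ⟨m, hm, hx⟩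
  · intro h
    apply le_antisymm _ (le_sat L)
    rintro x ⟨m, hm, hx⟩
    exact h m x hm hx

/-- a saturated lattice is generated by a part of a basis of `ℤ^ι` -/
theorem exists_basis_sum [DecidableEq ι] {U : Submodule ℤ (ι → ℤ)} (hU : IsSat U) :
    ∃ (k l : ℕ) (b : Basis (Fin k ⊕ Fin l) ℤ (ι → ℤ)),
      U = Submodule.span ℤ (Set.range fun i => b (Sum.inl i)) := by
  classical
  obtain ⟨k, bM, bN, f, a, snf⟩ := Submodule.smithNormalForm (Pi.basisFun ℤ ι) U
  have ha : ∀ i, a i ≠ 0 := by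
    intro i h0
    have h1 := snf i
    rw [h0, zero_smul] at h1
    exact bN.ne_zero i (Subtype.ext h1)
  have hb : ∀ i, bM (f i) ∈ U := by
    intro i
    refine hU (a i) _ (ha i) ?_
    rw [← snf i]
    exact (bN i).2
  let C := {j : ι // j ∉ Set.range f}
  let e0 : Fin k ≃ {j : ι // j ∈ Set.range f} := Equiv.ofInjective f f.injective
  let e1 : C ≃ Fin (Fintype.card C) := Fintype.equivFin C
  let e : ι ≃ Fin k ⊕ Fin (Fintype.card C) :=
    (Equiv.sumCompl (fun j => j ∈ Set.range f)).symm.trans (Equiv.sumCongr e0.symm e1)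
  refine ⟨k, Fintype.card C, bM.reindex e, ?_⟩
  have hbe : ∀ i : Fin k, (bM.reindex e) (Sum.inl i) = bM (f i) := by
    intro i
    rw [Basis.reindex_apply]
    congr 1
  simp only [hbe]
  apply le_antisymm
  · intro x hx
    have h2 := bN.sum_repr ⟨x, hx⟩
    have h3 := congrArg (fun x : U => (x : ι → ℤ)) h2
    simp only [AddSubmonoidClass.coe_finsetSum, SetLike.val_smul] at h3
    rw [← h3]
    refine Submodule.sum_mem _ fun i _ => Submodule.smul_mem _ _ ?_
    rw [snf i]
    exact Submodule.smul_mem _ _ (Submodule.subset_span ⟨i, rfl⟩)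
  · rw [Submodule.span_le]
    rintro _ ⟨i, rfl⟩
    exact hb i

theorem dsc_orth [DecidableEq ι] {U : Submodule ℤ (ι → ℤ)} (hU : IsSat U) :
    dsc (orth U) = dsc U := by
  obtain ⟨k, l, b, rfl⟩ := exists_basis_sum hU
  exact (dual_block b).1

theorem lc_orth [DecidableEq ι] {U : Submodule ℤ (ι → ℤ)} (hU : IsSat U) :
    lc (orth U) = lc U := by
  unfold lc; rw [dsc_orth hU]

theorem rk_orth_of_sat [DecidableEq ι] {U : Submodule ℤ (ι → ℤ)} (hU : IsSat U) :
    rk (orth U) + rk U = Fintype.card ι := by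
  obtain ⟨k, l, b, rfl⟩ := exists_basis_sum hU
  have hli : LinearIndependent ℤ (fun i => b (Sum.inl i)) :=
    b.linearIndependent.comp _ Sum.inl_injective
  rw [(dual_block b).2, rk_span_range hli]
  have h1 : Fintype.card ι = Fintype.card (Fin k ⊕ Fin l) := by
    have h2 := Module.finrank_eq_card_basis b
    rw [Module.finrank_fintype_fun_eq_card] at h2
    exact h2
  rw [h1, Fintype.card_sum]; omega

theorem orth_sat (L : Submodule ℤ (ι → ℤ)) : orth (sat L) = orth L := by
  apply le_antisymm (orth_anti (le_sat L))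
  rintro v hv u ⟨m, hm, hu⟩
  have h1 := hv _ hu
  rw [dotProduct_smul, smul_eq_mul] at h1
  exact (mul_eq_zero.mp h1).resolve_left hm

theorem rk_orth [DecidableEq ι] (L : Submodule ℤ (ι → ℤ)) :
    rk (orth L) + rk L = Fintype.card ι := by
  rw [← orth_sat, ← rk_sat L]
  exact rk_orth_of_sat (sat_iff_isSat.mp (sat_sat L))

theorem lc_orth_sat [DecidableEq ι] (L : Submodule ℤ (ι → ℤ)) : lc (orth L) = lc (sat L) := by
  rw [← orth_sat]
  exact lc_orth (sat_iff_isSat.mp (sat_sat L))

theorem lc_orth_le [DecidableEq ι] (L : Submodule ℤ (ι → ℤ)) : lc (orth L) ≤ lc L := by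
  rw [lc_orth_sat]; exact lc_sat_le L

end Crest.Agent.R152.Lat
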