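import Crest.Agent.R152.Glo2
import Crest.Agent.R152.LatO

set_option autoImplicit false
set_option linter.unusedSectionVars false
set_option linter.unusedVariables false

/-!
# Row 152, module GLO, part 3: the deterministic core
-/

namespace Crest.Agent.R152.Glo

open Matrix Module Crest.Agent.R152.Lat

variable {ι : Type*} [Fintype ι] [DecidableEq ι]

theorem isSat_of_sat {L : Submodule ℤ (ι → ℤ)} (h : sat L = L) : IsSat L := by
  intro m x hm hx
  rw [← h, mem_sat]
  exact ⟨m, hm, hx⟩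

theorem sat_of_isSat {L : Submodule ℤ (ι → ℤ)} (h : IsSat L) : sat L = L := by
  refine le_antisymm ?_ (le_sat L)
  intro x hx
  rw [mem_sat] at hx
  obtain ⟨m, hm, hmx⟩ := hx
  exact h m x hm hmx

theorem sat_orth (L : Submodule ℤ (ι → ℤ)) : sat (orth L) = orth L :=
  sat_of_isSat (isSat_orth L)

theorem card_quot (L : Submodule ℤ (ι → ℤ)) : Nat.card ((ι → ℤ) ⧸ L) = ind L ⊤ := by
  unfold ind
  rw [show (⊤ : Submodule ℤ (ι → ℤ)).toAddSubgroup = ⊤ from rfl, AddSubgroup.relIndex_top_right]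
  rfl

/-- `lc` of a full rank lattice is the log of the index -/
theorem lc_full {L : Submodule ℤ (ι → ℤ)} (h : rk L = Fintype.card ι) :
    lc L = Real.log (ind L ⊤) := by
  have := lc_of_le (L' := L) (L := ⊤) le_top (by rw [h, rk_top])
  rw [lc_top] at this
  linarith

theorem rk_range {A : Matrix ι ι ℤ} (hA : A.det ≠ 0) :
    rk (LinearMap.range A.mulVecLin) = Fintype.card ι := by
  rw [← Submodule.map_top, rk_map hA, rk_top]

theorem rk_of_range_le {A : Matrix ι ι ℤ} (hA : A.det ≠ 0) {L : Submodule ℤ (ι → ℤ)}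
    (h : LinearMap.range A.mulVecLin ≤ L) : rk L = Fintype.card ι :=
  le_antisymm (rk_le_card L) (by rw [← rk_range hA]; exact rk_mono h)

/-- adding the saturation of a sublattice `D` costs at most `lc D` of index -/
theorem index_sup {D Lam : Submodule ℤ (ι → ℤ)} (hD : D ≤ Lam)
    (hfull : rk Lam = Fintype.card ι) :
    Real.log (ind Lam ⊤) ≤ Real.log (ind (Lam ⊔ sat D) ⊤) + lc D := by
  have h1 : rk (Lam ⊔ sat D) = Fintype.card ι :=
    le_antisymm (rk_le_card _) (by rw [← hfull]; exact rk_mono le_sup_left)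
  have h2 := lc_of_le (L' := Lam) (L := Lam ⊔ sat D) le_sup_left (by rw [h1, hfull])
  rw [ind_sup] at h2
  rw [← lc_full hfull, ← lc_full h1, h2]
  have h3 : (ind Lam (sat D) : ℝ) ≤ ind D (sat D) := by
    have : ind Lam (sat D) ≤ ind D (sat D) := by
      unfold ind
      refine AddSubgroup.relIndex_le_of_le_left (Submodule.toAddSubgroup_mono hD) ?_
      exact (ind_pos (le_sat D) (rk_sat D).symm).ne'
    exact_mod_cast this
  have h4 : Real.log (ind Lam (sat D)) ≤ Real.log (ind D (sat D)) := by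
    refine Real.log_le_log ?_ h3
    have : 0 < ind Lam (sat D) := by
      rw [← ind_sup]
      exact ind_pos le_sup_left (by rw [h1, hfull])
    exact_mod_cast this
  have h5 := lc_sat D
  have h6 := lc_nonneg (sat D)
  linarith

/-- `(r/2) log(n²/r) ≤ (r/2) log n + n` -/
theorem half_log_bound {n r : ℕ} (hn : 1 ≤ n) (hr : r ≤ n) :
    (r : ℝ) / 2 * Real.log ((n : ℝ) ^ 2 / r) ≤ (r : ℝ) / 2 * Real.log n + n := by
  have hn' : (1 : ℝ) ≤ n := by exact_mod_cast hn
  rcases Nat.eq_zero_or_pos r with h | h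
  · subst h; simp
  · have hr' : (0 : ℝ) < r := by exact_mod_cast h
    have e : (n : ℝ) ^ 2 / r = n * (n / r) := by ring
    rw [e, Real.log_mul (by positivity) (by positivity), mul_add]
    have h1 : Real.log ((n : ℝ) / r) ≤ n / r := by
      have := Real.log_le_sub_one_of_pos (show 0 < (n : ℝ) / r by positivity)
      linarith
    have h2 : (r : ℝ) / 2 * Real.log ((n : ℝ) / r) ≤ (r : ℝ) / 2 * (n / r) :=
      mul_le_mul_of_nonneg_left h1 (by positivity)
    have h3 : (r : ℝ) / 2 * (n / r) = n / 2 := by field_simp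
    linarith

/-- **deterministic core of GLO.** -/
theorem det_core {A : Matrix ι ι ℤ} (hA : Aᵀ = A) (hdet : A.det ≠ 0)
    (hent : ∀ i j, (A i j) ^ 2 = 1) (hn : 1 ≤ Fintype.card ι) {Lam D V : Submodule ℤ (ι → ℤ)}
    (hrange : LinearMap.range A.mulVecLin ≤ Lam) (hD : D ≤ Lam) (hV : sat V = V) {K κ : ℝ}
    (hK : 0 ≤ K) (hκ : (rk V : ℝ) ≤ rk (V ⊓ sat D) + κ * Fintype.card ι) :
    ∃ W : Submodule ℤ (ι → ℤ), (orth V).map A.mulVecLin ≤ W ∧
      lc W + K * Real.log (Fintype.card ι) * rk W ≤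
        (K + 1 / 2) * rk (orth V) * Real.log (Fintype.card ι)
        + (K + 1 / 2) * κ * Fintype.card ι * Real.log (Fintype.card ι)
        + lc V + 2 * lc D + Fintype.card ι - Real.log (ind Lam ⊤) := by
  set n := Fintype.card ι with hnn
  have hfull : rk Lam = Fintype.card ι := rk_of_range_le hdet hrange
  set U := sat D with hU
  set Np := orth (V ⊓ U) with hNp
  obtain ⟨W, hW1, hW2, hW3, hW4⟩ := exists_super hA hdet (U := U) (Lam := Lam ⊔ U) (Np := Np)
    (isSat_of_sat (sat_sat D)) (hrange.trans le_sup_left) le_sup_right (orth_anti inf_le_right)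
  refine ⟨W, (Submodule.map_mono (orth_anti inf_le_left)).trans hW1, ?_⟩
  rw [card_quot] at hW4
  have h1 := index_sup hD hfull
  have h2 := lc_map_le hdet Np
  have hsum : (∑ i, ∑ k, (A i k : ℝ) ^ 2) = (n : ℝ) ^ 2 := by
    have : ∀ i k, (A i k : ℝ) ^ 2 = 1 := fun i k => by exact_mod_cast hent i k
    simp only [this, Finset.sum_const, Finset.card_univ, nsmul_eq_mul, mul_one]
    rw [sq]
  rw [hsum] at h2
  have h3 := half_log_bound hn (rk_le_card Np)
  have hL : 0 ≤ Real.log n := Real.log_nonneg (by exact_mod_cast hn)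
  have hsatVU : sat (V ⊓ U) = V ⊓ U := sat_inf hV (sat_sat D)
  have h4 : lc Np ≤ lc V + lc D := by
    rw [hNp, Lat.lc_orth_sat, hsatVU]
    have a1 := lc_submod V U
    have a2 := lc_nonneg (V ⊔ U)
    have a3 := lc_sat_le D
    linarith
  have h5 : (rk Np : ℝ) ≤ rk (orth V) + κ * n := by
    have b1 := Lat.rk_orth (V ⊓ U)
    have b2 := Lat.rk_orth V
    have b1' : (rk Np : ℝ) + rk (V ⊓ U) = n := by exact_mod_cast b1
    have b2' : (rk (orth V) : ℝ) + rk V = n := by exact_mod_cast b2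
    linarith
  have h6 : rk W = rk Np := by rw [hW2, rk_map hdet]
  rw [h6]
  have h7 : (K + 1 / 2) * (rk Np : ℝ) * Real.log n ≤
      (K + 1 / 2) * (rk (orth V) + κ * n) * Real.log n := by gcongr
  nlinarith [h7, hW4, h1, h2, h3, h4]

end Crest.Agent.R152.Glo
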