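import Crest.Agent.R152.Glo3
import Crest.Agent.R152.GlopG1
import Crest.Agent.R152.LS6
import Crest.Agent.R152.AsmDefs

set_option autoImplicit false
set_option linter.unusedSectionVars false
set_option linter.unusedVariables false

/-!
# Row 152, module GLO, part 4: assembly from the robust core, CHEAP and LEMMA S
-/

namespace Crest.Agent.R152.Glo

open Matrix Module Crest.Agent.R152.Lat Crest.Agent.R152.Base Crest.FinProb

/-- CHEAP (helper877): a family of `2 ^ (ε n²)` saturated lattices of small covolume, one of which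
approximates (from above) the span of any robust set of sign vectors of small covolume. -/
def CheapFam : Prop := ∀ θ κ ε : ℝ, 0 < θ → 0 < κ → 0 < ε → ∃ η : ℝ, 0 < η ∧ ∃ n0 : ℕ,
  ∀ n : ℕ, n0 ≤ n → ∃ VV : Finset (Submodule ℤ (Fin n → ℤ)),
    (VV.card : ℝ) ≤ (2 : ℝ) ^ (ε * (n : ℝ) ^ 2) ∧
    (∀ V ∈ VV, sat V = V ∧ lc V ≤ ε * n * Real.log n) ∧
    ∀ (U : Submodule ℤ (Fin n → ℤ)) (S : Finset (Fin n → ℤ)), sat U = U → S.Nonempty →
      (∀ x ∈ S, ∀ i, x i = 1 ∨ x i = -1) → Cheap.Robust θ U S → lc U ≤ η * n * Real.log n →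
      ∃ V ∈ VV, (rk V : ℝ) ≤ rk (V ⊓ U) + κ * n ∧ (rk U : ℝ) ≤ rk (V ⊓ U) + κ * n

/-- the inputs `OneStep` for all parameters -/
def OneStepAll (p : ℝ) : Prop := ∀ c : ℝ, 0 < c → ∃ K0 : ℝ, 0 ≤ K0 ∧
  ∀ d : ℝ, 0 < d → LS.OneStep p c d K0

/-- the bad event for `d, b` -/
def Bad (n : ℕ) (d b : ℝ) : Set (Sym2 (Fin n) → Bool) :=
  {w | (symMat w).det ≠ 0 ∧ ∃ L : AddSubgroup (Fin n → ℤ), Asm.rng (symMat w) ≤ L ∧
    (n : ℝ) ^ (d * n) ≤ (L.index : ℝ) ∧ ∃ r : Fin n → ℤ,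
      (2 : ℝ) ^ (b * n) < (Nat.card {x : Fin n → Bool // Asm.sv x - r ∈ L} : ℝ)}

theorem sv_injective (n : ℕ) : Function.Injective (Asm.sv : (Fin n → Bool) → Fin n → ℤ) := by
  intro x y h
  funext i
  exact sg_injective (congrFun h i)

theorem sv_sign {n : ℕ} (x : Fin n → Bool) (i : Fin n) : Asm.sv x i = 1 ∨ Asm.sv x i = -1 := by
  unfold Asm.sv sg
  cases x i <;> simp

/-- inclusion of the bad event into a small union -/
theorem bad_subset {θ κ ε1 e0 K η b d : ℝ} {n : ℕ} (hn : 1 ≤ n) (hθ : θ = b / 4) (hb : 0 < b)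
    (hd : 0 < d) (hκb : κ ≤ b / 4) (hK : 0 ≤ K) (hκK : (K + 1 / 2) * κ ≤ d / 8)
    (he0 : e0 ≤ d / 16) (hε1 : ε1 ≤ d / 64) (hlog : 16 / d ≤ Real.log n) (hη : ε1 ≤ η)
    (hcore : ∀ S : Finset (Fin n → ℤ), S.Nonempty → (∀ x ∈ S, ∀ i, x i = 1 ∨ x i = -1) →
      ∃ T ⊆ S, T.Nonempty ∧ Glop.Rob θ T ∧ Cheap.Robust θ (sat (Glop.dl T)) T ∧
      (S.card : ℝ) * (2 : ℝ) ^ (-(θ * (n : ℝ))) ≤ T.card ∧ T.card ≤ 2 ^ rk (Glop.dl T) ∧
      lc (Glop.dl T) ≤ ε1 * n * Real.log n ∧ lc (sat (Glop.dl T)) ≤ ε1 * n * Real.log n ∧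
      (ind (Glop.dl T) (sat (Glop.dl T)) : ℝ) ≤ (n : ℝ) ^ (ε1 * n))
    (VV : Finset (Submodule ℤ (Fin n → ℤ)))
    (hVV : ∀ V ∈ VV, sat V = V ∧ lc V ≤ e0 * n * Real.log n)
    (hch : ∀ (U : Submodule ℤ (Fin n → ℤ)) (S : Finset (Fin n → ℤ)), sat U = U → S.Nonempty →
      (∀ x ∈ S, ∀ i, x i = 1 ∨ x i = -1) → Cheap.Robust θ U S → lc U ≤ η * n * Real.log n →
      ∃ V ∈ VV, (rk V : ℝ) ≤ rk (V ⊓ U) + κ * n ∧ (rk U : ℝ) ≤ rk (V ⊓ U) + κ * n) :
    Bad n d b ⊆ ⋃ V ∈ VV.filter (fun V => (rk (orth V) : ℝ) + b / 2 * n ≤ n),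
      {w : Sym2 (Fin n) → Bool | Psi (K * Real.log n) (LS.act (symMat w) (orth V)) ≤
        ((K + 1 / 2) * rk (orth V) - d / 2 * n) * Real.log n} := by
  classical
  have hn' : (1 : ℝ) ≤ n := by exact_mod_cast hn
  have hn0 : (0 : ℝ) < n := by linarith
  have hL0 : 0 ≤ Real.log n := Real.log_nonneg hn'
  rintro w ⟨hdet, L, hL, hidx, r, hcard⟩
  set Lam : Submodule ℤ (Fin n → ℤ) := AddSubgroup.toIntSubmodule L with hLam
  have hmemL : ∀ z, z ∈ Lam ↔ z ∈ L := fun z => Iff.rfl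
  set S : Finset (Fin n → ℤ) :=
    (Finset.univ.filter (fun x : Fin n → Bool => Asm.sv x - r ∈ L)).image Asm.sv with hS
  have hScard : (S.card : ℝ) = Nat.card {x : Fin n → Bool // Asm.sv x - r ∈ L} := by
    rw [hS, Finset.card_image_of_injective _ (sv_injective n), Nat.card_eq_fintype_card,
      Fintype.card_subtype]
  have hSmem : ∀ z ∈ S, z - r ∈ L ∧ ∀ i, z i = 1 ∨ z i = -1 := by
    intro z hz
    rw [hS, Finset.mem_image] at hz
    obtain ⟨x, hx, rfl⟩ := hz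
    rw [Finset.mem_filter] at hx
    exact ⟨hx.2, sv_sign x⟩
  rw [← hScard] at hcard
  have hSne : S.Nonempty := by
    rw [← Finset.card_pos]
    have : (0 : ℝ) < S.card := lt_trans (by positivity) hcard
    exact_mod_cast this
  obtain ⟨T, hTS, hTne, hTr, hTrob, hTcard, hTrk, hTlc, hTlcs, hTind⟩ :=
    hcore S hSne fun x hx => (hSmem x hx).2
  set D := Glop.dl T with hD
  have hDL : D ≤ Lam := by
    refine Submodule.span_le.mpr ?_
    rintro z ⟨x, hx, y, hy, rfl⟩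
    have e : x - y = (x - r) - (y - r) := by abel
    rw [e]
    exact L.sub_mem (hSmem x (hTS hx)).1 (hSmem y (hTS hy)).1
  -- rank of D
  have hrkD : (b - θ) * n ≤ rk D := by
    have h1 : (2 : ℝ) ^ ((b - θ) * n) ≤ (2 : ℝ) ^ (rk D : ℝ) := by
      have e1 : (2 : ℝ) ^ ((b - θ) * n) = (2 : ℝ) ^ (b * n) * (2 : ℝ) ^ (-(θ * (n : ℝ))) := by
        rw [← Real.rpow_add two_pos]; congr 1; ring
      rw [e1]
      have h2 : (T.card : ℝ) ≤ (2 : ℝ) ^ (rk D : ℝ) := by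
        rw [Real.rpow_natCast]; exact_mod_cast hTrk
      refine le_trans ?_ h2
      refine le_trans ?_ hTcard
      gcongr
    exact (Real.rpow_le_rpow_left_iff one_lt_two).mp h1
  obtain ⟨V, hV, hV1, hV2⟩ := hch (sat D) T (sat_sat D) hTne
    (fun x hx => (hSmem x (hTS hx)).2) hTrob (hTlcs.trans (by gcongr))
  obtain ⟨hVs, hVlc⟩ := hVV V hV
  have hVrk : (b / 2) * n ≤ rk V := by
    have h1 : (rk (V ⊓ sat D) : ℝ) ≤ rk V := by exact_mod_cast rk_mono inf_le_left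
    rw [rk_sat] at hV2
    rw [hθ] at hrkD
    nlinarith
  have horth : (rk (orth V) : ℝ) + rk V = n := by
    have := Lat.rk_orth V
    rw [Fintype.card_fin] at this
    exact_mod_cast this
  rw [Set.mem_iUnion₂]
  refine ⟨V, ?_, ?_⟩
  · rw [Finset.mem_filter]
    exact ⟨hV, by linarith⟩
  -- the deterministic core
  have hent : ∀ i j, (symMat w i j) ^ 2 = 1 := by
    intro i j
    rw [symMat_apply, sq, sg_mul_self]
  have hrange : LinearMap.range (symMat w).mulVecLin ≤ Lam := by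
    intro z hz
    exact hL hz
  obtain ⟨W, hW1, hW2⟩ := det_core (A := symMat w) (symMat_symm w) hdet hent
    (by rw [Fintype.card_fin]; exact hn) hrange hDL hVs hK (κ := κ)
    (by rw [Fintype.card_fin]; exact hV1)
  rw [Fintype.card_fin] at hW2
  have hidx2 : d * n * Real.log n ≤ Real.log (ind Lam ⊤) := by
    have e1 : (ind Lam ⊤ : ℕ) = L.index := by
      unfold ind
      rw [show (⊤ : Submodule ℤ (Fin n → ℤ)).toAddSubgroup = ⊤ from rfl,
        AddSubgroup.relIndex_top_right]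
      rfl
    rw [e1, ← Real.log_rpow hn0]
    exact Real.log_le_log (by positivity) hidx
  have hPsi : Psi (K * Real.log n) (LS.act (symMat w) (orth V)) ≤ fK (K * Real.log n) W :=
    Psi_le hW1
  refine hPsi.trans ?_
  unfold fK
  have h16 : (16 : ℝ) ≤ d * Real.log n := by
    rw [div_le_iff₀ hd] at hlog
    linarith
  have hnL : 0 ≤ (n : ℝ) * Real.log n := by positivity
  have a1 : (K + 1 / 2) * κ * n * Real.log n ≤ d / 8 * (n * Real.log n) := by
    have := mul_le_mul_of_nonneg_right hκK hnL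
    linarith
  have a2 : lc V ≤ d / 16 * (n * Real.log n) := by
    refine hVlc.trans ?_
    have := mul_le_mul_of_nonneg_right he0 hnL
    linarith
  have a3 : lc D ≤ d / 64 * (n * Real.log n) := by
    refine hTlc.trans ?_
    have := mul_le_mul_of_nonneg_right hε1 hnL
    linarith
  have a4 : (n : ℝ) ≤ d / 16 * (n * Real.log n) := by
    have := mul_le_mul_of_nonneg_left h16 hn0.le
    linarith
  have a5 : d * n * Real.log n = d * (n * Real.log n) := by ring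
  have hdn : 0 ≤ d * (n * Real.log n) := by positivity
  have e2 : ((K + 1 / 2) * (rk (orth V) : ℝ) - d / 2 * n) * Real.log n =
      (K + 1 / 2) * rk (orth V) * Real.log n - d / 2 * (n * Real.log n) := by ring
  rw [e2]
  linarith

/-- **GLO, strong form** (any coset, failure `exp(-c n²)`). -/
theorem glo_gen {p : ℝ} (hp0 : 0 < p) (hp1 : p < 1) (hone : OneStepAll p) (hch : CheapFam)
    {d b : ℝ} (hd : 0 < d) (hb : 0 < b) :
    ∃ c0 : ℝ, 0 < c0 ∧ ∃ n0 : ℕ, ∀ n : ℕ, n0 ≤ n →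
      bernoulliProb p (Bad n d b) ≤ Real.exp (-(c0 * (n : ℝ) ^ 2)) := by
  classical
  obtain ⟨K, hK, hstep⟩ := hone (b / 2) (by positivity)
  obtain ⟨e0, he0, c1, hc1, n1, hS⟩ := LS.lemmaS_of hp0.le hp1.le hK hstep le_rfl
    (show 0 < d / 2 by positivity)
  set κ : ℝ := min (b / 4) (d / (8 * (K + 1 / 2))) with hκ
  have hK2 : 0 < K + 1 / 2 := by linarith
  have hκ0 : 0 < κ := lt_min (by positivity) (by positivity)
  have hκb : κ ≤ b / 4 := min_le_left _ _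
  have hκK : (K + 1 / 2) * κ ≤ d / 8 := by
    have h1 : κ ≤ d / (8 * (K + 1 / 2)) := min_le_right _ _
    calc (K + 1 / 2) * κ ≤ (K + 1 / 2) * (d / (8 * (K + 1 / 2))) := by gcongr
      _ = d / 8 := by field_simp
  set ε : ℝ := min (min e0 (d / 16)) (c1 / 2) with hε
  have hε0 : 0 < ε := lt_min (lt_min he0 (by positivity)) (by positivity)
  have hεe : ε ≤ e0 := (min_le_left _ _).trans (min_le_left _ _)
  have hεd : ε ≤ d / 16 := (min_le_left _ _).trans (min_le_right _ _)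
  have hεc : ε ≤ c1 / 2 := min_le_right _ _
  obtain ⟨η, hη, n2, hfam⟩ := hch (b / 4) κ ε (by positivity) hκ0 hε0
  set ε1 : ℝ := min η (d / 64) with hε1
  have hε10 : 0 < ε1 := lt_min hη (by positivity)
  obtain ⟨n3, hcore⟩ := Glop.core (show 0 < b / 4 by positivity) hε10
  obtain ⟨n4, hn4⟩ := exists_nat_ge (Real.exp (16 / d))
  refine ⟨c1 / 2, by positivity, max (max n1 n2) (max (max n3 n4) 1), fun n hn => ?_⟩
  have hn1 : n1 ≤ n := by omega
  have hn2 : n2 ≤ n := by omega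
  have hn3 : n3 ≤ n := by omega
  have hn4' : n4 ≤ n := by omega
  have hn5 : 1 ≤ n := by omega
  have hn' : (1 : ℝ) ≤ n := by exact_mod_cast hn5
  have hn0 : (0 : ℝ) < n := by linarith
  have hL0 : 0 ≤ Real.log n := Real.log_nonneg hn'
  obtain ⟨VV, hVVc, hVV, hch'⟩ := hfam n hn2
  have hlog : 16 / d ≤ Real.log n := by
    rw [Real.le_log_iff_exp_le hn0]
    exact hn4.trans (by exact_mod_cast hn4')
  have hsub := bad_subset hn5 rfl hb hd hκb hK hκK hεd (min_le_right _ _) hlog (min_le_left _ _)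
    (hcore n hn3 (Fin n) (by rw [Fintype.card_fin])) VV hVV hch'
  refine (prob_mono hp0.le hp1.le hsub).trans ?_
  refine (prob_biUnion_le hp0.le hp1.le _ _).trans ?_
  have hterm : ∀ V ∈ VV.filter (fun V => (rk (orth V) : ℝ) + b / 2 * n ≤ n),
      bernoulliProb p {w : Sym2 (Fin n) → Bool | Psi (K * Real.log n)
        (LS.act (symMat w) (orth V)) ≤
        ((K + 1 / 2) * rk (orth V) - d / 2 * n) * Real.log n} ≤ Real.exp (-(c1 * n ^ 2)) := by
    intro V hV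
    rw [Finset.mem_filter] at hV
    refine hS n hn1 (Fin n) (Fintype.card_fin n) (orth V) hV.2 ?_
    rw [Lat.lc_orth_sat, (hVV V hV.1).1]
    refine (hVV V hV.1).2.trans ?_
    gcongr
  refine (Finset.sum_le_card_nsmul _ _ _ hterm).trans ?_
  rw [nsmul_eq_mul]
  have h1 : ((VV.filter (fun V => (rk (orth V) : ℝ) + b / 2 * n ≤ n)).card : ℝ) ≤
      Real.exp (c1 / 2 * (n : ℝ) ^ 2) := by
    have e1 : ((VV.filter (fun V => (rk (orth V) : ℝ) + b / 2 * n ≤ n)).card : ℝ) ≤ VV.card := by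
      exact_mod_cast Finset.card_filter_le _ _
    refine e1.trans (hVVc.trans ?_)
    rw [Real.rpow_def_of_pos two_pos]
    refine Real.exp_le_exp.mpr ?_
    have h2 : Real.log 2 ≤ 1 := by
      have := Real.log_le_sub_one_of_pos (show (0 : ℝ) < 2 by norm_num)
      linarith
    have h3 : 0 ≤ Real.log 2 := Real.log_nonneg (by norm_num)
    have h4 : ε * (n : ℝ) ^ 2 ≤ c1 / 2 * (n : ℝ) ^ 2 := by gcongr
    have h5 : 0 ≤ ε * (n : ℝ) ^ 2 := by positivity
    nlinarith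
  calc _ ≤ Real.exp (c1 / 2 * (n : ℝ) ^ 2) * Real.exp (-(c1 * (n : ℝ) ^ 2)) := by gcongr
    _ = Real.exp (-(c1 / 2 * (n : ℝ) ^ 2)) := by rw [← Real.exp_add]; congr 1; ring

/-- **GLO in the frozen form of `AsmDefs`.** -/
theorem glo_of {p : ℝ} (hp0 : 0 < p) (hp1 : p < 1) (hone : OneStepAll p) (hch : CheapFam) :
    Asm.GLO p := by
  intro d hd b hb
  obtain ⟨c0, hc0, n0, h⟩ := glo_gen hp0 hp1 hone hch hd hb
  obtain ⟨n1, hn1⟩ := exists_nat_ge (Real.log 4 / c0)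
  refine ⟨max n0 n1, fun n hn => ?_⟩
  have h1 := h n (by omega)
  have hsub : {w : Sym2 (Fin n) → Bool | (symMat w).det ≠ 0 ∧
      ∃ L : AddSubgroup (Fin n → ℤ), Asm.rng (symMat w) ≤ L ∧
      (n : ℝ) ^ (d * n) ≤ (L.index : ℝ) ∧
      (2 : ℝ) ^ (b * n) < (Nat.card {x : Fin n → Bool // Asm.sv x ∈ L} : ℝ)} ⊆ Bad n d b := by
    rintro w ⟨a1, L, a2, a3, a4⟩
    refine ⟨a1, L, a2, a3, 0, ?_⟩
    simpa only [sub_zero] using a4
  refine (prob_mono hp0.le hp1.le hsub).trans (h1.trans ?_)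
  have h2 : (n1 : ℝ) ≤ n := by exact_mod_cast (by omega : n1 ≤ n)
  have h3 : Real.log 4 ≤ c0 * n := by
    rw [div_le_iff₀ hc0] at hn1
    nlinarith
  have h4 : (1 / 4 : ℝ) ^ n = Real.exp (-(Real.log 4 * n)) := by
    rw [one_div, inv_pow, Real.exp_neg, mul_comm, Real.exp_nat_mul, Real.exp_log (by norm_num)]
  rw [h4]
  refine Real.exp_le_exp.mpr ?_
  have h5 : (0 : ℝ) ≤ n := Nat.cast_nonneg n
  nlinarith [mul_le_mul_of_nonneg_right h3 h5]

end Crest.Agent.R152.Glo
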