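import Mathlib
import Crest.Agent.R152.WRM2d

set_option autoImplicit false

/-!
# Row 152, module IsoA (helper876): the minimiser of `log det + 2 λ rk` and its splitting
-/

namespace Crest.Agent.R152.IsoA

open Matrix Module Crest.Agent.R152.WRM

/-- every integral sublattice `Y` satisfies `a e^{2 λ k} ≤ det(Y) e^{2 λ rk Y}` -/
def MinC {ι : Type*} [Fintype ι] (lam : ℝ) (k : ℕ) (a : ℝ) (G : Matrix ι ι ℝ) : Prop :=
  ∀ (j : ℕ) (Y : Matrix ι (Fin j) ℤ), ((im Y)ᵀ * G * im Y).det ≠ 0 →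
    a * Real.exp (2 * lam * k) ≤ ((im Y)ᵀ * G * im Y).det * Real.exp (2 * lam * j)

theorem exists_minimiser {ι : Type*} [Fintype ι] [DecidableEq ι] {G : Matrix ι ι ℝ}
    (hG : G.PosDef) (lam : ℝ) :
    ∃ (k : ℕ) (Z : Matrix ι (Fin k) ℤ), ((im Z)ᵀ * G * im Z).det ≠ 0 ∧
      MinC lam k ((im Z)ᵀ * G * im Z).det G := by
  classical
  set m := Fintype.card ι with hm
  set C : ℝ := Real.exp (2 * |lam| * m) with hC
  have hempty : ∀ Z : Matrix ι (Fin 0) ℤ, ((im Z)ᵀ * G * im Z).det = 1 := by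
    intro Z
    exact det_fin_zero
  let S : Set (ℕ × ℝ) := {q | q.1 ≤ m ∧ q.2 ≠ 0 ∧ q.2 ≤ C ∧
    ∃ Z : Matrix ι (Fin q.1) ℤ, q.2 = ((im Z)ᵀ * G * im Z).det}
  have hSfin : S.Finite := by
    have h1 : S ⊆ ⋃ k ∈ Finset.Icc 0 m, (fun d => (k, d)) ''
        {d : ℝ | d ≤ C ∧ ∃ Z : Matrix ι (Fin k) ℤ, d = ((im Z)ᵀ * G * im Z).det} := by
      rintro ⟨k, d⟩ ⟨h2, h3, h4, h5⟩
      simp only [Set.mem_iUnion]
      exact ⟨k, Finset.mem_Icc.2 ⟨Nat.zero_le _, h2⟩, d, ⟨h4, h5⟩, rfl⟩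
    refine Set.Finite.subset ?_ h1
    refine Set.Finite.biUnion (Finset.finite_toSet _) fun k _ => ?_
    exact (det_values_finite hG k _).image _
  have hC1 : 1 ≤ C := by
    rw [hC, ← Real.exp_zero]
    apply Real.exp_le_exp.2
    positivity
  have hS0 : ((0 : ℕ), (1 : ℝ)) ∈ S :=
    ⟨Nat.zero_le _, one_ne_zero, hC1, 0, (hempty _).symm⟩
  obtain ⟨⟨k, d⟩, hkd, hmin⟩ := Set.exists_min_image S
    (fun q => q.2 * Real.exp (2 * lam * q.1)) hSfin ⟨_, hS0⟩
  obtain ⟨hkm, hd0, hdC, Z, hZ⟩ := hkd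
  simp only at hkm hd0 hdC Z hZ
  refine ⟨k, Z, by rw [← hZ]; exact hd0, ?_⟩
  intro j Y hY
  rw [← hZ]
  have hjm : j ≤ m := by
    by_contra h
    exact hY (det_eq_zero_of_lt (by omega) Y)
  by_cases hle : ((im Y)ᵀ * G * im Y).det ≤ C
  · exact hmin (j, ((im Y)ᵀ * G * im Y).det) ⟨hjm, hY, hle, Y, rfl⟩
  · push Not at hle
    have h1 := hmin _ hS0
    simp only [Nat.cast_zero, mul_zero, Real.exp_zero, mul_one] at h1
    refine h1.trans ?_
    have h2 : 1 ≤ C * Real.exp (2 * lam * j) := by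
      rw [hC, ← Real.exp_add, ← Real.exp_zero]
      apply Real.exp_le_exp.2
      have h3 : (j : ℝ) ≤ m := by exact_mod_cast hjm
      have h4 : -(|lam|) ≤ lam := neg_abs_le lam
      have h5 : 0 ≤ |lam| := abs_nonneg lam
      have h6 : (0 : ℝ) ≤ j := by positivity
      nlinarith
    refine h2.trans ?_
    gcongr

section minC

variable {ι κ : Type*} [Fintype ι] [Fintype κ]

theorem minC_conj {lam : ℝ} {k : ℕ} {a : ℝ} {G : Matrix ι ι ℝ} (hG : MinC lam k a G)
    (U : Matrix ι κ ℤ) : MinC lam k a ((im U)ᵀ * G * im U) := by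
  intro j Z hZ
  have e : (im Z)ᵀ * ((im U)ᵀ * G * im U) * im Z = (im (U * Z))ᵀ * G * im (U * Z) := by
    rw [im_mul, transpose_mul]
    simp only [Matrix.mul_assoc]
  rw [e] at hZ ⊢
  exact hG j (U * Z) hZ

theorem minC_reindex (e : κ ≃ ι) {lam : ℝ} {k : ℕ} {a : ℝ} {G : Matrix ι ι ℝ}
    (hG : MinC lam k a G) : MinC lam k a (G.submatrix e e) := by
  intro j Z hZ
  have h1 : (im Z)ᵀ * G.submatrix e e * im Z =
      (im (Z.submatrix e.symm id))ᵀ * G * im (Z.submatrix e.symm id) := by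
    have h2 : im Z = (im (Z.submatrix e.symm id)).submatrix e id := by
      ext i j; simp [im]
    conv_lhs => rw [h2]
    rw [transpose_submatrix, submatrix_mul_equiv, submatrix_mul_equiv]
    rfl
  rw [h1] at hZ ⊢
  exact hG j _ hZ

theorem minC_le {lam : ℝ} {k : ℕ} {a a' : ℝ} {G : Matrix ι ι ℝ} (h : a' ≤ a)
    (hG : MinC lam k a G) : MinC lam k a' G := by
  intro j Z hZ
  refine le_trans ?_ (hG j Z hZ)
  gcongr

variable {k l : ℕ} {A : Matrix (Fin k) (Fin k) ℝ} {B : Matrix (Fin k) (Fin l) ℝ}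
  {D : Matrix (Fin l) (Fin l) ℝ}

theorem minC_fst {lam : ℝ} {k' : ℕ} {a : ℝ} (h : MinC lam k' a (blk A B D)) :
    MinC lam k' a A := by
  have h1 := minC_conj h (fromRows (1 : Matrix (Fin k) (Fin k) ℤ) (0 : Matrix (Fin l) (Fin k) ℤ))
  have h2 : (im (fromRows (1 : Matrix (Fin k) (Fin k) ℤ) (0 : Matrix (Fin l) (Fin k) ℤ)))ᵀ *
      blk A B D * im (fromRows (1 : Matrix (Fin k) (Fin k) ℤ) (0 : Matrix (Fin l) (Fin k) ℤ))
      = A := by
    have h3 : im (fromRows (1 : Matrix (Fin k) (Fin k) ℤ) (0 : Matrix (Fin l) (Fin k) ℤ)) =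
        fromRows (1 : Matrix (Fin k) (Fin k) ℝ) (0 : Matrix (Fin l) (Fin k) ℝ) := by
      ext i j
      rcases i with i | i
      · simp [im, Matrix.one_apply]
      · simp [im]
    rw [h3, blk, transpose_fromRows, fromCols_mul_fromBlocks, fromCols_mul_fromRows]
    simp
  rwa [h2] at h1

/-- the quotient by the minimiser has slopes at least `-2λ` -/
theorem minC_schur {lam : ℝ} (hp : (blk A B D).PosDef)
    (h : MinC lam k A.det (blk A B D)) : SubC (-(2 * lam)) (schur A B D) := by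
  intro j W hW
  have hApos := posDef_of_blk hp
  set Z : Matrix (Fin k ⊕ Fin l) (Fin (k + j)) ℤ :=
    (fromBlocks (1 : Matrix (Fin k) (Fin k) ℤ) 0 0 W).submatrix id finSumFinEquiv.symm with hZ
  have h1 : ((im Z)ᵀ * blk A B D * im Z).det = A.det * ((im W)ᵀ * schur A B D * im W).det := by
    have h2 : (im Z)ᵀ * blk A B D * im Z =
        (blk A (B * im W) ((im W)ᵀ * D * im W)).submatrix finSumFinEquiv.symm
          finSumFinEquiv.symm := by
      rw [← gram_lift W, hZ, im_submatrix]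
      ext a b
      simp [Matrix.mul_apply]
    rw [h2, det_submatrix_equiv_self, det_blk hApos, schur_lift]
  have h3 := h (k + j) Z (by rw [h1]; exact mul_ne_zero hApos.det_pos.ne' hW)
  rw [h1, mul_assoc A.det] at h3
  have h4 := le_of_mul_le_mul_left h3 hApos.det_pos
  push_cast at h4
  have h5 : Real.exp (2 * lam * (k + j)) = Real.exp (2 * lam * k) * Real.exp (2 * lam * j) := by
    rw [← Real.exp_add]; congr 1; ring
  rw [h5] at h4
  have h6 : 1 ≤ ((im W)ᵀ * schur A B D * im W).det * Real.exp (2 * lam * j) := by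
    have h7 : Real.exp (2 * lam * k) * 1 ≤ Real.exp (2 * lam * k) *
        (((im W)ᵀ * schur A B D * im W).det * Real.exp (2 * lam * j)) := by
      linarith
    exact le_of_mul_le_mul_left h7 (Real.exp_pos _)
  have h8 : Real.exp (-(2 * lam) * j) * Real.exp (2 * lam * j) = 1 := by
    rw [← Real.exp_add]
    have : -(2 * lam) * j + 2 * lam * j = 0 := by ring
    rw [this, Real.exp_zero]
  rw [← h8] at h6
  exact le_of_mul_le_mul_right h6 (Real.exp_pos _)

end minC

/-- **splitting along an arbitrary sublattice** -/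
theorem split_gen {n k : ℕ} {G : Matrix (Fin n) (Fin n) ℝ} (hG : G.PosDef)
    (Z : Matrix (Fin n) (Fin k) ℤ) (hZ0 : ((im Z)ᵀ * G * im Z).det ≠ 0) :
    ∃ (l : ℕ) (e : Fin k ⊕ Fin l ≃ Fin n) (U V : Matrix (Fin n) (Fin n) ℤ)
      (A : Matrix (Fin k) (Fin k) ℝ) (B : Matrix (Fin k) (Fin l) ℝ)
      (D : Matrix (Fin l) (Fin l) ℝ), k + l = n ∧ U * V = 1 ∧
      ((im U)ᵀ * G * im U).submatrix e e = blk A B D ∧ A.det ≤ ((im Z)ᵀ * G * im Z).det := by
  classical
  have hli := linearIndependent_cols Z hZ0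
  set v : Fin k → (Fin n → ℤ) := fun j i => Z i j with hv
  set N : Submodule ℤ (Fin n → ℤ) := Submodule.span ℤ (Set.range v) with hN
  obtain ⟨r, snf⟩ := Submodule.smithNormalForm (Pi.basisFun ℤ (Fin n)) N
  have hr : r = k := by
    have h1 := Module.finrank_eq_card_basis snf.bN
    have h2 := Module.finrank_eq_card_basis (Basis.span hli)
    rw [h1] at h2
    simpa using h2
  subst hr
  -- the base change
  set U : Matrix (Fin n) (Fin n) ℤ := (Pi.basisFun ℤ (Fin n)).toMatrix snf.bM with hU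
  set V : Matrix (Fin n) (Fin n) ℤ := snf.bM.toMatrix (Pi.basisFun ℤ (Fin n)) with hV
  have hUV : U * V = 1 := Basis.toMatrix_mul_toMatrix_flip _ _
  have hUapp : ∀ i j, U i j = snf.bM j i := by
    intro i j
    rw [hU, Basis.toMatrix_apply, Pi.basisFun_repr]
  -- complement of the range of `f`
  let l := Fintype.card {i : Fin n // i ∉ Set.range snf.f}
  let e : Fin r ⊕ Fin l ≃ Fin n :=
    (Equiv.sumCongr (Equiv.ofInjective snf.f snf.f.injective)
      (Fintype.equivFin {i : Fin n // i ∉ Set.range snf.f}).symm).trans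
      (Equiv.Set.sumCompl (Set.range snf.f))
  have he : ∀ j, e (Sum.inl j) = snf.f j := fun j => rfl
  set M := ((im U)ᵀ * G * im U).submatrix e e with hM
  have hMpos : M.PosDef := posDef_reindex e (posDef_conj hG U V hUV)
  refine ⟨l, e, U, V, M.toBlocks₁₁, M.toBlocks₁₂, M.toBlocks₂₂, ?_, hUV, eq_blk hMpos, ?_⟩
  · have := Fintype.card_congr e
    simpa using this
  · -- the sublattice spanned by the `bM (f j)`
    set Z' : Matrix (Fin n) (Fin r) ℤ := U.submatrix id snf.f with hZ'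
    have hA : M.toBlocks₁₁ = (im Z')ᵀ * G * im Z' := by
      ext i j
      simp [M, toBlocks₁₁, he, hZ', im_submatrix, Matrix.mul_apply]
    -- `Z = Z' * T`
    have hvmem : ∀ j, v j ∈ N := fun j => Submodule.subset_span ⟨j, rfl⟩
    set T : Matrix (Fin r) (Fin r) ℤ := fun i j => snf.bN.repr ⟨v j, hvmem j⟩ i * snf.a i with hT
    have hZT : Z = Z' * T := by
      ext i' j
      have h1 := snf.bN.sum_repr ⟨v j, hvmem j⟩
      have h2 := congrArg (fun w : N => (w : Fin n → ℤ) i') h1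
      simp only [AddSubmonoidClass.coe_finsetSum, Submodule.coe_smul, Finset.sum_apply,
        Pi.smul_apply, smul_eq_mul] at h2
      rw [Matrix.mul_apply]
      change v j i' = _
      rw [← h2]
      apply Finset.sum_congr rfl
      intro i _
      rw [snf.snf i, hT, hZ', submatrix_apply, hUapp]
      simp only [Pi.smul_apply, smul_eq_mul, id]
      ring
    have hdet : ((im Z)ᵀ * G * im Z).det = (T.det : ℝ) ^ 2 * M.toBlocks₁₁.det := by
      have h1 : (im Z)ᵀ * G * im Z = (im T)ᵀ * M.toBlocks₁₁ * im T := by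
        rw [hA, hZT, im_mul, transpose_mul]
        simp only [Matrix.mul_assoc]
      rw [h1, det_mul, det_mul, det_transpose, det_im]
      ring
    have hT0 : T.det ≠ 0 := by
      intro h0
      rw [h0] at hdet
      simp at hdet
      exact hZ0 hdet
    have hT1 : (1 : ℝ) ≤ (T.det : ℝ) ^ 2 := by
      have h2 : (1 : ℤ) ≤ T.det ^ 2 := by
        have := sq_nonneg T.det
        have h3 : T.det ^ 2 ≠ 0 := pow_ne_zero 2 hT0
        omega
      exact_mod_cast h2
    have hA0 : 0 ≤ M.toBlocks₁₁.det := by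
      rw [hA]
      exact gram_det_nonneg hG.posSemidef Z'
    rw [hdet]
    nlinarith

/-- **the splitting along the minimiser** -/
theorem exists_split {n : ℕ} {G : Matrix (Fin n) (Fin n) ℝ} (hG : G.PosDef) (lam : ℝ) :
    ∃ (k l : ℕ) (e : Fin k ⊕ Fin l ≃ Fin n) (U V : Matrix (Fin n) (Fin n) ℤ)
      (A : Matrix (Fin k) (Fin k) ℝ) (B : Matrix (Fin k) (Fin l) ℝ)
      (D : Matrix (Fin l) (Fin l) ℝ), k + l = n ∧ U * V = 1 ∧
      ((im U)ᵀ * G * im U).submatrix e e = blk A B D ∧ (blk A B D).PosDef ∧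
      MinC lam k A.det A ∧ SubC (-(2 * lam)) (schur A B D) := by
  obtain ⟨k, Z, hZ0, hmin⟩ := exists_minimiser hG lam
  obtain ⟨l, e, U, V, A, B, D, hkl, hUV, hblk, hA⟩ := split_gen hG Z hZ0
  have hpos : (blk A B D).PosDef := by
    rw [← hblk]; exact posDef_reindex e (posDef_conj hG U V hUV)
  have hminb : MinC lam k A.det (blk A B D) := by
    rw [← hblk]
    exact minC_le hA (minC_reindex e (minC_conj hmin U))
  exact ⟨k, l, e, U, V, A, B, D, hkl, hUV, hblk, hpos, minC_fst hminb, minC_schur hpos hminb⟩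

end Crest.Agent.R152.IsoA
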