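import Mathlib
import Crest.Agent.R152.IsoA1

set_option autoImplicit false

/-!
# Row 152, module IsoA (helper876): determinants of dominated forms, saturated splittings,
the rank bound for an almost integral form on the minimiser
-/

namespace Crest.Agent.R152.IsoA

open Matrix Module Crest.Agent.R152.WRM

/-- a symmetric form dominated by a positive definite one has a smaller determinant -/
theorem abs_det_le {ι : Type*} [Fintype ι] [DecidableEq ι] {Q N : Matrix ι ι ℝ}
    (hQ : Q.PosDef) (hN : N.IsSymm) (hle : ∀ x, |qf N x| ≤ qf Q x) : |N.det| ≤ Q.det := by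
  obtain ⟨F, hF, hdet⟩ := exists_factor hQ
  have hu : IsUnit F.det := Ne.isUnit hdet
  set N' : Matrix ι ι ℝ := (F⁻¹)ᵀ * N * F⁻¹ with hN'
  have hsymm : N'.IsHermitian := by
    rw [IsHermitian, conjTranspose_eq_transpose_of_trivial, hN', transpose_mul, transpose_mul,
      transpose_transpose, hN.eq, Matrix.mul_assoc]
  have hNF : N = Fᵀ * N' * F := by
    rw [hN']
    have h1 : F⁻¹ * F = 1 := nonsing_inv_mul _ hu
    have h2 : Fᵀ * (F⁻¹)ᵀ = 1 := by rw [← transpose_mul, h1, transpose_one]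
    calc N = 1 * N * 1 := by rw [Matrix.one_mul, Matrix.mul_one]
      _ = (Fᵀ * (F⁻¹)ᵀ) * N * (F⁻¹ * F) := by rw [h1, h2]
      _ = Fᵀ * ((F⁻¹)ᵀ * N * F⁻¹) * F := by simp only [Matrix.mul_assoc]
  have hdN : N.det = N'.det * F.det ^ 2 := by
    rw [hNF, det_mul, det_mul, det_transpose]; ring
  have hdQ : Q.det = F.det ^ 2 := by
    rw [hF, det_mul, det_transpose]; ring
  have hq : ∀ x : ι → ℝ, |qf N' x| ≤ ∑ i, x i ^ 2 := by
    intro x
    have h1 : qf N' x = qf N (F⁻¹ *ᵥ x) := by rw [hN', qf_conj]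
    have h2 : qf Q (F⁻¹ *ᵥ x) = ∑ i, x i ^ 2 := by
      rw [hF, qf_transpose_mul, mulVec_mulVec, mul_nonsing_inv _ hu, one_mulVec]
    rw [h1, ← h2]
    exact hle _
  have hev : ∀ i, |hsymm.eigenvalues i| ≤ 1 := by
    intro i
    have h1 := hsymm.eigenvalues_eq i
    have h2 : hsymm.eigenvalues i = qf N' (hsymm.eigenvectorBasis i) := by
      rw [h1]
      simp [qf]
    rw [h2]
    refine (hq _).trans ?_
    have h3 : ‖hsymm.eigenvectorBasis i‖ = 1 := hsymm.eigenvectorBasis.orthonormal.1 i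
    have h4 := EuclideanSpace.norm_sq_eq (hsymm.eigenvectorBasis i)
    rw [h3] at h4
    simp only [Real.norm_eq_abs, sq_abs] at h4
    rw [← h4]
    norm_num
  have hd1 : |N'.det| ≤ 1 := by
    rw [hsymm.det_eq_prod_eigenvalues]
    simp only [RCLike.ofReal_real_eq_id, id]
    rw [Finset.abs_prod]
    exact Finset.prod_le_one (fun i _ => abs_nonneg _) (fun i _ => hev i)
  rw [hdN, hdQ, abs_mul, abs_of_nonneg (sq_nonneg F.det)]
  calc |N'.det| * F.det ^ 2 ≤ 1 * F.det ^ 2 := by gcongr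
    _ = F.det ^ 2 := one_mul _

/-- a basis matrix of a finite index subgroup -/
theorem exists_basis_matrix {l : ℕ} (H : Submodule ℤ (Fin l → ℤ))
    (hH : H.toAddSubgroup.index ≠ 0) :
    ∃ T : Matrix (Fin l) (Fin l) ℤ, (∀ j, (fun i => T i j) ∈ H) ∧
      T.det.natAbs = H.toAddSubgroup.index := by
  have hfin : Finite ((Fin l → ℤ) ⧸ H) :=
    (AddSubgroup.finiteIndex_iff_finite_quotient (H := H.toAddSubgroup)).1 ⟨hH⟩
  have hrk : finrank ℤ H = finrank ℤ (Fin l → ℤ) := (Submodule.finiteQuotient_iff H).1 hfin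
  let bN : Basis (Fin l) ℤ H := Module.finBasisOfFinrankEq ℤ H (by rw [hrk]; simp)
  refine ⟨(Pi.basisFun ℤ (Fin l)).toMatrix (fun i => (bN i : Fin l → ℤ)), ?_, ?_⟩
  · intro j
    have : (fun i => (Pi.basisFun ℤ (Fin l)).toMatrix (fun i => (bN i : Fin l → ℤ)) i j) =
        (bN j : Fin l → ℤ) := by
      funext i
      rw [Basis.toMatrix_apply, Pi.basisFun_repr]
    rw [this]
    exact (bN j).2
  · have h := Submodule.natAbs_det_basis_change (Pi.basisFun ℤ (Fin l)) H bN
    rw [Basis.det_apply] at h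
    exact h

/-- an almost integral nondegenerate form has determinant at least `1/K` -/
theorem det_ge_of_integral {l : ℕ} {N : Matrix (Fin l) (Fin l) ℝ}
    (H : Submodule ℤ (Fin l → ℤ)) {K : ℕ} (hH : H.toAddSubgroup.index ≠ 0)
    (hK : H.toAddSubgroup.index ≤ K)
    (hint : ∀ h ∈ H, ∀ y : Fin l → ℤ, ∃ z : ℤ, iv h ⬝ᵥ N *ᵥ iv y = z)
    (hnd : ∀ z : Fin l → ℤ, N *ᵥ iv z = 0 → z = 0) : 1 ≤ K * |N.det| := by
  obtain ⟨T, hT, hdet⟩ := exists_basis_matrix H hH
  choose c hc using hint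
  set C : Matrix (Fin l) (Fin l) ℤ := fun i j => c _ (hT i) (Pi.single j 1) with hC
  have hTN : (im T)ᵀ * N = im C := by
    ext i j
    have h1 := hc _ (hT i) (Pi.single j 1)
    have h2 : iv (Pi.single j (1 : ℤ) : Fin l → ℤ) = Pi.single j (1 : ℝ) := by
      funext i'
      by_cases h : i' = j
      · subst h; simp [iv]
      · simp [iv, h]
    rw [h2, mulVec_single_one] at h1
    change _ = ((C i j : ℤ) : ℝ)
    rw [hC, ← h1]
    rfl
  have hT0 : (T.det : ℝ) ≠ 0 := by
    have h1 : T.det ≠ 0 := by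
      intro h0
      rw [h0] at hdet
      exact hH (by simpa using hdet.symm)
    exact_mod_cast h1
  have hdetC : (T.det : ℝ) * N.det = (C.det : ℝ) := by
    rw [← det_im, ← det_transpose, ← det_mul, hTN, det_im]
  have hC0 : C.det ≠ 0 := by
    intro h0
    obtain ⟨v, hv0, hv⟩ := Matrix.exists_mulVec_eq_zero_iff.2 h0
    apply hv0
    apply hnd
    have h1 : (im T)ᵀ *ᵥ (N *ᵥ iv v) = 0 := by
      rw [mulVec_mulVec, hTN, im_mulVec_iv, hv, iv_zero]
    exact eq_zero_of_mulVec_eq_zero (by rw [det_transpose, det_im]; exact hT0) h1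
  have h1 : (1 : ℝ) ≤ |(C.det : ℝ)| := by
    rw [← Int.cast_abs]
    exact_mod_cast Int.one_le_abs hC0
  have h2 : |(T.det : ℝ)| ≤ K := by
    have h3 : (T.det.natAbs : ℝ) ≤ K := by
      rw [hdet]; exact_mod_cast hK
    rwa [Nat.cast_natAbs, Int.cast_abs] at h3
  calc (1 : ℝ) ≤ |(C.det : ℝ)| := h1
    _ = |(T.det : ℝ)| * |N.det| := by rw [← hdetC, abs_mul]
    _ ≤ K * |N.det| := by gcongr

/-- splitting of a saturated submodule -/
theorem split_sat {k : ℕ} (R : Submodule ℤ (Fin k → ℤ))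
    (hsat : ∀ (a : ℤ) (z : Fin k → ℤ), a ≠ 0 → a • z ∈ R → z ∈ R) :
    ∃ (r l : ℕ) (e : Fin r ⊕ Fin l ≃ Fin k) (U V : Matrix (Fin k) (Fin k) ℤ),
      r + l = k ∧ U * V = 1 ∧ V * U = 1 ∧ finrank ℤ R = r ∧
      ∀ z : Fin k → ℤ, z ∈ R ↔ ∀ j, (V *ᵥ z) (e (Sum.inr j)) = 0 := by
  classical
  obtain ⟨r, snf⟩ := Submodule.smithNormalForm (Pi.basisFun ℤ (Fin k)) R
  set U : Matrix (Fin k) (Fin k) ℤ := (Pi.basisFun ℤ (Fin k)).toMatrix snf.bM with hU
  set V : Matrix (Fin k) (Fin k) ℤ := snf.bM.toMatrix (Pi.basisFun ℤ (Fin k)) with hV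
  have hUV : U * V = 1 := Basis.toMatrix_mul_toMatrix_flip _ _
  have hVU : V * U = 1 := Basis.toMatrix_mul_toMatrix_flip _ _
  let l := Fintype.card {i : Fin k // i ∉ Set.range snf.f}
  let e : Fin r ⊕ Fin l ≃ Fin k :=
    (Equiv.sumCongr (Equiv.ofInjective snf.f snf.f.injective)
      (Fintype.equivFin {i : Fin k // i ∉ Set.range snf.f}).symm).trans
      (Equiv.Set.sumCompl (Set.range snf.f))
  have he : ∀ j, e (Sum.inl j) = snf.f j := fun j => rfl
  have her : ∀ j, e (Sum.inr j) ∉ Set.range snf.f := by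
    intro j
    exact ((Fintype.equivFin {i : Fin k // i ∉ Set.range snf.f}).symm j).2
  have hVz : ∀ (z : Fin k → ℤ) i, (V *ᵥ z) i = snf.bM.repr z i := by
    intro z i
    have h1 := Basis.toMatrix_mulVec_repr (Pi.basisFun ℤ (Fin k)) snf.bM z
    have h2 : (⇑((Pi.basisFun ℤ (Fin k)).repr z) : Fin k → ℤ) = z := by
      funext i; simp
    rw [h2] at h1
    rw [hV, h1]
  refine ⟨r, l, e, U, V, ?_, hUV, hVU, ?_, ?_⟩
  · have := Fintype.card_congr e
    simpa using this
  · rw [Module.finrank_eq_card_basis snf.bN, Fintype.card_fin]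
  · intro z
    constructor
    · intro hz j
      rw [hVz]
      exact snf.repr_eq_zero_of_notMem_range ⟨z, hz⟩ (her j)
    · intro hz
      have hb : ∀ j, snf.bM (snf.f j) ∈ R := by
        intro j
        have ha : snf.a j ≠ 0 := by
          intro h0
          have h1 := snf.snf j
          rw [h0, zero_smul] at h1
          have h2 : snf.bN j = 0 := by
            apply Subtype.ext
            exact h1
          exact snf.bN.ne_zero j h2
        apply hsat (snf.a j) _ ha
        rw [← snf.snf j]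
        exact (snf.bN j).2
      have h1 : z = ∑ i, snf.bM.repr z i • snf.bM i := (snf.bM.sum_repr z).symm
      rw [h1, ← e.sum_comp, Fintype.sum_sum_type]
      apply R.add_mem
      · exact R.sum_mem fun j _ => R.smul_mem _ (by rw [he]; exact hb j)
      · apply R.sum_mem
        intro j _
        rw [← hVz, hz j, zero_smul]
        exact R.zero_mem

end Crest.Agent.R152.IsoA
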