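import Mathlib
import Crest.Agent.R152.IsoA2

set_option autoImplicit false

/-!
# Row 152, module IsoA (helper876): the rank bound for an almost integral form on the minimiser
-/

namespace Crest.Agent.R152.IsoA

open Matrix Module Crest.Agent.R152.WRM

/-- the integral radical of a real form -/
def radI {k : ℕ} (N : Matrix (Fin k) (Fin k) ℝ) : Submodule ℤ (Fin k → ℤ) where
  carrier := {z | N *ᵥ iv z = 0}
  zero_mem' := by simp [iv_zero]
  add_mem' {a b} ha hb := by
    simp only [Set.mem_ofPred_eq] at ha hb ⊢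
    rw [iv_add, mulVec_add, ha, hb, add_zero]
  smul_mem' c x hx := by
    simp only [Set.mem_ofPred_eq] at hx ⊢
    have h1 : iv (c • x) = (c : ℝ) • iv x := by
      funext i; simp [iv]
    rw [h1, mulVec_smul, hx, smul_zero]

theorem mem_radI {k : ℕ} {N : Matrix (Fin k) (Fin k) ℝ} {z : Fin k → ℤ} :
    z ∈ radI N ↔ N *ᵥ iv z = 0 := Iff.rfl

theorem radI_sat {k : ℕ} (N : Matrix (Fin k) (Fin k) ℝ) (a : ℤ) (z : Fin k → ℤ) (ha : a ≠ 0)
    (h : a • z ∈ radI N) : z ∈ radI N := by
  rw [mem_radI] at h ⊢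
  have h1 : iv (a • z) = (a : ℝ) • iv z := by
    funext i; simp [iv]
  rw [h1, mulVec_smul] at h
  have h2 : (a : ℝ) ≠ 0 := by exact_mod_cast ha
  exact (smul_eq_zero.1 h).resolve_left h2

theorem iv_single {k : ℕ} (j : Fin k) : iv (Pi.single j (1 : ℤ) : Fin k → ℤ) =
    (Pi.single j (1 : ℝ) : Fin k → ℝ) := by
  funext i'
  by_cases h : i' = j
  · subst h; simp [iv]
  · simp [iv, h]

/-- reindexing a bilinear form -/
theorem bil_reindex {ι κ : Type*} [Fintype ι] [Fintype κ] (e : κ ≃ ι) (G : Matrix ι ι ℝ)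
    (x y : κ → ℝ) :
    x ⬝ᵥ (G.submatrix e e) *ᵥ y = (x ∘ e.symm) ⬝ᵥ G *ᵥ (y ∘ e.symm) := by
  rw [dotProduct, dotProduct, ← e.sum_comp]
  apply Finset.sum_congr rfl
  intro i _
  simp only [Function.comp, Equiv.symm_apply_apply]
  congr 1
  rw [mulVec, mulVec, dotProduct, dotProduct, ← e.sum_comp]
  apply Finset.sum_congr rfl
  intro j _
  simp

theorem bil_conj {ι κ : Type*} [Fintype ι] [Fintype κ] (G : Matrix ι ι ℝ) (P : Matrix ι κ ℝ)
    (x y : κ → ℝ) : x ⬝ᵥ (Pᵀ * G * P) *ᵥ y = (P *ᵥ x) ⬝ᵥ G *ᵥ (P *ᵥ y) := by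
  rw [Matrix.mul_assoc, ← mulVec_mulVec, dotProduct_mulVec, vecMul_transpose, ← mulVec_mulVec]

/-- **rank bound**: an almost integral form dominated by the metric has small rank on a
minimiser of `log det + 2 λ rk`. -/
theorem rank_bound {k : ℕ} {A N : Matrix (Fin k) (Fin k) ℝ} {lam : ℝ} (hA : A.PosDef)
    (hmin : MinC lam k A.det A) (hN : N.IsSymm) (hle : ∀ x, |qf N x| ≤ qf A x)
    (H : Submodule ℤ (Fin k → ℤ)) {K : ℕ} (hH : H.toAddSubgroup.index ≠ 0)
    (hK : H.toAddSubgroup.index ≤ K)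
    (hint : ∀ h ∈ H, ∀ y : Fin k → ℤ, ∃ z : ℤ, iv h ⬝ᵥ N *ᵥ iv y = z) :
    ∃ r l : ℕ, r + l = k ∧ finrank ℤ (radI N) = r ∧ 2 * lam * l ≤ Real.log K := by
  classical
  obtain ⟨r, l, e, U, V, hrl, hUV, hVU, hfr, hmem⟩ := split_sat (radI N) (radI_sat N)
  refine ⟨r, l, hrl, hfr, ?_⟩
  set A' := ((im U)ᵀ * A * im U).submatrix e e with hA'
  set N' := ((im U)ᵀ * N * im U).submatrix e e with hN'
  have hA'pos : A'.PosDef := posDef_reindex e (posDef_conj hA U V hUV)
  set A1 := A'.toBlocks₁₁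
  set B1 := A'.toBlocks₁₂
  set D1 := A'.toBlocks₂₂
  have hblk : A' = blk A1 B1 D1 := eq_blk hA'pos
  have hbpos : (blk A1 B1 D1).PosDef := by rw [← hblk]; exact hA'pos
  have hA1 := posDef_of_blk hbpos
  have hminA' : MinC lam k A.det A' := minC_reindex e (minC_conj hmin U)
  -- determinant of the quotient
  have hdet : (schur A1 B1 D1).det ≤ Real.exp (-(2 * lam * l)) := by
    have h1 : A.det = A1.det * (schur A1 B1 D1).det := by
      rw [← det_blk hA1, ← hblk, hA', det_submatrix_equiv_self, det_conj A U V hUV]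
    have h2 := minC_fst (by rw [hblk] at hminA'; exact hminA') r 1
      (by rw [im_one]; simpa using hA1.det_pos.ne')
    rw [im_one] at h2
    simp only [transpose_one, Matrix.one_mul, Matrix.mul_one] at h2
    rw [h1, mul_assoc] at h2
    have h3 := le_of_mul_le_mul_left h2 hA1.det_pos
    have h4 : Real.exp (2 * lam * k) = Real.exp (2 * lam * r) * Real.exp (2 * lam * l) := by
      rw [← Real.exp_add, ← hrl]; congr 1; push_cast; ring
    have h5 : (schur A1 B1 D1).det * Real.exp (2 * lam * l) ≤ 1 := by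
      have h6 : Real.exp (2 * lam * r) * ((schur A1 B1 D1).det * Real.exp (2 * lam * l)) ≤
          Real.exp (2 * lam * r) * 1 := by
        rw [h4] at h3; linarith
      exact le_of_mul_le_mul_left h6 (Real.exp_pos _)
    rw [Real.exp_neg, ← one_div, le_div_iff₀ (Real.exp_pos _)]
    exact h5
  -- the form in the new basis
  set N2 := N'.toBlocks₂₂ with hN2
  have hN'symm : N'ᵀ = N' := by
    rw [hN', transpose_submatrix, transpose_mul, transpose_mul, transpose_transpose, hN.eq,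
      Matrix.mul_assoc]
  have hcol : ∀ a, ∀ j, N' a (Sum.inl j) = 0 := by
    intro a j
    have h1 : (U *ᵥ Pi.single (e (Sum.inl j)) 1) ∈ radI N := by
      rw [hmem]
      intro j'
      rw [mulVec_mulVec, hVU, one_mulVec, Pi.single_apply, if_neg]
      intro h
      have := e.injective h
      simp at this
    rw [mem_radI, ← im_mulVec_iv, iv_single, mulVec_single_one] at h1
    have h2 : N' a (Sum.inl j) = ((im U)ᵀ *ᵥ (N *ᵥ (im U).col (e (Sum.inl j)))) (e a) := by
      rw [hN', submatrix_apply, Matrix.mul_assoc, Matrix.mul_apply]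
      rfl
    rw [h2, h1, mulVec_zero, Pi.zero_apply]
  have hrow : ∀ a, ∀ j, N' (Sum.inl j) a = 0 := by
    intro a j
    have := congrFun (congrFun hN'symm (Sum.inl j)) a
    rw [transpose_apply] at this
    rw [← this, hcol]
  have hN'blk : N' = fromBlocks 0 0 0 N2 := by
    ext a b
    rcases a with a | a <;> rcases b with b | b
    · exact hcol _ _
    · exact hrow _ _
    · exact hcol _ _
    · rfl
  have hN2symm : N2.IsSymm := by
    have h1 : N2ᵀ = N2 := by
      ext i j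
      exact congrFun (congrFun hN'symm (Sum.inr i)) (Sum.inr j)
    exact h1
  have hbil2 : ∀ (x1 y1 : Fin r → ℝ) (x2 y2 : Fin l → ℝ),
      (Sum.elim x1 x2) ⬝ᵥ N' *ᵥ (Sum.elim y1 y2) = x2 ⬝ᵥ N2 *ᵥ y2 := by
    intro x1 y1 x2 y2
    rw [hN'blk, fromBlocks_mulVec]
    simp [dotProduct_block]
  have hdom : ∀ y, |qf N2 y| ≤ qf (schur A1 B1 D1) y := by
    intro y
    set x := -((A1⁻¹ * B1) *ᵥ y) with hx
    have h1 : qf N2 y = qf N' (Sum.elim x y) := by
      unfold qf; rw [hbil2]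
    have h2 : qf (blk A1 B1 D1) (Sum.elim x y) = qf (schur A1 B1 D1) y := by
      rw [qf_blk hA1, hx, neg_add_cancel, qf_zero, zero_add]
    rw [h1, ← h2, ← hblk, hN', hA', qf_reindex, qf_reindex, qf_conj, qf_conj]
    exact hle _
  have hdetle : |N2.det| ≤ (schur A1 B1 D1).det :=
    abs_det_le (schur_posDef hbpos) hN2symm hdom
  -- the projection
  let P : (Fin k → ℤ) →ₗ[ℤ] (Fin l → ℤ) :=
    { toFun := fun z j => (V *ᵥ z) (e (Sum.inr j))
      map_add' := by intro x y; funext j; simp [mulVec_add]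
      map_smul' := by
        intro c x
        funext j
        rw [mulVec_smul, Pi.smul_apply, RingHom.id_apply, Pi.smul_apply] }
  have hPapp : ∀ z j, P z j = (V *ᵥ z) (e (Sum.inr j)) := fun _ _ => rfl
  have hPsurj : Function.Surjective P := by
    intro y
    refine ⟨U *ᵥ ((Sum.elim (0 : Fin r → ℤ) y) ∘ e.symm), ?_⟩
    funext j
    rw [hPapp, mulVec_mulVec, hVU, one_mulVec]
    simp
  have hVe : ∀ z : Fin k → ℤ, iv z = im U *ᵥ ((Sum.elim
      (fun j => ((V *ᵥ z) (e (Sum.inl j)) : ℝ)) (iv (P z))) ∘ e.symm) := by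
    intro z
    have h1 : ((Sum.elim (fun j => ((V *ᵥ z) (e (Sum.inl j)) : ℝ)) (iv (P z))) ∘ e.symm) =
        iv (V *ᵥ z) := by
      funext i
      obtain ⟨a, rfl⟩ := e.surjective i
      rcases a with a | a
      · simp [iv]
      · simp [iv, hPapp]
    rw [h1, im_mulVec_iv, mulVec_mulVec, hUV, one_mulVec]
  have hbilP : ∀ z w : Fin k → ℤ, iv z ⬝ᵥ N *ᵥ iv w = iv (P z) ⬝ᵥ N2 *ᵥ iv (P w) := by
    intro z w
    conv_lhs => rw [hVe z, hVe w]
    rw [← bil_conj, ← bil_reindex, ← hN', hbil2]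
  set H2 : Submodule ℤ (Fin l → ℤ) := H.map P with hH2
  have hidx : H2.toAddSubgroup.index ∣ H.toAddSubgroup.index := by
    have h1 : H2.toAddSubgroup = H.toAddSubgroup.map P.toAddMonoidHom := by
      ext y
      simp only [hH2, Submodule.mem_toAddSubgroup, Submodule.mem_map, AddSubgroup.mem_map]
      rfl
    rw [h1]
    exact AddSubgroup.index_map_dvd H.toAddSubgroup (f := P.toAddMonoidHom) hPsurj
  have hH20 : H2.toAddSubgroup.index ≠ 0 := fun h0 => hH (by
    rw [h0] at hidx; exact Nat.eq_zero_of_zero_dvd hidx)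
  have hH2K : H2.toAddSubgroup.index ≤ K :=
    (Nat.le_of_dvd (Nat.pos_of_ne_zero hH) hidx).trans hK
  have hint2 : ∀ h ∈ H2, ∀ y : Fin l → ℤ, ∃ z : ℤ, iv h ⬝ᵥ N2 *ᵥ iv y = z := by
    intro h hh y
    obtain ⟨h', hh', rfl⟩ := (Submodule.mem_map).1 hh
    obtain ⟨y', rfl⟩ := hPsurj y
    rw [← hbilP]
    exact hint h' hh' y'
  have hnd : ∀ z : Fin l → ℤ, N2 *ᵥ iv z = 0 → z = 0 := by
    intro z hz
    obtain ⟨w, rfl⟩ := hPsurj z
    have h1 : w ∈ radI N := by
      rw [mem_radI]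
      funext i
      have h2 := hbilP (Pi.single i 1) w
      rw [hz, dotProduct_zero, iv_single, single_one_dotProduct] at h2
      exact h2
    funext j
    rw [hPapp, (hmem w).1 h1 j, Pi.zero_apply]
  have hfin := det_ge_of_integral H2 hH20 hH2K hint2 hnd
  have hKpos : (0 : ℝ) < K := by
    rcases Nat.eq_zero_or_pos K with h0 | h0
    · rw [h0] at hfin; simp at hfin; linarith
    · exact_mod_cast h0
  have h1 : 1 ≤ K * Real.exp (-(2 * lam * l)) := by
    refine hfin.trans ?_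
    gcongr
    exact hdetle.trans hdet
  have h2 : Real.exp (2 * lam * l) ≤ K := by
    have h3 : Real.exp (2 * lam * l) * 1 ≤
        Real.exp (2 * lam * l) * (K * Real.exp (-(2 * lam * l))) := by gcongr
    have h4 : Real.exp (2 * lam * l) * (K * Real.exp (-(2 * lam * l))) = K := by
      have h5 : Real.exp (2 * lam * l) * Real.exp (-(2 * lam * l)) = 1 := by
        rw [← Real.exp_add, add_neg_cancel, Real.exp_zero]
      linear_combination (K : ℝ) * h5
    rw [h4, mul_one] at h3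
    exact h3
  rw [Real.le_log_iff_exp_le hKpos]
  exact h2

end Crest.Agent.R152.IsoA
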