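import Mathlib
import Crest.Agent.R152.IsoA3
import Crest.Agent.R152.Lat1
import Crest.Agent.R152.WRM8

set_option autoImplicit false
set_option linter.unusedSectionVars false

/-!
# Row 152, module IsoA (helper876): the minimiser inside a submodule of `ι → ℤ`, final form
-/

namespace Crest.Agent.R152.IsoA

open Matrix Module Crest.Agent.R152.WRM

variable {ι : Type*} [Fintype ι] [DecidableEq ι]

/-- `ℤ`-independent columns are `ℝ`-independent -/
theorem mulVec_injective_of_linearIndependent {k : ℕ} (W : Matrix ι (Fin k) ℤ)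
    (hW : LinearIndependent ℤ (fun (j : Fin k) (i : ι) => W i j)) :
    Function.Injective (im W).mulVec := by
  have h1 := Lat.det_gm_ne_zero hW
  have h2 : Lat.gm (fun (j : Fin k) (i : ι) => W i j) = Wᵀ * W := by
    ext i j
    simp [Lat.gm_apply, Matrix.mul_apply, dotProduct]
  rw [h2] at h1
  have h3 : ((im W)ᵀ * im W).det ≠ 0 := by
    have : (im W)ᵀ * im W = im (Wᵀ * W) := by
      rw [im_mul]; rfl
    rw [this, det_im]
    exact_mod_cast h1
  intro x y hxy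
  have h4 : ((im W)ᵀ * im W) *ᵥ (x - y) = 0 := by
    rw [← mulVec_mulVec, mulVec_sub]
    change (im W)ᵀ *ᵥ ((im W).mulVec x - (im W).mulVec y) = 0
    rw [hxy, sub_self, mulVec_zero]
  exact sub_eq_zero.1 (eq_zero_of_mulVec_eq_zero h3 h4)

theorem iv_injective {κ : Type*} : Function.Injective (iv : (κ → ℤ) → (κ → ℝ)) := by
  intro x y h
  funext i
  have := congrFun h i
  simpa [iv] using this

/-- **the minimiser of `log covol + λ rk` inside a submodule** -/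
theorem core_struct {G : Matrix ι ι ℝ} (hG : G.PosDef) (L : Submodule ℤ (ι → ℤ)) (lam : ℝ) :
    ∃ D : Submodule ℤ (ι → ℤ), D ≤ L ∧
      (∃ (k : ℕ) (W : Matrix ι (Fin k) ℤ), finrank ℤ D = k ∧ LinearMap.range W.mulVecLin = D ∧
        Function.Injective W.mulVec ∧ 0 < ((im W)ᵀ * G * im W).det ∧
        ((im W)ᵀ * G * im W).det * Real.exp (2 * lam * k) ≤ 1 ∧
        MinC lam k ((im W)ᵀ * G * im W).det ((im W)ᵀ * G * im W)) ∧
      (∀ B : Matrix ι ι ℝ, B.IsSymm → (∀ x, |qf B x| ≤ qf G x) →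
        ∀ (H : Submodule ℤ (ι → ℤ)) (K : ℕ),
          H.toAddSubgroup.relIndex L.toAddSubgroup ≠ 0 →
          H.toAddSubgroup.relIndex L.toAddSubgroup ≤ K →
          (∀ h ∈ H, ∀ y ∈ L, ∃ z : ℤ, iv h ⬝ᵥ B *ᵥ iv y = z) →
          ∃ R : Submodule ℤ (ι → ℤ), R ≤ D ∧
            (∀ r ∈ R, ∀ d ∈ D, iv r ⬝ᵥ B *ᵥ iv d = 0) ∧
            2 * lam * ((finrank ℤ D : ℝ) - finrank ℤ R) ≤ Real.log K) ∧
      (∃ (l : ℕ) (Q : Matrix (Fin l) (Fin l) ℝ) (P : L →ₗ[ℤ] (Fin l → ℤ)),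
        finrank ℤ D + l = finrank ℤ L ∧ l ≤ Fintype.card ι ∧ Q.PosDef ∧
        SubC (-(2 * lam)) Q ∧ Function.Surjective P ∧
        (∀ x : L, P x = 0 ↔ (x : ι → ℤ) ∈ D) ∧
        (∀ x : L, qf Q (iv (P x)) ≤ qf G (iv (x : ι → ℤ)))) := by
  classical
  set m := finrank ℤ L with hm
  let bL : Basis (Fin m) ℤ L := Module.finBasis ℤ L
  set W : Matrix ι (Fin m) ℤ := fun i j => (bL j : ι → ℤ) i with hW
  have hWli : LinearIndependent ℤ (fun (j : Fin m) (i : ι) => W i j) :=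
    Lat.basis_linearIndependent bL
  have hWinj := mulVec_injective_of_linearIndependent W hWli
  have hWz : ∀ z : Fin m → ℤ, ((∑ j, z j • bL j : L) : ι → ℤ) = W *ᵥ z := by
    intro z
    funext i
    simp only [AddSubmonoidClass.coe_finsetSum, Submodule.coe_smul, Finset.sum_apply,
      Pi.smul_apply, smul_eq_mul]
    rw [mulVec, dotProduct]
    exact Finset.sum_congr rfl fun j _ => mul_comm _ _
  have hWmem : ∀ z : Fin m → ℤ, W *ᵥ z ∈ L := fun z => by rw [← hWz]; exact (∑ j, z j • bL j : L).2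
  have hWrepr : ∀ x : L, W *ᵥ (⇑(bL.repr x) : Fin m → ℤ) = (x : ι → ℤ) := by
    intro x
    rw [← hWz, bL.sum_repr]
  have hWmulinj : Function.Injective W.mulVec := by
    intro x y hxy
    apply iv_injective
    apply hWinj
    rw [im_mulVec_iv, im_mulVec_iv]
    exact congrArg iv hxy
  have hGL : ((im W)ᵀ * G * im W).PosDef := by
    have := hG.conjTranspose_mul_mul_same hWinj
    rwa [conjTranspose_eq_transpose_of_trivial] at this
  obtain ⟨k, l, e, U, V, A, B1, D1, hkl, hUV, hblk, hbpos, hminA, hsub⟩ := exists_split hGL lam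
  have hVU : V * U = 1 := mul_eq_one_comm.1 hUV
  have hApos := posDef_of_blk hbpos
  -- basis of `D`
  set W' : Matrix ι (Fin k) ℤ := (W * U).submatrix id (fun j => e (Sum.inl j)) with hW'
  have hA : (im W')ᵀ * G * im W' = A := by
    have h1 : A = (blk A B1 D1).submatrix Sum.inl Sum.inl := by
      ext i j; rfl
    have h2 : (im U)ᵀ * ((im W)ᵀ * G * im W) * im U = (im (W * U))ᵀ * G * im (W * U) := by
      rw [im_mul, transpose_mul]; simp only [Matrix.mul_assoc]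
    rw [h1, ← hblk, h2, hW', im_submatrix]
    ext i j
    simp [Matrix.mul_apply]
  have hW'z : ∀ z : Fin k → ℤ, W' *ᵥ z = W *ᵥ (U *ᵥ ((Sum.elim z (0 : Fin l → ℤ)) ∘ e.symm)) := by
    intro z
    rw [mulVec_mulVec]
    funext i
    rw [mulVec, mulVec, dotProduct, dotProduct, ← e.sum_comp, Fintype.sum_sum_type]
    simp [hW']
  have hW'inj : Function.Injective W'.mulVec := by
    intro x y hxy
    have h1 : W' *ᵥ x = W' *ᵥ y := hxy
    rw [hW'z, hW'z] at h1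
    have h2 := hWmulinj h1
    have h3 := congrArg (fun v => V *ᵥ v) h2
    simp only [mulVec_mulVec, hVU, one_mulVec] at h3
    funext j
    have h4 := congrFun h3 (e (Sum.inl j))
    simpa using h4
  have hW'injR : Function.Injective (im W').mulVec := by
    intro x y hxy
    have h1 : A *ᵥ (x - y) = 0 := by
      rw [← hA, ← mulVec_mulVec, mulVec_sub]
      change _ *ᵥ ((im W').mulVec x - (im W').mulVec y) = 0
      rw [hxy, sub_self, mulVec_zero]
    exact sub_eq_zero.1 (eq_zero_of_mulVec_eq_zero hApos.det_pos.ne' h1)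
  set D : Submodule ℤ (ι → ℤ) := LinearMap.range W'.mulVecLin with hD
  have hDL : D ≤ L := by
    rintro _ ⟨z, rfl⟩
    rw [mulVecLin_apply, hW'z]
    exact hWmem _
  have hDfr : finrank ℤ D = k := by
    rw [hD, LinearMap.finrank_range_of_inj (by exact hW'inj)]
    simp
  refine ⟨D, hDL, ⟨k, W', hDfr, rfl, hW'inj, by rw [hA]; exact hApos.det_pos, ?_,
    by rw [hA]; exact hminA⟩, ?_, ?_⟩
  · have h1 := hminA 0 0 (by simp)
    rw [hA]
    simpa using h1
  · intro B hB hle H K hH hK hint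
    set N : Matrix (Fin k) (Fin k) ℝ := (im W')ᵀ * B * im W' with hN
    have hNsymm : N.IsSymm := by
      have : Nᵀ = N := by
        rw [hN, transpose_mul, transpose_mul, transpose_transpose, hB.eq, Matrix.mul_assoc]
      exact this
    have hNle : ∀ x, |qf N x| ≤ qf A x := by
      intro x
      rw [hN, ← hA, qf_conj, qf_conj]
      exact hle _
    set H' : Submodule ℤ (Fin k → ℤ) := H.comap W'.mulVecLin with hH'
    have hidx : H'.toAddSubgroup.index = H.toAddSubgroup.relIndex D.toAddSubgroup := by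
      have h1 : H'.toAddSubgroup = H.toAddSubgroup.comap W'.mulVecLin.toAddMonoidHom := by
        ext x; rfl
      have h2 : D.toAddSubgroup = W'.mulVecLin.toAddMonoidHom.range := by
        ext x; rfl
      rw [h1, h2, AddSubgroup.index_comap]
    have hDL' : D.toAddSubgroup ≤ L.toAddSubgroup := hDL
    have hidx0 : H'.toAddSubgroup.index ≠ 0 := by
      rw [hidx]
      exact fun h0 => hH (AddSubgroup.relIndex_eq_zero_of_le_right hDL' h0)
    have hidxK : H'.toAddSubgroup.index ≤ K := by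
      rw [hidx]
      exact (AddSubgroup.relIndex_le_of_le_right hDL' hH).trans hK
    have hint' : ∀ h ∈ H', ∀ y : Fin k → ℤ, ∃ z : ℤ, iv h ⬝ᵥ N *ᵥ iv y = z := by
      intro h hh y
      obtain ⟨z, hz⟩ := hint (W' *ᵥ h) hh (W' *ᵥ y) (hDL ⟨y, rfl⟩)
      refine ⟨z, ?_⟩
      rw [hN, bil_conj, im_mulVec_iv, im_mulVec_iv, hz]
    obtain ⟨r, l', hrl, hfr, hlog⟩ := rank_bound hApos hminA hNsymm hNle H' hidx0 hidxK hint'
    refine ⟨(radI N).map W'.mulVecLin, ?_, ?_, ?_⟩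
    · rintro _ ⟨z, _, rfl⟩
      exact ⟨z, rfl⟩
    · rintro _ ⟨z, hz, rfl⟩ _ ⟨y, rfl⟩
      have h1 : N *ᵥ iv z = 0 := hz
      rw [mulVecLin_apply, mulVecLin_apply, ← im_mulVec_iv, ← im_mulVec_iv, ← bil_conj, ← hN]
      have h2 : iv z ⬝ᵥ N *ᵥ iv y = iv y ⬝ᵥ N *ᵥ iv z := by
        rw [dotProduct_mulVec, ← mulVec_transpose, hNsymm.eq, dotProduct_comm]
      rw [h2, h1, dotProduct_zero]
    · have h1 : finrank ℤ ((radI N).map W'.mulVecLin) = r := by
        rw [← hfr]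
        exact (LinearEquiv.finrank_eq (Submodule.equivMapOfInjective _ hW'inj (radI N))).symm
      rw [h1, hDfr, ← hrl]
      push_cast
      have : 2 * lam * ((r : ℝ) + l' - r) = 2 * lam * l' := by ring
      rw [this]
      exact hlog
  · let P0 : (Fin m → ℤ) →ₗ[ℤ] (Fin l → ℤ) :=
      { toFun := fun z j => (V *ᵥ z) (e (Sum.inr j))
        map_add' := by intro x y; funext j; simp [mulVec_add]
        map_smul' := by
          intro c x
          funext j
          rw [mulVec_smul, Pi.smul_apply, RingHom.id_apply, Pi.smul_apply] }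
    have hP0 : ∀ z j, P0 z j = (V *ᵥ z) (e (Sum.inr j)) := fun _ _ => rfl
    let P : L →ₗ[ℤ] (Fin l → ℤ) := P0 ∘ₗ bL.equivFun.toLinearMap
    have hP : ∀ x : L, P x = P0 (⇑(bL.repr x)) := fun _ => rfl
    refine ⟨l, schur A B1 D1, P, by rw [hDfr]; exact hkl, ?_, schur_posDef hbpos, hsub, ?_, ?_, ?_⟩
    · have h1 := Submodule.finrank_le L
      rw [Module.finrank_fintype_fun_eq_card] at h1
      omega
    · intro y
      refine ⟨⟨W *ᵥ (U *ᵥ ((Sum.elim (0 : Fin k → ℤ) y) ∘ e.symm)), hWmem _⟩, ?_⟩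
      funext j
      rw [hP, hP0]
      have h1 : (⇑(bL.repr ⟨W *ᵥ (U *ᵥ ((Sum.elim (0 : Fin k → ℤ) y) ∘ e.symm)), hWmem _⟩) :
          Fin m → ℤ) = U *ᵥ ((Sum.elim (0 : Fin k → ℤ) y) ∘ e.symm) := by
        apply hWmulinj
        rw [hWrepr]
      rw [h1, mulVec_mulVec, hVU, one_mulVec]
      simp
    · intro x
      constructor
      · intro h
        refine ⟨fun j => (V *ᵥ (⇑(bL.repr x) : Fin m → ℤ)) (e (Sum.inl j)), ?_⟩
        rw [mulVecLin_apply, hW'z]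
        have h1 : ((Sum.elim (fun j => (V *ᵥ (⇑(bL.repr x) : Fin m → ℤ)) (e (Sum.inl j)))
            (0 : Fin l → ℤ)) ∘ e.symm) = V *ᵥ (⇑(bL.repr x) : Fin m → ℤ) := by
          funext i
          obtain ⟨a, rfl⟩ := e.surjective i
          rcases a with a | a
          · simp
          · have := congrFun h a
            rw [hP, hP0] at this
            simp [this]
        have h2 : U *ᵥ (V *ᵥ (⇑(bL.repr x) : Fin m → ℤ)) = ⇑(bL.repr x) := by
          rw [mulVec_mulVec, hUV, one_mulVec]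
        rw [h1, h2, hWrepr]
      · rintro ⟨z, hz⟩
        rw [mulVecLin_apply, hW'z, ← hWrepr x] at hz
        have h1 := hWmulinj hz
        funext j
        rw [hP, hP0, ← h1, mulVec_mulVec, hVU, one_mulVec]
        simp
    · intro x
      have h1 : qf G (iv (x : ι → ℤ)) = qf (blk A B1 D1)
          (Sum.elim (fun j => ((V *ᵥ (⇑(bL.repr x) : Fin m → ℤ)) (e (Sum.inl j)) : ℝ))
            (iv (P x))) := by
        rw [← hblk, qf_reindex, qf_conj, qf_conj]
        congr 1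
        have h2 : ((Sum.elim (fun j => ((V *ᵥ (⇑(bL.repr x) : Fin m → ℤ)) (e (Sum.inl j)) : ℝ))
            (iv (P x))) ∘ e.symm) = iv (V *ᵥ (⇑(bL.repr x) : Fin m → ℤ)) := by
          funext i
          obtain ⟨a, rfl⟩ := e.surjective i
          rcases a with a | a
          · simp [iv]
          · simp [iv, hP, hP0]
        have h3 : U *ᵥ (V *ᵥ (⇑(bL.repr x) : Fin m → ℤ)) = ⇑(bL.repr x) := by
          rw [mulVec_mulVec, hUV, one_mulVec]
        rw [h2, im_mulVec_iv, im_mulVec_iv, h3, hWrepr]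
      rw [h1, qf_blk hApos]
      have h3 := qf_nonneg hApos.posSemidef
        ((fun j => ((V *ᵥ (⇑(bL.repr x) : Fin m → ℤ)) (e (Sum.inl j)) : ℝ)) +
          (A⁻¹ * B1) *ᵥ iv (P x))
      linarith

/-- scaling of the metric -/
theorem subDet_smul_of_subC {κ : Type*} [Fintype κ] {lam : ℝ} {Q : Matrix κ κ ℝ}
    (h : SubC (-(2 * lam)) Q) : SubDet (Real.exp (2 * lam) • Q) := by
  intro j Z hZ
  have h1 : (im Z)ᵀ * (Real.exp (2 * lam) • Q) * im Z =
      Real.exp (2 * lam) • ((im Z)ᵀ * Q * im Z) := by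
    rw [Matrix.mul_smul, Matrix.smul_mul]
  rw [h1, det_smul, Fintype.card_fin] at hZ ⊢
  have h2 := h j Z (right_ne_zero_of_mul hZ)
  calc (1 : ℝ) = Real.exp (2 * lam) ^ j * Real.exp (-(2 * lam) * j) := by
        rw [← Real.exp_nat_mul, ← Real.exp_add]
        have : (j : ℝ) * (2 * lam) + -(2 * lam) * j = 0 := by ring
        rw [this, Real.exp_zero]
    _ ≤ Real.exp (2 * lam) ^ j * ((im Z)ᵀ * Q * im Z).det := by gcongr

/-- **counting cosets** of the minimiser: abstract form of the quotient count -/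
theorem cover_of_quot {G : Matrix ι ι ℝ} {L D : Submodule ℤ (ι → ℤ)} {lam : ℝ} {l : ℕ}
    {Q : Matrix (Fin l) (Fin l) ℝ} {P : L →ₗ[ℤ] (Fin l → ℤ)}
    (hPD : ∀ x : L, P x = 0 ↔ (x : ι → ℤ) ∈ D)
    (hPq : ∀ x : L, qf Q (iv (P x)) ≤ qf G (iv (x : ι → ℤ))) {X R2 : ℝ} (hX0 : 0 ≤ X)
    (hfin : {z : Fin l → ℤ | qf (Real.exp (2 * lam) • Q) (iv z) ≤
      Real.exp (2 * lam) * R2}.Finite)
    (hcount : ({z : Fin l → ℤ | qf (Real.exp (2 * lam) • Q) (iv z) ≤
      Real.exp (2 * lam) * R2}.ncard : ℝ) ≤ X)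
    (S : Finset (ι → ℤ)) (hS : ∀ x ∈ S, ∀ y ∈ S, x - y ∈ L ∧ qf G (iv (x - y)) ≤ R2) :
    ∃ T : Finset (ι → ℤ), T ⊆ S ∧ (T.card : ℝ) ≤ X ∧ ∀ x ∈ S, ∃ y ∈ T, x - y ∈ D := by
  classical
  rcases S.eq_empty_or_nonempty with h0 | ⟨x0, hx0⟩
  · subst h0
    exact ⟨∅, le_rfl, by simpa using hX0, by simp⟩
  -- the projection of `x - x0`
  let f : (ι → ℤ) → (Fin l → ℤ) := fun x => if h : x - x0 ∈ L then P ⟨x - x0, h⟩ else 0
  have hf : ∀ x (h : x - x0 ∈ L), f x = P ⟨x - x0, h⟩ := fun x h => dif_pos h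
  let A : Finset (Fin l → ℤ) := S.image f
  have hA : (A.card : ℝ) ≤ X := by
    refine le_trans ?_ hcount
    have h1 : (A : Set (Fin l → ℤ)) ⊆ {z : Fin l → ℤ | qf (Real.exp (2 * lam) • Q) (iv z) ≤
        Real.exp (2 * lam) * R2} := by
      intro z hz
      obtain ⟨x, hx, rfl⟩ := Finset.mem_image.1 (Finset.mem_coe.1 hz)
      have h2 := hS x hx x0 hx0
      change qf (Real.exp (2 * lam) • Q) (iv (f x)) ≤ Real.exp (2 * lam) * R2
      rw [hf x h2.1, qf_smul_mat]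
      have h3 := hPq ⟨x - x0, h2.1⟩
      have h4 := h2.2
      have h5 := Real.exp_pos (2 * lam)
      have h6 : qf Q (iv (P ⟨x - x0, h2.1⟩)) ≤ R2 := h3.trans h4
      gcongr
    have h2 := Set.ncard_le_ncard h1 hfin
    rw [Set.ncard_coe_finset] at h2
    exact_mod_cast h2
  have hsec : ∀ a ∈ A, ∃ x ∈ S, f x = a := fun a ha => by
    obtain ⟨x, hx, h⟩ := Finset.mem_image.1 ha
    exact ⟨x, hx, h⟩
  choose! g hg1 hg2 using hsec
  refine ⟨A.image g, ?_, ?_, ?_⟩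
  · intro y hy
    obtain ⟨a, ha, rfl⟩ := Finset.mem_image.1 hy
    exact hg1 a ha
  · refine le_trans ?_ hA
    exact_mod_cast Finset.card_image_le
  · intro x hx
    have hfa : f x ∈ A := Finset.mem_image_of_mem f hx
    refine ⟨g (f x), Finset.mem_image_of_mem g hfa, ?_⟩
    have h1 := hg2 (f x) hfa
    have hgS := hg1 (f x) hfa
    have h2 := (hS x hx x0 hx0).1
    have h3 := (hS _ hgS x0 hx0).1
    have h4 : P ((⟨x - x0, h2⟩ : L) - ⟨g (f x) - x0, h3⟩) = 0 := by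
      rw [map_sub, ← hf (g (f x)) h3, h1, ← hf x h2, sub_self]
    have h5 := (hPD _).1 h4
    have h6 : (((⟨x - x0, h2⟩ : L) - ⟨g (f x) - x0, h3⟩ : L) : ι → ℤ) = x - g (f x) := by
      rw [AddSubgroupClass.coe_sub]
      simp
    rwa [h6] at h5

/-- **the isotropy step** (T1, lattice core) -/
theorem core {δ : ℝ} (hδ : 0 < δ) : ∃ n0 : ℕ, ∀ n ≥ n0, ∀ (ι : Type) [Fintype ι] [DecidableEq ι],
    Fintype.card ι ≤ n → ∀ G B : Matrix ι ι ℝ, G.PosDef → B.IsSymm →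
    (∀ x : ι → ℝ, |qf B x| ≤ qf G x) →
    ∀ (L H : Submodule ℤ (ι → ℤ)) (K : ℕ),
      H.toAddSubgroup.relIndex L.toAddSubgroup ≠ 0 →
      H.toAddSubgroup.relIndex L.toAddSubgroup ≤ K →
      (∀ h ∈ H, ∀ y ∈ L, ∃ z : ℤ, iv h ⬝ᵥ B *ᵥ iv y = z) →
      ∀ lam : ℝ, 0 < lam →
      ∃ D R : Submodule ℤ (ι → ℤ), R ≤ D ∧ D ≤ L ∧
        (∀ r ∈ R, ∀ d ∈ D, iv r ⬝ᵥ B *ᵥ iv d = 0) ∧
        (finrank ℤ D : ℝ) ≤ finrank ℤ R + Real.log K / (2 * lam) ∧
        ∀ (R2 : ℝ) (S : Finset (ι → ℤ)),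
          (∀ x ∈ S, ∀ y ∈ S, x - y ∈ L ∧ qf G (iv (x - y)) ≤ R2) →
          ∃ T : Finset (ι → ℤ), T ⊆ S ∧
            (T.card : ℝ) ≤ Real.exp (2 * (n : ℝ) ^ (1 - δ / 4) +
              Real.pi * (n : ℝ) ^ (2 * δ) * (Real.exp (2 * lam) * R2)) ∧
            ∀ x ∈ S, ∃ y ∈ T, x - y ∈ D := by
  obtain ⟨n0, hn0⟩ := wrm hδ
  refine ⟨n0, fun n hn ι _ _ hι G B hG hB hle L H K hH hK hint lam hlam => ?_⟩
  obtain ⟨D, hDL, _, hform, l, Q, P, _, hl, hQ, hsub, _, hPD, hPq⟩ := core_struct hG L lam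
  obtain ⟨R, hRD, hR, hlog⟩ := hform B hB hle H K hH hK hint
  refine ⟨D, R, hRD, hDL, hR, ?_, ?_⟩
  · have h1 : (finrank ℤ D : ℝ) - finrank ℤ R ≤ Real.log K / (2 * lam) := by
      rw [le_div_iff₀ (by positivity)]
      linarith
    linarith
  · intro R2 S hS
    obtain ⟨_, h⟩ := hn0 n hn
    obtain ⟨hfin, hcount⟩ := h (Fin l) (by rw [Fintype.card_fin]; omega)
      (Real.exp (2 * lam) • Q) (hQ.smul (Real.exp_pos _)) (subDet_smul_of_subC hsub)
      (Real.exp (2 * lam) * R2)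
    exact cover_of_quot hPD hPq (Real.exp_pos _).le hfin hcount S hS

/-- **the quotient count alone** (no form): `D` is small as soon as all sublattices of `L` have
`det_G ≥ exp (-c)`, and a set of diameter `R2` meets few cosets of `D`. -/
theorem core_count {δ : ℝ} (hδ : 0 < δ) : ∃ n0 : ℕ, ∀ n ≥ n0, ∀ (ι : Type) [Fintype ι]
    [DecidableEq ι], Fintype.card ι ≤ n → ∀ G : Matrix ι ι ℝ, G.PosDef →
    ∀ (L : Submodule ℤ (ι → ℤ)) (c lam : ℝ), 0 < lam →
      (∀ (j : ℕ) (Y : Matrix ι (Fin j) ℤ), (∀ i, (fun a => Y a i) ∈ L) →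
        ((im Y)ᵀ * G * im Y).det ≠ 0 → Real.exp (-c) ≤ ((im Y)ᵀ * G * im Y).det) →
      ∃ D : Submodule ℤ (ι → ℤ), D ≤ L ∧ (finrank ℤ D : ℝ) ≤ c / (2 * lam) ∧
        ∀ (R2 : ℝ) (S : Finset (ι → ℤ)),
          (∀ x ∈ S, ∀ y ∈ S, x - y ∈ L ∧ qf G (iv (x - y)) ≤ R2) →
          ∃ T : Finset (ι → ℤ), T ⊆ S ∧
            (T.card : ℝ) ≤ Real.exp (2 * (n : ℝ) ^ (1 - δ / 4) +
              Real.pi * (n : ℝ) ^ (2 * δ) * (Real.exp (2 * lam) * R2)) ∧
            ∀ x ∈ S, ∃ y ∈ T, x - y ∈ D := by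
  obtain ⟨n0, hn0⟩ := wrm hδ
  refine ⟨n0, fun n hn ι _ _ hι G hG L c lam hlam hsubd => ?_⟩
  obtain ⟨D, hDL, ⟨k, W, hk, hWr, _, hWdet, hWle, _⟩, _, l, Q, P, _, hl, hQ, hsub, _, hPD, hPq⟩ :=
    core_struct hG L lam
  refine ⟨D, hDL, ?_, ?_⟩
  · have h1 := hsubd k W (fun i => hDL (by
      rw [← hWr]
      refine ⟨Pi.single i 1, ?_⟩
      rw [mulVecLin_apply, mulVec_single_one]
      rfl)) hWdet.ne'
    have h2 : Real.exp (-c) * Real.exp (2 * lam * k) ≤ 1 := le_trans (by gcongr) hWle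
    rw [← Real.exp_add, ← Real.exp_zero] at h2
    have h3 := Real.exp_le_exp.1 h2
    rw [hk, le_div_iff₀ (by positivity)]
    linarith
  · intro R2 S hS
    obtain ⟨_, h⟩ := hn0 n hn
    obtain ⟨hfin, hcount⟩ := h (Fin l) (by rw [Fintype.card_fin]; omega)
      (Real.exp (2 * lam) • Q) (hQ.smul (Real.exp_pos _)) (subDet_smul_of_subC hsub)
      (Real.exp (2 * lam) * R2)
    exact cover_of_quot hPD hPq (Real.exp_pos _).le hfin hcount S hS

/-- the two sided Cauchy-Schwarz hypothesis implies the one used in `core` -/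
theorem abs_qf_le_of_cs {κ : Type*} [Fintype κ] {G B : Matrix κ κ ℝ} (hG : G.PosSemidef)
    (h : ∀ x y : κ → ℝ, (x ⬝ᵥ B *ᵥ y) ^ 2 ≤ qf G x * qf G y) (x : κ → ℝ) :
    |qf B x| ≤ qf G x := by
  have h1 := h x x
  have h2 := qf_nonneg hG x
  rw [← sq] at h1
  exact abs_le_of_sq_le_sq h1 h2

end Crest.Agent.R152.IsoA
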