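import Mathlib
import Crest.Agent.R152.LatO

set_option autoImplicit false
set_option linter.unusedSectionVars false

/-! Row 152, module LAT, part 4: isometries, orthogonal sums, coordinate restriction, full rank
lattices. -/

open Matrix Module

namespace Crest.Agent.R152.Lat

variable {ι κ : Type*} [Fintype ι] [Fintype κ]

/-! ### isometric embeddings -/

theorem isom_injective {g : (κ → ℤ) →ₗ[ℤ] (ι → ℤ)} (hg : ∀ x y, g x ⬝ᵥ g y = x ⬝ᵥ y) :
    Function.Injective g := by
  rw [← LinearMap.ker_eq_bot, LinearMap.ker_eq_bot']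
  intro x hx
  have := hg x x
  rw [hx] at this
  simp only [dotProduct_zero] at this
  exact dotProduct_self_eq_zero.mp this.symm

theorem rk_map_injective {g : (κ → ℤ) →ₗ[ℤ] (ι → ℤ)} (hg : Function.Injective g)
    (L : Submodule ℤ (κ → ℤ)) : rk (L.map g) = rk L :=
  (LinearEquiv.finrank_eq (Submodule.equivMapOfInjective g hg L)).symm

theorem rk_map_le (g : (κ → ℤ) →ₗ[ℤ] (ι → ℤ)) (L : Submodule ℤ (κ → ℤ)) :
    rk (L.map g) ≤ rk L := by
  unfold rk
  exact Submodule.finrank_map_le g L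

theorem lc_map_isom {g : (κ → ℤ) →ₗ[ℤ] (ι → ℤ)} (hg : ∀ x y, g x ⬝ᵥ g y = x ⬝ᵥ y)
    (L : Submodule ℤ (κ → ℤ)) : lc (L.map g) = lc L := by
  classical
  have hinj := isom_injective hg
  let b := Module.Free.chooseBasis ℤ L
  let f := Submodule.equivMapOfInjective g hinj L
  unfold lc
  rw [dsc_eq b, dsc_eq (b.map f)]
  have : gm (fun i => ((b.map f i : L.map g) : ι → ℤ)) = gm (fun i => (b i : κ → ℤ)) := by
    ext i j
    have h : ∀ i, ((b.map f i : L.map g) : ι → ℤ) = g (b i : κ → ℤ) := by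
      intro i
      simp [f, Submodule.coe_equivMapOfInjective_apply]
    rw [gm_apply, gm_apply, h, h, hg]
  rw [this]

/-! ### orthogonal sums -/

theorem inf_eq_bot_of_orth {X Y : Submodule ℤ (ι → ℤ)} (h : ∀ x ∈ X, ∀ y ∈ Y, x ⬝ᵥ y = 0) :
    X ⊓ Y = ⊥ := by
  rw [eq_bot_iff]
  rintro x ⟨hx, hy⟩
  rw [Submodule.mem_bot]
  exact dotProduct_self_eq_zero.mp (h x hx x hy)

theorem rk_sup_of_orth {X Y : Submodule ℤ (ι → ℤ)} (h : ∀ x ∈ X, ∀ y ∈ Y, x ⬝ᵥ y = 0) :
    rk (X ⊔ Y) = rk X + rk Y := by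
  have := rk_modular X Y
  rw [inf_eq_bot_of_orth h, rk_bot] at this
  omega

theorem dsc_sup_of_orth {X Y : Submodule ℤ (ι → ℤ)} (h : ∀ x ∈ X, ∀ y ∈ Y, x ⬝ᵥ y = 0) :
    dsc (X ⊔ Y) = dsc X * dsc Y := by
  classical
  let b := Module.Free.chooseBasis ℤ X
  let c := Module.Free.chooseBasis ℤ Y
  set v : _ ⊕ _ → ι → ℤ := Sum.elim (fun i => (b i : ι → ℤ)) (fun j => (c j : ι → ℤ)) with hv
  have hgm : gm v = Matrix.fromBlocks (gm fun i => (b i : ι → ℤ)) 0 0
      (gm fun j => (c j : ι → ℤ)) := by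
    ext i j
    rcases i with i | i <;> rcases j with j | j
    · rfl
    · simp only [gm_apply, hv, Sum.elim_inl, Sum.elim_inr, Matrix.fromBlocks_apply₁₂,
        Matrix.zero_apply]
      exact h _ (b i).2 _ (c j).2
    · simp only [gm_apply, hv, Sum.elim_inl, Sum.elim_inr, Matrix.fromBlocks_apply₂₁,
        Matrix.zero_apply]
      rw [dotProduct_comm]
      exact h _ (b j).2 _ (c i).2
    · rfl
  have hli : LinearIndependent ℤ v := by
    rw [hv]
    refine LinearIndependent.sum_type (basis_linearIndependent b) (basis_linearIndependent c) ?_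
    rw [disjoint_iff]
    have h1 : Submodule.span ℤ (Set.range fun i => (b i : ι → ℤ)) ≤ X := by
      rw [Submodule.span_le]; rintro _ ⟨i, rfl⟩; exact (b i).2
    have h2 : Submodule.span ℤ (Set.range fun i => (c i : ι → ℤ)) ≤ Y := by
      rw [Submodule.span_le]; rintro _ ⟨i, rfl⟩; exact (c i).2
    exact le_bot_iff.mp ((inf_le_inf h1 h2).trans (inf_eq_bot_of_orth h).le)
  have hspan : X ⊔ Y = Submodule.span ℤ (Set.range v) := by
    have hX : Submodule.span ℤ (Set.range fun i => (b i : ι → ℤ)) = X := by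
      have := b.span_eq
      have h3 := congrArg (Submodule.map X.subtype) this
      rw [Submodule.map_span, Submodule.map_subtype_top, ← Set.range_comp] at h3
      exact h3
    have hY : Submodule.span ℤ (Set.range fun i => (c i : ι → ℤ)) = Y := by
      have := c.span_eq
      have h3 := congrArg (Submodule.map Y.subtype) this
      rw [Submodule.map_span, Submodule.map_subtype_top, ← Set.range_comp] at h3
      exact h3
    rw [hv, Set.Sum.elim_range, Submodule.span_union, hX, hY]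
  rw [hspan, dsc_span_range hli, hgm, Matrix.det_fromBlocks_zero₂₁, dsc_eq b, dsc_eq c]

theorem lc_sup_of_orth {X Y : Submodule ℤ (ι → ℤ)} (h : ∀ x ∈ X, ∀ y ∈ Y, x ⬝ᵥ y = 0) :
    lc (X ⊔ Y) = lc X + lc Y := by
  unfold lc
  rw [dsc_sup_of_orth h]
  have h1 : (0 : ℝ) < dsc X := by exact_mod_cast dsc_pos X
  have h2 : (0 : ℝ) < dsc Y := by exact_mod_cast dsc_pos Y
  push_cast
  rw [Real.log_mul h1.ne' h2.ne']
  ring

/-! ### coordinate restriction -/

/-- restriction of coordinates along `f` -/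
def res (f : κ → ι) : (ι → ℤ) →ₗ[ℤ] (κ → ℤ) := LinearMap.funLeft ℤ ℤ f

@[simp] theorem res_apply (f : κ → ι) (x : ι → ℤ) (k : κ) : res f x k = x (f k) := rfl

/-- extension by zero along `f` -/
noncomputable def exz (f : κ → ι) : (κ → ℤ) →ₗ[ℤ] (ι → ℤ) := Function.ExtendByZero.linearMap ℤ f

theorem exz_apply_of_mem {f : κ → ι} (hf : Function.Injective f) (x : κ → ℤ) (k : κ) :
    exz f x (f k) = x k := by
  show Function.extend f x 0 (f k) = x k
  exact hf.extend_apply _ _ _

theorem exz_apply_of_notMem (f : κ → ι) (x : κ → ℤ) {i : ι} (hi : ¬ ∃ k, f k = i) :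
    exz f x i = 0 := by
  show Function.extend f x 0 i = 0
  rw [Function.extend_apply' _ _ _ hi]; rfl

theorem res_exz {f : κ → ι} (hf : Function.Injective f) (x : κ → ℤ) : res f (exz f x) = x := by
  funext k
  rw [res_apply, exz_apply_of_mem hf]

theorem exz_dotProduct {f : κ → ι} (hf : Function.Injective f) (x : κ → ℤ) (y : ι → ℤ) :
    exz f x ⬝ᵥ y = x ⬝ᵥ res f y := by
  classical
  unfold dotProduct
  rw [← Finset.sum_subset (Finset.subset_univ (Finset.univ.image f))]
  · rw [Finset.sum_image (fun a _ b _ h => hf h)]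
    exact Finset.sum_congr rfl fun k _ => by rw [exz_apply_of_mem hf, res_apply]
  · intro i _ hi
    rw [exz_apply_of_notMem f x, zero_mul]
    rintro ⟨k, hk⟩
    exact hi (Finset.mem_image.mpr ⟨k, Finset.mem_univ _, hk⟩)

theorem exz_isom {f : κ → ι} (hf : Function.Injective f) (x y : κ → ℤ) :
    exz f x ⬝ᵥ exz f y = x ⬝ᵥ y := by
  rw [exz_dotProduct hf, res_exz hf]

theorem lc_exz {f : κ → ι} (hf : Function.Injective f) (L : Submodule ℤ (κ → ℤ)) :
    lc (L.map (exz f)) = lc L := lc_map_isom (exz_isom hf) L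

theorem rk_exz {f : κ → ι} (hf : Function.Injective f) (L : Submodule ℤ (κ → ℤ)) :
    rk (L.map (exz f)) = rk L := rk_map_injective (isom_injective (exz_isom hf)) L

/-- the lattice of vectors vanishing on the coordinates `f` -/
def kr (f : κ → ι) : Submodule ℤ (ι → ℤ) := LinearMap.ker (res f)

theorem mem_kr {f : κ → ι} {x : ι → ℤ} : x ∈ kr f ↔ ∀ k, x (f k) = 0 := by
  unfold kr
  rw [LinearMap.mem_ker]
  exact ⟨fun h k => congrFun h k, fun h => funext h⟩

theorem sup_kr_eq {f : κ → ι} (hf : Function.Injective f) (F : Submodule ℤ (ι → ℤ)) :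
    F ⊔ kr f = (F.map (res f)).map (exz f) ⊔ kr f := by
  have key : ∀ x : ι → ℤ, x - exz f (res f x) ∈ kr f := by
    intro x
    rw [mem_kr]
    intro k
    rw [Pi.sub_apply, exz_apply_of_mem hf, res_apply, sub_self]
  apply le_antisymm
  · refine sup_le ?_ le_sup_right
    intro x hx
    rw [← add_sub_cancel (exz f (res f x)) x]
    exact Submodule.add_mem_sup (Submodule.mem_map_of_mem (Submodule.mem_map_of_mem hx)) (key x)
  · refine sup_le ?_ le_sup_right
    rintro _ ⟨_, ⟨x, hx, rfl⟩, rfl⟩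
    have : exz f (res f x) = x - (x - exz f (res f x)) := by abel
    rw [this]
    exact Submodule.sub_mem _ (Submodule.mem_sup_left hx) (Submodule.mem_sup_right (key x))

theorem orth_exz_kr {f : κ → ι} (hf : Function.Injective f) (G : Submodule ℤ (κ → ℤ)) :
    ∀ x ∈ G.map (exz f), ∀ y ∈ kr f, x ⬝ᵥ y = 0 := by
  rintro _ ⟨x, -, rfl⟩ y hy
  rw [exz_dotProduct hf]
  have : res f y = 0 := hy
  rw [this, dotProduct_zero]

theorem lc_kr {f : κ → ι} (hf : Function.Injective f) : lc (kr f) = 0 := by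
  have h1 := sup_kr_eq hf (⊤ : Submodule ℤ (ι → ℤ))
  rw [top_sup_eq] at h1
  have h2 := lc_sup_of_orth (orth_exz_kr hf ((⊤ : Submodule ℤ (ι → ℤ)).map (res f)))
  rw [← h1, lc_top, lc_exz hf] at h2
  have h3 := lc_nonneg (kr f)
  have h4 := lc_nonneg ((⊤ : Submodule ℤ (ι → ℤ)).map (res f))
  linarith

/-- adding the complementary coordinates gives the covolume of the restriction -/
theorem lc_sup_kr {f : κ → ι} (hf : Function.Injective f) (F : Submodule ℤ (ι → ℤ)) :
    lc (F ⊔ kr f) = lc (F.map (res f)) := by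
  rw [sup_kr_eq hf, lc_sup_of_orth (orth_exz_kr hf _), lc_exz hf, lc_kr hf, add_zero]

theorem rk_sup_kr {f : κ → ι} (hf : Function.Injective f) (F : Submodule ℤ (ι → ℤ)) :
    rk (F ⊔ kr f) = rk (F.map (res f)) + rk (kr f) := by
  rw [sup_kr_eq hf, rk_sup_of_orth (orth_exz_kr hf _), rk_exz hf]

theorem rk_res_add {f : κ → ι} (hf : Function.Injective f) (F : Submodule ℤ (ι → ℤ)) :
    rk (F.map (res f)) + rk (F ⊓ kr f) = rk F := by
  have h1 := rk_sup_kr hf F
  have h2 := rk_modular F (kr f)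
  omega

theorem rk_kr {f : κ → ι} (hf : Function.Injective f) :
    rk (kr f) + Fintype.card κ = Fintype.card ι := by
  have h1 := rk_res_add hf (⊤ : Submodule ℤ (ι → ℤ))
  rw [top_inf_eq, rk_top] at h1
  have h2 : (⊤ : Submodule ℤ (ι → ℤ)).map (res f) = ⊤ := by
    rw [eq_top_iff]
    intro x _
    exact ⟨exz f x, trivial, res_exz hf x⟩
  rw [h2, rk_top] at h1
  omega

theorem lc_res_add_le {f : κ → ι} (hf : Function.Injective f) (F : Submodule ℤ (ι → ℤ)) :
    lc (F.map (res f)) + lc (F ⊓ kr f) ≤ lc F := by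
  have h1 := lc_submod F (kr f)
  rw [lc_sup_kr hf, lc_kr hf, add_zero] at h1
  exact h1

/-- coordinate restriction does not increase the covolume -/
theorem lc_res_le {f : κ → ι} (hf : Function.Injective f) (F : Submodule ℤ (ι → ℤ)) :
    lc (F.map (res f)) ≤ lc F := by
  have h1 := lc_res_add_le hf F
  have h2 := lc_nonneg (F ⊓ kr f)
  linarith

/-- the part of `F` supported off the coordinates `f` has covolume at most `lc F` -/
theorem lc_inf_kr_le {f : κ → ι} (hf : Function.Injective f) (F : Submodule ℤ (ι → ℤ)) :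
    lc (F ⊓ kr f) ≤ lc F := by
  have h1 := lc_res_add_le hf F
  have h2 := lc_nonneg (F.map (res f))
  linarith

theorem fK_res_le {f : κ → ι} (hf : Function.Injective f) {K : ℝ} (hK : 0 ≤ K)
    (F : Submodule ℤ (ι → ℤ)) : fK K (F.map (res f)) ≤ fK K F := by
  unfold fK
  have h1 := lc_res_le hf F
  have h2 : (rk (F.map (res f)) : ℝ) ≤ rk F := by exact_mod_cast rk_map_le (res f) F
  have := mul_le_mul_of_nonneg_left h2 hK
  linarith

theorem Psi_res_le {f : κ → ι} (hf : Function.Injective f) {K : ℝ} (hK : 0 ≤ K)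
    (X : Submodule ℤ (ι → ℤ)) : Psi K (X.map (res f)) ≤ Psi K X :=
  (Psi_le (Submodule.map_mono (le_Fmin K X))).trans (fK_res_le hf hK _)

/-- increments of the covolume do not increase under coordinate restriction -/
theorem lc_res_incr {f : κ → ι} (hf : Function.Injective f) {F' F : Submodule ℤ (ι → ℤ)}
    (h : F' ≤ F) (hk : F ⊓ kr f ≤ F') :
    lc (F.map (res f)) + lc F' ≤ lc (F'.map (res f)) + lc F := by
  have h1 := lc_submod (F' ⊔ kr f) F
  have h2 : F' ⊔ kr f ⊔ F = F ⊔ kr f := by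
    rw [sup_assoc, sup_comm (kr f) F, ← sup_assoc, sup_eq_right.mpr h]
  have h3 : (F' ⊔ kr f) ⊓ F = F' := by
    rw [sup_inf_assoc_of_le (kr f) h, inf_comm, sup_eq_left.mpr hk]
  rw [h2, h3, lc_sup_kr hf, lc_sup_kr hf] at h1
  exact h1

/-- the general increment inequality -/
theorem lc_res_incr' {f : κ → ι} (hf : Function.Injective f) {F' F : Submodule ℤ (ι → ℤ)}
    (h : F' ≤ F) :
    lc (F.map (res f)) + lc (F' ⊔ F ⊓ kr f) ≤ lc (F'.map (res f)) + lc F := by
  have h1 := lc_submod (F' ⊔ kr f) F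
  have h2 : F' ⊔ kr f ⊔ F = F ⊔ kr f := by
    rw [sup_assoc, sup_comm (kr f) F, ← sup_assoc, sup_eq_right.mpr h]
  have h3 : (F' ⊔ kr f) ⊓ F = F' ⊔ F ⊓ kr f := by
    rw [sup_inf_assoc_of_le (kr f) h, inf_comm]
  rw [h2, h3, lc_sup_kr hf, lc_sup_kr hf] at h1
  exact h1

/-! ### scaling, images under square matrices, full rank lattices -/

theorem dsc_smul {D : ℤ} (hD : D ≠ 0) (L : Submodule ℤ (ι → ℤ)) :
    dsc (L.map (D • (LinearMap.id : (ι → ℤ) →ₗ[ℤ] (ι → ℤ)))) = D ^ (2 * rk L) * dsc L := by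
  classical
  let b := Module.Free.chooseBasis ℤ L
  have hinj : Function.Injective (D • (LinearMap.id : (ι → ℤ) →ₗ[ℤ] (ι → ℤ))) := by
    intro x y hxy
    simp only [LinearMap.smul_apply, LinearMap.id_apply] at hxy
    exact smul_right_injective _ hD hxy
  let f := Submodule.equivMapOfInjective _ hinj L
  rw [dsc_eq b, dsc_eq (b.map f)]
  have h : ∀ i, ((b.map f i : L.map (D • (LinearMap.id : (ι → ℤ) →ₗ[ℤ] (ι → ℤ)))) : ι → ℤ) =
      D • (b i : ι → ℤ) := by
    intro i
    simp [f, Submodule.coe_equivMapOfInjective_apply]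
  have : gm (fun i => ((b.map f i : L.map (D • (LinearMap.id : (ι → ℤ) →ₗ[ℤ] (ι → ℤ)))) : ι → ℤ)) =
      (D ^ 2) • gm (fun i => (b i : ι → ℤ)) := by
    ext i j
    rw [gm_apply, h, h, Matrix.smul_apply, gm_apply, smul_dotProduct, dotProduct_smul]
    simp only [smul_eq_mul]; ring
  rw [this, Matrix.det_smul, rk_eq b, ← pow_mul]

theorem lc_smul {D : ℤ} (hD : D ≠ 0) (L : Submodule ℤ (ι → ℤ)) :
    lc (L.map (D • (LinearMap.id : (ι → ℤ) →ₗ[ℤ] (ι → ℤ)))) = lc L + rk L * Real.log |(D : ℝ)| := by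
  unfold lc
  rw [dsc_smul hD]
  have h1 : (0 : ℝ) < dsc L := by exact_mod_cast dsc_pos L
  have h2 : (D : ℝ) ≠ 0 := by exact_mod_cast hD
  push_cast
  rw [Real.log_mul (pow_ne_zero _ h2) h1.ne', Real.log_pow, Real.log_abs]
  push_cast; ring

theorem lc_eq_log_index {L : Submodule ℤ (ι → ℤ)} (h : rk L = Fintype.card ι) :
    lc L = Real.log (L.toAddSubgroup.index) := by
  have h1 := lc_of_le (L := ⊤) (L' := L) le_top (by rw [h, rk_top])
  rw [lc_top, zero_add] at h1
  rw [h1]
  unfold ind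
  rw [Submodule.top_toAddSubgroup, AddSubgroup.relIndex_top_right]

theorem rk_eq_card_of_index {L : Submodule ℤ (ι → ℤ)} (h : L.toAddSubgroup.index ≠ 0) :
    rk L = Fintype.card ι := by
  have h1 : sat L = ⊤ := by
    rw [eq_top_iff]
    intro x _
    refine ⟨L.toAddSubgroup.index, by exact_mod_cast h, ?_⟩
    have := L.toAddSubgroup.nsmul_index_mem x
    rw [natCast_zsmul]
    exact this
  rw [← rk_sat, h1, rk_top]

theorem dsc_range_mulVec [DecidableEq ι] {A : Matrix ι ι ℤ} (hA : A.det ≠ 0) :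
    dsc (LinearMap.range A.mulVecLin) = A.det ^ 2 := by
  have hli : LinearIndependent ℤ (fun i => A.col i) := by
    exact Matrix.linearIndependent_cols_of_det_ne_zero hA
  have h1 : LinearMap.range A.mulVecLin = Submodule.span ℤ (Set.range fun i => A.col i) := by
    rw [Matrix.range_mulVecLin]
  rw [h1, dsc_span_range hli]
  have h2 : gm (fun i => A.col i) = Aᵀ * A := by
    ext i j
    rw [gm_apply, Matrix.mul_apply]
    rfl
  rw [h2, Matrix.det_mul, Matrix.det_transpose, pow_two]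

theorem lc_range_mulVec [DecidableEq ι] {A : Matrix ι ι ℤ} (hA : A.det ≠ 0) :
    lc (LinearMap.range A.mulVecLin) = Real.log |(A.det : ℝ)| := by
  unfold lc
  rw [dsc_range_mulVec hA]
  push_cast
  rw [Real.log_pow, Real.log_abs]
  push_cast; ring

end Crest.Agent.R152.Lat
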