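import Crest.Agent.R152.Base1

set_option autoImplicit false
set_option linter.unusedSectionVars false

/-! Row 152, LEMMA S (note 11125), part 1: resampling a block of coins, the exposure lemma,
marginals, and the elementary "determined by `S`" bound. -/

open Crest.FinProb

namespace Crest.Agent.R152.LemS

open Crest.Agent.R152.Base

variable {κ : Type*} [Fintype κ] [DecidableEq κ]

/-- replace the coordinates in `D` of `ω` by those of `η`. -/
def mix (D : Finset κ) (ω η : κ → Bool) : κ → Bool := fun i => if i ∈ D then η i else ω i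

theorem mix_of_mem {D : Finset κ} {ω η : κ → Bool} {i : κ} (h : i ∈ D) : mix D ω η i = η i := by
  simp [mix, h]

theorem mix_of_notMem {D : Finset κ} {ω η : κ → Bool} {i : κ} (h : i ∉ D) :
    mix D ω η i = ω i := by simp [mix, h]

/-- resampling the coordinates of `D` does not change expectations -/
theorem ex_mix (p : ℝ) (D : Finset κ) (F : (κ → Bool) → ℝ) :
    ex p F = ex p (fun ω => ex p (fun η => F (mix D ω η))) := by
  classical
  -- split `κ` into `D` and its complement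
  let e : κ ≃ {i // i ∈ D} ⊕ {i // i ∉ D} := (Equiv.sumCompl (fun i => i ∈ D)).symm
  have he1 : ∀ i (h : i ∈ D), e i = Sum.inl ⟨i, h⟩ := fun i h => by
    simp only [e, Equiv.symm_apply_eq]; rfl
  have he2 : ∀ i (h : i ∉ D), e i = Sum.inr ⟨i, h⟩ := fun i h => by
    simp only [e, Equiv.symm_apply_eq]; rfl
  have key : ∀ (a : {i // i ∈ D} → Bool) (b : {i // i ∉ D} → Bool)
      (a' : {i // i ∈ D} → Bool) (b' : {i // i ∉ D} → Bool),
      mix D ((Sum.elim a b) ∘ e) ((Sum.elim a' b') ∘ e) = (Sum.elim a' b) ∘ e := by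
    intro a b a' b'
    funext i
    by_cases h : i ∈ D
    · rw [mix_of_mem h]; simp [he1 i h]
    · rw [mix_of_notMem h]; simp [he2 i h]
  rw [ex_comp e p F, ex_sumType]
  rw [ex_comp e p (fun ω => ex p (fun η => F (mix D ω η))), ex_sumType]
  have h2 : ∀ (a : {i // i ∈ D} → Bool) (b : {i // i ∉ D} → Bool),
      ex p (fun η => F (mix D ((Sum.elim a b) ∘ e) η)) =
        ex p (fun a' : {i // i ∈ D} → Bool => F ((Sum.elim a' b) ∘ e)) := by
    intro a b
    rw [ex_comp e p (fun η => F (mix D ((Sum.elim a b) ∘ e) η)), ex_sumType]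
    simp only [key]
    exact ex_congr p fun a' => ex_const p _
  simp only [h2]
  rw [ex_const]
  -- swap the two expectations
  unfold ex
  simp only [Finset.mul_sum]
  rw [Finset.sum_comm]
  exact Finset.sum_congr rfl fun b _ => Finset.sum_congr rfl fun a _ => by ring

/-- **Exposure lemma.** `φ l` does not depend on the coordinates of `D l'` for `l' > l`, and
averaging `φ l` over the coordinates of `D l` gives at most `ρ l`. -/
theorem ex_prod_le {p : ℝ} (hp0 : 0 ≤ p) (hp1 : p ≤ 1) (N : ℕ)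
    (φ : ℕ → (κ → Bool) → ℝ) (D : ℕ → Finset κ) (ρ : ℕ → ℝ)
    (hφ : ∀ l, l < N → ∀ ω, 0 ≤ φ l ω)
    (hinv : ∀ l l', l < l' → l' < N → ∀ ω η, φ l (mix (D l') ω η) = φ l ω)
    (havg : ∀ l, l < N → ∀ ω, ex p (fun η => φ l (mix (D l) ω η)) ≤ ρ l) :
    ex p (fun ω => ∏ l ∈ Finset.range N, φ l ω) ≤ ∏ l ∈ Finset.range N, ρ l := by
  induction N with
  | zero => simp [ex_const]
  | succ N ih =>
    have ih' := ih (fun l hl => hφ l (by omega)) (fun l l' h h' => hinv l l' h (by omega))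
      (fun l hl => havg l (by omega))
    rw [Finset.prod_range_succ, ex_mix p (D N)]
    have hρ : 0 ≤ ρ N := by
      by_cases hne : Nonempty (κ → Bool)
      · obtain ⟨ω⟩ := hne
        exact (ex_nonneg hp0 hp1 fun η => hφ N (by omega) _).trans (havg N (by omega) ω)
      · exact absurd ⟨fun _ => true⟩ hne
    have h1 : ∀ ω, ex p (fun η => ∏ l ∈ Finset.range (N + 1), φ l (mix (D N) ω η)) ≤
        ρ N * ∏ l ∈ Finset.range N, φ l ω := by
      intro ω
      have h2 : ∀ η, (∏ l ∈ Finset.range (N + 1), φ l (mix (D N) ω η)) =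
          (∏ l ∈ Finset.range N, φ l ω) * φ N (mix (D N) ω η) := by
        intro η
        rw [Finset.prod_range_succ]
        congr 1
        exact Finset.prod_congr rfl fun l hl =>
          hinv l N (Finset.mem_range.mp hl) (by omega) ω η
      simp only [h2]
      rw [ex_smul, mul_comm]
      exact mul_le_mul_of_nonneg_right (havg N (by omega) ω)
        (Finset.prod_nonneg fun l hl => hφ l (by have := Finset.mem_range.mp hl; omega) ω)
    calc _ ≤ ex p (fun ω => ρ N * ∏ l ∈ Finset.range N, φ l ω) := ex_mono hp0 hp1 h1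
      _ = ρ N * ex p (fun ω => ∏ l ∈ Finset.range N, φ l ω) := ex_smul p _ _
      _ ≤ ρ N * ∏ l ∈ Finset.range N, ρ l := mul_le_mul_of_nonneg_left ih' hρ
      _ = _ := mul_comm _ _

/-- **Exposure lemma, counting form**: at least `s` of the events `E 0, …, E (N-1)` happen
with probability at most `2^N δ^s`. -/
theorem prob_many_le {p : ℝ} (hp0 : 0 ≤ p) (hp1 : p ≤ 1) (N s : ℕ)
    (E : ℕ → Set (κ → Bool)) (D : ℕ → Finset κ) {δ : ℝ} (hδ : 0 < δ)
    (hinv : ∀ l l', l < l' → l' < N → ∀ ω η, (mix (D l') ω η ∈ E l ↔ ω ∈ E l))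
    (havg : ∀ l, l < N → ∀ ω, bernoulliProb p {η | mix (D l) ω η ∈ E l} ≤ δ)
    (B : Set (κ → Bool))
    (hB : ∀ ω ∈ B, ∃ T : Finset ℕ, T ⊆ Finset.range N ∧ s ≤ T.card ∧ ∀ l ∈ T, ω ∈ E l) :
    bernoulliProb p B ≤ 2 ^ N * δ ^ s := by
  classical
  by_cases hδ1 : 1 ≤ δ
  · calc bernoulliProb p B ≤ 1 := prob_le_one hp0 hp1 B
      _ ≤ 2 ^ N * δ ^ s := by
        have h1 : (1 : ℝ) ≤ 2 ^ N := one_le_pow₀ (by norm_num)
        have h2 : (1 : ℝ) ≤ δ ^ s := one_le_pow₀ hδ1
        nlinarith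
  push Not at hδ1
  set φ : ℕ → (κ → Bool) → ℝ := fun l ω => if ω ∈ E l then δ⁻¹ else 1 with hφdef
  have hδi : (1 : ℝ) ≤ δ⁻¹ := (one_le_inv₀ hδ).2 hδ1.le
  have hφ1 : ∀ l ω, 1 ≤ φ l ω := by
    intro l ω
    simp only [hφdef]
    split_ifs
    · exact hδi
    · exact le_refl _
  have havg' : ∀ l, l < N → ∀ ω, ex p (fun η => φ l (mix (D l) ω η)) ≤ 2 := by
    intro l hl ω
    have h1 : ∀ η, φ l (mix (D l) ω η) ≤
        1 + δ⁻¹ * (if mix (D l) ω η ∈ E l then (1 : ℝ) else 0) := by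
      intro η
      simp only [hφdef]
      split_ifs <;> simp
    calc _ ≤ ex p (fun η => 1 + δ⁻¹ * (if mix (D l) ω η ∈ E l then (1 : ℝ) else 0)) :=
          ex_mono hp0 hp1 h1
      _ = 1 + δ⁻¹ * ex p (fun η => if mix (D l) ω η ∈ E l then (1 : ℝ) else 0) := by
          rw [ex_add, ex_const, ex_smul]
      _ ≤ 1 + δ⁻¹ * δ := by
          have h3 := havg l hl ω
          rw [prob_eq_ex] at h3
          have h4 : ex p (fun η => if mix (D l) ω η ∈ E l then (1 : ℝ) else 0) ≤ δ := h3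
          have := mul_le_mul_of_nonneg_left h4 (by positivity : (0 : ℝ) ≤ δ⁻¹)
          linarith
      _ = 2 := by rw [inv_mul_cancel₀ hδ.ne']; norm_num
  have hmain := ex_prod_le hp0 hp1 N φ D (fun _ => 2) (fun l _ ω => by
    have := hφ1 l ω; linarith)
    (fun l l' h h' ω η => by simp only [hφdef, hinv l l' h h' ω η]) havg'
  rw [Finset.prod_const, Finset.card_range] at hmain
  have hmk : bernoulliProb p {ω | δ⁻¹ ^ s ≤ ∏ l ∈ Finset.range N, φ l ω} ≤
      ex p (fun ω => ∏ l ∈ Finset.range N, φ l ω) / δ⁻¹ ^ s :=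
    markov hp0 hp1 (fun ω => Finset.prod_nonneg fun l _ => by
      have := hφ1 l ω; linarith) (by positivity)
  have hsub : B ⊆ {ω | δ⁻¹ ^ s ≤ ∏ l ∈ Finset.range N, φ l ω} := by
    intro ω hω
    obtain ⟨T, hT, hsT, hTE⟩ := hB ω hω
    change δ⁻¹ ^ s ≤ _
    calc δ⁻¹ ^ s ≤ δ⁻¹ ^ T.card := pow_le_pow_right₀ hδi hsT
      _ = ∏ l ∈ T, φ l ω := by
          rw [← Finset.prod_const]
          exact Finset.prod_congr rfl fun l hl => by simp [hφdef, hTE l hl]
      _ ≤ ∏ l ∈ Finset.range N, φ l ω := by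
          rw [← Finset.prod_sdiff hT]
          have h5 : (1 : ℝ) ≤ ∏ l ∈ Finset.range N \ T, φ l ω := by
            calc (1 : ℝ) = ∏ l ∈ Finset.range N \ T, 1 := by simp
              _ ≤ _ := Finset.prod_le_prod (fun _ _ => zero_le_one) (fun l _ => hφ1 l ω)
          have h6 : 0 ≤ ∏ l ∈ T, φ l ω :=
            Finset.prod_nonneg fun l _ => by have := hφ1 l ω; linarith
          nlinarith
  calc bernoulliProb p B ≤ _ := prob_mono hp0 hp1 hsub
    _ ≤ _ := hmk
    _ ≤ 2 ^ N / δ⁻¹ ^ s := by gcongr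
    _ = 2 ^ N * δ ^ s := by rw [inv_pow, div_inv_eq_mul]

end Crest.Agent.R152.LemS
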