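import Crest.Agent.R152.LS1
import Crest.Agent.R152.Lat1

set_option autoImplicit false
set_option linter.unusedSectionVars false

/-! Row 152, LEMMA S (note 11125), part 2: Odlyzko's lemma for `{0,1}` vectors over any field,
and its consequences for integer sign vectors modulo an integer. -/

open Crest.FinProb Crest.ProbabilityR.SignMatrix

namespace Crest.Agent.R152.LemS

open Crest.Agent.R152.Base

variable {ι : Type*} [Fintype ι] [DecidableEq ι]

/-- the `{0,1}` vector of `ω` over `K` -/
def bv (K : Type*) [Zero K] [One K] (ω : ι → Bool) : ι → K := fun i => if ω i then 1 else 0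

theorem bv_update (K : Type*) [Field K] (ω : ι → Bool) (i : ι) (c : Bool) :
    bv K (Function.update ω i c) = bv K ω + ((if c then 1 else 0) - (if ω i then 1 else 0) : K) •
      (Pi.single i (1 : K)) := by
  funext j
  by_cases hj : j = i
  · subst hj; simp [bv]
  · simp [bv, hj]

/-- **Odlyzko's lemma over a field**, for `{0,1}` vectors. -/
theorem odl {K : Type*} [Field K] {p q : ℝ} (hp0 : 0 ≤ p) (hp1 : p ≤ 1) (hq1 : p ≤ q)
    (hq2 : 1 - p ≤ q) (s : ℕ) :
    ∀ V : Submodule K (ι → K), Module.finrank K V + s ≤ Fintype.card ι → ∀ a : ι → K,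
      bernoulliProb p {ω : ι → Bool | bv K ω - a ∈ V} ≤ q ^ s := by
  classical
  have hq0 : 0 ≤ q := hp0.trans hq1
  induction s with
  | zero =>
    intro V _ a
    rw [pow_zero]
    exact prob_le_one hp0 hp1 _
  | succ s ih =>
    intro V hV a
    -- a coordinate vector outside `V`
    have hex : ∃ i, (Pi.single i (1 : K) : ι → K) ∉ V := by
      by_contra hcon
      push Not at hcon
      have htop : V = ⊤ := by
        rw [eq_top_iff]
        intro x _
        have : x = ∑ i, x i • (Pi.single i (1 : K) : ι → K) := by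
          funext j
          simp [Finset.sum_apply, Pi.single_apply]
        rw [this]
        exact Submodule.sum_mem _ fun i _ => V.smul_mem _ (hcon i)
      rw [htop, finrank_top, Module.finrank_fintype_fun_eq_card] at hV
      omega
    obtain ⟨i, hi⟩ := hex
    set V' : Submodule K (ι → K) := V ⊔ Submodule.span K {(Pi.single i (1 : K) : ι → K)} with hV'
    have hfr : Module.finrank K V' ≤ Module.finrank K V + 1 := by
      have h1 := Submodule.finrank_add_le_finrank_add_finrank V
        (Submodule.span K {(Pi.single i (1 : K) : ι → K)})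
      have h2 : Module.finrank K (Submodule.span K {(Pi.single i (1 : K) : ι → K)}) ≤ 1 := by
        have := finrank_span_le_card (R := K) ({(Pi.single i (1 : K) : ι → K)} : Set (ι → K))
        simpa using this
      rw [hV']
      omega
    have hih := ih V' (by omega) a
    have hsub : ∀ x, x ∈ V → x ∈ V' := fun x hx => (le_sup_left : V ≤ V') hx
    have heV' : (Pi.single i (1 : K) : ι → K) ∈ V' :=
      (le_sup_right : _ ≤ V') (Submodule.mem_span_singleton_self _)
    have hV'upd : ∀ (ω : ι → Bool) (c : Bool),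
        (bv K (Function.update ω i c) - a ∈ V' ↔ bv K ω - a ∈ V') := by
      intro ω c
      rw [bv_update, add_sub_right_comm]
      constructor
      · intro h
        have := V'.sub_mem h (V'.smul_mem
          ((if c then 1 else 0) - (if ω i then 1 else 0) : K) heV')
        simpa using this
      · intro h
        exact V'.add_mem h (V'.smul_mem _ heV')
    have hnot : ∀ ω : ι → Bool, ¬ (bv K (Function.update ω i true) - a ∈ V ∧
        bv K (Function.update ω i false) - a ∈ V) := by
      rintro ω ⟨h1, h2⟩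
      apply hi
      have := V.sub_mem h1 h2
      rw [bv_update, bv_update] at this
      have e : bv K ω + ((if true = true then (1:K) else 0) - if ω i = true then 1 else 0) •
          (Pi.single i (1 : K) : ι → K) - a -
          (bv K ω + ((if false = true then (1:K) else 0) - if ω i = true then 1 else 0) •
          (Pi.single i (1 : K) : ι → K) - a) = Pi.single i (1 : K) := by
        simp only [if_true, Bool.false_eq_true, if_false]
        rw [sub_smul, sub_smul, one_smul, zero_smul]
        abel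
      rwa [e] at this
    rw [prob_eq_ex, LS.ex_update p i]
    rw [pow_succ, mul_comm (q ^ s)]
    refine le_trans ?_ (mul_le_mul_of_nonneg_left hih hq0)
    rw [prob_eq_ex, ← ex_smul]
    refine ex_mono hp0 hp1 fun ω => ?_
    simp only [Set.mem_ofPred_eq]
    by_cases h1 : bv K (Function.update ω i true) - a ∈ V
    · have h2 : ¬ (bv K (Function.update ω i false) - a ∈ V) := fun h => hnot ω ⟨h1, h⟩
      have h3 : bv K ω - a ∈ V' := (hV'upd ω true).1 (hsub _ h1)
      simp [h1, h2, h3, hq1]
    · by_cases h2 : bv K (Function.update ω i false) - a ∈ V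
      · have h3 : bv K ω - a ∈ V' := (hV'upd ω false).1 (hsub _ h2)
        simp [h1, h2, h3]
        linarith
      · simp only [h1, h2, if_false, mul_zero, add_zero]
        split_ifs <;> positivity

/-! ### integer lattices and their reductions -/

open Crest.Agent.R152.Lat in
/-- the `K`-span of the image of an integer lattice -/
noncomputable def redK (K : Type*) [Field K] (F : Submodule ℤ (ι → ℤ)) : Submodule K (ι → K) :=
  Submodule.span K ((fun z : ι → ℤ => (fun i => (z i : K))) '' (F : Set (ι → ℤ)))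

omit [Fintype ι] [DecidableEq ι] in
theorem mem_redK (K : Type*) [Field K] {F : Submodule ℤ (ι → ℤ)} {z : ι → ℤ} (hz : z ∈ F) :
    (fun i => (z i : K)) ∈ redK K F :=
  Submodule.subset_span ⟨z, hz, rfl⟩

theorem finrank_redK_le (K : Type*) [Field K] (F : Submodule ℤ (ι → ℤ)) :
    Module.finrank K (redK K F) ≤ Lat.rk F := by
  classical
  set b := Module.Free.chooseBasis ℤ F with hb
  have h1 : redK K F ≤ Submodule.span K
      (Set.range (fun k => (fun i => (((b k : F) : ι → ℤ) i : K)))) := by
    unfold redK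
    rw [Submodule.span_le]
    rintro _ ⟨z, hz, rfl⟩
    have h2 := b.sum_repr ⟨z, hz⟩
    have h3 := congrArg (fun x : F => (x : ι → ℤ)) h2
    simp only [AddSubmonoidClass.coe_finsetSum, SetLike.val_smul] at h3
    have h4 : (fun i => (z i : K)) = ∑ k, ((b.repr ⟨z, hz⟩ k : ℤ) : K) •
        (fun i => (((b k : F) : ι → ℤ) i : K)) := by
      funext i
      have h5 := congrFun h3 i
      simp only [Finset.sum_apply, Pi.smul_apply, smul_eq_mul] at h5 ⊢
      rw [← h5]
      push_cast
      rfl
    show (fun i => (z i : K)) ∈ _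
    rw [h4]
    exact Submodule.sum_mem _ fun k _ => Submodule.smul_mem _ _ (Submodule.subset_span ⟨k, rfl⟩)
  have h2 := Submodule.finrank_mono h1
  have h3 := finrank_range_le_card (R := K) (fun k => (fun i => (((b k : F) : ι → ℤ) i : K)))
  unfold Set.finrank at h3
  rw [Lat.rk_eq b]
  omega

/-- integer sign vector -/
def sgv (x : ι → Bool) : ι → ℤ := fun i => sg (x i)

omit [Fintype ι] [DecidableEq ι] in
theorem sgv_eq (x : ι → Bool) (i : ι) : sgv x i = 2 * (if x i then 1 else 0) - 1 := by
  unfold sgv sg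
  by_cases h : x i <;> simp [h]

/-- a sign vector lies in a translate of a lattice of small rank with small probability -/
theorem prob_mem {p q : ℝ} (hp0 : 0 ≤ p) (hp1 : p ≤ 1) (hq1 : p ≤ q) (hq2 : 1 - p ≤ q)
    (F : Submodule ℤ (ι → ℤ)) (s : ℕ) (hs : Lat.rk F + s ≤ Fintype.card ι)
    (s0 : ι → ℤ) {τ : ℤ} (hτ : 1 ≤ τ) :
    bernoulliProb p {x : ι → Bool | s0 + τ • sgv x ∈ F} ≤ q ^ s := by
  have h := odl (K := ℚ) hp0 hp1 hq1 hq2 s (redK ℚ F)
    (by have := finrank_redK_le ℚ F; omega) (fun i => ((τ : ℚ) - s0 i) / (2 * τ))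
  refine le_trans (prob_mono hp0 hp1 fun x hx => ?_) h
  simp only [Set.mem_ofPred_eq] at hx ⊢
  have h1 := mem_redK ℚ hx
  have hτ0 : (τ : ℚ) ≠ 0 := by
    have : (1 : ℚ) ≤ τ := by exact_mod_cast hτ
    intro h0; rw [h0] at this; norm_num at this
  have h2 : bv ℚ x - (fun i => ((τ : ℚ) - s0 i) / (2 * τ)) =
      (1 / (2 * (τ : ℚ))) • (fun i => (((s0 + τ • sgv x) i : ℤ) : ℚ)) := by
    funext i
    simp only [Pi.sub_apply, Pi.smul_apply, Pi.add_apply, smul_eq_mul, sgv_eq, bv]
    by_cases hx : x i
    · simp only [hx, if_true]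
      push_cast
      field_simp
      ring
    · simp only [hx, Bool.false_eq_true, if_false]
      push_cast
      field_simp
      ring
  rw [h2]
  exact Submodule.smul_mem _ _ h1

/-- a sign vector lies in a given class modulo `m` (up to a saturated lattice of small rank) with
small probability, if `|m| > 2 τ` -/
theorem prob_mod {p q : ℝ} (hp0 : 0 ≤ p) (hp1 : p ≤ 1) (hq1 : p ≤ q) (hq2 : 1 - p ≤ q)
    (F : Submodule ℤ (ι → ℤ)) (hF : ∀ (k : ℤ) (z : ι → ℤ), k ≠ 0 → k • z ∈ F → z ∈ F)
    (s : ℕ) (hs : Lat.rk F + s ≤ Fintype.card ι)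
    (s0 : ι → ℤ) {τ m : ℤ} (hτ : 1 ≤ τ) (hm : 2 * τ < |m|) :
    bernoulliProb p {x : ι → Bool | ∃ u : ι → ℤ, s0 + τ • sgv x - m • u ∈ F} ≤ q ^ s := by
  classical
  have hq0 : 0 ≤ q := hp0.trans hq1
  by_cases hne : ∃ x : ι → Bool, ∃ u : ι → ℤ, s0 + τ • sgv x - m • u ∈ F
  swap
  · have : {x : ι → Bool | ∃ u : ι → ℤ, s0 + τ • sgv x - m • u ∈ F} = ∅ := by
      ext x
      simp only [Set.mem_ofPred_eq, Set.mem_empty_iff_false, iff_false]
      intro h; exact hne ⟨x, h⟩
    rw [this, prob_empty]
    positivity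
  obtain ⟨x', u', hx'⟩ := hne
  have hm0 : m ≠ 0 := by
    intro h; rw [h, abs_zero] at hm; linarith
  have hg0 : (Int.gcd (2 * τ) m : ℤ) ≠ 0 := by
    have := Int.gcd_pos_of_ne_zero_right (2 * τ) hm0
    exact_mod_cast this.ne'
  set g : ℤ := (Int.gcd (2 * τ) m : ℤ) with hg
  obtain ⟨t', ht'⟩ : g ∣ 2 * τ := Int.gcd_dvd_left ..
  obtain ⟨m', hm'⟩ : g ∣ m := Int.gcd_dvd_right ..
  have hgpos : 0 < g := lt_of_le_of_ne (by rw [hg]; positivity) (Ne.symm hg0)
  have ht'pos : 0 < t' := by
    have h1 : 0 < g * t' := by rw [← ht']; linarith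
    exact (mul_pos_iff_of_pos_left hgpos).1 h1
  have hm1 : m'.natAbs ≠ 1 := by
    intro h1
    have h2 : |m| = g := by
      rw [hm', abs_mul, abs_of_pos hgpos, Int.abs_eq_natAbs m', h1]; simp
    rw [h2] at hm
    have h3 : g ≤ 2 * τ := Int.le_of_dvd (by linarith) ⟨t', ht'⟩
    linarith
  have hcop : IsCoprime t' m' := by
    rw [Int.isCoprime_iff_gcd_eq_one]
    have h1 : Int.gcd (g * t') (g * m') = g.natAbs * Int.gcd t' m' := Int.gcd_mul_left ..
    rw [← ht', ← hm'] at h1
    have h2 : g.natAbs = Int.gcd (2 * τ) m := by rw [hg]; rfl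
    rw [h2] at h1
    have h3 : 0 < Int.gcd (2 * τ) m := Int.gcd_pos_of_ne_zero_right _ hm0
    exact (Nat.eq_of_mul_eq_mul_left h3 (by rw [mul_one]; exact h1.symm))
  have : Fact (Nat.Prime m'.natAbs.minFac) := ⟨Nat.minFac_prime hm1⟩
  set ℓ := m'.natAbs.minFac with hℓ
  have hm'0 : ((m' : ℤ) : ZMod ℓ) = 0 := by
    rw [ZMod.intCast_zmod_eq_zero_iff_dvd, ← Int.dvd_natAbs]
    exact_mod_cast Nat.minFac_dvd _
  have ht'0 : ((t' : ℤ) : ZMod ℓ) ≠ 0 := by
    intro h0
    obtain ⟨a, b, hab⟩ := hcop
    have h1 := congrArg (fun z : ℤ => (z : ZMod ℓ)) hab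
    push_cast at h1
    rw [h0, hm'0, mul_zero, mul_zero, add_zero] at h1
    exact zero_ne_one h1
  have h := odl (K := ZMod ℓ) hp0 hp1 hq1 hq2 s (redK (ZMod ℓ) F)
    (by have := finrank_redK_le (ZMod ℓ) F; omega) (bv (ZMod ℓ) x')
  refine le_trans (prob_mono hp0 hp1 fun x hx => ?_) h
  simp only [Set.mem_ofPred_eq] at hx ⊢
  obtain ⟨u, hu⟩ := hx
  -- the difference
  set δ : ι → ℤ := fun i => (if x i then 1 else 0) - (if x' i then 1 else 0) with hδ
  have h1 : g • (t' • δ - m' • (u - u')) ∈ F := by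
    have h2 := F.sub_mem hu hx'
    have h3 : s0 + τ • sgv x - m • u - (s0 + τ • sgv x' - m • u') =
        g • (t' • δ - m' • (u - u')) := by
      funext i
      simp only [Pi.sub_apply, Pi.smul_apply, Pi.add_apply, smul_eq_mul, sgv_eq, hδ]
      have e1 : g * (t' * ((if x i = true then (1:ℤ) else 0) - if x' i = true then 1 else 0) -
          m' * (u i - u' i)) = (g * t') * ((if x i = true then (1:ℤ) else 0) -
            if x' i = true then 1 else 0) - (g * m') * (u i - u' i) := by ring
      rw [e1, ← ht', ← hm']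
      ring
    rwa [h3] at h2
  have h2 := hF g _ hg0 h1
  have h3 := mem_redK (ZMod ℓ) h2
  have h4 : bv (ZMod ℓ) x - bv (ZMod ℓ) x' = ((t' : ℤ) : ZMod ℓ)⁻¹ •
      (fun i => (((t' • δ - m' • (u - u')) i : ℤ) : ZMod ℓ)) := by
    funext i
    simp only [Pi.sub_apply, Pi.smul_apply, smul_eq_mul, hδ, bv]
    push_cast
    rw [hm'0, zero_mul, sub_zero, ← mul_assoc, inv_mul_cancel₀ ht'0, one_mul]
  rw [h4]
  exact Submodule.smul_mem _ _ h3

end Crest.Agent.R152.LemS
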