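import Crest.Agent.R152.Lat2

set_option autoImplicit false
set_option linter.unusedSectionVars false

/-! Row 152, LEMMA S (note 11125), part 3: potentials `lc F + κ rk F` on integer lattices and the
deterministic one-step dichotomy. -/

namespace Crest.Agent.R152.LemS

open Crest.Agent.R152.Lat Module

variable {ι : Type*} [Fintype ι]

/-- potential of a lattice -/
noncomputable def pot (κ : ℝ) (F : Submodule ℤ (ι → ℤ)) : ℝ := lc F + κ * rk F

theorem pot_submod (κ : ℝ) (L M : Submodule ℤ (ι → ℤ)) :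
    pot κ (L ⊔ M) + pot κ (L ⊓ M) ≤ pot κ L + pot κ M := by
  unfold pot
  have h1 := lc_submod L M
  have h2 : ((rk (L ⊔ M) : ℝ) + rk (L ⊓ M)) = rk L + rk M := by exact_mod_cast rk_modular L M
  have h3 : κ * rk (L ⊔ M) + κ * rk (L ⊓ M) = κ * rk L + κ * rk M := by
    rw [← mul_add, h2, mul_add]
  linarith

theorem pot_nonneg {κ : ℝ} (hκ : 0 ≤ κ) (F : Submodule ℤ (ι → ℤ)) : 0 ≤ pot κ F := by
  unfold pot
  have := lc_nonneg F
  positivity

/-- `F` minimises the potential among the lattices containing `X` -/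
def IsMin (κ : ℝ) (X F : Submodule ℤ (ι → ℤ)) : Prop :=
  X ≤ F ∧ ∀ W, X ≤ W → pot κ F ≤ pot κ W

theorem exists_isMin {κ : ℝ} (hκ : 0 ≤ κ) (X : Submodule ℤ (ι → ℤ)) : ∃ F, IsMin κ X F := by
  classical
  -- the set of pairs `(dsc W, rk W)` with small potential is finite
  set C : ℝ := pot κ X with hC
  let S : Set (Submodule ℤ (ι → ℤ)) := {W | X ≤ W ∧ pot κ W ≤ C}
  let g : Submodule ℤ (ι → ℤ) → ℕ × ℕ := fun W => ((dsc W).toNat, rk W)
  have hfin : (g '' S).Finite := by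
    apply Set.Finite.subset (s := (Set.Iic ⌈Real.exp (2 * C)⌉₊) ×ˢ (Set.Iic (Fintype.card ι)))
    · exact (Set.finite_Iic _).prod (Set.finite_Iic _)
    · rintro _ ⟨W, ⟨_, hW⟩, rfl⟩
      refine ⟨?_, ?_⟩
      · show (dsc W).toNat ≤ ⌈Real.exp (2 * C)⌉₊
        have h1 : lc W ≤ C := by
          have h2 : 0 ≤ κ * rk W := by positivity
          unfold pot at hW
          linarith
        unfold lc at h1
        have hd : (0 : ℝ) < dsc W := by exact_mod_cast dsc_pos W
        have h2 : (dsc W : ℝ) ≤ Real.exp (2 * C) := by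
          rw [← Real.exp_log hd]
          apply Real.exp_le_exp.2
          linarith
        have h3 : (((dsc W).toNat : ℕ) : ℝ) = dsc W := by
          have : (((dsc W).toNat : ℕ) : ℤ) = dsc W := Int.toNat_of_nonneg (dsc_pos W).le
          exact_mod_cast this
        have h4 : (((dsc W).toNat : ℕ) : ℝ) ≤ ⌈Real.exp (2 * C)⌉₊ := by
          rw [h3]; exact h2.trans (Nat.le_ceil _)
        exact_mod_cast h4
      · exact rk_le_card W
  have hne : (g '' S).Nonempty := ⟨g X, X, ⟨le_rfl, le_rfl⟩, rfl⟩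
  obtain ⟨ab, ⟨F, hF, rfl⟩, hmin⟩ := Set.exists_min_image (g '' S)
    (fun ab => Real.log ab.1 / 2 + κ * ab.2) hfin hne
  have hg : ∀ W : Submodule ℤ (ι → ℤ), Real.log (g W).1 / 2 + κ * (g W).2 = pot κ W := by
    intro W
    unfold pot lc
    have h3 : (((dsc W).toNat : ℕ) : ℝ) = dsc W := by
      have : (((dsc W).toNat : ℕ) : ℤ) = dsc W := Int.toNat_of_nonneg (dsc_pos W).le
      exact_mod_cast this
    show Real.log ((dsc W).toNat : ℕ) / 2 + κ * rk W = _
    rw [h3]
  refine ⟨F, hF.1, fun W hW => ?_⟩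
  by_cases hWC : pot κ W ≤ C
  · have := hmin (g W) ⟨W, ⟨hW, hWC⟩, rfl⟩
    rwa [hg, hg] at this
  · exact hF.2.trans (not_le.1 hWC).le

/-- saturated lattices -/
def Sat (F : Submodule ℤ (ι → ℤ)) : Prop := ∀ (k : ℤ) (z : ι → ℤ), k ≠ 0 → k • z ∈ F → z ∈ F

theorem Sat.inf {F G : Submodule ℤ (ι → ℤ)} (hF : Sat F) (hG : Sat G) : Sat (F ⊓ G) :=
  fun k z hk hz => ⟨hF k z hk hz.1, hG k z hk hz.2⟩

theorem IsMin.sat {κ : ℝ} {X F : Submodule ℤ (ι → ℤ)} (h : IsMin κ X F) : Sat F := by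
  intro k z hk hz
  have h1 : ev z ∈ rsp F := mem_rsp_iff.2 ⟨k, hk, hz⟩
  have h2 := h.2 (F ⊔ Submodule.span ℤ {z}) (h.1.trans le_sup_left)
  unfold pot at h2
  rw [rk_sup_span_of_mem h1, lc_sup_span_of_mem h1] at h2
  have h3 : Real.log (ind F (F ⊔ Submodule.span ℤ {z})) ≤ 0 := by linarith
  have h4 : 0 < ind F (F ⊔ Submodule.span ℤ {z}) :=
    ind_pos le_sup_left (rk_sup_span_of_mem h1).symm
  have h5 : ind F (F ⊔ Submodule.span ℤ {z}) = 1 := by
    by_contra hne
    have h6 : (1 : ℝ) < ind F (F ⊔ Submodule.span ℤ {z}) := by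
      exact_mod_cast lt_of_le_of_ne h4 (Ne.symm hne)
    have := Real.log_pos h6
    linarith
  unfold ind at h5
  rw [AddSubgroup.relIndex_eq_one] at h5
  exact h5 ((le_sup_right : _ ≤ F ⊔ Submodule.span ℤ {z}) (Submodule.mem_span_singleton_self z))

theorem rsp_mem_of_sat {F : Submodule ℤ (ι → ℤ)} (hF : Sat F) {z : ι → ℤ} (hz : ev z ∈ rsp F) :
    z ∈ F := by
  obtain ⟨m, hm, h⟩ := mem_rsp_iff.1 hz
  exact hF m z hm h

/-- a saturated sublattice of corank one has a complementary generator -/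
theorem exists_gen {B F : Submodule ℤ (ι → ℤ)} (hB : Sat B) (h : B ≤ F)
    (hr : rk F = rk B + 1) : ∃ u ∈ F, F = B ⊔ Submodule.span ℤ {u} := by
  classical
  set N : Submodule ℤ F := Submodule.comap F.subtype B with hN
  have h1 : Module.finrank ℤ N = rk B := (Submodule.comapSubtypeEquivOfLe h).finrank_eq
  have h2 := Submodule.finrank_quotient_add_finrank (R := ℤ) N
  have h3 : Module.finrank ℤ (F ⧸ N) = 1 := by
    have : Module.finrank ℤ F = rk B + 1 := hr
    omega
  have : Module.IsTorsionFree ℤ (F ⧸ N) := by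
    apply Module.IsTorsionFree.of_smul_eq_zero
    intro r m hrm
    by_cases hr0 : r = 0
    · exact Or.inl hr0
    · right
      obtain ⟨z, rfl⟩ := N.mkQ_surjective m
      rw [← map_smul] at hrm
      simp only [Submodule.mkQ_apply, Submodule.Quotient.mk_eq_zero] at hrm ⊢
      exact hB r z hr0 hrm
  obtain ⟨v, hv0, hv⟩ := finrank_eq_one_iff'.1 h3
  obtain ⟨⟨u, hu⟩, rfl⟩ := N.mkQ_surjective v
  refine ⟨u, hu, le_antisymm ?_ (sup_le h (by simpa using hu))⟩
  intro z hz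
  obtain ⟨c, hc⟩ := hv (N.mkQ ⟨z, hz⟩)
  have h6 : z - c • u ∈ B := by
    rw [← map_smul, ← sub_eq_zero, ← map_sub] at hc
    simp only [Submodule.mkQ_apply, Submodule.Quotient.mk_eq_zero] at hc
    have h7 : c • u - z ∈ B := hc
    have := B.neg_mem h7
    rwa [neg_sub] at this
  have : z = (z - c • u) + c • u := by abel
  rw [this]
  exact Submodule.add_mem_sup h6 (Submodule.smul_mem _ _ (Submodule.mem_span_singleton_self u))

/-- **deterministic one-step dichotomy** -/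
theorem det_step {κ κ1 : ℝ} (hκ : κ1 ≤ κ) {X F F1 F' : Submodule ℤ (ι → ℤ)}
    (hF : IsMin κ X F) (hF1 : IsMin κ1 F F1) (hF' : Sat F') (hFF' : F ≤ F') :
    (pot κ F + 2 * (κ - κ1) ≤ pot κ F') ∨ F' ≤ F1 ∨
    ∃ u, u ∈ F' ∧ ev u ∉ rsp F1 ∧ F' = (F' ⊓ F1) ⊔ Submodule.span ℤ {u} ∧
      pot κ F + κ + Real.log (dst (F' ⊓ F1) (ev u)) ≤ pot κ F' := by
  set B := F' ⊓ F1 with hB
  have hBsat : Sat B := hF'.inf hF1.sat
  have hBF' : B ≤ F' := inf_le_left
  have hBF1 : B ≤ F1 := inf_le_right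
  have hFB : F ≤ B := le_inf hFF' hF1.1
  have h1 : pot κ1 B ≤ pot κ1 F' := by
    have h2 := pot_submod κ1 F' F1
    have h3 := hF1.2 (F' ⊔ F1) (hFF'.trans le_sup_left)
    rw [← hB] at h2
    linarith
  have h4 : pot κ F ≤ pot κ B := hF.2 B (hF.1.trans hFB)
  have hrk : rk B ≤ rk F' := rk_mono hBF'
  rcases Nat.lt_or_ge (rk F') (rk B + 2) with hlt | hge
  · rcases Nat.lt_or_ge (rk F') (rk B + 1) with hlt1 | hge1
    · -- same rank
      right; left
      have hr : rk B = rk F' := by omega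
      intro z hz
      have h5 : ev z ∈ rsp B := by
        have h6 : rsp B = rsp F' := by
          apply Submodule.eq_of_le_of_finrank_eq (rsp_mono hBF')
          rw [finrank_rsp, finrank_rsp, hr]
        rw [h6]
        exact ev_mem_rsp hz
      exact hBF1 (rsp_mem_of_sat hBsat h5)
    · right; right
      have hr : rk F' = rk B + 1 := by omega
      obtain ⟨u, hu, hgen⟩ := exists_gen hBsat hBF' hr
      have huB : ev u ∉ rsp B := by
        intro h
        rw [hgen, rk_sup_span_of_mem h] at hr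
        omega
      have huF1 : ev u ∉ rsp F1 := by
        intro h
        exact huB (ev_mem_rsp ⟨hu, rsp_mem_of_sat hF1.sat h⟩)
      refine ⟨u, hu, huF1, hgen, ?_⟩
      have h5 : pot κ F' = pot κ B + κ + Real.log (dst B (ev u)) := by
        conv_lhs => rw [hgen]
        unfold pot
        rw [lc_sup_span huB, rk_sup_span huB]
        push_cast; ring
      linarith
  · left
    unfold pot at h1 h4 ⊢
    have h5 : (rk B : ℝ) + 2 ≤ rk F' := by exact_mod_cast hge
    have h6 : (κ - κ1) * (rk B + 2) ≤ (κ - κ1) * rk F' :=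
      mul_le_mul_of_nonneg_left h5 (by linarith)
    nlinarith

theorem dst_smul_add {F : Submodule ℤ (ι → ℤ)} (m : ℤ) (u b : ι → ℤ) (hb : b ∈ F) :
    dst F (ev (b + m • u)) = |(m : ℝ)| * dst F (ev u) := by
  unfold dst
  have h1 : (rsp F).starProjection (ev b) = ev b :=
    Submodule.starProjection_eq_self_iff.2 (ev_mem_rsp hb)
  rw [map_add, map_smul, map_add, h1, ← Int.cast_smul_eq_zsmul ℝ, map_smul]
  rw [add_sub_add_left_eq_sub, ← smul_sub, norm_smul, Real.norm_eq_abs]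

/-- the minimiser of the larger potential keeps every outside integer point at distance at least
`exp (-κ)` -/
theorem IsMin.dst_ge {κ : ℝ} {X F : Submodule ℤ (ι → ℤ)} (h : IsMin κ X F) {u : ι → ℤ}
    (hu : ev u ∉ rsp F) : Real.exp (-κ) ≤ dst F (ev u) := by
  have h1 := h.2 (F ⊔ Submodule.span ℤ {u}) (h.1.trans le_sup_left)
  unfold pot at h1
  rw [lc_sup_span hu, rk_sup_span hu] at h1
  push_cast at h1
  have h2 : -κ ≤ Real.log (dst F (ev u)) := by linarith
  calc Real.exp (-κ) ≤ Real.exp (Real.log (dst F (ev u))) := Real.exp_le_exp.2 h2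
    _ = _ := Real.exp_log (dst_pos hu)

/-- one step, deterministic: if the potential of `F' ∋ y` is only slightly larger than that of `F`
then `y` is in `F1`, or `y ≡ m u` modulo `F1` with `u` close to (but outside) `F1`. -/
theorem det_step' {κ κ1 g : ℝ} (hκ : κ1 ≤ κ) {X F F1 F' : Submodule ℤ (ι → ℤ)}
    (hF : IsMin κ X F) (hF1 : IsMin κ1 F F1) (hF' : Sat F') (hFF' : F ≤ F')
    {y : ι → ℤ} (hy : y ∈ F') (hg : pot κ F' < pot κ F + κ + g) (hg2 : κ + g ≤ 2 * (κ - κ1)) :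
    y ∈ F1 ∨ ∃ (u : ι → ℤ) (m : ℤ), y - m • u ∈ F1 ∧ m ≠ 0 ∧
      Real.exp (-κ1) ≤ dst F1 (ev u) ∧ dst F1 (ev u) < Real.exp g ∧
      dst F1 (ev y) = |(m : ℝ)| * dst F1 (ev u) := by
  rcases det_step hκ hF hF1 hF' hFF' with h | h | ⟨u, hu, huF1, hgen, h⟩
  · exfalso; linarith
  · exact Or.inl (h hy)
  · by_cases hyF : y ∈ F1
    · exact Or.inl hyF
    right
    have hy2 := hy
    rw [hgen] at hy2
    obtain ⟨b, hb, c, hc, hbc⟩ := Submodule.mem_sup.1 hy2
    obtain ⟨m, rfl⟩ := Submodule.mem_span_singleton.1 hc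
    refine ⟨u, m, ?_, ?_, hF1.dst_ge huF1, ?_, ?_⟩
    · rw [← hbc, add_sub_cancel_right]
      exact hb.2
    · rintro rfl
      apply hyF
      rw [← hbc, zero_smul, add_zero]
      exact hb.2
    · have h2 : Real.log (dst (F' ⊓ F1) (ev u)) < g := by linarith
      have h3 : ev u ∉ rsp (F' ⊓ F1) := fun h => huF1 (rsp_mono inf_le_right h)
      calc dst F1 (ev u) ≤ dst (F' ⊓ F1) (ev u) := dst_anti inf_le_right _
        _ = Real.exp (Real.log (dst (F' ⊓ F1) (ev u))) := (Real.exp_log (dst_pos h3)).symm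
        _ < Real.exp g := Real.exp_lt_exp.2 h2
    · rw [← hbc]
      exact dst_smul_add m u b hb.2

/-- one can choose the minimiser for the larger lattice above the one for the smaller lattice -/
theorem IsMin.sup {κ : ℝ} {X X' F F' : Submodule ℤ (ι → ℤ)} (hXX' : X ≤ X') (hF : IsMin κ X F)
    (hF' : IsMin κ X' F') : IsMin κ X' (F' ⊔ F) := by
  refine ⟨hF'.1.trans le_sup_left, fun W hW => ?_⟩
  have h1 := pot_submod κ F' F
  have h2 := hF.2 (F' ⊓ F) (le_inf (hXX'.trans hF'.1) hF.1)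
  have h3 := hF'.2 W hW
  linarith

/-- rank bound for the double minimiser -/
theorem rk_le_of_isMin {κ κ1 : ℝ} (hκ : κ1 ≤ κ) {X F F1 : Submodule ℤ (ι → ℤ)}
    (hF : IsMin κ X F) (hF1 : IsMin κ1 F F1) :
    κ1 * rk F1 ≤ κ1 * rk X + lc X := by
  have h1 := hF.2 X le_rfl
  have h2 := hF1.2 F le_rfl
  have h3 : (rk X : ℝ) ≤ rk F := by exact_mod_cast rk_mono hF.1
  have h4 := lc_nonneg F1
  unfold pot at h1 h2
  nlinarith [mul_le_mul_of_nonneg_left h3 (by linarith : 0 ≤ κ - κ1)]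

end Crest.Agent.R152.LemS
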