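import Crest.Agent.R152.LemS2
import Crest.Agent.R152.LemS3

set_option autoImplicit false
set_option linter.unusedSectionVars false

/-! Row 152, LEMMA S (note 11125), part 4: the probabilistic one-step claim. -/

open Crest.FinProb Crest.ProbabilityR.SignMatrix
open scoped InnerProductSpace RealInnerProductSpace

namespace Crest.Agent.R152.LemS

open Crest.Agent.R152.Base Crest.Agent.R152.Lat Module

variable {ι : Type*} [Fintype ι] [DecidableEq ι]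

theorem ev_sgv (x : ι → Bool) : ev (sgv x) = LS.sv x := by
  ext i; rfl

/-- a sign vector is close to a translate of a lattice of small rank with small probability -/
theorem prob_close {p q ρ : ℝ} (hp0 : 0 ≤ p) (hp1 : p ≤ 1) (hq1 : p ≤ q) (hq2 : 1 - p ≤ q)
    (hq : q ≤ 1) (hρ : 0 < ρ) (s : ℕ) (F : Submodule ℤ (ι → ℤ))
    (hF : ρ ^ 2 * Fintype.card ι + s + rk F ≤ Fintype.card ι)
    (s0 : ι → ℤ) {τ : ℤ} (hτ : 1 ≤ τ) {R : ℝ} (hR : 0 ≤ R) :
    bernoulliProb p {x : ι → Bool | dst F (ev (s0 + τ • sgv x)) ≤ τ * R} ≤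
      Real.exp (R ^ 2) * (q + (1 - q) * Real.exp (-ρ ^ 2)) ^ s := by
  have hτ0 : (0 : ℝ) < τ := by
    have : (1 : ℝ) ≤ τ := by exact_mod_cast hτ
    linarith
  have hU : ρ ^ 2 * Fintype.card ι + s ≤ Module.finrank ℝ ((rsp F)ᗮ : Submodule ℝ _) := by
    have h1 := (rsp F).finrank_add_finrank_orthogonal
    rw [finrank_rsp, finrank_euclideanSpace] at h1
    have h2 : (rk F : ℝ) + Module.finrank ℝ ((rsp F)ᗮ : Submodule ℝ _) = Fintype.card ι := by
      exact_mod_cast h1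
    linarith
  have h := LS.prob_near hp0 hp1 hq1 hq2 hq hρ zero_le_one s ((rsp F)ᗮ) hU
    ((-(τ : ℝ)⁻¹) • ev s0) R hR
  rw [one_mul, neg_one_mul] at h
  refine le_trans (prob_mono hp0 hp1 fun x hx => ?_) h
  simp only [Set.mem_ofPred_eq] at hx ⊢
  have h1 : ev (s0 + τ • sgv x) = (τ : ℝ) • (LS.sv x - (-(τ : ℝ)⁻¹) • ev s0) := by
    rw [map_add, map_smul, ← Int.cast_smul_eq_zsmul ℝ, ev_sgv, smul_sub, smul_smul]
    rw [mul_neg, mul_inv_cancel₀ hτ0.ne']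
    simp [add_comm]
  have h2 : dst F (ev (s0 + τ • sgv x)) =
      τ * ‖(rsp F)ᗮ.starProjection (LS.sv x - (-(τ : ℝ)⁻¹) • ev s0)‖ := by
    unfold dst
    have h3 : ∀ v : EuclideanSpace ℝ ι, v - (rsp F).starProjection v =
        (rsp F)ᗮ.starProjection v := by
      intro v
      have := (rsp F).starProjection_add_starProjection_orthogonal v
      rw [sub_eq_iff_eq_add']
      exact this.symm
    rw [h3, h1, map_smul, norm_smul, Real.norm_eq_abs, abs_of_pos hτ0]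
  rw [h2] at hx
  exact le_of_mul_le_mul_left hx hτ0

/-- asymptotics -/
theorem asym {c d Q k : ℝ} (hc : 0 < c) (hd : 0 < d) (hQ0 : 0 < Q) (hQ1 : Q < 1) :
    ∃ c' : ℝ, 0 < c' ∧ ∃ n0 : ℕ, ∀ n : ℕ, n0 ≤ n →
      (3 + 2 * (n : ℝ) ^ k) * Real.exp ((2 * (n : ℝ) ^ (1 / 2 - d)) ^ 2) * Q ^ ⌊c * n / 2⌋₊ ≤
        Real.exp (-c' * n) := by
  set ε : ℝ := c / 4 * (-Real.log Q) with hε
  have hlogQ : Real.log Q < 0 := Real.log_neg hQ0 hQ1
  have hεpos : 0 < ε := by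
    rw [hε]; have : 0 < -Real.log Q := by linarith
    positivity
  refine ⟨ε, hεpos, ?_⟩
  have hA : ∀ᶠ n : ℕ in Filter.atTop,
      (2 * (n : ℝ) ^ (1 / 2 - d)) ^ 2 ≤ (ε / 2) * n := by
    have h1 : Filter.Tendsto (fun n : ℕ => (n : ℝ) ^ (-(2 * d))) Filter.atTop (nhds 0) :=
      (tendsto_rpow_neg_atTop (by linarith : 0 < 2 * d)).comp tendsto_natCast_atTop_atTop
    have h2 : ∀ᶠ n : ℕ in Filter.atTop, (n : ℝ) ^ (-(2 * d)) < ε / 8 :=
      h1.eventually_lt_const (by positivity)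
    filter_upwards [h2, Filter.eventually_ge_atTop 1] with n hn hn1
    have hn0 : (0 : ℝ) < n := by exact_mod_cast hn1
    have h3 : (2 * (n : ℝ) ^ (1 / 2 - d)) ^ 2 = 4 * ((n : ℝ) ^ (-(2 * d)) * n) := by
      rw [mul_pow, ← Real.rpow_natCast ((n : ℝ) ^ (1 / 2 - d)) 2, ← Real.rpow_mul hn0.le]
      congr 1
      · norm_num
      · rw [← Real.rpow_add_one hn0.ne']
        congr 1
        push_cast; ring
    rw [h3]
    nlinarith
  have hB : ∀ᶠ n : ℕ in Filter.atTop,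
      (3 + 2 * (n : ℝ) ^ k) * Q⁻¹ ≤ Real.exp ((ε / 2) * n) := by
    have h1 : Filter.Tendsto (fun x : ℝ => x ^ k * Real.exp (-(ε / 2) * x)) Filter.atTop (nhds 0) :=
      tendsto_rpow_mul_exp_neg_mul_atTop_nhds_zero k (ε / 2) (by positivity)
    have h2 : Filter.Tendsto (fun x : ℝ => x ^ (0 : ℝ) * Real.exp (-(ε / 2) * x)) Filter.atTop
        (nhds 0) :=
      tendsto_rpow_mul_exp_neg_mul_atTop_nhds_zero 0 (ε / 2) (by positivity)
    have h3 : ∀ᶠ n : ℕ in Filter.atTop, (n : ℝ) ^ k * Real.exp (-(ε / 2) * n) < Q / 8 :=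
      (h1.comp tendsto_natCast_atTop_atTop).eventually_lt_const (by positivity)
    have h4 : ∀ᶠ n : ℕ in Filter.atTop, (n : ℝ) ^ (0 : ℝ) * Real.exp (-(ε / 2) * n) < Q / 8 :=
      (h2.comp tendsto_natCast_atTop_atTop).eventually_lt_const (by positivity)
    filter_upwards [h3, h4] with n hn3 hn4
    rw [Real.rpow_zero, one_mul] at hn4
    have hE := Real.exp_pos ((ε / 2) * (n : ℝ))
    have hEE : Real.exp (-(ε / 2) * (n : ℝ)) * Real.exp ((ε / 2) * (n : ℝ)) = 1 := by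
      rw [← Real.exp_add]; simp
    have e1 : (n : ℝ) ^ k ≤ Q / 8 * Real.exp ((ε / 2) * (n : ℝ)) := by
      have := mul_le_mul_of_nonneg_right hn3.le hE.le
      rwa [mul_assoc, hEE, mul_one] at this
    have e2 : 1 ≤ Q / 8 * Real.exp ((ε / 2) * (n : ℝ)) := by
      have := mul_le_mul_of_nonneg_right hn4.le hE.le
      rwa [hEE] at this
    rw [← div_eq_mul_inv, div_le_iff₀ hQ0]
    nlinarith
  obtain ⟨n0, hn0⟩ := Filter.eventually_atTop.1 (hA.and hB)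
  refine ⟨n0, fun n hn => ?_⟩
  obtain ⟨h1, h2⟩ := hn0 n hn
  have h3 : Q ^ ⌊c * n / 2⌋₊ ≤ Q⁻¹ * Real.exp (-(2 * ε) * n) := by
    have h4 : (⌊c * n / 2⌋₊ : ℝ) ≥ c * n / 2 - 1 := by
      have := Nat.lt_floor_add_one (c * n / 2)
      linarith
    have h5 : Q ^ ⌊c * n / 2⌋₊ = Real.exp (Real.log Q * ⌊c * n / 2⌋₊) := by
      rw [← Real.rpow_natCast, Real.rpow_def_of_pos hQ0]
    rw [h5, ← Real.exp_log (inv_pos.2 hQ0), Real.log_inv, ← Real.exp_add]
    apply Real.exp_le_exp.2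
    rw [hε]
    nlinarith
  have h0 : 0 ≤ (3 + 2 * (n : ℝ) ^ k) := by positivity
  calc (3 + 2 * (n : ℝ) ^ k) * Real.exp ((2 * (n : ℝ) ^ (1 / 2 - d)) ^ 2) * Q ^ ⌊c * n / 2⌋₊
      ≤ (3 + 2 * (n : ℝ) ^ k) * Real.exp ((ε / 2) * n) * (Q⁻¹ * Real.exp (-(2 * ε) * n)) := by
        gcongr
    _ = ((3 + 2 * (n : ℝ) ^ k) * Q⁻¹) * (Real.exp ((ε / 2) * n) * Real.exp (-(2 * ε) * n)) := by
        ring
    _ ≤ Real.exp ((ε / 2) * n) * (Real.exp ((ε / 2) * n) * Real.exp (-(2 * ε) * n)) := by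
        gcongr
    _ = Real.exp (-ε * n) := by
        rw [← Real.exp_add, ← Real.exp_add]
        congr 1
        ring

end Crest.Agent.R152.LemS
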