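import Mathlib

/-!
# R152 / PAD, part A: finite abelian groups with a nondegenerate symmetric form

`b : G →+ G →+ ZMod N` symmetric and nondegenerate.
* `index_perp` : the perp of `x` has index `addOrderOf x`;
* `sq_addOrderOf_dvd` : `(addOrderOf w)^2 ∣ card G` for isotropic `w`;
* `two_class` : the two-class lemma;
* `two_perp` : consequence for the whole group.
-/

namespace Crest.Agent.R152.Pad

open AddSubgroup

section

variable {G : Type*} [AddCommGroup G] [Finite G] {N : ℕ} [NeZero N]

/-- perp of an element -/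
def perp (b : G →+ G →+ ZMod N) (x : G) : AddSubgroup G := (b x).ker

omit [Finite G] [NeZero N] in
theorem mem_perp (b : G →+ G →+ ZMod N) (x z : G) : z ∈ perp b x ↔ b x z = 0 := Iff.rfl

theorem index_perp (b : G →+ G →+ ZMod N) (hnd : ∀ x, (∀ y, b x y = 0) → x = 0) (x : G) :
    (perp b x).index = addOrderOf x := by
  have h1 : (perp b x).index = Nat.card (b x).range := AddSubgroup.index_ker _
  have h2 : AddMonoid.exponent (b x).range = Nat.card (b x).range :=
    IsAddCyclic.exponent_eq_card
  rw [h1, ← h2]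
  apply Nat.dvd_antisymm
  · apply AddMonoid.exponent_dvd_of_forall_nsmul_eq_zero
    rintro ⟨r, z, rfl⟩
    apply Subtype.ext
    change addOrderOf x • (b x z) = 0
    have : addOrderOf x • (b x z) = b (addOrderOf x • x) z := by
      rw [map_nsmul]; rfl
    rw [this, addOrderOf_nsmul_eq_zero, map_zero]; rfl
  · apply addOrderOf_dvd_of_nsmul_eq_zero
    apply hnd
    intro z
    rw [map_nsmul]
    have := AddMonoid.exponent_nsmul_eq_zero (G := (b x).range) ⟨b x z, z, rfl⟩
    have h3 := congrArg Subtype.val this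
    simpa using h3

theorem zmultiples_le_perp (b : G →+ G →+ ZMod N) {x : G} (hx : b x x = 0) :
    zmultiples x ≤ perp b x := by
  rw [zmultiples_le]
  exact hx

theorem sq_addOrderOf_dvd (b : G →+ G →+ ZMod N) (hnd : ∀ x, (∀ y, b x y = 0) → x = 0)
    {x : G} (hx : b x x = 0) : (addOrderOf x) ^ 2 ∣ Nat.card G := by
  have h1 := index_perp b hnd x
  have h2 : Nat.card (zmultiples x) ∣ Nat.card (perp b x) :=
    AddSubgroup.card_dvd_of_le (zmultiples_le_perp b hx)
  rw [Nat.card_zmultiples] at h2
  have h3 : Nat.card (perp b x) * (perp b x).index = Nat.card G :=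
    AddSubgroup.card_mul_index _
  rw [h1] at h3
  rw [← h3, pow_two]
  exact Nat.mul_dvd_mul h2 dvd_rfl

/-- in a cyclic group, divisibility of orders gives membership -/
theorem mem_zmultiples_of_order {C : Type*} [AddCommGroup C] [Finite C] [IsAddCyclic C]
    {a c : C} (h : addOrderOf a ∣ addOrderOf c) : a ∈ zmultiples c := by
  classical
  haveI := Fintype.ofFinite C
  set d := addOrderOf c with hd
  have hdpos : 0 < d := addOrderOf_pos c
  have h1 : (Finset.univ.filter (fun t : C => d • t = 0)).card ≤ d :=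
    IsAddCyclic.card_nsmul_eq_zero_le hdpos
  have h2 : Nat.card (zmultiples c) = d := Nat.card_zmultiples c
  set F : Finset C := Finset.univ.filter (fun t : C => t ∈ zmultiples c) with hF
  have h3 : F.card = d := by
    rw [← h2, Nat.card_eq_fintype_card, Fintype.card_subtype]
  have h4 : F ⊆ Finset.univ.filter (fun t : C => d • t = 0) := by
    intro t ht
    rw [hF, Finset.mem_filter] at ht
    rw [Finset.mem_filter]
    refine ⟨Finset.mem_univ _, ?_⟩
    obtain ⟨k, hk⟩ := mem_zmultiples_iff.1 ht.2
    rw [← hk, smul_comm, hd, addOrderOf_nsmul_eq_zero, smul_zero]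
  have h5 : F = Finset.univ.filter (fun t : C => d • t = 0) := by
    apply Finset.eq_of_subset_of_card_le h4
    rw [h3]; exact h1
  have h6 : a ∈ Finset.univ.filter (fun t : C => d • t = 0) := by
    rw [Finset.mem_filter]
    refine ⟨Finset.mem_univ _, ?_⟩
    exact addOrderOf_dvd_iff_nsmul_eq_zero.1 h
  rw [← h5, hF, Finset.mem_filter] at h6
  exact h6.2

/-- multiplying an element of the perp by `p^f` lands in the cyclic group -/
theorem nsmul_mem_of_perp (b : G →+ G →+ ZMod N) (hnd : ∀ x, (∀ y, b x y = 0) → x = 0)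
    {p e f M : ℕ} (hp : p.Prime) (hcard : Nat.card G = p ^ (2 * e + f) * M) (hM : p.Coprime M)
    {x z : G} (hx : b x x = 0) (hxo : addOrderOf x = p ^ e) (hz : b x z = 0)
    (hzp : p ^ e • z = 0) : p ^ f • z ∈ zmultiples x := by
  have hppos : 0 < p := hp.pos
  have hle := zmultiples_le_perp b hx
  have h1 : (perp b x).index = p ^ e := by rw [index_perp b hnd, hxo]
  have h2 : (zmultiples x).index * p ^ e = p ^ (2 * e + f) * M := by
    have := AddSubgroup.card_mul_index (zmultiples x)
    rw [Nat.card_zmultiples, hxo, hcard] at this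
    rw [mul_comm]; exact this
  have h3 : (zmultiples x).relIndex (perp b x) * (perp b x).index = (zmultiples x).index :=
    AddSubgroup.relIndex_mul_index hle
  have h4 : (zmultiples x).relIndex (perp b x) = p ^ f * M := by
    have hpe : 0 < p ^ e := pow_pos hppos e
    have : (zmultiples x).relIndex (perp b x) * (p ^ e * p ^ e) = (p ^ f * M) * (p ^ e * p ^ e) := by
      calc (zmultiples x).relIndex (perp b x) * (p ^ e * p ^ e)
          = ((zmultiples x).relIndex (perp b x) * (perp b x).index) * p ^ e := by rw [h1]; ring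
        _ = p ^ (2 * e + f) * M := by rw [h3, h2]
        _ = (p ^ f * M) * (p ^ e * p ^ e) := by
            rw [pow_add, pow_mul']; ring
    exact Nat.eq_of_mul_eq_mul_right (by positivity) this
  have h5 : (p ^ f * M) • z ∈ zmultiples x := by
    have h6 : ((zmultiples x).addSubgroupOf (perp b x)).index • (⟨z, hz⟩ : perp b x)
        ∈ (zmultiples x).addSubgroupOf (perp b x) := AddSubgroup.nsmul_index_mem _ _
    have h7 : ((zmultiples x).addSubgroupOf (perp b x)).index = p ^ f * M := h4
    rw [h7, AddSubgroup.mem_addSubgroupOf] at h6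
    simpa using h6
  -- invert M
  have hcop : Nat.Coprime M (p ^ e) := (hM.symm).pow_right e
  have hbez : (1 : ℤ) = (M : ℤ) * Nat.gcdA M (p ^ e) + ((p ^ e : ℕ) : ℤ) * Nat.gcdB M (p ^ e) := by
    have := Nat.gcd_eq_gcd_ab M (p ^ e)
    rw [hcop] at this
    exact_mod_cast this
  have h8 : p ^ f • z = Nat.gcdA M (p ^ e) • ((p ^ f * M) • z) := by
    have hz1 : z = (1 : ℤ) • z := by simp
    calc p ^ f • z = p ^ f • ((1 : ℤ) • z) := by rw [← hz1]
      _ = p ^ f • (((M : ℤ) * Nat.gcdA M (p ^ e)) • z
            + (((p ^ e : ℕ) : ℤ) * Nat.gcdB M (p ^ e)) • z) := by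
          rw [← add_smul, ← hbez]
      _ = p ^ f • (((M : ℤ) * Nat.gcdA M (p ^ e)) • z) := by
          congr 1
          have : (((p ^ e : ℕ) : ℤ) * Nat.gcdB M (p ^ e)) • z = 0 := by
            rw [mul_comm, mul_smul, natCast_zsmul, hzp, smul_zero]
          rw [this, add_zero]
      _ = Nat.gcdA M (p ^ e) • ((p ^ f * M) • z) := by
          rw [mul_comm (M : ℤ), mul_smul, natCast_zsmul, smul_comm, mul_smul]
  rw [h8]
  exact zsmul_mem h5 _

end

end Crest.Agent.R152.Pad
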