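import Crest.Agent.R152.PadA

/-!
# R152 / PAD, part B: the two-class lemma
-/

set_option linter.unusedSectionVars false

namespace Crest.Agent.R152.Pad

open AddSubgroup

section

variable {G : Type*} [AddCommGroup G] [Finite G] {N : ℕ} [NeZero N]

/-- bezout: if `p ∤ l` and `p^e • s = 0` and `(l * c) • s = 0` then `c • s = 0`. -/
theorem cancel_coprime {A : Type*} [AddCommGroup A] {p e : ℕ} (hp : p.Prime) {l c : ℤ} {s : A}
    (hl : ¬ (p : ℤ) ∣ l) (hs : p ^ e • s = 0) (h : (l * c) • s = 0) : c • s = 0 := by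
  have hcop : IsCoprime l ((p : ℤ) ^ e) := by
    apply IsCoprime.pow_right
    rw [isCoprime_comm]
    exact ((Nat.prime_iff_prime_int.1 hp).coprime_iff_not_dvd).2 hl
  obtain ⟨u, v, huv⟩ := hcop
  have h1 : c • s = (c * (u * l + v * (p : ℤ) ^ e)) • s := by rw [huv, mul_one]
  rw [h1]
  have h2 : c * (u * l + v * (p : ℤ) ^ e) = u * (l * c) + (c * v) * ((p ^ e : ℕ) : ℤ) := by
    push_cast; ring
  rw [h2, add_smul, mul_smul, h, smul_zero, zero_add, mul_smul, natCast_zsmul, hs, smul_zero]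

theorem two_class (b : G →+ G →+ ZMod N) (hsymm : ∀ x y, b x y = b y x)
    (hnd : ∀ x, (∀ y, b x y = 0) → x = 0)
    {p e f M : ℕ} (hp : p.Prime) (hcard : Nat.card G = p ^ (2 * e + f) * M) (hM : p.Coprime M)
    (X : Set G) (hX : ∀ w ∈ X, b w w = 0 ∧ addOrderOf w = p ^ e) (hne : X.Nonempty) :
    ∃ x ∈ X, ∃ y ∈ X, ∀ w ∈ X, (2 * p ^ (3 * f)) • w ∈ zmultiples x ∨
      (2 * p ^ (3 * f)) • w ∈ zmultiples y := by
  have hppos : 0 < p := hp.pos
  -- choose the pair of maximal order
  obtain ⟨⟨x, y⟩, hxy, hmax⟩ := Set.exists_max_image (X ×ˢ X) (fun q => addOrderOf (b q.1 q.2))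
    (Set.toFinite _) (hne.prod hne)
  have hx : x ∈ X := hxy.1
  have hy : y ∈ X := hxy.2
  refine ⟨x, hx, y, hy, ?_⟩
  intro w hw
  obtain ⟨hxi, hxo⟩ := hX x hx
  obtain ⟨hyi, hyo⟩ := hX y hy
  obtain ⟨hwi, hwo⟩ := hX w hw
  have kx : p ^ e • x = 0 := by rw [← hxo]; exact addOrderOf_nsmul_eq_zero x
  have ky : p ^ e • y = 0 := by rw [← hyo]; exact addOrderOf_nsmul_eq_zero y
  have kw : p ^ e • w = 0 := by rw [← hwo]; exact addOrderOf_nsmul_eq_zero w
  have kb : ∀ u v, p ^ e • v = 0 → p ^ e • (b u v) = 0 := by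
    intro u v hv
    rw [← map_nsmul, hv, map_zero]
  -- orders
  obtain ⟨t, hte, ht⟩ := (Nat.dvd_prime_pow hp).1 (addOrderOf_dvd_of_nsmul_eq_zero (kb x y ky))
  obtain ⟨t', hte', ht'⟩ := (Nat.dvd_prime_pow hp).1 (addOrderOf_dvd_of_nsmul_eq_zero (kb x w kw))
  have hdvd : addOrderOf (b x w) ∣ addOrderOf (b x y) := by
    have := hmax (x, w) ⟨hx, hw⟩
    simp only at this
    rw [ht, ht'] at this ⊢
    exact pow_dvd_pow p ((Nat.pow_le_pow_iff_right hp.one_lt).1 this)
  obtain ⟨l, hl⟩ := mem_zmultiples_iff.1 (mem_zmultiples_of_order hdvd)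
  -- w - l y in perp of x
  have hz : b x (w - l • y) = 0 := by
    rw [map_sub, map_zsmul, hl, sub_self]
  have hzp : p ^ e • (w - l • y) = 0 := by
    rw [smul_sub, kw, smul_comm, ky, smul_zero, sub_zero]
  have hmem := nsmul_mem_of_perp b hnd hp hcard hM hxi hxo hz hzp
  obtain ⟨m, hm⟩ := mem_zmultiples_iff.1 hmem
  have hw' : (p ^ f : ℕ) • w = (l * (p : ℤ) ^ f) • y + m • x := by
    rw [hm, smul_sub, mul_comm l, mul_smul]
    rw [← Nat.cast_pow, natCast_zsmul]
    abel
  -- isotropy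
  have hiso : (2 * l * m * (p : ℤ) ^ f) • b x y = 0 := by
    have h0 : b ((p ^ f : ℕ) • w) ((p ^ f : ℕ) • w) = 0 := by
      rw [map_nsmul, map_nsmul]
      change p ^ f • (p ^ f • (b w) w) = 0
      rw [hwi, smul_zero, smul_zero]
    rw [hw'] at h0
    simp only [map_add, map_zsmul, AddMonoidHom.add_apply, AddMonoidHom.zsmul_apply, hyi, hxi,
      hsymm y x, smul_zero, zero_add, add_zero] at h0
    rw [← h0]
    module
  -- the two relations
  have hbx : b x ((p ^ f : ℕ) • w) = (l * (p : ℤ) ^ f) • b x y := by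
    rw [hw', map_add, map_zsmul, map_zsmul, hxi, smul_zero, add_zero]
  have hby : b y ((p ^ f : ℕ) • w) = m • b x y := by
    rw [hw', map_add, map_zsmul, map_zsmul, hyi, smul_zero, zero_add, hsymm y x]
  have key : ∀ u : G, b u u = 0 → addOrderOf u = p ^ e →
      b u ((2 * p ^ (2 * f)) • w) = 0 → (2 * p ^ (3 * f)) • w ∈ zmultiples u := by
    intro u hui huo hu
    have hk : p ^ e • ((2 * p ^ (2 * f)) • w) = 0 := by
      rw [smul_comm, kw, smul_zero]
    have := nsmul_mem_of_perp b hnd hp hcard hM hui huo hu hk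
    rw [← mul_smul] at this
    have h3 : p ^ f * (2 * p ^ (2 * f)) = 2 * p ^ (3 * f) := by
      have : 3 * f = f + 2 * f := by ring
      rw [this, pow_add]; ring
    rwa [h3] at this
  by_cases hpl : (p : ℤ) ∣ l
  · -- case B
    left
    apply key x hxi hxo
    by_cases hef : e ≤ f
    · have : (2 * p ^ (2 * f)) • w = 0 := by
        obtain ⟨r, hr⟩ : ∃ r, 2 * f = e + r := ⟨2 * f - e, by omega⟩
        rw [hr, pow_add]
        have : 2 * (p ^ e * p ^ r) = (2 * p ^ r) * p ^ e := by ring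
        rw [this, mul_smul, kw, smul_zero]
      rw [this, map_zero]
    · push Not at hef
      -- gcd of m and p^e
      obtain ⟨l', rfl⟩ := hpl
      have hgcd : Int.gcd m ((p : ℤ) ^ e) ∣ p ^ e := by
        have := Int.gcd_dvd_natAbs_right m ((p : ℤ) ^ e)
        simpa [Int.natAbs_pow] using this
      obtain ⟨j, hje, hj⟩ := (Nat.dvd_prime_pow hp).1 hgcd
      have hjf : j ≤ f := by
        by_contra hcon
        push Not at hcon
        have h1 : ((p ^ (f + 1) : ℕ) : ℤ) ∣ m := by
          have h2 : ((p ^ (f + 1) : ℕ) : ℤ) ∣ ((Int.gcd m ((p : ℤ) ^ e) : ℕ) : ℤ) := by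
            rw [hj]
            exact_mod_cast pow_dvd_pow p hcon
          exact h2.trans (Int.gcd_dvd_left _ _)
        obtain ⟨m', hm'⟩ := h1
        have h3 : p ^ (e - 1) • w = 0 := by
          have e1 : e - 1 = (e - f - 1) + f := by omega
          rw [e1, pow_add, mul_smul, hw', smul_add]
          have t1 : p ^ (e - f - 1) • ((((p : ℤ) * l') * (p : ℤ) ^ f) • y) = 0 := by
            have e2 : e = (e - f - 1) + 1 + f := by omega
            have : p ^ (e - f - 1) • ((((p : ℤ) * l') * (p : ℤ) ^ f) • y)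
                = l' • (p ^ e • y) := by
              rw [← natCast_zsmul, ← natCast_zsmul (a := y), ← mul_smul, ← mul_smul]
              congr 1
              conv_rhs => rw [e2]
              push_cast
              rw [pow_add, pow_add]
              ring
            rw [this, ky, smul_zero]
          have t2 : p ^ (e - f - 1) • (m • x) = 0 := by
            have e2 : e = (e - f - 1) + (f + 1) := by omega
            have : p ^ (e - f - 1) • (m • x) = m' • (p ^ e • x) := by
              rw [← natCast_zsmul, ← natCast_zsmul (a := x), ← mul_smul, ← mul_smul]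
              congr 1
              conv_rhs => rw [e2]
              rw [hm']
              push_cast
              rw [pow_add (p : ℤ) (e - f - 1) (f + 1)]
              ring
            rw [this, kx, smul_zero]
          rw [t1, t2, add_zero]
        have h4 : addOrderOf w ∣ p ^ (e - 1) := addOrderOf_dvd_of_nsmul_eq_zero h3
        rw [hwo] at h4
        have h5 := (Nat.pow_dvd_pow_iff_le_right hp.one_lt).1 h4
        omega
      -- bezout
      have hbz := Int.gcd_eq_gcd_ab m ((p : ℤ) ^ e)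
      rw [hj] at hbz
      have h6 : (2 * ((p : ℤ) * l') * (p : ℤ) ^ (2 * f)) • b x y = 0 := by
        have h7 : (2 * ((p : ℤ) * l') * (p : ℤ) ^ (2 * f)) =
            ((p : ℤ) ^ (f - j) * Int.gcdA m ((p : ℤ) ^ e)) * (2 * ((p : ℤ) * l') * m * (p : ℤ) ^ f)
            + ((p : ℤ) ^ (f - j) * (2 * ((p : ℤ) * l')) * (p : ℤ) ^ f *
              Int.gcdB m ((p : ℤ) ^ e)) * ((p ^ e : ℕ) : ℤ) := by
          have e3 : 2 * f = (f - j) + j + f := by omega
          rw [e3, pow_add, pow_add]
          push_cast at hbz ⊢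
          rw [hbz]
          ring
        rw [h7, add_smul, mul_smul, hiso, smul_zero, zero_add, mul_smul, natCast_zsmul,
          kb x y ky, smul_zero]
      have h8 : (2 * p ^ (2 * f)) • w = (2 * p ^ f) • ((p ^ f : ℕ) • w) := by
        rw [← mul_smul]; congr 1; rw [two_mul f, pow_add]; ring
      rw [h8, map_nsmul, hbx, ← natCast_zsmul, ← mul_smul, ← h6]
      congr 1
      push_cast
      rw [two_mul f, pow_add]; ring
  · -- case A
    right
    apply key y hyi hyo
    have h1 : (2 * m * (p : ℤ) ^ f) • b x y = 0 := by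
      apply cancel_coprime hp hpl (kb x y ky)
      rw [← hiso]; congr 1; ring
    have h8 : (2 * p ^ (2 * f)) • w = (2 * p ^ f) • ((p ^ f : ℕ) • w) := by
      rw [← mul_smul]; congr 1; rw [two_mul f, pow_add]; ring
    rw [h8, map_nsmul, hby, ← natCast_zsmul, ← mul_smul, ← h1]
    congr 1
    push_cast
    ring

/-- exponent: `g = 3 f` for odd `p`, `3 f + 1` for `p = 2` -/
def gexp (p f : ℕ) : ℕ := 3 * f + (if p = 2 then 1 else 0)

theorem gexp_mem (p e f : ℕ) (hp : p.Prime) {w x : G} (hwo : p ^ e • w = 0)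
    (h : (2 * p ^ (3 * f)) • w ∈ zmultiples x) : p ^ (gexp p f) • w ∈ zmultiples x := by
  unfold gexp
  by_cases h2 : p = 2
  · rw [if_pos h2, pow_succ]
    subst h2
    rwa [mul_comm]
  · rw [if_neg h2, add_zero]
    -- 2 invertible mod p^e
    have hodd : Odd (p ^ e) := (hp.odd_of_ne_two h2).pow
    obtain ⟨r, hr⟩ := hodd
    have h1 : p ^ (3 * f) • w = (r + 1) • ((2 * p ^ (3 * f)) • w) := by
      have : (r + 1) • ((2 * p ^ (3 * f)) • w) = p ^ (3 * f) • ((p ^ e + 1) • w) := by
        rw [← mul_smul, ← mul_smul, hr]; congr 1; ring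
      rw [this, add_smul, hwo, one_smul, zero_add]
    rw [h1]
    exact nsmul_mem h _

theorem addOrderOf_pow_smul {p e g : ℕ} (hp : p.Prime) {u : G} (hu : addOrderOf u = p ^ e) :
    addOrderOf (p ^ g • u) = p ^ (e - g) := by
  rw [addOrderOf_nsmul, hu]
  rcases le_total g e with h | h
  · rw [Nat.gcd_eq_right (pow_dvd_pow p h), Nat.pow_div h hp.pos]
  · rw [Nat.gcd_eq_left (pow_dvd_pow p h), Nat.div_self (pow_pos hp.pos e),
      Nat.sub_eq_zero_of_le h, pow_zero]

/-- if `p^g w ∈ ⟨u⟩`, both of order `p^e`, `w` isotropic, then `b w (p^g u) = 0`. -/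
theorem perp_of_mem (b : G →+ G →+ ZMod N) {p e g : ℕ} (hp : p.Prime) {w u : G}
    (hwi : b w w = 0) (hwo : addOrderOf w = p ^ e) (huo : addOrderOf u = p ^ e)
    (h : p ^ g • w ∈ zmultiples u) : b w (p ^ g • u) = 0 := by
  by_cases heg : e ≤ g
  · have : p ^ g • u = 0 := by
      obtain ⟨r, hr⟩ : ∃ r, g = r + e := ⟨g - e, by omega⟩
      rw [hr, pow_add, mul_smul, ← huo, addOrderOf_nsmul_eq_zero, smul_zero]
    rw [this, map_zero]
  · push Not at heg
    obtain ⟨m, hm⟩ := mem_zmultiples_iff.1 h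
    -- order of m • u
    have ho : addOrderOf (m.natAbs • u) = p ^ (e - g) := by
      rw [← addOrderOf_pow_smul (g := g) hp hwo, ← hm]
      rcases Int.natAbs_eq m with h1 | h1
      · conv_rhs => rw [h1]
        rw [natCast_zsmul]
      · conv_rhs => rw [h1]
        rw [neg_smul, addOrderOf_neg, natCast_zsmul]
    rw [addOrderOf_nsmul, huo] at ho
    have hgc : Nat.gcd (p ^ e) m.natAbs = p ^ g := by
      have hd : Nat.gcd (p ^ e) m.natAbs ∣ p ^ e := Nat.gcd_dvd_left _ _
      have h3 := Nat.div_mul_cancel hd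
      rw [ho] at h3
      have h4 : p ^ (e - g) * p ^ g = p ^ e := by rw [← pow_add]; congr 1; omega
      have h5 : p ^ (e - g) * Nat.gcd (p ^ e) m.natAbs = p ^ (e - g) * p ^ g := by rw [h3, h4]
      exact Nat.eq_of_mul_eq_mul_left (pow_pos hp.pos _) h5
    have hgm : ((p ^ g : ℕ) : ℤ) ∣ m := by
      rw [Int.natCast_dvd, ← hgc]; exact Nat.gcd_dvd_right _ _
    obtain ⟨m', hm'⟩ := hgm
    have hnd' : ¬ (p : ℤ) ∣ m' := by
      rintro ⟨m'', hm''⟩
      have h6 : p ^ (g + 1) ∣ Nat.gcd (p ^ e) m.natAbs := by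
        apply Nat.dvd_gcd
        · exact pow_dvd_pow p heg
        · rw [← Int.natCast_dvd, hm', hm'']
          exact ⟨m'', by push_cast; ring⟩
      rw [hgc] at h6
      have := (Nat.pow_dvd_pow_iff_le_right hp.one_lt).1 h6
      omega
    have h7 : p ^ e • (b w (p ^ g • u)) = 0 := by
      rw [← map_nsmul, smul_comm, ← huo, addOrderOf_nsmul_eq_zero, smul_zero, map_zero]
    have h8 : (m' * 1) • (b w (p ^ g • u)) = 0 := by
      rw [mul_one, ← map_zsmul]
      have : m' • (p ^ g • u) = p ^ g • w := by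
        rw [← hm, hm', mul_comm, mul_smul, natCast_zsmul]
      rw [this, map_nsmul, hwi, smul_zero]
    have := cancel_coprime hp hnd' h7 h8
    simpa using this

end

end Crest.Agent.R152.Pad
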