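import Crest.Agent.R152.PadB

/-!
# R152 / PAD, part C: one prime / several primes; bound for the generated subgroup
-/

set_option linter.unusedSectionVars false

namespace Crest.Agent.R152.Pad

open AddSubgroup

section

variable {G : Type*} [AddCommGroup G] [Finite G] {N : ℕ} [NeZero N]

/-- exponent of `p` in the order of `w` -/
noncomputable def ep (p : ℕ) (w : G) : ℕ := (addOrderOf w).factorization p

/-- exponent of `p` in the order of `G` -/
noncomputable def vp (G : Type*) [AddCommGroup G] (p : ℕ) : ℕ := (Nat.card G).factorization p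

theorem card_ne_zero : Nat.card G ≠ 0 := Nat.card_pos.ne'

theorem addOrderOf_ne_zero' (w : G) : addOrderOf w ≠ 0 := (addOrderOf_pos w).ne'

theorem ep_le (b : G →+ G →+ ZMod N) (hnd : ∀ x, (∀ y, b x y = 0) → x = 0)
    {w : G} (hw : b w w = 0) (p : ℕ) : 2 * ep p w ≤ vp G p := by
  have h := sq_addOrderOf_dvd b hnd hw
  have h2 := (Nat.factorization_le_iff_dvd (pow_ne_zero 2 (addOrderOf_ne_zero' w))
    (card_ne_zero (G := G))).2 h p
  rw [Nat.factorization_pow] at h2
  simpa [ep, vp] using h2

/-- the `p`-free part of `card G` -/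
noncomputable def MM (G : Type*) [AddCommGroup G] (p : ℕ) : ℕ := Nat.card G / p ^ (vp G p)

theorem card_eq (p : ℕ) : Nat.card G = p ^ (vp G p) * MM G p :=
  (Nat.ordProj_mul_ordCompl_eq_self (Nat.card G) p).symm

theorem coprime_MM {p : ℕ} (hp : p.Prime) : p.Coprime (MM G p) :=
  Nat.coprime_ordCompl hp (card_ne_zero (G := G))

theorem ordCompl_dvd_MM {p : ℕ} (hp : p.Prime) (w : G) :
    addOrderOf w / p ^ (ep p w) ∣ MM G p := by
  have h1 : addOrderOf w / p ^ (ep p w) ∣ p ^ (vp G p) * MM G p := by
    rw [← card_eq]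
    exact (Nat.ordCompl_dvd _ _).trans (addOrderOf_dvd_natCard w)
  have h2 : Nat.Coprime (addOrderOf w / p ^ (ep p w)) (p ^ (vp G p)) :=
    ((Nat.coprime_ordCompl hp (addOrderOf_ne_zero' w)).symm).pow_right _
  exact h2.dvd_of_dvd_mul_left h1

theorem addOrderOf_MM_smul {p : ℕ} (hp : p.Prime) (w : G) :
    addOrderOf (MM G p • w) = p ^ (ep p w) := by
  have h0 : addOrderOf w = p ^ (ep p w) * (addOrderOf w / p ^ (ep p w)) :=
    (Nat.ordProj_mul_ordCompl_eq_self (addOrderOf w) p).symm
  rw [addOrderOf_nsmul]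
  have h1 : Nat.gcd (addOrderOf w) (MM G p) = addOrderOf w / p ^ (ep p w) := by
    conv_lhs => rw [h0]
    have h2 : Nat.Coprime (p ^ (ep p w)) (MM G p) := (coprime_MM hp).pow_left _
    rw [h2.gcd_mul_left_cancel]
    exact Nat.gcd_eq_left (ordCompl_dvd_MM hp w)
  rw [h1]
  have hpos : 0 < addOrderOf w / p ^ (ep p w) := by
    rcases Nat.eq_zero_or_pos (addOrderOf w / p ^ (ep p w)) with h | h
    · rw [h, mul_zero] at h0; exact absurd h0 (addOrderOf_ne_zero' w)
    · exact h
  conv_lhs => rw [h0]
  rw [Nat.mul_div_assoc, Nat.mul_div_cancel_left _ (pow_pos hp.pos _), Nat.div_self hpos, mul_one]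
  rw [Nat.mul_div_cancel_left _ (pow_pos hp.pos _)]

theorem prod_dvd_of_coprime' {P : Finset ℕ} {f : ℕ → ℕ} {m : ℕ}
    (h1 : ∀ p ∈ P, ∀ q ∈ P, p ≠ q → Nat.Coprime (f p) (f q)) (h2 : ∀ p ∈ P, f p ∣ m) :
    ∏ p ∈ P, f p ∣ m := by
  classical
  induction P using Finset.induction_on with
  | empty => simp
  | insert a s ha ih =>
    rw [Finset.prod_insert ha]
    apply Nat.Coprime.mul_dvd_of_dvd_of_dvd
    · apply Nat.Coprime.prod_right
      intro q hq
      exact h1 a (Finset.mem_insert_self _ _) q (Finset.mem_insert_of_mem hq)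
        (fun h => ha (h ▸ hq))
    · exact h2 a (Finset.mem_insert_self _ _)
    · exact ih (fun p hp q hq => h1 p (Finset.mem_insert_of_mem hp) q (Finset.mem_insert_of_mem hq))
        (fun p hp => h2 p (Finset.mem_insert_of_mem hp))

/-- one prime: an active class is covered by two subgroups of index `p^(e-g)` -/
theorem prime_cover (b : G →+ G →+ ZMod N) (hsymm : ∀ x y, b x y = b y x)
    (hnd : ∀ x, (∀ y, b x y = 0) → x = 0) {p e : ℕ} (hp : p.Prime) (C : Set G)
    (hC : ∀ w ∈ C, b w w = 0 ∧ (ep p w = 0 ∨ ep p w = e)) (hact : ∃ w ∈ C, ep p w = e) :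
    ∃ L : Bool → AddSubgroup G,
      (∀ i, (L i).index = p ^ (e - gexp p (vp G p - 2 * e))) ∧
      ∀ w ∈ C, ∃ i, w ∈ L i := by
  obtain ⟨w0, hw0, he0⟩ := hact
  have h2e : 2 * e ≤ vp G p := by rw [← he0]; exact ep_le b hnd (hC w0 hw0).1 p
  set f := vp G p - 2 * e with hf
  have hv : vp G p = 2 * e + f := by omega
  set X : Set G := {w' | ∃ w ∈ C, ep p w = e ∧ w' = MM G p • w} with hX
  have hXp : ∀ w' ∈ X, b w' w' = 0 ∧ addOrderOf w' = p ^ e := by
    rintro w' ⟨w, hw, hwe, rfl⟩
    refine ⟨?_, ?_⟩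
    · rw [map_nsmul, map_nsmul]
      change MM G p • (MM G p • (b w) w) = 0
      rw [(hC w hw).1, smul_zero, smul_zero]
    · rw [addOrderOf_MM_smul hp, hwe]
  have hne : X.Nonempty := ⟨_, w0, hw0, he0, rfl⟩
  have hcard : Nat.card G = p ^ (2 * e + f) * MM G p := by rw [← hv]; exact card_eq p
  obtain ⟨x, hx, y, hy, hxy⟩ := two_class b hsymm hnd hp hcard (coprime_MM hp) X hXp hne
  set g := gexp p f with hg
  refine ⟨fun i => perp b (p ^ g • (if i then x else y)), ?_, ?_⟩
  · intro i
    rw [index_perp b hnd]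
    cases i
    · simp only [Bool.false_eq_true, if_false]
      exact addOrderOf_pow_smul hp (hXp y hy).2
    · simp only [if_true]
      exact addOrderOf_pow_smul hp (hXp x hx).2
  · intro w hw
    have fin : ∀ u : G, addOrderOf u = p ^ e → (MM G p : ℤ) • b w (p ^ g • u) = 0 →
        w ∈ perp b (p ^ g • u) := by
      intro u hu h
      rw [mem_perp, hsymm]
      have h7 : p ^ e • (b w (p ^ g • u)) = 0 := by
        rw [← map_nsmul, smul_comm, ← hu, addOrderOf_nsmul_eq_zero, smul_zero, map_zero]
      have h9 : ¬ (p : ℤ) ∣ (MM G p : ℤ) := by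
        rw [Int.natCast_dvd_natCast]
        exact (Nat.Prime.coprime_iff_not_dvd hp).1 (coprime_MM hp)
      have := cancel_coprime (c := 1) hp h9 h7 (by rw [mul_one]; exact h)
      simpa using this
    rcases (hC w hw).2 with h0 | he
    · -- p does not divide the order
      refine ⟨true, fin _ (by simpa using (hXp x hx).2) ?_⟩
      rw [natCast_zsmul]
      have h1 : MM G p • w = 0 := by
        have := addOrderOf_MM_smul hp w
        rw [h0, pow_zero] at this
        exact AddMonoid.addOrderOf_eq_one_iff.1 this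
      have h2 : ∀ u : G, MM G p • (b w) u = b (MM G p • w) u := by
        intro u
        rw [map_nsmul b]
        rfl
      rw [h2, h1, map_zero]; rfl
    · have hw' : MM G p • w ∈ X := ⟨w, hw, he, rfl⟩
      have h2 : ∀ u : G, (MM G p : ℤ) • (b w) u = b (MM G p • w) u := by
        intro u
        rw [natCast_zsmul, map_nsmul b]
        rfl
      have hk : p ^ e • (MM G p • w) = 0 := by
        rw [← (hXp _ hw').2]; exact addOrderOf_nsmul_eq_zero _
      rcases hxy _ hw' with h | h
      · refine ⟨true, fin _ (by simpa using (hXp x hx).2) ?_⟩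
        have h3 := gexp_mem p e f hp hk h
        have h4 := perp_of_mem b hp (hXp _ hw').1 (hXp _ hw').2 (hXp x hx).2 h3
        rw [h2]
        simpa only [if_true] using h4
      · refine ⟨false, fin _ (by simpa using (hXp y hy).2) ?_⟩
        have h3 := gexp_mem p e f hp hk h
        have h4 := perp_of_mem b hp (hXp _ hw').1 (hXp _ hw').2 (hXp y hy).2 h3
        rw [h2]
        simpa only [Bool.false_eq_true, if_false] using h4

/-- several primes -/
theorem multi_cover (b : G →+ G →+ ZMod N) (hsymm : ∀ x y, b x y = b y x)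
    (hnd : ∀ x, (∀ y, b x y = 0) → x = 0) (P : Finset ℕ) (hP : ∀ p ∈ P, p.Prime)
    (e : ℕ → ℕ) (C : Set G)
    (hC : ∀ w ∈ C, b w w = 0 ∧ ∀ p ∈ P, (ep p w = 0 ∨ ep p w = e p))
    (hact : ∀ p ∈ P, ∃ w ∈ C, ep p w = e p) :
    ∃ F : Finset (AddSubgroup G), F.card ≤ 2 ^ P.card ∧
      (∀ L ∈ F, ∏ p ∈ P, p ^ (e p - gexp p (vp G p - 2 * e p)) ≤ L.index) ∧
      ∀ w ∈ C, ∃ L ∈ F, w ∈ L := by
  classical
  have h1 : ∀ p : ℕ, ∃ L : Bool → AddSubgroup G, p ∈ P →
      ((∀ i, (L i).index = p ^ (e p - gexp p (vp G p - 2 * e p))) ∧ ∀ w ∈ C, ∃ i, w ∈ L i) := by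
    intro p
    by_cases hp : p ∈ P
    · obtain ⟨L, hL1, hL2⟩ := prime_cover b hsymm hnd (hP p hp) C
        (fun w hw => ⟨(hC w hw).1, (hC w hw).2 p hp⟩) (hact p hp)
      exact ⟨L, fun _ => ⟨hL1, hL2⟩⟩
    · exact ⟨fun _ => ⊤, fun h => absurd h hp⟩
  choose L hL using h1
  refine ⟨P.powerset.image (fun s => P.inf (fun p => L p (decide (p ∈ s)))), ?_, ?_, ?_⟩
  · refine Finset.card_image_le.trans ?_
    rw [Finset.card_powerset]
  · intro K hK
    obtain ⟨s, hs, rfl⟩ := Finset.mem_image.1 hK
    apply Nat.le_of_dvd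
    · exact Nat.pos_of_ne_zero AddSubgroup.index_ne_zero_of_finite
    · apply prod_dvd_of_coprime'
      · intro p hp q hq hpq
        apply Nat.Coprime.pow _ _ ((Nat.coprime_primes (hP p hp) (hP q hq)).2 hpq)
      · intro p hp
        rw [← (hL p hp).1 (decide (p ∈ s))]
        exact AddSubgroup.index_dvd_of_le (Finset.inf_le hp)
  · intro w hw
    refine ⟨_, Finset.mem_image.2 ⟨P.filter (fun p => w ∈ L p true), ?_, rfl⟩, ?_⟩
    · rw [Finset.mem_powerset]; exact Finset.filter_subset _ _
    · have : ∀ p ∈ P, w ∈ L p (decide (p ∈ P.filter (fun p => w ∈ L p true))) := by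
        intro p hp
        by_cases h : w ∈ L p true
        · have : decide (p ∈ P.filter (fun p => w ∈ L p true)) = true := by
            simp [hp, h]
          rw [this]; exact h
        · have : decide (p ∈ P.filter (fun p => w ∈ L p true)) = false := by
            simp [h]
          rw [this]
          obtain ⟨i, hi⟩ := (hL p hp).2 w hw
          cases i
          · exact hi
          · exact absurd hi h
      have h2 : zmultiples w ≤ P.inf (fun p => L p (decide (p ∈ P.filter (fun p => w ∈ L p true)))) := by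
        apply Finset.le_inf
        intro p hp
        rw [zmultiples_le]
        exact this p hp
      exact h2 (mem_zmultiples w)

/-- the subgroup of elements killed by `m` -/
noncomputable def tors (G : Type*) [AddCommGroup G] (m : ℕ) : AddSubgroup G :=
  (nsmulAddMonoidHom (α := G) m).ker

theorem mem_tors (m : ℕ) (x : G) : x ∈ tors G m ↔ m • x = 0 := Iff.rfl

/-- bound for the generated subgroup -/
theorem card_closure_le (m1 : ℕ) (C : Set G) (Act : Finset ℕ)
    (hAct : ∀ p, p.Prime → (∃ w ∈ C, p ∣ addOrderOf (m1 • w)) → p ∈ Act)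
    (hActp : ∀ p ∈ Act, p.Prime) :
    Nat.card (AddSubgroup.closure C) ≤ Nat.card (tors G m1) * ∏ p ∈ Act, p ^ (vp G p) := by
  classical
  set H := AddSubgroup.closure C with hH
  set K := H.map (nsmulAddMonoidHom (α := G) m1) with hK
  -- card H = card (H ⊓ ker) * card K
  have h1 : Nat.card H ≤ Nat.card (tors G m1) * Nat.card K := by
    have e1 : Nat.card H = Nat.card ((nsmulAddMonoidHom (α := G) m1).comp H.subtype).ker *
        Nat.card ((nsmulAddMonoidHom (α := G) m1).comp H.subtype).range := by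
      have := AddSubgroup.card_mul_index ((nsmulAddMonoidHom (α := G) m1).comp H.subtype).ker
      rw [AddSubgroup.index_ker] at this
      exact this.symm
    have e2 : ((nsmulAddMonoidHom (α := G) m1).comp H.subtype).range = K := by
      rw [AddMonoidHom.range_comp, AddSubgroup.range_subtype]
    rw [e1, e2]
    apply Nat.mul_le_mul_right
    have : Function.Injective (fun z : ((nsmulAddMonoidHom (α := G) m1).comp H.subtype).ker =>
        (⟨((z : H) : G), by
          have := z.2
          rw [AddMonoidHom.mem_ker] at this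
          exact this⟩ : tors G m1)) := by
      intro z z' h
      apply Subtype.ext
      apply Subtype.ext
      exact congrArg (fun t : tors G m1 => (t : G)) h
    exact Nat.card_le_card_of_injective _ this
  refine h1.trans (Nat.mul_le_mul_left _ ?_)
  have hKne : Nat.card K ≠ 0 := Nat.card_pos.ne'
  -- primes dividing card K are in Act
  have h2 : ∀ p ∈ (Nat.card K).primeFactors, p ∈ Act := by
    intro p hp
    have hpp := Nat.prime_of_mem_primeFactors hp
    have hpd := Nat.dvd_of_mem_primeFactors hp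
    haveI := Fact.mk hpp
    obtain ⟨k, hk⟩ := exists_prime_addOrderOf_dvd_card' (G := K) p hpd
    by_contra hcon
    have hno : ∀ w ∈ C, ¬ p ∣ addOrderOf (m1 • w) := by
      intro w hw hd
      exact hcon (hAct p hpp ⟨w, hw, hd⟩)
    haveI : Fintype G := Fintype.ofFinite G
    set m := ∏ w ∈ C.toFinset, addOrderOf (m1 • w) with hm
    have hpm : ¬ p ∣ m := by
      rw [hm, hpp.prime.dvd_finsetProd_iff]
      rintro ⟨w, hw, hd⟩
      exact hno w (Set.mem_toFinset.1 hw) hd
    have hle : K ≤ tors G m := by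
      rw [hK, hH, AddMonoidHom.map_closure, AddSubgroup.closure_le]
      rintro _ ⟨w, hw, rfl⟩
      change m • (m1 • w) = 0
      apply addOrderOf_dvd_iff_nsmul_eq_zero.1
      rw [hm]
      exact Finset.dvd_prod_of_mem (fun w => addOrderOf (m1 • w)) (Set.mem_toFinset.2 hw)
    have h3 : m • (k : G) = 0 := hle k.2
    have h4 : addOrderOf (k : G) ∣ m := addOrderOf_dvd_of_nsmul_eq_zero h3
    rw [AddSubgroup.addOrderOf_coe, hk] at h4
    exact hpm h4
  calc Nat.card K = ∏ p ∈ (Nat.card K).primeFactors, p ^ ((Nat.card K).factorization p) := by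
        conv_lhs => rw [← Nat.prod_factorization_pow_eq_self hKne]
        rfl
    _ ≤ ∏ p ∈ (Nat.card K).primeFactors, p ^ (vp G p) := by
        apply Finset.prod_le_prod'
        intro p hp
        apply Nat.pow_le_pow_right (Nat.prime_of_mem_primeFactors hp).pos
        exact (Nat.factorization_le_iff_dvd hKne (card_ne_zero (G := G))).2
          (AddSubgroup.card_addSubgroup_dvd_card K) p
    _ ≤ ∏ p ∈ Act, p ^ (vp G p) := by
        apply Finset.prod_le_prod_of_subset_of_one_le' h2
        intro p hp _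
        exact Nat.one_le_pow _ _ (hActp p hp).pos

end

end Crest.Agent.R152.Pad
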