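import Mathlib
import Crest.Agent.R152.AsmDefs

set_option autoImplicit false

/-! Row 152, ASM PART II (helper229): the triple lemma.  Three vectors `x, y, z` of the same order
`o` in `ℤⁿ / A ℤⁿ`, isotropic mod 1, with `c o² = |det A|`, have pairings with denominators whose
product divides `2 c o²`; so two base points cover all of them. -/

open Matrix

namespace Crest.Agent.R152.Asm

variable {n : ℕ}

namespace P2

/-- integer vectors over `ℚ` -/
def qv (x : Fin n → ℤ) : Fin n → ℚ := fun i => (x i : ℚ)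

/-- the matrix over `ℚ` -/
abbrev qm (A : Matrix (Fin n) (Fin n) ℤ) : Matrix (Fin n) (Fin n) ℚ := A.map (Int.cast : ℤ → ℚ)

theorem bil_def (A : Matrix (Fin n) (Fin n) ℤ) (x y : Fin n → ℤ) :
    bil A x y = qv x ⬝ᵥ ((qm A)⁻¹ *ᵥ qv y) := rfl

theorem qv_mulVec (A : Matrix (Fin n) (Fin n) ℤ) (v : Fin n → ℤ) :
    qv (A *ᵥ v) = (qm A) *ᵥ qv v := by
  ext i
  simp [qv, mulVec, dotProduct]

theorem qv_injective {x y : Fin n → ℤ} (h : qv x = qv y) : x = y := by
  ext i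
  have := congrFun h i
  simpa [qv] using this

theorem qv_zsmul (m : ℤ) (x : Fin n → ℤ) : qv (m • x) = (m : ℚ) • qv x := by
  ext i; simp [qv]

theorem det_map (A : Matrix (Fin n) (Fin n) ℤ) : (qm A).det = (A.det : ℚ) := by
  have := (Int.castRingHom ℚ).map_det A
  simpa using this.symm

theorem isUnit_map {A : Matrix (Fin n) (Fin n) ℤ} (h : A.det ≠ 0) : IsUnit (qm A).det := by
  rw [det_map]
  exact isUnit_iff_ne_zero.2 (by exact_mod_cast h)

theorem mem_rng_iff {A : Matrix (Fin n) (Fin n) ℤ} (h : A.det ≠ 0) {x : Fin n → ℤ} :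
    x ∈ rng A ↔ ∃ v : Fin n → ℤ, (qm A)⁻¹ *ᵥ qv x = qv v := by
  rw [mem_rng]
  constructor
  · rintro ⟨v, rfl⟩
    refine ⟨v, ?_⟩
    rw [qv_mulVec, mulVec_mulVec, nonsing_inv_mul _ (isUnit_map h), one_mulVec]
  · rintro ⟨v, hv⟩
    refine ⟨v, qv_injective ?_⟩
    rw [qv_mulVec, ← hv, mulVec_mulVec, mul_nonsing_inv _ (isUnit_map h), one_mulVec]

theorem bil_comm {A : Matrix (Fin n) (Fin n) ℤ} (hs : A.transpose = A) (x y : Fin n → ℤ) :
    bil A x y = bil A y x := by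
  rw [bil_def, bil_def, dotProduct_mulVec, dotProduct_comm, ← mulVec_transpose,
    transpose_nonsing_inv, ← transpose_map, hs]

theorem bil_zsmul_left (A : Matrix (Fin n) (Fin n) ℤ) (m : ℤ) (x z : Fin n → ℤ) :
    bil A (m • x) z = m * bil A x z := by
  rw [bil_def, bil_def, qv_zsmul, smul_dotProduct, smul_eq_mul]

theorem bil_zsmul_right (A : Matrix (Fin n) (Fin n) ℤ) (m : ℤ) (x z : Fin n → ℤ) :
    bil A x (m • z) = m * bil A x z := by
  rw [bil_def, bil_def, qv_zsmul, mulVec_smul, dotProduct_smul, smul_eq_mul]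

theorem bil_int_of_mem {A : Matrix (Fin n) (Fin n) ℤ} (h : A.det ≠ 0) {x : Fin n → ℤ}
    (hx : x ∈ rng A) (z : Fin n → ℤ) : ∃ t : ℤ, bil A z x = t := by
  obtain ⟨v, hv⟩ := (mem_rng_iff h).1 hx
  refine ⟨z ⬝ᵥ v, ?_⟩
  rw [bil_def, hv]
  simp [qv, dotProduct]

theorem bil_single (A : Matrix (Fin n) (Fin n) ℤ) (i : Fin n) (x : Fin n → ℤ) :
    bil A (Pi.single i 1) x = ((qm A)⁻¹ *ᵥ qv x) i := by
  have : qv (Pi.single i 1 : Fin n → ℤ) = Pi.single i 1 := by
    ext j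
    by_cases h : j = i
    · subst h; simp [qv]
    · simp [qv, h]
  rw [bil_def, this, single_one_dotProduct]

theorem mem_of_bil_int {A : Matrix (Fin n) (Fin n) ℤ} (h : A.det ≠ 0) {x : Fin n → ℤ}
    (hx : ∀ z, ∃ t : ℤ, bil A z x = t) : x ∈ rng A := by
  rw [mem_rng_iff h]
  choose t ht using hx
  refine ⟨fun i => t (Pi.single i 1), ?_⟩
  ext i
  rw [← bil_single, ht]
  rfl

/-- the denominator of the pairing -/
noncomputable def dn (A : Matrix (Fin n) (Fin n) ℤ) (x y : Fin n → ℤ) : ℕ := (bil A x y).den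

theorem den_dvd_of_mul {q : ℚ} {m : ℕ} (hm : m ≠ 0) {t : ℤ} (h : (m : ℚ) * q = t) : q.den ∣ m := by
  have hm' : (m : ℚ) ≠ 0 := by exact_mod_cast hm
  have hq : q = (t : ℚ) / ((m : ℤ) : ℚ) := by
    rw [eq_div_iff (by exact_mod_cast hm)]
    rw [mul_comm]
    exact_mod_cast h
  have := Rat.den_dvd t (m : ℤ)
  rw [Rat.divInt_eq_div, ← hq] at this
  exact_mod_cast this

theorem dn_dvd {A : Matrix (Fin n) (Fin n) ℤ} (h : A.det ≠ 0) {x : Fin n → ℤ} {o : ℕ}
    (ho : od A x = o) (hpos : 0 < o) (z : Fin n → ℤ) : dn A z x ∣ o := by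
  have h1 : (o : ℤ) • x ∈ rng A := od_dvd_iff.1 (by rw [ho])
  obtain ⟨t, ht⟩ := bil_int_of_mem h h1 z
  rw [bil_zsmul_right] at ht
  exact den_dvd_of_mul hpos.ne' (by exact_mod_cast ht)

theorem dn_comm {A : Matrix (Fin n) (Fin n) ℤ} (hs : A.transpose = A) (x y : Fin n → ℤ) :
    dn A x y = dn A y x := by
  unfold dn
  rw [bil_comm hs]

theorem triple_dvd {T o Da Db De a b e : ℕ} (ho : o ^ 2 ∣ T)
    (hDa : Da ∣ o) (hDb : Db ∣ o) (hDe : De ∣ o)
    (ha : Nat.Coprime a Da) (hb : Nat.Coprime b Db) (he : Nat.Coprime e De)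
    (h : Da * Db * De ∣ T * (a * b * e)) : Da * Db * De ∣ T := by
  rw [Nat.dvd_iff_prime_pow_dvd_dvd]
  intro p k hp hk
  have key : ∀ {u v w : ℕ}, ¬ p ∣ u → v ∣ o → w ∣ o → p ^ k ∣ u * (v * w) → p ^ k ∣ T := by
    intro u v w hu hv hw hd
    have hc : Nat.Coprime (p ^ k) u :=
      Nat.Coprime.pow_left k ((Nat.Prime.coprime_iff_not_dvd hp).2 hu)
    have h1 : p ^ k ∣ v * w := hc.dvd_of_dvd_mul_left hd
    exact (h1.trans (mul_dvd_mul hv hw)).trans ((by rw [sq] : o * o = o ^ 2) ▸ ho)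
  by_cases h1 : p ∣ Da
  · by_cases h2 : p ∣ Db
    · by_cases h3 : p ∣ De
      · have c1 : ¬ p ∣ a := fun hh => hp.one_lt.ne' (Nat.dvd_one.1 (ha ▸ Nat.dvd_gcd hh h1))
        have c2 : ¬ p ∣ b := fun hh => hp.one_lt.ne' (Nat.dvd_one.1 (hb ▸ Nat.dvd_gcd hh h2))
        have c3 : ¬ p ∣ e := fun hh => hp.one_lt.ne' (Nat.dvd_one.1 (he ▸ Nat.dvd_gcd hh h3))
        have c : Nat.Coprime (p ^ k) (a * b * e) := by
          refine Nat.Coprime.pow_left k ((Nat.Prime.coprime_iff_not_dvd hp).2 ?_)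
          intro hh
          rcases (Nat.Prime.dvd_mul hp).1 hh with h4 | h4
          · rcases (Nat.Prime.dvd_mul hp).1 h4 with h5 | h5
            · exact c1 h5
            · exact c2 h5
          · exact c3 h4
        exact c.dvd_of_dvd_mul_right (hk.trans h)
      · refine key h3 hDa hDb ?_
        rw [mul_comm]; exact hk
    · refine key h2 hDa hDe ?_
      have : Db * (Da * De) = Da * Db * De := by ring
      rw [this]; exact hk
  · refine key h1 hDb hDe ?_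
    rw [← mul_assoc]; exact hk

/-- the three columns -/
def X3 (x y z : Fin n → ℤ) : Matrix (Fin n) (Fin 3) ℤ := fun i j => ![x, y, z] j i

theorem gram_apply (A : Matrix (Fin n) (Fin n) ℤ) (x y z : Fin n → ℤ) (i j : Fin 3) :
    (((X3 x y z).map (Int.cast : ℤ → ℚ))ᵀ * (qm A)⁻¹ * (X3 x y z).map (Int.cast : ℤ → ℚ)) i j =
      bil A (![x, y, z] i) (![x, y, z] j) := by
  rw [bil_def, Matrix.mul_assoc, Matrix.mul_apply]
  simp only [dotProduct, transpose_apply, map_apply, X3, qv]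
  refine Finset.sum_congr rfl fun a _ => ?_
  congr 1

theorem det_gram_int {A : Matrix (Fin n) (Fin n) ℤ} (hdet : A.det ≠ 0) (x y z : Fin n → ℤ) :
    ∃ t : ℤ, (A.det : ℚ) * (((X3 x y z).map (Int.cast : ℤ → ℚ))ᵀ * (qm A)⁻¹ *
      (X3 x y z).map (Int.cast : ℤ → ℚ)).det = t := by
  have hu := isUnit_map hdet
  have : Invertible (qm A) := invertibleOfIsUnitDet _ hu
  set X := X3 x y z with hX
  have h1 := det_fromBlocks₁₁ (qm A) (X.map (Int.cast : ℤ → ℚ)) (X.map (Int.cast : ℤ → ℚ))ᵀ 0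
  rw [det_map, invOf_eq_nonsing_inv, zero_sub, det_neg, Fintype.card_fin] at h1
  have h2 : (fromBlocks (qm A) (X.map (Int.cast : ℤ → ℚ)) (X.map (Int.cast : ℤ → ℚ))ᵀ 0).det =
      (((fromBlocks A X Xᵀ 0).det : ℤ) : ℚ) := by
    have h3 := (Int.castRingHom ℚ).map_det (fromBlocks A X Xᵀ 0)
    have h4 : (Int.castRingHom ℚ).mapMatrix (fromBlocks A X Xᵀ 0) =
        fromBlocks (qm A) (X.map (Int.cast : ℤ → ℚ)) (X.map (Int.cast : ℤ → ℚ))ᵀ 0 := by
      rw [RingHom.mapMatrix_apply, fromBlocks_map]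
      congr 1
    rw [h4] at h3
    simpa using h3.symm
  rw [h2] at h1
  refine ⟨-(fromBlocks A X Xᵀ 0).det, ?_⟩
  rw [Int.cast_neg, h1]
  ring

/-- integrality of `2 det(A) a b e` -/
theorem two_det_int {A : Matrix (Fin n) (Fin n) ℤ} (hA : A.transpose = A) (hdet : A.det ≠ 0)
    {c o : ℕ} (hco : c * o ^ 2 = A.det.natAbs) {x y z : Fin n → ℤ}
    (hx : ∃ t : ℤ, bil A x x = t) (hy : ∃ t : ℤ, bil A y y = t) (hz : ∃ t : ℤ, bil A z z = t)
    (ox : od A x = o) (oy : od A y = o) (oz : od A z = o) :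
    ∃ t : ℤ, (2 * A.det : ℚ) * (bil A x y * bil A x z * bil A y z) = t := by
  obtain ⟨i1, h1⟩ := hx
  obtain ⟨i2, h2⟩ := hy
  obtain ⟨i3, h3⟩ := hz
  have hdn : ∃ s : ℤ, (A.det : ℚ) = s * (o : ℚ) ^ 2 := by
    rcases Int.natAbs_eq A.det with h | h
    · refine ⟨c, ?_⟩
      rw [h, ← hco]; push_cast; ring
    · refine ⟨-c, ?_⟩
      rw [h, ← hco]; push_cast; ring
  obtain ⟨s, hs⟩ := hdn
  have hint : ∀ u v : Fin n → ℤ, od A v = o → ∃ t : ℤ, (o : ℚ) * bil A u v = t := by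
    intro u v hv
    have h1 : (o : ℤ) • v ∈ rng A := od_dvd_iff.1 (by rw [hv])
    obtain ⟨t, ht⟩ := bil_int_of_mem hdet h1 u
    rw [bil_zsmul_right] at ht
    exact ⟨t, by exact_mod_cast ht⟩
  obtain ⟨ta, hta⟩ := hint x y oy
  obtain ⟨tb, htb⟩ := hint x z oz
  obtain ⟨te, hte⟩ := hint y z oz
  obtain ⟨t, ht⟩ := det_gram_int hdet x y z
  rw [det_fin_three] at ht
  simp only [gram_apply] at ht
  simp only [Matrix.cons_val_zero, Matrix.cons_val_one, Matrix.cons_val] at ht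
  rw [bil_comm hA y x, bil_comm hA z x, bil_comm hA z y, h1, h2, h3] at ht
  set a := bil A x y
  set b := bil A x z
  set e := bil A y z
  refine ⟨t - s * o ^ 2 * (i1 * i2 * i3) + s * (i1 * te ^ 2 + i2 * tb ^ 2 + i3 * ta ^ 2), ?_⟩
  rw [hs] at ht ⊢
  push_cast
  rw [← hta, ← htb, ← hte, ← ht]
  ring

theorem coprime_num_den (q : ℚ) : Nat.Coprime q.num.natAbs q.den := q.reduced

theorem triple {A : Matrix (Fin n) (Fin n) ℤ} (hA : A.transpose = A) (hdet : A.det ≠ 0)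
    {c o : ℕ} (hco : c * o ^ 2 = A.det.natAbs) {x y z : Fin n → ℤ}
    (hx : ∃ t : ℤ, bil A x x = t) (hy : ∃ t : ℤ, bil A y y = t) (hz : ∃ t : ℤ, bil A z z = t)
    (ox : od A x = o) (oy : od A y = o) (oz : od A z = o) :
    dn A x y * dn A x z * dn A y z ∣ 2 * c * o ^ 2 := by
  have hopos : 0 < o := by
    rcases Nat.eq_zero_or_pos o with h | h
    · exfalso
      apply hdet
      rw [← Int.natAbs_eq_zero, ← hco, h]; simp
    · exact h
  obtain ⟨t, ht⟩ := two_det_int hA hdet hco hx hy hz ox oy oz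
  refine triple_dvd (o := o) (Dvd.intro_left _ rfl) (dn_dvd hdet oy hopos x) (dn_dvd hdet oz hopos x)
    (dn_dvd hdet oz hopos y) (coprime_num_den (bil A x y)) (coprime_num_den (bil A x z))
    (coprime_num_den (bil A y z)) ?_
  have hn : ∀ q : ℚ, q = (q.num : ℚ) / (q.den : ℚ) := fun q => (Rat.num_div_den q).symm
  have hd : ∀ q : ℚ, (q.den : ℚ) ≠ 0 := fun q => by exact_mod_cast q.den_nz
  have key : (2 * A.det) * ((bil A x y).num * (bil A x z).num * (bil A y z).num) =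
      t * ((dn A x y : ℤ) * dn A x z * dn A y z) := by
    have h1 := hd (bil A x y)
    have h2 := hd (bil A x z)
    have h3 := hd (bil A y z)
    have h4 : (2 * A.det : ℚ) * (((bil A x y).num : ℚ) / ((bil A x y).den : ℚ) *
        (((bil A x z).num : ℚ) / ((bil A x z).den : ℚ)) *
        (((bil A y z).num : ℚ) / ((bil A y z).den : ℚ))) = t := by
      rw [← hn, ← hn, ← hn]; exact ht
    have h5 : (2 * A.det : ℚ) * (((bil A x y).num : ℚ) * ((bil A x z).num : ℚ) *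
        ((bil A y z).num : ℚ)) = t * (((bil A x y).den : ℚ) * (bil A x z).den * (bil A y z).den) := by
      rw [← h4]
      field_simp
    unfold dn
    exact_mod_cast h5
  have h6 := congrArg Int.natAbs key
  simp only [Int.natAbs_mul, Int.natAbs_natCast] at h6
  rw [← hco] at h6
  have h7 : 2 * c * o ^ 2 * ((bil A x y).num.natAbs * (bil A x z).num.natAbs *
      (bil A y z).num.natAbs) = t.natAbs * (dn A x y * dn A x z * dn A y z) := by
    rw [← h6]
    simp [mul_assoc]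
  rw [h7]
  exact Dvd.intro_left _ rfl

theorem det_smul_mem {A : Matrix (Fin n) (Fin n) ℤ} (z : Fin n → ℤ) : A.det • z ∈ rng A := by
  rw [mem_rng]
  refine ⟨A.adjugate *ᵥ z, ?_⟩
  rw [mulVec_mulVec, mul_adjugate, smul_mulVec, one_mulVec]

theorem index_rng_ne_zero {A : Matrix (Fin n) (Fin n) ℤ} (hdet : A.det ≠ 0) :
    (rng A).index ≠ 0 := by
  have htor : IsAddTorsion ((Fin n → ℤ) ⧸ rng A) := by
    intro g
    obtain ⟨z, rfl⟩ := QuotientAddGroup.mk_surjective g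
    rw [isOfFinAddOrder_iff_nsmul_eq_zero]
    refine ⟨A.det.natAbs, Int.natAbs_pos.2 hdet, ?_⟩
    rw [← QuotientAddGroup.mk_nsmul, QuotientAddGroup.eq_zero_iff]
    have h := det_smul_mem (A := A) z
    rcases Int.natAbs_eq A.det with h1 | h1
    · rw [h1, natCast_zsmul] at h; exact h
    · rw [h1, neg_smul, natCast_zsmul] at h
      simpa using (rng A).neg_mem h
  have hfin : Finite ((Fin n → ℤ) ⧸ rng A) := AddCommGroup.finite_of_fg_isAddTorsion _ htor
  exact AddSubgroup.index_ne_zero_of_finite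

theorem od_pos {A : Matrix (Fin n) (Fin n) ℤ} (hdet : A.det ≠ 0) (x : Fin n → ℤ) :
    0 < od A x := by
  have h : od A x ∣ A.det.natAbs := by
    rw [od_dvd_iff]
    have h := det_smul_mem (A := A) x
    rcases Int.natAbs_eq A.det with h1 | h1
    · rw [h1] at h; exact h
    · rw [h1, neg_smul] at h
      simpa using (rng A).neg_mem h
  exact Nat.pos_of_dvd_of_pos h (Int.natAbs_pos.2 hdet)

theorem mem_perp_dn {A : Matrix (Fin n) (Fin n) ℤ} (z x : Fin n → ℤ) :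
    z ∈ perp A x (dn A z x) := by
  rw [mem_perp]
  exact ⟨(bil A z x).num, by unfold dn; rw [mul_comm]; exact Rat.mul_den_eq_num _⟩

end P2

open P2

theorem two_base {n : ℕ} (A : Matrix (Fin n) (Fin n) ℤ) (hA : A.transpose = A) (hdet : A.det ≠ 0)
    {c o : ℕ} (hco : c * o ^ 2 = A.det.natAbs) :
    ∃ x0 y0 : Fin n → ℤ, ∀ z : Fin n → ℤ, (∃ t : ℤ, bil A z z = t) → od A z = o →
      od A x0 = o ∧ od A y0 = o ∧
      ∃ f : ℕ, f ∣ o ∧ o ≤ 2 * c * f ^ 3 ∧ (z ∈ perp A x0 (o / f) ∨ z ∈ perp A y0 (o / f)) := by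
  have hopos : 0 < o := by
    rcases Nat.eq_zero_or_pos o with h | h
    · exfalso
      apply hdet
      rw [← Int.natAbs_eq_zero, ← hco, h]; simp
    · exact h
  have hcpos : 0 < c := by
    rcases Nat.eq_zero_or_pos c with h | h
    · exfalso
      apply hdet
      rw [← Int.natAbs_eq_zero, ← hco, h]; simp
    · exact h
  -- the set of relevant vectors
  let S : Set (Fin n → ℤ) := {z | (∃ t : ℤ, bil A z z = t) ∧ od A z = o}
  have hT : 0 < 2 * c * o ^ 2 := by positivity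
  -- from a small denominator to the conclusion
  have fin : ∀ x0 z : Fin n → ℤ, od A x0 = o → dn A z x0 ^ 3 ≤ 2 * c * o ^ 2 →
      ∃ f : ℕ, f ∣ o ∧ o ≤ 2 * c * f ^ 3 ∧ z ∈ perp A x0 (o / f) := by
    intro x0 z hx0 hle
    have hd : dn A z x0 ∣ o := dn_dvd hdet hx0 hopos z
    obtain ⟨f, hf⟩ := hd
    have hdpos : 0 < dn A z x0 := by unfold dn; exact Rat.den_pos _
    have hfpos : 0 < f := by
      rcases Nat.eq_zero_or_pos f with h | h
      · rw [h, mul_zero] at hf; omega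
      · exact h
    refine ⟨f, Dvd.intro_left _ hf.symm, ?_, ?_⟩
    · have h1 : o ^ 3 ≤ 2 * c * f ^ 3 * o ^ 2 := by
        calc o ^ 3 = dn A z x0 ^ 3 * f ^ 3 := by rw [hf]; ring
          _ ≤ (2 * c * o ^ 2) * f ^ 3 := Nat.mul_le_mul_right _ hle
          _ = 2 * c * f ^ 3 * o ^ 2 := by ring
      have h2 : o * o ^ 2 ≤ 2 * c * f ^ 3 * o ^ 2 := by
        calc o * o ^ 2 = o ^ 3 := by ring
          _ ≤ _ := h1
      exact Nat.le_of_mul_le_mul_right h2 (by positivity)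
    · have h3 : o / f = dn A z x0 := by
        rw [hf]; exact Nat.mul_div_cancel _ hfpos
      rw [h3]
      exact mem_perp_dn z x0
  by_cases hbig : ∃ x0 ∈ S, ∃ y0 ∈ S, 2 * c * o ^ 2 < dn A x0 y0 ^ 3
  · obtain ⟨x0, hx0, y0, hy0, hb⟩ := hbig
    refine ⟨x0, y0, fun z hz1 hz2 => ⟨hx0.2, hy0.2, ?_⟩⟩
    have htr := triple hA hdet hco hx0.1 hy0.1 hz1 hx0.2 hy0.2 hz2
    have hle : dn A x0 y0 * dn A x0 z * dn A y0 z ≤ 2 * c * o ^ 2 := Nat.le_of_dvd hT htr
    by_cases h1 : dn A z x0 ^ 3 ≤ 2 * c * o ^ 2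
    · obtain ⟨f, hf1, hf2, hf3⟩ := fin x0 z hx0.2 h1
      exact ⟨f, hf1, hf2, Or.inl hf3⟩
    · by_cases h2 : dn A z y0 ^ 3 ≤ 2 * c * o ^ 2
      · obtain ⟨f, hf1, hf2, hf3⟩ := fin y0 z hy0.2 h2
        exact ⟨f, hf1, hf2, Or.inr hf3⟩
      · exfalso
        push Not at h1 h2
        rw [dn_comm hA] at h1 h2
        have h3 : (dn A x0 y0 * dn A x0 z * dn A y0 z) ^ 3 ≤ (2 * c * o ^ 2) ^ 3 :=
          Nat.pow_le_pow_left hle 3
        have h4 : (2 * c * o ^ 2) ^ 3 <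
            dn A x0 y0 ^ 3 * dn A x0 z ^ 3 * dn A y0 z ^ 3 := by
          calc (2 * c * o ^ 2) ^ 3 = (2 * c * o ^ 2) * (2 * c * o ^ 2) * (2 * c * o ^ 2) := by ring
            _ < dn A x0 y0 ^ 3 * dn A x0 z ^ 3 * dn A y0 z ^ 3 :=
              Nat.mul_lt_mul'' (Nat.mul_lt_mul'' hb h1) h2
        have h5 : dn A x0 y0 ^ 3 * dn A x0 z ^ 3 * dn A y0 z ^ 3 =
            (dn A x0 y0 * dn A x0 z * dn A y0 z) ^ 3 := by ring
        rw [h5] at h4
        exact absurd h3 (not_le.2 h4)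
  · push Not at hbig
    by_cases hne : S.Nonempty
    · obtain ⟨x0, hx0⟩ := hne
      refine ⟨x0, x0, fun z hz1 hz2 => ⟨hx0.2, hx0.2, ?_⟩⟩
      have h1 : dn A z x0 ^ 3 ≤ 2 * c * o ^ 2 := hbig z ⟨hz1, hz2⟩ x0 hx0
      obtain ⟨f, hf1, hf2, hf3⟩ := fin x0 z hx0.2 h1
      exact ⟨f, hf1, hf2, Or.inl hf3⟩
    · refine ⟨0, 0, fun z hz1 hz2 => ?_⟩
      exact absurd ⟨z, hz1, hz2⟩ hne

theorem perp_index {n : ℕ} (A : Matrix (Fin n) (Fin n) ℤ) (hA : A.transpose = A) (hdet : A.det ≠ 0)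
    {x : Fin n → ℤ} {o f : ℕ} (ho : od A x = o) (hf : f ∣ o) :
    rng A ≤ perp A x (o / f) ∧ (perp A x (o / f)).index ≠ 0 ∧ f ≤ (perp A x (o / f)).index := by
  have hle : rng A ≤ perp A x (o / f) := by
    intro z hz
    obtain ⟨t, ht⟩ := bil_int_of_mem hdet hz x
    rw [mem_perp]
    refine ⟨(o / f : ℕ) * t, ?_⟩
    rw [bil_comm hA, ht, Int.cast_mul, Int.cast_natCast]
  -- finite index of the image lattice
  have hfin : (perp A x (o / f)).index ≠ 0 := by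
    have h1 : (rng A).index ≠ 0 := index_rng_ne_zero hdet
    exact fun h => h1 (Nat.eq_zero_of_zero_dvd (h ▸ AddSubgroup.index_dvd_of_le hle))
  refine ⟨hle, hfin, ?_⟩
  set m := (perp A x (o / f)).index with hm
  have hmpos : 0 < m := Nat.pos_of_ne_zero hfin
  have h2 : ∀ z : Fin n → ℤ, (m : ℤ) • z ∈ perp A x (o / f) := by
    intro z
    rw [natCast_zsmul]
    exact AddSubgroup.nsmul_index_mem _ z
  have h3 : (((o / f) * m : ℕ) : ℤ) • x ∈ rng A := by
    refine mem_of_bil_int hdet fun z => ?_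
    obtain ⟨t, ht⟩ := mem_perp.1 (h2 z)
    refine ⟨t, ?_⟩
    rw [bil_zsmul_right, ← ht, bil_zsmul_left, Int.cast_natCast, Int.cast_natCast, Nat.cast_mul]
    ring
  have h4 : o ∣ (o / f) * m := by
    rw [← ho]; exact od_dvd_iff.2 (by rw [ho]; exact h3)
  obtain ⟨g, hg⟩ := hf
  rcases Nat.eq_zero_or_pos f with h0 | h0
  · rw [h0]; exact Nat.zero_le _
  rcases Nat.eq_zero_or_pos g with h5 | h5
  · exfalso
    have h8 := od_pos hdet x
    rw [ho, hg, h5] at h8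
    simp at h8
  have h6 : o / f = g := by rw [hg]; exact Nat.mul_div_cancel_left _ h0
  rw [h6, hg] at h4
  have h7 : f ∣ m := Nat.dvd_of_mul_dvd_mul_left h5 (by rwa [mul_comm g f])
  exact Nat.le_of_dvd hmpos h7

end Crest.Agent.R152.Asm
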