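import Crest.Agent.R152.Lat1

set_option autoImplicit false
set_option linter.unusedSectionVars false

/-!
# Row 152, module REL, part 1: relative Gram matrices (helper877)

Multi-vector distance formula, projection orthogonal to a lattice, discriminant of
`F ⊔ span c`, relative bases of `M / F`.
-/

namespace Crest.Agent.R152.Rel

open Matrix Module Crest.Agent.R152.Lat

section Gen

variable {E : Type*} [NormedAddCommGroup E] [InnerProductSpace ℝ E]

theorem gram_comb {γ γ' : Type*} [Fintype γ] (w : γ → E) (M : Matrix γ γ' ℝ) :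
    gram ℝ (fun j => ∑ i, M i j • w i) = Mᵀ * gram ℝ w * M := by
  ext i j
  simp only [gram_apply, mul_apply, transpose_apply, sum_inner, inner_sum, real_inner_smul_left,
    real_inner_smul_right, Finset.sum_mul]
  refine Finset.sum_congr rfl fun a _ => Finset.sum_congr rfl fun b _ => ?_
  rw [real_inner_comm]
  ring

theorem norm_sq_comb {γ : Type*} [Fintype γ] (w : γ → E) (x : γ → ℝ) :
    ‖∑ i, x i • w i‖ ^ 2 = x ⬝ᵥ (gram ℝ w *ᵥ x) := by
  rw [← real_inner_self_eq_norm_sq]
  simp only [sum_inner, inner_sum, real_inner_smul_left, real_inner_smul_right, dotProduct,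
    mulVec, gram_apply, Finset.mul_sum]
  refine Finset.sum_congr rfl fun a _ => Finset.sum_congr rfl fun b _ => ?_
  rw [real_inner_comm]
  ring

/-- **multi-vector distance formula** -/
theorem det_gram_sum {α β : Type*} [Fintype α] [Fintype β] [DecidableEq α] [DecidableEq β]
    (u : α → E) (v : β → E) (K : Submodule ℝ E) [K.HasOrthogonalProjection]
    (hK : K = Submodule.span ℝ (Set.range u)) :
    (gram ℝ (Sum.elim u v)).det =
      (gram ℝ u).det * (gram ℝ (fun j => v j - K.starProjection (v j))).det := by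
  have h1 : ∀ j, ∃ c : α → ℝ, ∑ i, c i • u i = K.starProjection (v j) := by
    intro j
    have h2 : K.starProjection (v j) ∈ Submodule.span ℝ (Set.range u) := by
      rw [← hK]; exact Submodule.starProjection_apply_mem K (v j)
    exact (Submodule.mem_span_range_iff_exists_fun ℝ).1 h2
  choose c hc using h1
  set M : Matrix (α ⊕ β) (α ⊕ β) ℝ := fromBlocks 1 (Matrix.of fun i j => c j i) 0 1 with hM
  have hMdet : M.det = 1 := by
    rw [hM, det_fromBlocks_zero₂₁, det_one, det_one, mul_one]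
  have h3 : (Sum.elim u v : α ⊕ β → E) = fun j => ∑ i, M i j •
      (Sum.elim u (fun j => v j - K.starProjection (v j)) : α ⊕ β → E) i := by
    funext j
    rw [Fintype.sum_sum_type]
    rcases j with j | j
    · simp [hM, Matrix.one_apply]
    · simp [hM, Matrix.one_apply, hc]
  rw [h3, gram_comb, det_mul, det_mul, det_transpose, hMdet, one_mul, mul_one]
  have h4 : gram ℝ (Sum.elim u (fun j => v j - K.starProjection (v j)) : α ⊕ β → E) =
      fromBlocks (gram ℝ u) 0 0 (gram ℝ (fun j => v j - K.starProjection (v j))) := by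
    ext i j
    rcases i with i | i <;> rcases j with j | j
    · simp [gram_apply]
    · simp only [gram_apply, Sum.elim_inl, Sum.elim_inr, fromBlocks_apply₁₂, Matrix.zero_apply]
      rw [real_inner_comm]
      apply Submodule.starProjection_inner_eq_zero
      rw [hK]; exact Submodule.subset_span ⟨i, rfl⟩
    · simp only [gram_apply, Sum.elim_inl, Sum.elim_inr, fromBlocks_apply₂₁, Matrix.zero_apply]
      apply Submodule.starProjection_inner_eq_zero
      rw [hK]; exact Submodule.subset_span ⟨j, rfl⟩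
    · simp [gram_apply]
  rw [h4, det_fromBlocks_zero₁₂]

end Gen

variable {ι : Type*} [Fintype ι]

/-- real span of a lattice -/
noncomputable def FR (F : Submodule ℤ (ι → ℤ)) : Submodule ℝ (EuclideanSpace ℝ ι) :=
  Submodule.span ℝ (ev '' (F : Set (ι → ℤ)))

/-- projection orthogonal to the real span -/
noncomputable def pr (F : Submodule ℤ (ι → ℤ)) :
    EuclideanSpace ℝ ι →ₗ[ℝ] EuclideanSpace ℝ ι :=
  LinearMap.id - ((FR F).starProjection : EuclideanSpace ℝ ι →ₗ[ℝ] EuclideanSpace ℝ ι)

theorem pr_apply (F : Submodule ℤ (ι → ℤ)) (x : EuclideanSpace ℝ ι) :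
    pr F x = x - (FR F).starProjection x := rfl

/-- squared distance to the real span -/
noncomputable def nq (F : Submodule ℤ (ι → ℤ)) (z : ι → ℤ) : ℝ := ‖pr F (ev z)‖ ^ 2

theorem pr_eq_zero_of_mem {F : Submodule ℤ (ι → ℤ)} {x : EuclideanSpace ℝ ι} (hx : x ∈ FR F) :
    pr F x = 0 := by
  rw [pr_apply, Submodule.starProjection_eq_self_iff.2 hx, sub_self]

theorem ev_mem_FR {F : Submodule ℤ (ι → ℤ)} {z : ι → ℤ} (hz : z ∈ F) : ev z ∈ FR F :=
  Submodule.subset_span ⟨z, hz, rfl⟩

theorem pr_ev_of_mem {F : Submodule ℤ (ι → ℤ)} {z : ι → ℤ} (hz : z ∈ F) : pr F (ev z) = 0 :=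
  pr_eq_zero_of_mem (ev_mem_FR hz)

theorem norm_pr_le (F : Submodule ℤ (ι → ℤ)) (x : EuclideanSpace ℝ ι) : ‖pr F x‖ ≤ ‖x‖ := by
  rw [pr_apply, ← Submodule.starProjection_orthogonal_val]
  exact Submodule.norm_starProjection_apply_le _ x

theorem nq_le (F : Submodule ℤ (ι → ℤ)) (z : ι → ℤ) : nq F z ≤ ((z ⬝ᵥ z : ℤ) : ℝ) := by
  unfold nq
  rw [← norm_ev_sq]
  gcongr
  exact norm_pr_le F _

theorem FR_eq {α : Type*} [Fintype α] {F : Submodule ℤ (ι → ℤ)} (a : Basis α ℤ F) :
    FR F = Submodule.span ℝ (Set.range (fun i => ev (a i : ι → ℤ))) := by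
  apply le_antisymm
  · unfold FR
    rw [Submodule.span_le]
    rintro _ ⟨z, hz, rfl⟩
    have h1 : (⟨z, hz⟩ : F) = ∑ i, a.repr ⟨z, hz⟩ i • a i := (a.sum_repr _).symm
    have h2 : z = ∑ i, a.repr ⟨z, hz⟩ i • (a i : ι → ℤ) := by
      have := congrArg (fun x : F => (x : ι → ℤ)) h1
      simpa only [AddSubmonoidClass.coe_finsetSum, SetLike.val_smul] using this
    rw [h2, map_sum]
    refine Submodule.sum_mem _ fun i _ => ?_
    rw [map_smul]
    have h3 : (a.repr ⟨z, hz⟩ i • ev (a i : ι → ℤ) : EuclideanSpace ℝ ι)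
        = ((a.repr ⟨z, hz⟩ i : ℤ) : ℝ) • ev (a i : ι → ℤ) := by
      rw [← Int.cast_smul_eq_zsmul ℝ]
    rw [h3]
    exact Submodule.smul_mem _ _ (Submodule.subset_span ⟨i, rfl⟩)
  · rw [Submodule.span_le]
    rintro _ ⟨i, rfl⟩
    exact ev_mem_FR (a i).2

theorem gm_cast_gram {κ : Type*} [Fintype κ] [DecidableEq κ] (b : κ → ι → ℤ) :
    ((gm b).det : ℝ) = (gram ℝ (fun i => ev (b i))).det := det_gm_cast b

/-- block formula -/
theorem det_gm_sum {α β : Type*} [Fintype α] [Fintype β] [DecidableEq α] [DecidableEq β]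
    {F : Submodule ℤ (ι → ℤ)} (a : Basis α ℤ F) (c : β → ι → ℤ) :
    ((gm (Sum.elim (fun i => (a i : ι → ℤ)) c)).det : ℝ) =
      dsc F * (gram ℝ (fun j => pr F (ev (c j)))).det := by
  rw [dsc_eq a, det_gm_cast, det_gm_cast]
  have h1 : (fun i => ev ((Sum.elim (fun i => (a i : ι → ℤ)) c : α ⊕ β → ι → ℤ) i)) =
      Sum.elim (fun i => ev (a i : ι → ℤ)) (fun j => ev (c j)) := by
    funext i; rcases i with i | i <;> rfl
  rw [h1, det_gram_sum _ _ (FR F) (FR_eq a)]
  rfl

theorem linearIndependent_of_det_gm_ne_zero {κ : Type*} [Fintype κ] [DecidableEq κ]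
    {b : κ → ι → ℤ} (h : (gm b).det ≠ 0) : LinearIndependent ℤ b := by
  have h1 : (gram ℝ (fun i => ev (b i))).det ≠ 0 := by
    rw [← det_gm_cast]; exact_mod_cast h
  have h2 : LinearIndependent ℝ (fun i => ev (b i)) := linearIndependent_of_det_gram_ne_zero h1
  have h3 : LinearIndependent ℤ (fun i => ev (b i)) := by
    refine h2.restrict_scalars ?_
    intro x y hxy
    simpa using hxy
  exact LinearIndependent.of_comp (ev : (ι → ℤ) →ₗ[ℤ] EuclideanSpace ℝ ι) h3

theorem dsc_span {κ : Type*} [Fintype κ] [DecidableEq κ] {b : κ → ι → ℤ}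
    (hb : LinearIndependent ℤ b) : dsc (Submodule.span ℤ (Set.range b)) = (gm b).det := by
  rw [dsc_eq (Basis.span hb)]
  congr 2
  funext i
  rw [Basis.span_apply]

theorem rk_span {κ : Type*} [Fintype κ] {b : κ → ι → ℤ}
    (hb : LinearIndependent ℤ b) : rk (Submodule.span ℤ (Set.range b)) = Fintype.card κ :=
  rk_eq (Basis.span hb)

theorem span_basis {α : Type*} {F : Submodule ℤ (ι → ℤ)} (a : Basis α ℤ F) :
    Submodule.span ℤ (Set.range (fun i => (a i : ι → ℤ))) = F := by
  have h := a.span_eq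
  have h2 := congrArg (Submodule.map F.subtype) h
  rw [Submodule.map_span, Submodule.map_top, Submodule.range_subtype, ← Set.range_comp] at h2
  exact h2

theorem span_sum_elim {α β : Type*} {F : Submodule ℤ (ι → ℤ)} (a : Basis α ℤ F)
    (c : β → ι → ℤ) : Submodule.span ℤ (Set.range (Sum.elim (fun i => (a i : ι → ℤ)) c)) =
      F ⊔ Submodule.span ℤ (Set.range c) := by
  rw [Set.Sum.elim_range, Submodule.span_union, span_basis]

/-- `dsc (F ⊔ span c)` and its rank, when the relative Gram determinant does not vanish -/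
theorem dsc_sup_span {β : Type*} [Fintype β] [DecidableEq β] (F : Submodule ℤ (ι → ℤ))
    (c : β → ι → ℤ) (h : (gram ℝ (fun j => pr F (ev (c j)))).det ≠ 0) :
    (dsc (F ⊔ Submodule.span ℤ (Set.range c)) : ℝ) =
      dsc F * (gram ℝ (fun j => pr F (ev (c j)))).det ∧
    rk (F ⊔ Submodule.span ℤ (Set.range c)) = rk F + Fintype.card β := by
  classical
  set a := Module.Free.chooseBasis ℤ F
  have h1 := det_gm_sum a c
  have h2 : (gm (Sum.elim (fun i => (a i : ι → ℤ)) c)).det ≠ 0 := by
    intro h0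
    rw [h0, Int.cast_zero] at h1
    have h3 : (0 : ℝ) < dsc F := by exact_mod_cast dsc_pos F
    rcases mul_eq_zero.1 h1.symm with h4 | h4
    · exact h3.ne' h4
    · exact h h4
  have h3 := linearIndependent_of_det_gm_ne_zero h2
  constructor
  · rw [← h1, ← dsc_span h3, span_sum_elim]
  · rw [← span_sum_elim a c, rk_span h3, Fintype.card_sum, ← rk_eq a]

end Crest.Agent.R152.Rel
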