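import Crest.Agent.R152.Base2

set_option autoImplicit false
set_option linter.unusedSectionVars false

/-! Row 152, SPEC part 1: exponential moment of a quadratic form (a contraction) at the half
difference of two independent biased sign vectors. -/

open Crest.FinProb Crest.ProbabilityR.SignMatrix

namespace Crest.Agent.R152.Spec

open Base

section Quad
variable {ι : Type*} [Fintype ι]

/-- bilinear form of a real matrix -/
def Bf (P : ι → ι → ℝ) (x y : ι → ℝ) : ℝ := ∑ i, ∑ j, x i * P i j * y j

/-- quadratic form of a real matrix -/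
def Qf (P : ι → ι → ℝ) (x : ι → ℝ) : ℝ := Bf P x x

theorem Bf_comm {P : ι → ι → ℝ} (h : ∀ i j, P i j = P j i) (x y : ι → ℝ) :
    Bf P x y = Bf P y x := by
  unfold Bf
  rw [Finset.sum_comm]
  refine Finset.sum_congr rfl fun i _ => Finset.sum_congr rfl fun j _ => ?_
  rw [h j i]; ring

theorem Bf_sub_left (P : ι → ι → ℝ) (x y z : ι → ℝ) :
    Bf P (x - y) z = Bf P x z - Bf P y z := by
  unfold Bf
  simp only [Pi.sub_apply, sub_mul, Finset.sum_sub_distrib]

theorem Bf_sub_right (P : ι → ι → ℝ) (x y z : ι → ℝ) :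
    Bf P x (y - z) = Bf P x y - Bf P x z := by
  unfold Bf
  simp only [Pi.sub_apply, mul_sub, Finset.sum_sub_distrib]

theorem Bf_single_left [DecidableEq ι] (P : ι → ι → ℝ) (i : ι) (y : ι → ℝ) :
    Bf P (Pi.single i 1) y = ∑ j, P i j * y j := by
  unfold Bf
  rw [Finset.sum_eq_single i]
  · simp
  · intro b _ hb
    simp [Pi.single_apply, hb]
  · simp

/-- symmetric, `0 ≤ P ≤ I` -/
structure Contr (P : ι → ι → ℝ) : Prop where
  symm : ∀ i j, P i j = P j i
  nonneg : ∀ x, 0 ≤ Qf P x
  le : ∀ x, Qf P x ≤ ∑ i, x i ^ 2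

theorem Contr.col_sq {P : ι → ι → ℝ} (h : Contr P) (i : ι) : ∑ j, P i j ^ 2 ≤ P i i := by
  classical
  have h1 := h.nonneg (Pi.single i 1 - (fun j => P i j))
  have h2 := h.le (fun j => P i j)
  have h3 : Qf P (Pi.single i 1 - (fun j => P i j)) =
      P i i - 2 * (∑ j, P i j ^ 2) + Qf P (fun j => P i j) := by
    unfold Qf
    rw [Bf_sub_left, Bf_sub_right, Bf_sub_right,
      Bf_comm h.symm (fun j => P i j) (Pi.single i 1), Bf_single_left, Bf_single_left]
    have h4 : ∑ j, P i j * (Pi.single i (1:ℝ) : ι → ℝ) j = P i i := by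
      rw [Finset.sum_eq_single i]
      · simp
      · intro b _ hb
        simp [Pi.single_apply, hb]
      · simp
    rw [h4]
    have h5 : ∑ j, P i j * P i j = ∑ j, P i j ^ 2 :=
      Finset.sum_congr rfl fun j _ => by ring
    rw [h5]
    ring
  rw [h3] at h1
  linarith

theorem Contr.diag_nonneg {P : ι → ι → ℝ} (h : Contr P) (i : ι) : 0 ≤ P i i :=
  le_trans (Finset.sum_nonneg fun _ _ => sq_nonneg _) (h.col_sq i)

theorem Contr.diag_le_one {P : ι → ι → ℝ} (h : Contr P) (i : ι) : P i i ≤ 1 := by
  classical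
  have h1 := h.col_sq i
  have h2 : P i i ^ 2 ≤ ∑ j, P i j ^ 2 :=
    Finset.single_le_sum (f := fun j => P i j ^ 2) (fun _ _ => sq_nonneg _) (Finset.mem_univ i)
  have h3 := h.diag_nonneg i
  nlinarith

end Quad

section Opt
variable {α : Type*} [Fintype α]

/-- the half difference of two signs, in `{-1, 0, 1}` -/
noncomputable def hd (a b : Bool) : ℝ := ((sg a : ℝ) - (sg b : ℝ)) / 2

theorem Qf_option (P : Option α → Option α → ℝ) (hs : ∀ i j, P i j = P j i) (x : Option α → ℝ) :
    Qf P x = Qf (fun i j => P (some i) (some j)) (fun i => x (some i)) +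
      2 * x none * (∑ i, P none (some i) * x (some i)) + P none none * x none ^ 2 := by
  unfold Qf Bf
  rw [Fintype.sum_option]
  simp only [Fintype.sum_option]
  rw [Finset.sum_add_distrib]
  have h1 : ∑ i : α, x (some i) * P (some i) none * x none =
      x none * ∑ i, P none (some i) * x (some i) := by
    rw [Finset.mul_sum]
    refine Finset.sum_congr rfl fun i _ => ?_
    rw [hs (some i) none]; ring
  have h2 : ∑ i : α, x none * P none (some i) * x (some i) =
      x none * ∑ i, P none (some i) * x (some i) := by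
    rw [Finset.mul_sum]
    refine Finset.sum_congr rfl fun i _ => ?_
    ring
  rw [h1, h2]
  ring

theorem Qf_rank_one (P : α → α → ℝ) (v : α → ℝ) (c : ℝ) (x : α → ℝ) :
    Qf (fun i j => P i j - c * (v i * v j)) x = Qf P x - c * (∑ i, v i * x i) ^ 2 := by
  unfold Qf Bf
  rw [sq, Finset.sum_mul_sum, Finset.mul_sum, ← Finset.sum_sub_distrib]
  refine Finset.sum_congr rfl fun i _ => ?_
  rw [Finset.mul_sum, ← Finset.sum_sub_distrib]
  refine Finset.sum_congr rfl fun j _ => ?_
  ring

theorem Contr.sub {P : Option α → Option α → ℝ} (h : Contr P) :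
    Contr (fun i j : α => P (some i) (some j)) := by
  refine ⟨fun i j => h.symm _ _, fun x => ?_, fun x => ?_⟩
  · have h1 := h.nonneg (fun o => o.elim 0 x)
    rw [Qf_option P h.symm] at h1
    simpa using h1
  · have h1 := h.le (fun o => o.elim 0 x)
    rw [Qf_option P h.symm, Fintype.sum_option] at h1
    simpa using h1

theorem Contr.schur {P : Option α → Option α → ℝ} (h : Contr P) {l : ℝ} (hl0 : 0 ≤ l)
    (hl1 : l ≤ 1 / 2) :
    Contr (fun i j : α => P (some i) (some j) - 2 * l * (P none (some i) * P none (some j))) := by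
  refine ⟨fun i j => ?_, fun x => ?_, fun x => ?_⟩
  · show P (some i) (some j) - _ = P (some j) (some i) - _
    rw [h.symm (some i) (some j)]; ring
  · rw [Qf_rank_one]
    set s := ∑ i, P none (some i) * x i with hs
    have h1 := h.nonneg (fun o => o.elim (-(2 * l * s)) x)
    rw [Qf_option P h.symm] at h1
    simp only [Option.elim_none, Option.elim_some] at h1
    rw [← hs] at h1
    have h2 := h.diag_le_one none
    have h3 : 0 ≤ (1 - P none none) * (2 * l * s) ^ 2 :=
      mul_nonneg (by linarith) (sq_nonneg _)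
    have h4 : 0 ≤ l * (1 - 2 * l) * s ^ 2 :=
      mul_nonneg (mul_nonneg hl0 (by linarith)) (sq_nonneg _)
    nlinarith
  · rw [Qf_rank_one]
    have h1 := h.sub.le x
    have h2 : 0 ≤ 2 * l * (∑ i, P none (some i) * x i) ^ 2 := by positivity
    linarith

end Opt

theorem exp_le_one_sub_half {s : ℝ} (h0 : 0 ≤ s) (h1 : s ≤ 1) : Real.exp (-s) ≤ 1 - s / 2 := by
  have h2 : Real.exp (-s) ≤ 1 - s + s ^ 2 / 2 := by
    have h3 := Real.abs_exp_sub_one_sub_id_le (x := -s) (by rw [abs_neg, abs_of_nonneg h0]; exact h1)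
    -- |exp x - 1 - x| ≤ x^2 : too weak; use a direct argument
    have h4 : (1 + s + s ^ 2 / 2) ≤ Real.exp s := by
      have := Real.quadratic_le_exp_of_nonneg h0
      linarith
    have h5 : 0 < 1 + s + s ^ 2 / 2 := by positivity
    rw [Real.exp_neg]
    have h6 : (Real.exp s)⁻¹ ≤ (1 + s + s ^ 2 / 2)⁻¹ := inv_anti₀ h5 h4
    refine h6.trans ?_
    rw [inv_le_iff_one_le_mul₀ h5]
    nlinarith [sq_nonneg s, pow_nonneg h0 3, pow_nonneg h0 4]
  nlinarith

theorem cosh_bound (u : ℝ) : Real.exp u + Real.exp (-u) ≤ 2 * Real.exp (u ^ 2 / 2) := by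
  have := Real.cosh_le_exp_half_sq u
  rw [Real.cosh_eq] at this
  linarith

theorem Qf_comp {ι κ : Type*} [Fintype ι] [Fintype κ] (e : ι ≃ κ) (P : κ → κ → ℝ) (x : κ → ℝ) :
    Qf (fun i j => P (e i) (e j)) (x ∘ e) = Qf P x := by
  unfold Qf Bf
  refine Fintype.sum_equiv e _ _ fun i => ?_
  exact Fintype.sum_equiv e _ _ fun j => rfl

theorem Contr.comp {ι κ : Type*} [Fintype ι] [Fintype κ] (e : ι ≃ κ) {P : κ → κ → ℝ}
    (h : Contr P) : Contr (fun i j => P (e i) (e j)) := by
  refine ⟨fun i j => h.symm _ _, fun x => ?_, fun x => ?_⟩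
  · have h1 := h.nonneg (x ∘ e.symm)
    rw [← Qf_comp e] at h1
    simpa [Function.comp_def] using h1
  · have h1 := h.le (x ∘ e.symm)
    rw [← Qf_comp e] at h1
    have h2 : ∑ i, (x ∘ e.symm) i ^ 2 = ∑ i, x i ^ 2 :=
      (Fintype.sum_equiv e _ _ fun i => by simp).symm
    rw [h2] at h1
    simpa [Function.comp_def] using h1

/-- The exponential moment bound. -/
theorem moment (p : ℝ) (hp0 : 0 ≤ p) (hp1 : p ≤ 1) (l : ℝ) (hl0 : 0 ≤ l) (hl1 : l ≤ 1 / 2)
    (ι : Type*) [Fintype ι] [DecidableEq ι] :
    ∀ P : ι → ι → ℝ, Contr P →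
      ex p (fun x : ι → Bool => ex p (fun y : ι → Bool =>
        Real.exp (-(l * Qf P (fun i => hd (x i) (y i)))))) ≤
      Real.exp (-(p * (1 - p) * l / 2 * ∑ i, P i i)) := by
  classical
  revert ι
  intro ι inst1 inst2
  have key := Fintype.induction_empty_option (P := fun (α : Type _) [Fintype α] =>
    ∀ [DecidableEq α], ∀ P : α → α → ℝ, Contr P →
      ex p (fun x : α → Bool => ex p (fun y : α → Bool =>
        Real.exp (-(l * Qf P (fun i => hd (x i) (y i)))))) ≤
      Real.exp (-(p * (1 - p) * l / 2 * ∑ i, P i i))) ?_ ?_ ?_ ι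
  · exact key
  · intro α β _ e IH _ P hP
    letI : Fintype α := Fintype.ofEquiv β e.symm
    letI : DecidableEq α := Classical.decEq α
    have h1 := IH (fun i j => P (e i) (e j)) (hP.comp e)
    have h2 : ∑ i, P (e i) (e i) = ∑ i, P i i := Fintype.sum_equiv e _ _ fun i => rfl
    rw [h2] at h1
    rw [ex_comp e.symm p]
    refine le_trans (le_of_eq ?_) h1
    refine ex_congr p fun x => ?_
    rw [ex_comp e.symm p]
    refine ex_congr p fun y => ?_
    rw [← Qf_comp e]
    simp only [Function.comp_def, Equiv.symm_apply_apply]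
  · intro _ P hP
    have h0 : ∀ x : PEmpty → ℝ, Qf P x = 0 := by
      intro x; unfold Qf Bf; simp
    simp only [h0]
    simp [ex_const]
  · intro α _ IH inst P hP
    letI dα : DecidableEq α := Classical.decEq α
    obtain rfl : inst = (fun a b => Option.instDecidableEq a b) := Subsingleton.elim _ _
    set P' : α → α → ℝ := fun i j => P (some i) (some j) with hP'
    set P'' : α → α → ℝ := fun i j =>
      P (some i) (some j) - 2 * l * (P none (some i) * P none (some j)) with hP''
    set t := P none none with ht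
    set a := p * (1 - p) with ha
    have ha0 : 0 ≤ a := mul_nonneg hp0 (by linarith)
    have ha4 : a ≤ 1 / 4 := by rw [ha]; nlinarith [sq_nonneg (p - 1/2)]
    have ht0 := hP.diag_nonneg none
    have ht1 := hP.diag_le_one none
    have I1 := IH P' hP.sub
    have I2 := IH P'' (hP.schur hl0 hl1)
    -- traces
    have tr0 : ∑ i, P i i = t + ∑ i, P' i i := by rw [Fintype.sum_option]
    have tr2 : ∑ i, P' i i - 2 * l * t ≤ ∑ i, P'' i i := by
      have h1 := hP.col_sq none
      rw [Fintype.sum_option] at h1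
      have h2 : ∑ i, P'' i i = ∑ i, P' i i - 2 * l * ∑ i, P none (some i) ^ 2 := by
        rw [Finset.mul_sum, ← Finset.sum_sub_distrib]
        refine Finset.sum_congr rfl fun i _ => ?_
        simp only [hP', hP'']; ring
      rw [h2]
      have h3 : ∑ i, P none (some i) ^ 2 ≤ t := by nlinarith [sq_nonneg t]
      nlinarith
    set T := ∑ i, P' i i with hT
    -- pointwise bound
    have pt : ∀ x y : α → Bool,
        p * (p * Real.exp (-(l * Qf P (fun o => hd (o.elim true x) (o.elim true y)))) +
          (1 - p) * Real.exp (-(l * Qf P (fun o => hd (o.elim true x) (o.elim false y))))) +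
        (1 - p) * (p * Real.exp (-(l * Qf P (fun o => hd (o.elim false x) (o.elim true y)))) +
          (1 - p) * Real.exp (-(l * Qf P (fun o => hd (o.elim false x) (o.elim false y))))) ≤
        (1 - 2 * a) * Real.exp (-(l * Qf P' (fun i => hd (x i) (y i)))) +
        2 * a * Real.exp (-(l * t)) * Real.exp (-(l * Qf P'' (fun i => hd (x i) (y i)))) := by
      intro x y
      set h : α → ℝ := fun i => hd (x i) (y i) with hh
      set s := ∑ i, P none (some i) * h i with hs
      have q : ∀ c d : Bool, Qf P (fun o => hd (o.elim c x) (o.elim d y)) =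
          Qf P' h + 2 * hd c d * s + t * hd c d ^ 2 := by
        intro c d
        rw [Qf_option P hP.symm]
        simp only [Option.elim_none, Option.elim_some]
        rfl
      rw [q, q, q, q]
      have e1 : hd true true = 0 := by simp [hd]
      have e2 : hd false false = 0 := by simp [hd]
      have e3 : hd true false = 1 := by norm_num [hd, sg]
      have e4 : hd false true = -1 := by norm_num [hd, sg]
      rw [e1, e2, e3, e4]
      have r : Qf P'' h = Qf P' h - 2 * l * s ^ 2 := Qf_rank_one P' _ _ h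
      rw [r]
      have c1 := cosh_bound (2 * l * s)
      have c2 : Real.exp (-(l * (Qf P' h + 2 * 1 * s + t * 1 ^ 2))) =
          Real.exp (-(l * t)) * Real.exp (-(l * Qf P' h)) * Real.exp (-(2 * l * s)) := by
        rw [← Real.exp_add, ← Real.exp_add]; congr 1; ring
      have c3 : Real.exp (-(l * (Qf P' h + 2 * (-1) * s + t * (-1) ^ 2))) =
          Real.exp (-(l * t)) * Real.exp (-(l * Qf P' h)) * Real.exp (2 * l * s) := by
        rw [← Real.exp_add, ← Real.exp_add]; congr 1; ring
      have c4 : Real.exp (-(l * (Qf P' h + 2 * 0 * s + t * 0 ^ 2))) = Real.exp (-(l * Qf P' h)) := by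
        congr 1; ring
      have c5 : Real.exp (-(l * (Qf P' h - 2 * l * s ^ 2))) =
          Real.exp (-(l * Qf P' h)) * Real.exp ((2 * l * s) ^ 2 / 2) := by
        rw [← Real.exp_add]; congr 1; ring
      rw [c2, c3, c4, c5]
      set E0 := Real.exp (-(l * Qf P' h)) with hE0
      have hE0p : 0 < E0 := Real.exp_pos _
      set Et := Real.exp (-(l * t)) with hEt
      have hEtp : 0 < Et := Real.exp_pos _
      have c6 : a * (Et * E0) * (Real.exp (2 * l * s) + Real.exp (-(2 * l * s))) ≤
          a * (Et * E0) * (2 * Real.exp ((2 * l * s) ^ 2 / 2)) :=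
        mul_le_mul_of_nonneg_left c1 (mul_nonneg ha0 (mul_pos hEtp hE0p).le)
      have c7 : p * (p * E0 + (1 - p) * (Et * E0 * Real.exp (-(2 * l * s)))) +
          (1 - p) * (p * (Et * E0 * Real.exp (2 * l * s)) + (1 - p) * E0) =
          (1 - 2 * a) * E0 + a * (Et * E0) * (Real.exp (2 * l * s) + Real.exp (-(2 * l * s))) := by
        rw [ha]; ring
      rw [c7]
      nlinarith
    -- integrate
    have step : ex p (fun x : Option α → Bool => ex p (fun y : Option α → Bool =>
        Real.exp (-(l * Qf P (fun i => hd (x i) (y i)))))) ≤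
        (1 - 2 * a) * Real.exp (-(a * l / 2 * T)) +
        2 * a * Real.exp (-(l * t)) * Real.exp (-(a * l / 2 * (T - 2 * l * t))) := by
      rw [ex_option]
      have s1 : ∀ x : α → Bool,
          p * ex p (fun y : Option α → Bool =>
            Real.exp (-(l * Qf P (fun i => hd (i.elim true x) (y i))))) +
          (1 - p) * ex p (fun y : Option α → Bool =>
            Real.exp (-(l * Qf P (fun i => hd (i.elim false x) (y i))))) ≤
          (1 - 2 * a) * ex p (fun y : α → Bool =>
            Real.exp (-(l * Qf P' (fun i => hd (x i) (y i))))) +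
          2 * a * Real.exp (-(l * t)) * ex p (fun y : α → Bool =>
            Real.exp (-(l * Qf P'' (fun i => hd (x i) (y i))))) := by
        intro x
        rw [ex_option, ex_option, ← ex_smul, ← ex_smul, ← ex_smul, ← ex_smul, ← ex_add, ← ex_add]
        exact ex_mono hp0 hp1 fun y => pt x y
      refine (ex_mono hp0 hp1 s1).trans ?_
      rw [ex_add, ex_smul, ex_smul]
      have b1 : 0 ≤ 1 - 2 * a := by linarith
      have b2 : 0 ≤ 2 * a * Real.exp (-(l * t)) := by positivity
      refine add_le_add (mul_le_mul_of_nonneg_left ?_ b1) (mul_le_mul_of_nonneg_left ?_ b2)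
      · exact I1
      · refine I2.trans (Real.exp_le_exp.mpr ?_)
        have : a * l / 2 * (T - 2 * l * t) ≤ a * l / 2 * ∑ i, P'' i i :=
          mul_le_mul_of_nonneg_left tr2 (by positivity)
        linarith
    refine step.trans ?_
    rw [tr0]
    have f1 : Real.exp (-(a * l / 2 * (T - 2 * l * t))) =
        Real.exp (-(a * l / 2 * T)) * Real.exp (a * l * l * t) := by
      rw [← Real.exp_add]; congr 1; ring
    have f2 : Real.exp (-(a * l / 2 * (t + T))) =
        Real.exp (-(a * l / 2 * T)) * Real.exp (-(a * l / 2 * t)) := by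
      rw [← Real.exp_add]; congr 1; ring
    rw [f1, f2]
    set s := l * t - a * l * l * t with hs
    have g1 : Real.exp (-(l * t)) * Real.exp (a * l * l * t) = Real.exp (-s) := by
      rw [← Real.exp_add]; congr 1; rw [hs]; ring
    have lt0 : 0 ≤ l * t := mul_nonneg hl0 ht0
    have lt1 : l * t ≤ 1 / 2 := by nlinarith
    have al : a * l ≤ 1 / 2 := by nlinarith
    have al0 : 0 ≤ a * l := mul_nonneg ha0 hl0
    have s0 : l * t / 2 ≤ s := by rw [hs]; nlinarith
    have s1 : s ≤ 1 := by
      rw [hs]
      have : 0 ≤ a * l * l * t := by positivity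
      linarith
    have s2 := exp_le_one_sub_half (s := s) (by linarith) s1
    have g2 : (1 - 2 * a) + 2 * a * Real.exp (-s) ≤ Real.exp (-(a * l / 2 * t)) := by
      have g3 : (1 - 2 * a) + 2 * a * Real.exp (-s) ≤ 1 - a * s := by nlinarith
      have g4 : 1 - a * s ≤ 1 - a * l / 2 * t := by nlinarith
      have g5 := Real.add_one_le_exp (-(a * l / 2 * t))
      linarith
    have hE := Real.exp_pos (-(a * l / 2 * T))
    calc (1 - 2 * a) * Real.exp (-(a * l / 2 * T)) +
        2 * a * Real.exp (-(l * t)) * (Real.exp (-(a * l / 2 * T)) * Real.exp (a * l * l * t))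
        = Real.exp (-(a * l / 2 * T)) * ((1 - 2 * a) +
          2 * a * (Real.exp (-(l * t)) * Real.exp (a * l * l * t))) := by ring
      _ ≤ Real.exp (-(a * l / 2 * T)) * Real.exp (-(a * l / 2 * t)) := by
        rw [g1]
        exact mul_le_mul_of_nonneg_left g2 hE.le

end Crest.Agent.R152.Spec
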