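import Crest.Agent.R152.Spec1

set_option autoImplicit false
set_option linter.unusedSectionVars false

/-! Row 152, SPEC part 2: small ball estimate for biased sign vectors; marginals; chains of
independent vectors. -/

open Crest.FinProb Crest.ProbabilityR.SignMatrix

namespace Crest.Agent.R152.Spec

open Base

section Small
variable {ι : Type*} [Fintype ι] [DecidableEq ι]

/-- a sign vector as a real vector -/
noncomputable def sv (x : ι → Bool) : ι → ℝ := fun i => (sg (x i) : ℝ)

/-- an orthonormal family of real vectors (coordinates) -/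
structure ON {κ : Type*} [Fintype κ] (u : κ → ι → ℝ) : Prop where
  norm : ∀ l, ∑ i, u l i ^ 2 = 1
  bessel : ∀ x : ι → ℝ, ∑ l, (∑ i, u l i * x i) ^ 2 ≤ ∑ i, x i ^ 2

theorem ON.contr {κ : Type*} [Fintype κ] {u : κ → ι → ℝ} (h : ON u) :
    Contr (fun i j => ∑ l, u l i * u l j) ∧
      (∀ x, Qf (fun i j => ∑ l, u l i * u l j) x = ∑ l, (∑ i, u l i * x i) ^ 2) := by
  have hq : ∀ x, Qf (fun i j => ∑ l, u l i * u l j) x = ∑ l, (∑ i, u l i * x i) ^ 2 := by
    intro x
    unfold Qf Bf
    have h1 : ∀ i j, x i * (∑ l, u l i * u l j) * x j = ∑ l, (u l i * x i) * (u l j * x j) := by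
      intro i j
      rw [Finset.mul_sum, Finset.sum_mul]
      exact Finset.sum_congr rfl fun l _ => by ring
    simp only [h1]
    have h2 : ∀ l, (∑ i, u l i * x i) ^ 2 = ∑ i, ∑ j, (u l i * x i) * (u l j * x j) := by
      intro l
      rw [sq, Finset.sum_mul_sum]
    simp only [h2]
    rw [Finset.sum_comm' (t' := Finset.univ) (s' := fun _ => Finset.univ) (by simp)]
    rw [Finset.sum_comm]
    have h3 : ∀ i : ι, ∑ j, ∑ l, u l i * x i * (u l j * x j) =
        ∑ l, ∑ j, u l i * x i * (u l j * x j) := fun i => Finset.sum_comm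
    simp only [h3]
    rw [Finset.sum_comm]
  refine ⟨⟨fun i j => ?_, fun x => ?_, fun x => ?_⟩, hq⟩
  · exact Finset.sum_congr rfl fun l _ => by ring
  · rw [hq]; positivity
  · rw [hq]; exact h.bessel x

theorem ON.trace {κ : Type*} [Fintype κ] {u : κ → ι → ℝ} (h : ON u) :
    ∑ i, ∑ l, u l i * u l i = Fintype.card κ := by
  rw [Finset.sum_comm]
  have : ∀ l, ∑ i, u l i * u l i = 1 := by
    intro l
    rw [← h.norm l]
    exact Finset.sum_congr rfl fun i _ => by ring
  simp [this]

/-- Small ball probability. -/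
theorem small_ball {p : ℝ} (hp0 : 0 ≤ p) (hp1 : p ≤ 1) {κ : Type*} [Fintype κ] {u : κ → ι → ℝ}
    (h : ON u) (v : κ → ℝ) (r2 : ℝ) (hr : r2 ≤ p * (1 - p) * Fintype.card κ / 4) :
    bernoulliProb p {x : ι → Bool | ∑ l, (∑ i, u l i * sv x i - v l) ^ 2 ≤ r2} ≤
      Real.exp (-(p * (1 - p) * Fintype.card κ / 16)) := by
  classical
  set a := p * (1 - p) with ha
  set k : ℝ := ((Fintype.card κ : ℕ) : ℝ) with hk
  set E : Set (ι → Bool) := {x : ι → Bool | ∑ l, (∑ i, u l i * sv x i - v l) ^ 2 ≤ r2} with hE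
  obtain ⟨hC, hQ⟩ := h.contr
  have hm := moment p hp0 hp1 (1 / 2) (by norm_num) le_rfl ι _ hC
  rw [h.trace] at hm
  have h1 : bernoulliProb p E * bernoulliProb p E ≤
      ex p (fun x : ι → Bool => ex p (fun y : ι → Bool =>
        Real.exp (r2 / 2) * Real.exp (-(1 / 2 * Qf (fun i j => ∑ l, u l i * u l j)
          (fun i => hd (x i) (y i)))))) := by
    have h2 : bernoulliProb p E * bernoulliProb p E =
        ex p (fun x : ι → Bool => ex p (fun y : ι → Bool =>
          (if x ∈ E then (1:ℝ) else 0) * (if y ∈ E then (1:ℝ) else 0))) := by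
      simp only [ex_smul]
      have : ∀ x : ι → Bool, (if x ∈ E then (1:ℝ) else 0) *
          ex p (fun y : ι → Bool => if y ∈ E then (1:ℝ) else 0) =
          ex p (fun y : ι → Bool => if y ∈ E then (1:ℝ) else 0) * (if x ∈ E then (1:ℝ) else 0) :=
        fun x => mul_comm _ _
      simp only [this, ex_smul]
      rw [prob_eq_ex]
    rw [h2]
    refine ex_mono hp0 hp1 fun x => ex_mono hp0 hp1 fun y => ?_
    by_cases hx : x ∈ E
    · by_cases hy : y ∈ E
      · simp only [hx, hy, if_true, mul_one]
        rw [← Real.exp_add]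
        refine Real.one_le_exp ?_
        rw [hQ]
        have h3 : ∑ l, (∑ i, u l i * hd (x i) (y i)) ^ 2 ≤ r2 := by
          have hx' : ∑ l, (∑ i, u l i * sv x i - v l) ^ 2 ≤ r2 := hx
          have hy' : ∑ l, (∑ i, u l i * sv y i - v l) ^ 2 ≤ r2 := hy
          have h4 : ∑ l, (∑ i, u l i * hd (x i) (y i)) ^ 2 ≤
              (∑ l, (∑ i, u l i * sv x i - v l) ^ 2 + ∑ l, (∑ i, u l i * sv y i - v l) ^ 2) / 2 := by
            rw [← Finset.sum_add_distrib, Finset.sum_div]
            refine Finset.sum_le_sum fun l _ => ?_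
            have h5 : ∑ i, u l i * hd (x i) (y i) =
                ((∑ i, u l i * sv x i - v l) - (∑ i, u l i * sv y i - v l)) / 2 := by
              have h6 : ∑ i, u l i * hd (x i) (y i) =
                  (∑ i, u l i * sv x i - ∑ i, u l i * sv y i) / 2 := by
                rw [← Finset.sum_sub_distrib, Finset.sum_div]
                refine Finset.sum_congr rfl fun i _ => ?_
                simp only [hd, sv]; ring
              rw [h6]; ring
            rw [h5]
            nlinarith [sq_nonneg ((∑ i, u l i * sv x i - v l) + (∑ i, u l i * sv y i - v l))]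
          linarith
        linarith
      · simp only [hy, if_false, mul_zero]; positivity
    · simp only [hx, if_false, zero_mul]; positivity
  simp only [ex_smul] at h1
  have h7 : bernoulliProb p E ^ 2 ≤ Real.exp (-(a * k / 16)) ^ 2 := by
    calc bernoulliProb p E ^ 2 = bernoulliProb p E * bernoulliProb p E := sq _
      _ ≤ _ := h1
      _ ≤ Real.exp (r2 / 2) * Real.exp (-(a * (1 / 2) / 2 * k)) :=
        mul_le_mul_of_nonneg_left hm (Real.exp_pos _).le
      _ = Real.exp (r2 / 2 - a * k / 4) := by rw [← Real.exp_add]; congr 1; ring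
      _ ≤ Real.exp (-(a * k / 16) + -(a * k / 16)) := Real.exp_le_exp.mpr (by linarith)
      _ = Real.exp (-(a * k / 16)) ^ 2 := by rw [Real.exp_add, sq]
  exact le_of_sq_le_sq h7 (Real.exp_pos _).le

end Small

end Crest.Agent.R152.Spec
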