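import Crest.Agent.R152.Spec2

set_option autoImplicit false
set_option linter.unusedSectionVars false

/-! Row 152, SPEC part 3: marginals of independent coins; chains of fresh rows. -/

open Crest.FinProb Crest.ProbabilityR.SignMatrix

namespace Crest.Agent.R152.Spec

open Base

section Marg
variable {κ μ : Type*} [Fintype κ] [DecidableEq κ] [Fintype μ] [DecidableEq μ]

/-- Marginals: the coins picked out by an injection are again independent coins. -/
theorem ex_marg (p : ℝ) {φ : κ → μ} (hφ : Function.Injective φ) (F : (κ → Bool) → ℝ) :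
    ex p (fun b : μ → Bool => F (b ∘ φ)) = ex p F := by
  classical
  let e : κ ⊕ {m // m ∈ (Set.range φ)ᶜ} ≃ μ :=
    (Equiv.sumCongr (Equiv.ofInjective φ hφ) (Equiv.refl _)).trans (Equiv.Set.sumCompl (Set.range φ))
  have he : ∀ k, e (Sum.inl k) = φ k := by
    intro k
    simp [e]
  rw [ex_comp e.symm p, ex_sumType]
  refine ex_congr p fun a => ?_
  have h : ∀ b : {m // m ∈ (Set.range φ)ᶜ} → Bool, ((Sum.elim a b) ∘ e.symm) ∘ φ = a := by
    intro b
    funext k
    simp only [Function.comp_apply]
    rw [← he k, Equiv.symm_apply_apply]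
    rfl
  simp only [h]
  exact ex_const p _

theorem prob_marg (p : ℝ) {φ : κ → μ} (hφ : Function.Injective φ) (E : Set (κ → Bool)) :
    bernoulliProb p {b : μ → Bool | b ∘ φ ∈ E} = bernoulliProb p E := by
  classical
  rw [prob_eq_ex, prob_eq_ex]
  exact ex_marg p hφ (fun ω => if ω ∈ E then 1 else 0)

end Marg

section Chain
variable {R : Type*} [Fintype R] [DecidableEq R]

/-- splitting off the last row -/
def lastRow (L : ℕ) : Fin (L + 1) × R ≃ (Fin L × R) ⊕ R where
  toFun z := if h : z.1.val < L then Sum.inl (⟨z.1.val, h⟩, z.2) else Sum.inr z.2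
  invFun := Sum.elim (fun z => (Fin.castSucc z.1, z.2)) (fun q => (Fin.last L, q))
  left_inv := by
    rintro ⟨i, q⟩
    by_cases h : i.val < L
    · simp only [h, dif_pos, Sum.elim_inl]
      rfl
    · simp only [h, dif_neg, not_false_iff, Sum.elim_inr]
      have : i = Fin.last L := by
        apply Fin.ext
        have := i.isLt
        simp only [Fin.val_last]
        omega
      rw [this]
  right_inv := by
    rintro (⟨i, q⟩ | q)
    · simp
    · simp

theorem lastRow_lt {L : ℕ} (i : ℕ) (h : i < L) (q : R) :
    lastRow L ((⟨i, Nat.lt_succ_of_lt h⟩ : Fin (L + 1)), q) = Sum.inl (⟨i, h⟩, q) := by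
  simp [lastRow, h]

theorem lastRow_last {L : ℕ} (h : L < L + 1) (q : R) :
    lastRow L ((⟨L, h⟩ : Fin (L + 1)), q) = Sum.inr q := by
  simp [lastRow]

/-- the chain event -/
def chainEv (S : (m : ℕ) → (Fin m → R → Bool) → Set (R → Bool)) (L : ℕ) :
    Set (Fin L × R → Bool) :=
  {X | ∀ (l : ℕ) (hl : l < L), (fun q => X (⟨l, hl⟩, q)) ∈
    S l (fun (i : Fin l) q => X (⟨i.val, lt_trans i.isLt hl⟩, q))}

theorem chain {p : ℝ} (hp0 : 0 ≤ p) (hp1 : p ≤ 1) {ρ : ℝ} (hρ : 0 ≤ ρ)
    (S : (m : ℕ) → (Fin m → R → Bool) → Set (R → Bool)) :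
    ∀ L : ℕ, (∀ m < L, ∀ X, bernoulliProb p (S m X) ≤ ρ) →
      bernoulliProb p (chainEv S L) ≤ ρ ^ L := by
  classical
  intro L
  induction L with
  | zero =>
    intro _
    simpa using prob_le_one hp0 hp1 (chainEv S 0)
  | succ L ih =>
    intro hS
    have ih' := ih fun m hm X => hS m (by omega) X
    rw [prob_eq_ex, ex_comp (lastRow L) p, ex_sumType]
    have hstep : ∀ X' : Fin L × R → Bool,
        ex p (fun x : R → Bool => if (Sum.elim X' x) ∘ (lastRow L) ∈ chainEv S (L + 1)
          then (1:ℝ) else 0) ≤ ρ * (if X' ∈ chainEv S L then (1:ℝ) else 0) := by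
      intro X'
      by_cases hX : X' ∈ chainEv S L
      · simp only [hX, if_true, mul_one]
        refine le_trans ?_ (hS L (by omega) (fun i q => X' (i, q)))
        rw [prob_eq_ex]
        refine ex_mono hp0 hp1 fun x => ?_
        by_cases h1 : (Sum.elim X' x) ∘ (lastRow L) ∈ chainEv S (L + 1)
        · have h2 := h1 L (Nat.lt_succ_self L)
          have h3 : (fun q => ((Sum.elim X' x) ∘ (lastRow L)) ((⟨L, Nat.lt_succ_self L⟩ : Fin (L+1)), q))
              = x := by
            funext q
            simp only [Function.comp_apply, lastRow_last, Sum.elim_inr]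
          have h4 : (fun (i : Fin L) q => ((Sum.elim X' x) ∘ (lastRow L))
              ((⟨i.val, lt_trans i.isLt (Nat.lt_succ_self L)⟩ : Fin (L+1)), q)) =
              (fun i q => X' (i, q)) := by
            funext i q
            simp only [Function.comp_apply]
            rw [lastRow_lt i.val i.isLt q]
            rfl
          rw [h3, h4] at h2
          simp [h1, h2]
        · simp only [h1, if_false]
          split_ifs <;> norm_num
      · simp only [hX, if_false, mul_zero]
        refine le_of_eq ?_
        have h1 : ∀ x : R → Bool, (Sum.elim X' x) ∘ (lastRow L) ∉ chainEv S (L + 1) := by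
          intro x h1
          apply hX
          intro l hl
          have h2 := h1 l (by omega)
          have h3 : (fun q => ((Sum.elim X' x) ∘ (lastRow L)) ((⟨l, by omega⟩ : Fin (L+1)), q))
              = (fun q => X' (⟨l, hl⟩, q)) := by
            funext q
            simp only [Function.comp_apply]
            rw [lastRow_lt l hl q]
            rfl
          have h4 : (fun (i : Fin l) q => ((Sum.elim X' x) ∘ (lastRow L))
              ((⟨i.val, lt_trans i.isLt (by omega)⟩ : Fin (L+1)), q)) =
              (fun (i : Fin l) q => X' (⟨i.val, lt_trans i.isLt hl⟩, q)) := by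
            funext i q
            simp only [Function.comp_apply]
            rw [lastRow_lt i.val (lt_trans i.isLt hl) q]
            rfl
          rw [h3, h4] at h2
          exact h2
        simp only [h1, if_false]
        exact ex_const p 0
    refine (ex_mono hp0 hp1 hstep).trans ?_
    rw [ex_smul, ← prob_eq_ex, pow_succ, mul_comm]
    exact mul_le_mul_of_nonneg_right ih' hρ

end Chain

end Crest.Agent.R152.Spec
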