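import Crest.Agent.R152.Spec3

set_option autoImplicit false
set_option linter.unusedSectionVars false

/-! Row 152, SPEC part 4: linear algebra (orthonormal families orthogonal to a subspace, pivots,
pivot sequences). -/

open scoped InnerProductSpace

namespace Crest.Agent.R152.Spec

open Base

section LA
variable {ι : Type*} [Fintype ι] [DecidableEq ι]

/-- the Euclidean vector of a coordinate vector -/
noncomputable def eu (x : ι → ℝ) : EuclideanSpace ℝ ι := WithLp.toLp 2 x

theorem inner_eu (x y : ι → ℝ) : ⟪eu x, eu y⟫_ℝ = ∑ i, x i * y i := by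
  simp [eu, PiLp.inner_apply, mul_comm]

theorem norm_eu (x : ι → ℝ) : ‖eu x‖ ^ 2 = ∑ i, x i ^ 2 := by
  rw [← real_inner_self_eq_norm_sq, inner_eu]
  exact Finset.sum_congr rfl fun i _ => by ring

/-- coordinate subspace of `ι → ℝ` as a subspace of Euclidean space -/
noncomputable def euS (H : Submodule ℝ (ι → ℝ)) : Submodule ℝ (EuclideanSpace ℝ ι) :=
  H.map (WithLp.linearEquiv 2 ℝ (ι → ℝ)).symm.toLinearMap

theorem eu_mem {H : Submodule ℝ (ι → ℝ)} {x : ι → ℝ} (h : x ∈ H) : eu x ∈ euS H :=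
  ⟨x, h, rfl⟩

theorem mem_of_euS {H : Submodule ℝ (ι → ℝ)} {y : EuclideanSpace ℝ ι} (h : y ∈ euS H) :
    y.ofLp ∈ H := by
  obtain ⟨x, hx, rfl⟩ := h
  exact hx

theorem finrank_euS (H : Submodule ℝ (ι → ℝ)) :
    Module.finrank ℝ (euS H) = Module.finrank ℝ H :=
  LinearEquiv.finrank_map_eq _ _

/-- coordinates of an orthonormal family -/
theorem ON_of_orthonormal {κ : Type*} [Fintype κ] {v : κ → EuclideanSpace ℝ ι}
    (hv : Orthonormal ℝ v) : ON (fun l => (v l).ofLp) := by
  have he : ∀ l, eu ((v l).ofLp) = v l := fun l => rfl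
  refine ⟨fun l => ?_, fun x => ?_⟩
  · rw [← norm_eu, he, hv.1 l]; norm_num
  · have h := hv.sum_inner_products_le (s := Finset.univ) (eu x)
    rw [norm_eu] at h
    refine le_trans (le_of_eq ?_) h
    refine Finset.sum_congr rfl fun l _ => ?_
    rw [← he l, inner_eu, Real.norm_eq_abs, sq_abs]
    rfl

/-- an orthonormal family orthogonal to `H` -/
theorem exists_ON (H : Submodule ℝ (ι → ℝ)) (k : ℕ)
    (hk : Module.finrank ℝ H + k ≤ Fintype.card ι) :
    ∃ u : Fin k → ι → ℝ, ON u ∧ ∀ l, ∀ h ∈ H, ∑ i, u l i * h i = 0 := by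
  have h1 := (euS H).finrank_add_finrank_orthogonal
  rw [finrank_euS, finrank_euclideanSpace] at h1
  have h2 : k ≤ Module.finrank ℝ ((euS H)ᗮ : Submodule ℝ (EuclideanSpace ℝ ι)) := by omega
  let b := stdOrthonormalBasis ℝ ((euS H)ᗮ : Submodule ℝ (EuclideanSpace ℝ ι))
  let v : Fin k → EuclideanSpace ℝ ι := fun l => (b (Fin.castLE h2 l) : EuclideanSpace ℝ ι)
  have hv : Orthonormal ℝ v := by
    have hb : Orthonormal ℝ (fun l => ((b l : ((euS H)ᗮ : Submodule ℝ (EuclideanSpace ℝ ι))) :
        EuclideanSpace ℝ ι)) := b.orthonormal.comp_linearIsometry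
          ((euS H)ᗮ : Submodule ℝ (EuclideanSpace ℝ ι)).subtypeₗᵢ
    exact hb.comp _ (Fin.castLE_injective h2)
  refine ⟨fun l => (v l).ofLp, ON_of_orthonormal hv, fun l h hh => ?_⟩
  have h3 := (b (Fin.castLE h2 l)).2
  rw [Submodule.mem_orthogonal'] at h3
  have h4 := h3 (eu h) (eu_mem hh)
  rw [← inner_eu]
  exact h4

/-- a pivot vector in a subspace of dimension at least `m` -/
theorem exists_pivot (V : Submodule ℝ (ι → ℝ)) (m : ℕ) (hm : 0 < m)
    (hV : m ≤ Module.finrank ℝ V) :
    ∃ i, ∃ u ∈ V, u i = 1 ∧ ∑ j, u j ^ 2 ≤ (Fintype.card ι : ℝ) / m := by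
  classical
  set d := Module.finrank ℝ (euS V) with hd
  have hd' : m ≤ d := by rw [hd, finrank_euS]; exact hV
  let b := stdOrthonormalBasis ℝ (euS V)
  let v : Fin d → EuclideanSpace ℝ ι := fun l => (b l : EuclideanSpace ℝ ι)
  have hv : Orthonormal ℝ v := b.orthonormal.comp_linearIsometry (euS V).subtypeₗᵢ
  have hON := ON_of_orthonormal hv
  set w : Fin d → ι → ℝ := fun l => (v l).ofLp with hw
  have hwV : ∀ l, w l ∈ V := fun l => mem_of_euS (b l).2
  set s : ι → ℝ := fun i => ∑ l, w l i ^ 2 with hs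
  have hsum : ∑ i, s i = d := by
    simp only [hs]
    rw [Finset.sum_comm]
    have : ∀ l, ∑ i, w l i ^ 2 = 1 := hON.norm
    simp [this]
  have hex : ∃ i, (d : ℝ) / Fintype.card ι ≤ s i := by
    by_contra hcon
    push Not at hcon
    have hne : Nonempty ι := by
      by_contra hne
      rw [not_nonempty_iff] at hne
      have : ∑ i, s i = 0 := by simp
      rw [this] at hsum
      have : (d : ℝ) ≠ 0 := by
        have : 0 < d := lt_of_lt_of_le hm hd'
        positivity
      exact this hsum.symm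
    have hcard : (0 : ℝ) < Fintype.card ι := by exact_mod_cast Fintype.card_pos
    have h1 : ∑ i, s i < ∑ _i : ι, (d : ℝ) / Fintype.card ι :=
      Finset.sum_lt_sum_of_nonempty Finset.univ_nonempty fun i _ => hcon i
    rw [hsum, Finset.sum_const, Finset.card_univ, nsmul_eq_mul, mul_div_cancel₀ _ hcard.ne'] at h1
    exact lt_irrefl _ h1
  obtain ⟨i, hi⟩ := hex
  have hcard : (0 : ℝ) < Fintype.card ι := by
    have : Nonempty ι := ⟨i⟩
    exact_mod_cast Fintype.card_pos
  have hm' : (0 : ℝ) < m := by exact_mod_cast hm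
  have hmd : (m : ℝ) ≤ d := by exact_mod_cast hd'
  have hsi : (m : ℝ) / Fintype.card ι ≤ s i :=
    le_trans (div_le_div_of_nonneg_right hmd hcard.le) hi
  have hsi0 : 0 < s i := lt_of_lt_of_le (div_pos hm' hcard) hsi
  refine ⟨i, ∑ l, (w l i / s i) • w l, ?_, ?_, ?_⟩
  · exact V.sum_mem fun l _ => V.smul_mem _ (hwV l)
  · rw [Finset.sum_apply]
    have : ∀ l, ((w l i / s i) • w l) i = w l i ^ 2 / s i := by
      intro l
      simp only [Pi.smul_apply, smul_eq_mul]
      ring
    simp only [this]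
    rw [← Finset.sum_div]
    exact div_self hsi0.ne'
  · have h1 : ∑ j, (∑ l, (w l i / s i) • w l) j ^ 2 = 1 / s i := by
      have h2 : eu (∑ l, (w l i / s i) • w l) = ∑ l, (w l i / s i) • v l := by
        simp only [eu, hw]
        ext j
        simp
      rw [← norm_eu, h2]
      rw [← real_inner_self_eq_norm_sq, hv.inner_sum]
      have h3 : ∀ l, (starRingEnd ℝ) (w l i / s i) * (w l i / s i) = w l i ^ 2 / s i ^ 2 := by
        intro l
        simp only [conj_trivial]
        ring
      simp only [h3]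
      rw [← Finset.sum_div]
      have h4 : ∑ l, w l i ^ 2 = s i := rfl
      rw [h4]
      field_simp
    rw [h1]
    rw [div_le_div_iff₀ hsi0 hm']
    have := (div_le_iff₀ hcard).mp hsi
    linarith

theorem finrank_inf_vanish (U : Submodule ℝ (ι → ℝ)) (T : Finset ι) :
    Module.finrank ℝ U ≤ Module.finrank ℝ
      (U ⊓ ⨅ i ∈ T, LinearMap.ker (LinearMap.proj i : (ι → ℝ) →ₗ[ℝ] ℝ) : Submodule ℝ (ι → ℝ)) +
      T.card := by
  classical
  induction T using Finset.induction_on with
  | empty =>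
    have h0 : (⨅ i ∈ (∅ : Finset ι), LinearMap.ker (LinearMap.proj i : (ι → ℝ) →ₗ[ℝ] ℝ)) = ⊤ := by
      simp
    rw [h0, inf_top_eq]
    simp
  | insert a T ha ih =>
    rw [Finset.card_insert_of_notMem ha]
    rw [Finset.iInf_insert]
    set W : Submodule ℝ (ι → ℝ) :=
      U ⊓ ⨅ i ∈ T, LinearMap.ker (LinearMap.proj i : (ι → ℝ) →ₗ[ℝ] ℝ) with hW
    set K : Submodule ℝ (ι → ℝ) := LinearMap.ker (LinearMap.proj a : (ι → ℝ) →ₗ[ℝ] ℝ) with hK
    have h1 : U ⊓ (K ⊓ ⨅ i ∈ T, LinearMap.ker (LinearMap.proj i : (ι → ℝ) →ₗ[ℝ] ℝ)) = W ⊓ K := by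
      rw [hW]
      ac_rfl
    rw [h1]
    have h2 := Submodule.finrank_sup_add_finrank_inf_eq W K
    have h3 : Module.finrank ℝ (W ⊔ K : Submodule ℝ (ι → ℝ)) ≤ Fintype.card ι := by
      have := Submodule.finrank_le (W ⊔ K)
      rwa [Module.finrank_pi] at this
    have h4 : Fintype.card ι ≤ Module.finrank ℝ K + 1 := by
      have h5 := LinearMap.finrank_range_add_finrank_ker (LinearMap.proj a : (ι → ℝ) →ₗ[ℝ] ℝ)
      rw [Module.finrank_pi] at h5
      have h6 : Module.finrank ℝ (LinearMap.range (LinearMap.proj a : (ι → ℝ) →ₗ[ℝ] ℝ)) ≤ 1 := by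
        have := Submodule.finrank_le (LinearMap.range (LinearMap.proj a : (ι → ℝ) →ₗ[ℝ] ℝ))
        simpa using this
      have h7 : Module.finrank ℝ K =
        Module.finrank ℝ (LinearMap.ker (LinearMap.proj a : (ι → ℝ) →ₗ[ℝ] ℝ)) := by rw [hK]
      omega
    omega

/-- pivot sequences -/
theorem exists_pivots (U : Submodule ℝ (ι → ℝ)) (J : Finset ι) (m : ℕ) (hm : 0 < m) :
    ∀ L : ℕ, J.card + L + m ≤ Module.finrank ℝ U + 1 →
      ∃ (i : Fin L → ι) (u : Fin L → ι → ℝ), (∀ l, i l ∉ J) ∧
        (∀ l, u l ∈ U) ∧ (∀ l, ∀ j ∈ J, u l j = 0) ∧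
        (∀ l l', l' < l → u l (i l') = 0) ∧ (∀ l, u l (i l) = 1) ∧
        (∀ l, ∑ j, u l j ^ 2 ≤ (Fintype.card ι : ℝ) / m) := by
  classical
  intro L
  induction L with
  | zero =>
    intro _
    exact ⟨Fin.elim0, Fin.elim0, fun l => l.elim0, fun l => l.elim0, fun l => l.elim0,
      fun l => l.elim0, fun l => l.elim0, fun l => l.elim0⟩
  | succ L ih =>
    intro hL
    obtain ⟨i, u, h1, h2, h3, h4, h5, h6⟩ := ih (by omega)
    set T : Finset ι := J ∪ Finset.univ.image i with hT
    have hTc : T.card ≤ J.card + L := by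
      refine (Finset.card_union_le _ _).trans ?_
      have := Finset.card_image_le (s := (Finset.univ : Finset (Fin L))) (f := i)
      rw [Finset.card_univ, Fintype.card_fin] at this
      omega
    have hV := finrank_inf_vanish U T
    set V : Submodule ℝ (ι → ℝ) :=
      U ⊓ ⨅ i ∈ T, LinearMap.ker (LinearMap.proj i : (ι → ℝ) →ₗ[ℝ] ℝ) with hVdef
    obtain ⟨j, w, hw, hw1, hw2⟩ := exists_pivot V m hm (by omega)
    have hwU : w ∈ U := (Submodule.mem_inf.mp hw).1
    have hwT : ∀ q ∈ T, w q = 0 := by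
      intro q hq
      have := (Submodule.mem_inf.mp hw).2
      rw [Submodule.mem_iInf] at this
      have := this q
      rw [Submodule.mem_iInf] at this
      exact this hq
    have hjT : j ∉ T := by
      intro hj
      have := hwT j hj
      rw [hw1] at this
      exact one_ne_zero this
    refine ⟨Fin.snoc i j, Fin.snoc u w, ?_, ?_, ?_, ?_, ?_, ?_⟩
    · intro l
      refine Fin.lastCases ?_ (fun l => ?_) l
      · rw [Fin.snoc_last]
        exact fun hj => hjT (by rw [hT]; exact Finset.mem_union_left _ hj)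
      · rw [Fin.snoc_castSucc]; exact h1 l
    · intro l
      refine Fin.lastCases ?_ (fun l => ?_) l
      · rw [Fin.snoc_last]; exact hwU
      · rw [Fin.snoc_castSucc]; exact h2 l
    · intro l
      refine Fin.lastCases ?_ (fun l => ?_) l
      · rw [Fin.snoc_last]
        exact fun q hq => hwT q (by rw [hT]; exact Finset.mem_union_left _ hq)
      · rw [Fin.snoc_castSucc]; exact h3 l
    · intro l
      refine Fin.lastCases ?_ (fun l => ?_) l
      · intro l' hl'
        rw [Fin.snoc_last]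
        induction l' using Fin.lastCases with
        | last => exact absurd hl' (lt_irrefl _)
        | cast l' =>
          rw [Fin.snoc_castSucc]
          exact hwT _ (by
            rw [hT]
            exact Finset.mem_union_right _ (Finset.mem_image_of_mem _ (Finset.mem_univ _)))
      · intro l' hl'
        rw [Fin.snoc_castSucc]
        induction l' using Fin.lastCases with
        | last => exact absurd hl' (not_lt.mpr (Fin.le_last _))
        | cast l' =>
          rw [Fin.snoc_castSucc]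
          exact h4 l l' (by simpa using hl')
    · intro l
      refine Fin.lastCases ?_ (fun l => ?_) l
      · rw [Fin.snoc_last, Fin.snoc_last]; exact hw1
      · rw [Fin.snoc_castSucc, Fin.snoc_castSucc]; exact h5 l
    · intro l
      refine Fin.lastCases ?_ (fun l => ?_) l
      · rw [Fin.snoc_last]; exact hw2
      · rw [Fin.snoc_castSucc]; exact h6 l

end LA

end Crest.Agent.R152.Spec
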