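import Crest.Agent.R152.Spec4

set_option autoImplicit false
set_option linter.unusedSectionVars false

/-! Row 152, SPEC part 5: a symmetric sign matrix has no subspace of dimension `4L` on which it is
at most `τ`, outside an event of probability `n^L exp(-a L^2/16)`. -/

open Crest.FinProb Crest.ProbabilityR.SignMatrix

namespace Crest.Agent.R152.Spec

open Base

/-- the real symmetric sign matrix -/
noncomputable def AR {ι : Type*} (b : Sym2 ι → Bool) (i j : ι) : ℝ := (sg (b s(i, j)) : ℝ)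

theorem AR_symm {ι : Type*} (b : Sym2 ι → Bool) (i j : ι) : AR b i j = AR b j i := by
  unfold AR
  rw [Sym2.eq_swap]

section Fixed
variable {R : Type*} [Fintype R] [DecidableEq R] (J' : R → Prop) [DecidablePred J']

/-- the subspace spanned by the columns outside `J'` and the rows revealed so far -/
noncomputable def Hsp (B : Sym2 R → Bool) (m : ℕ) (X : Fin m → R → Bool) :
    Submodule ℝ (R → ℝ) :=
  Submodule.span ℝ (Set.range (Sum.elim (fun (q' : {q : R // ¬ J' q}) (q : R) => AR B q q'.val)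
    (fun (i : Fin m) => sv (X i))))

theorem finrank_Hsp (B : Sym2 R → Bool) (m : ℕ) (X : Fin m → R → Bool) :
    Module.finrank ℝ (Hsp J' B m X) ≤ Fintype.card {q : R // ¬ J' q} + m := by
  unfold Hsp
  refine (finrank_range_le_card _).trans ?_
  rw [Fintype.card_sum, Fintype.card_fin]

/-- the step event -/
def stepEv (B : Sym2 R → Bool) (r2 : ℝ) (m : ℕ) (X : Fin m → R → Bool) : Set (R → Bool) :=
  {x | ∃ h ∈ Hsp J' B m X, ∑ q, (sv x q - h q) ^ 2 ≤ r2}

theorem prob_stepEv {p : ℝ} (hp0 : 0 ≤ p) (hp1 : p ≤ 1) (B : Sym2 R → Bool) (r2 : ℝ) (m : ℕ)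
    (X : Fin m → R → Bool) (k : ℕ) (hk : m + k ≤ Fintype.card {q : R // J' q})
    (hr : r2 ≤ p * (1 - p) * k / 4) :
    bernoulliProb p (stepEv J' B r2 m X) ≤ Real.exp (-(p * (1 - p) * k / 16)) := by
  classical
  have h0 := finrank_Hsp J' B m X
  have hc : Fintype.card {q : R // ¬ J' q} + Fintype.card {q : R // J' q} = Fintype.card R := by
    have := Fintype.card_subtype_compl J'
    have h2 := Fintype.card_subtype_le J'
    omega
  obtain ⟨u, hu, hu0⟩ := exists_ON (Hsp J' B m X) k (by omega)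
  refine le_trans (prob_mono hp0 hp1 ?_)
    (le_trans (small_ball hp0 hp1 hu (fun _ => 0) r2 (by simpa using hr)) (by simp))
  rintro x ⟨h, hh, hx⟩
  simp only [Set.mem_ofPred_eq, sub_zero]
  refine le_trans (le_trans (le_of_eq ?_) (hu.bessel (fun q => sv x q - h q))) hx
  refine Finset.sum_congr rfl fun l _ => ?_
  congr 1
  have : ∑ q, u l q * (sv x q - h q) = ∑ q, u l q * sv x q - ∑ q, u l q * h q := by
    rw [← Finset.sum_sub_distrib]
    exact Finset.sum_congr rfl fun q _ => by ring
  rw [this, hu0 l h hh, sub_zero]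

/-- the whole event for fixed pivots -/
def fixEv (r2 : ℝ) (L : ℕ) : Set (Sym2 R ⊕ (Fin L × R) → Bool) :=
  {c | (fun z => c (Sum.inr z)) ∈ chainEv (stepEv J' (fun s => c (Sum.inl s)) r2) L}

theorem prob_fixEv {p : ℝ} (hp0 : 0 ≤ p) (hp1 : p ≤ 1) (r2 : ℝ) (L : ℕ) (k : ℕ)
    (hk : L + k ≤ Fintype.card {q : R // J' q} + 1) (hr : r2 ≤ p * (1 - p) * k / 4) :
    bernoulliProb p (fixEv J' r2 L) ≤ Real.exp (-(p * (1 - p) * k / 16)) ^ L := by
  classical
  rw [prob_eq_ex, ex_sumType]
  have h1 : ∀ B : Sym2 R → Bool, ex p (fun X : Fin L × R → Bool =>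
      if Sum.elim B X ∈ fixEv J' r2 L then (1:ℝ) else 0) ≤
      Real.exp (-(p * (1 - p) * k / 16)) ^ L := by
    intro B
    refine le_trans (le_of_eq ?_) (chain hp0 hp1 (Real.exp_pos _).le (stepEv J' B r2) L
      fun m hm X => prob_stepEv J' hp0 hp1 B r2 m X k (by omega) hr)
    rw [prob_eq_ex]
    rfl
  refine (ex_mono hp0 hp1 h1).trans ?_
  rw [ex_const]

end Fixed

section Pivots
variable {ι : Type*} [Fintype ι] [DecidableEq ι]

/-- rows not among the pivots -/
abbrev Rs {L : ℕ} (i : Fin L → ι) : Type _ := {q : ι // ∀ l, q ≠ i l}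

/-- the coins of `B` and of the pivot rows -/
def phi {L : ℕ} (i : Fin L → ι) : Sym2 (Rs i) ⊕ (Fin L × Rs i) → Sym2 ι :=
  Sum.elim (Sym2.map Subtype.val) (fun z => s(i (Fin.rev z.1), z.2.val))

theorem phi_injective {L : ℕ} {i : Fin L → ι} (hi : Function.Injective i) :
    Function.Injective (phi i) := by
  refine Function.Injective.sumElim (Sym2.map.injective Subtype.val_injective) ?_ ?_
  · rintro ⟨l, q⟩ ⟨l', q'⟩ h
    simp only [Sym2.eq_iff] at h
    rcases h with ⟨h1, h2⟩ | ⟨h1, h2⟩
    · have h3 := Fin.rev_injective (hi h1)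
      have h4 := Subtype.val_injective h2
      rw [h3, h4]
    · exact absurd h1.symm (q'.2 _)
  · rintro s ⟨l, q⟩ h
    induction s using Sym2.ind with
    | _ x y =>
      simp only [Sym2.map_mk, Sym2.eq_iff] at h
      rcases h with ⟨h1, _⟩ | ⟨_, h2⟩
      · exact x.2 _ h1
      · exact y.2 _ h2

/-- the deterministic heart -/
theorem mem_fixEv (b : Sym2 ι → Bool) (J : Finset ι) (L : ℕ) (i : Fin L → ι)
    (u : Fin L → ι → ℝ) (hi : Function.Injective i)
    (h3 : ∀ l, ∀ j ∈ J, u l j = 0) (h4 : ∀ l l', l' < l → u l (i l') = 0)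
    (h5 : ∀ l, u l (i l) = 1) (r2 : ℝ)
    (h6 : ∀ l, ∑ q, (∑ j, AR b q j * u l j) ^ 2 ≤ r2) :
    b ∘ phi i ∈ fixEv (fun q : Rs i => q.val ∈ J) r2 L := by
  classical
  intro m hm
  set l : Fin L := Fin.rev ⟨m, hm⟩ with hl
  -- the approximating vector
  refine ⟨fun q => sv (fun q : Rs i => b s(i l, q.val)) q - ∑ j, AR b q.val j * u l j, ?_, ?_⟩
  · -- membership
    have hdec : ∀ q : Rs i, ∑ j, AR b q.val j * u l j =
        ∑ l', AR b q.val (i l') * u l (i l') + ∑ q' : Rs i, AR b q.val q'.val * u l q'.val := by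
      intro q
      have e := Finset.sum_filter_add_sum_filter_not (Finset.univ : Finset ι)
        (fun j => ∃ l', j = i l') (fun j => AR b q.val j * u l j)
      rw [← e]
      congr 1
      · have himg : (Finset.univ.filter fun j => ∃ l', j = i l') = Finset.univ.image i := by
          ext j
          simp [eq_comm]
        rw [himg, Finset.sum_image fun x _ y _ h => hi h]
      · rw [← Finset.sum_subtype_eq_sum_filter]
        refine Finset.sum_bij' (fun q' _ => (⟨q'.val, fun l' h => q'.2 ⟨l', h⟩⟩ : Rs i))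
          (fun q' _ => ⟨q'.val, fun ⟨l', h⟩ => q'.2 l' h⟩) ?_ ?_ ?_ ?_ ?_
        · intro a _; exact Finset.mem_univ _
        · intro a _; simp
        · intro a _; rfl
        · intro a _; rfl
        · intro a _; rfl
    have hfun : (fun q : Rs i => sv (fun q : Rs i => b s(i l, q.val)) q -
        ∑ j, AR b q.val j * u l j) =
        -(∑ l' ∈ Finset.univ.filter (fun l' => l < l'), u l (i l') •
          sv (fun q : Rs i => b s(i l', q.val))) -
        ∑ q' : {q : Rs i // ¬ (q.val ∈ J)}, u l q'.val.val • (fun q : Rs i => AR b q.val q'.val.val)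
        := by
      funext q
      simp only [Pi.sub_apply, Pi.neg_apply, Finset.sum_apply, Pi.smul_apply, smul_eq_mul]
      rw [hdec q]
      have e1 : ∑ l', AR b q.val (i l') * u l (i l') =
          sv (fun q : Rs i => b s(i l, q.val)) q + ∑ l' ∈ Finset.univ.filter (fun l' => l < l'),
            u l (i l') * sv (fun q : Rs i => b s(i l', q.val)) q := by
        rw [← Finset.sum_filter_add_sum_filter_not Finset.univ (fun l' => l < l'), add_comm]
        congr 1
        · rw [Finset.sum_eq_single l]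
          · rw [h5, mul_one]
            simp only [AR, sv]
            rw [Sym2.eq_swap]
          · intro l' hl' hne
            simp only [Finset.mem_filter, Finset.mem_univ, true_and, not_lt] at hl'
            rw [h4 l l' (lt_of_le_of_ne hl' hne), mul_zero]
          · intro h
            simp at h
        · refine Finset.sum_congr rfl fun l' _ => ?_
          simp only [AR, sv]
          rw [Sym2.eq_swap]
          ring
      have e2 : ∑ q' : Rs i, AR b q.val q'.val * u l q'.val =
          ∑ q' : {q : Rs i // ¬ (q.val ∈ J)}, u l q'.val.val * AR b q.val q'.val.val := by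
        rw [← Fintype.sum_subtype_add_sum_subtype (fun q' : Rs i => q'.val ∈ J)
          (fun q' : Rs i => AR b q.val q'.val * u l q'.val)]
        have e20 : ∑ q' : {q' : Rs i // q'.val ∈ J}, AR b q.val q'.val.val * u l q'.val.val = 0 :=
          Finset.sum_eq_zero fun q' _ => by rw [h3 l _ q'.2, mul_zero]
        rw [e20, zero_add]
        exact Finset.sum_congr rfl fun q' _ => mul_comm _ _
      rw [e1, e2]
      ring
    rw [hfun]
    refine Submodule.sub_mem _ (Submodule.neg_mem _ (Submodule.sum_mem _ fun l' hl' =>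
      Submodule.smul_mem _ _ (Submodule.subset_span ?_))) (Submodule.sum_mem _ fun q' _ =>
      Submodule.smul_mem _ _ (Submodule.subset_span ⟨Sum.inl q', rfl⟩))
    have hlt : l < l' := by simpa using hl'
    have hv : (Fin.rev l').val < m := by
      have h1 : Fin.rev l' < Fin.rev l := Fin.rev_lt_rev.mpr hlt
      rw [hl, Fin.rev_rev] at h1
      exact h1
    refine ⟨Sum.inr ⟨(Fin.rev l').val, hv⟩, ?_⟩
    have : (fun (q : Rs i) => (b ∘ phi i)
        (Sum.inr ((⟨(Fin.rev l').val, lt_trans hv hm⟩ : Fin L), q))) =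
        (fun q : Rs i => b s(i l', q.val)) := by
      funext q
      simp only [Function.comp_apply, phi, Sum.elim_inr]
      have : (⟨(Fin.rev l').val, lt_trans hv hm⟩ : Fin L) = Fin.rev l' := rfl
      rw [this, Fin.rev_rev]
    rw [← this]
    rfl
  · refine le_trans ?_ (h6 l)
    have e3 : ∀ q : Rs i, (sv (fun q : Rs i => (b ∘ phi i) (Sum.inr (⟨m, hm⟩, q))) q -
        (sv (fun q : Rs i => b s(i l, q.val)) q - ∑ j, AR b q.val j * u l j)) ^ 2 =
        (∑ j, AR b q.val j * u l j) ^ 2 := by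
      intro q
      have : sv (fun q : Rs i => (b ∘ phi i) (Sum.inr (⟨m, hm⟩, q))) q =
          sv (fun q : Rs i => b s(i l, q.val)) q := rfl
      rw [this]
      ring
    simp only [e3]
    rw [← Fintype.sum_subtype_add_sum_subtype (fun q : ι => ∀ l, q ≠ i l)
      (fun q => (∑ j, AR b q j * u l j) ^ 2)]
    have : 0 ≤ ∑ q : {q : ι // ¬ ∀ l, q ≠ i l}, (∑ j, AR b q.val j * u l j) ^ 2 :=
      Finset.sum_nonneg fun q _ => sq_nonneg _
    linarith

theorem card_J {L : ℕ} (i : Fin L → ι) (J : Finset ι) (hJ : ∀ l, i l ∉ J) :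
    Fintype.card {q : Rs i // q.val ∈ J} = J.card := by
  classical
  rw [← Fintype.card_coe]
  refine Fintype.card_congr ⟨fun q => ⟨q.val.val, q.2⟩,
    fun q => ⟨⟨q.val, fun l h => hJ l (h ▸ q.2)⟩, q.2⟩, fun _ => rfl, fun _ => rfl⟩

/-- the event of SPEC -/
def badEv (ι : Type*) [Fintype ι] (L : ℕ) (t2 : ℝ) : Set (Sym2 ι → Bool) :=
  {b | ∃ U : Submodule ℝ (ι → ℝ), 4 * L ≤ Module.finrank ℝ U ∧
    ∀ u ∈ U, ∑ q, (∑ j, AR b q j * u j) ^ 2 ≤ t2 * ∑ j, u j ^ 2}

/-- **SPEC**: outside an event of probability `n^L exp(-a L^2/16)` a symmetric sign matrix is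
larger than `τ` somewhere on every subspace of dimension `4L`, as soon as `τ² n ≤ a L²/4`. -/
theorem spec_main {p : ℝ} (hp0 : 0 ≤ p) (hp1 : p ≤ 1) (L : ℕ) (t2 : ℝ) (ht : 0 ≤ t2)
    (hL : t2 * Fintype.card ι ≤ p * (1 - p) * (L : ℝ) ^ 2 / 4) :
    bernoulliProb p (badEv ι L t2) ≤
      (Fintype.card ι : ℝ) ^ L * Real.exp (-(p * (1 - p) * (L : ℝ) ^ 2 / 16)) := by
  classical
  by_cases hn : 4 * L ≤ Fintype.card ι
  swap
  · have : badEv ι L t2 = ∅ := by
      ext b
      simp only [badEv, Set.mem_ofPred_eq, Set.mem_empty_iff_false, iff_false]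
      rintro ⟨U, hU, -⟩
      have := Submodule.finrank_le U
      rw [Module.finrank_pi] at this
      omega
    rw [this, prob_empty]
    positivity
  obtain ⟨J, -, hJ⟩ := Finset.exists_subset_card_eq (s := (Finset.univ : Finset ι)) (n := 2 * L)
    (by rw [Finset.card_univ]; omega)
  set a := p * (1 - p) with ha
  have ha0 : 0 ≤ a := mul_nonneg hp0 (by linarith)
  set n : ℝ := (Fintype.card ι : ℝ) with hndef
  set r2 : ℝ := t2 * (n / ((L + 1 : ℕ) : ℝ)) with hr2
  have hL1 : (0:ℝ) < ((L + 1 : ℕ) : ℝ) := by positivity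
  have hr : r2 ≤ a * ((L + 1 : ℕ) : ℝ) / 4 := by
    rw [hr2, ← mul_div_assoc, div_le_iff₀ hL1]
    refine hL.trans ?_
    have : (L : ℝ) ^ 2 ≤ ((L + 1 : ℕ) : ℝ) * ((L + 1 : ℕ) : ℝ) := by push_cast; nlinarith
    nlinarith [mul_le_mul_of_nonneg_left this ha0]
  let E : (Fin L → ι) → Set (Sym2 ι → Bool) := fun i =>
    if Function.Injective i ∧ ∀ l, i l ∉ J then
      {b | b ∘ phi i ∈ fixEv (fun q : Rs i => q.val ∈ J) r2 L} else ∅
  have hsub : badEv ι L t2 ⊆ ⋃ i, E i := by
    rintro b ⟨U, hU, hb⟩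
    obtain ⟨i, u, h1, h2, h3, h4, h5, h6⟩ := exists_pivots U J (L + 1) (Nat.succ_pos _) L (by omega)
    have hi : Function.Injective i := by
      intro l l' h
      by_contra hne
      rcases lt_or_gt_of_ne hne with hlt | hlt
      · have := h4 l' l hlt
        rw [h, h5] at this
        exact one_ne_zero this
      · have := h4 l l' hlt
        rw [← h, h5] at this
        exact one_ne_zero this
    refine Set.mem_iUnion.mpr ⟨i, ?_⟩
    simp only [E, hi, h1, not_false_iff, implies_true, and_self, if_true, Set.mem_ofPred_eq]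
    refine mem_fixEv b J L i u hi h3 h4 h5 r2 fun l => (hb (u l) (h2 l)).trans ?_
    exact mul_le_mul_of_nonneg_left (h6 l) ht
  have hE : ∀ i, bernoulliProb p (E i) ≤ Real.exp (-(a * ((L + 1 : ℕ) : ℝ) / 16)) ^ L := by
    intro i
    by_cases hi : Function.Injective i ∧ ∀ l, i l ∉ J
    · simp only [E, hi, not_false_iff, implies_true, and_self, if_true]
      rw [prob_marg p (phi_injective hi.1)]
      exact prob_fixEv _ hp0 hp1 r2 L (L + 1) (by rw [card_J i J hi.2, hJ]; omega) hr
    · simp only [E, hi, if_false, prob_empty]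
      positivity
  refine (prob_mono hp0 hp1 hsub).trans ((prob_iUnion_le hp0 hp1 E).trans ?_)
  refine (Finset.sum_le_sum fun i _ => hE i).trans ?_
  rw [Finset.sum_const, Finset.card_univ, Fintype.card_fun, Fintype.card_fin, nsmul_eq_mul]
  push_cast
  refine mul_le_mul_of_nonneg_left ?_ (by positivity)
  rw [← Real.exp_nat_mul]
  refine Real.exp_le_exp.mpr ?_
  have : (0:ℝ) ≤ L := Nat.cast_nonneg L
  nlinarith [mul_nonneg ha0 this]

end Pivots

end Crest.Agent.R152.Spec
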