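import Crest.Agent.R152.Asm5
import Crest.Agent.R152.Sparse6

set_option autoImplicit false

/-! Row 152: `SPK p` (sparse kernels modulo primes are rare) from the SPARSE module. -/

open Crest.FinProb Crest.ProbabilityR.SignMatrix Crest.Agent.R152.Base

namespace Crest.Agent.R152.Sparse

theorem SPK_holds {p : ℝ} (hp0 : 0 < p) (hp1 : p < 1) : Asm.SPK p := by
  intro ε hε
  obtain ⟨c, hc, n0, h⟩ := sp4 hp0 hp1 ε hε
  refine ⟨c, hc, n0, fun n hn => (prob_mono hp0.le hp1.le ?_).trans (h n hn)⟩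
  rintro w ⟨k, hk, hprim, q, hq, hlt⟩ hD
  exact absurd (hD.prime hk hprim hq) (not_lt.2 hlt.le)

end Crest.Agent.R152.Sparse
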