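import Crest.Agent.R152.WRM8
import Crest.Agent.R152.WRM3f

set_option autoImplicit false

/-!
# Row 152, module TP (helper199), part 1: relative weak reverse Minkowski theorem

For a general positive definite Gram matrix `G` on `Fin m` all of whose sub-determinants are at
least `1 / D`, the integer vectors with `qf G ≤ r` have a small image under a surjective linear map
`T` whose kernel has dimension `k` with `E ^ k ≤ E * D`.
-/

namespace Crest.Agent.R152.TP

open Matrix Module Crest.Agent.R152.WRM Crest.Agent.R152.WRM3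

theorem qf_smul_mat {α : Type*} [Fintype α] (G : Matrix α α ℝ) (c : ℝ) (x : α → ℝ) :
    qf (c • G) x = c * qf G x := by
  unfold qf
  rw [Matrix.smul_mulVec, dotProduct_smul, smul_eq_mul]

theorem gr_smul_mat {α β : Type*} [Fintype α] (c : ℝ) (G : Matrix α α ℝ) (Z : Matrix α β ℤ) :
    gr (c • G) Z = c • gr G Z := by
  unfold gr
  rw [Matrix.mul_smul, Matrix.smul_mul]

theorem det_gr_pos {α β : Type*} [Fintype α] [Fintype β] [DecidableEq β] {G : Matrix α α ℝ}
    (hG : G.PosDef) {Z : Matrix α β ℤ} (h : (gr G Z).det ≠ 0) : 0 < (gr G Z).det :=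
  (gr_posDef hG (inj_of_det_ne h)).det_pos

/-- the columns of a matrix whose first column is `d * U e₀` -/
theorem det_gr_first_col {m k : ℕ} (G : Matrix (Fin (m+1)) (Fin (m+1)) ℝ) (h0 : G 0 0 ≠ 0)
    (W : Matrix (Fin (m+1)) (Fin (k+1)) ℤ) (d : ℤ) (hW0 : W 0 0 = d)
    (hWs : ∀ i : Fin m, W i.succ 0 = 0) :
    (gr G W).det = (d : ℝ) ^ 2 * (G 0 0 *
      (gr (WRM3.schur G) (Matrix.of fun (i : Fin m) (j : Fin k) => W i.succ j.succ)).det) := by
  set t : Fin k → ℤ := fun j => W 0 j.succ with ht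
  set Z' : Matrix (Fin m) (Fin k) ℤ := Matrix.of fun i j => W i.succ j.succ with hZ'
  set Dg : Matrix (Fin (k+1)) (Fin (k+1)) ℤ :=
    Matrix.diagonal (Fin.cons d (fun _ => 1)) with hDg
  have hW : W = ext1 t Z' * Dg := by
    ext i j
    rw [hDg, Matrix.mul_diagonal]
    refine Fin.cases ?_ (fun j => ?_) j
    · refine Fin.cases ?_ (fun i => ?_) i
      · simp [hW0]
      · simp [hWs]
    · refine Fin.cases ?_ (fun i => ?_) i
      · simp [ht]
      · simp [hZ']
  have h1 : (gr G W).det = (Dg.det : ℝ) ^ 2 * (gr G (ext1 t Z')).det := by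
    conv_lhs => rw [hW]
    rw [gr_mul, det_gr]
  have h2 : Dg.det = d := by
    rw [hDg, Matrix.det_diagonal, Fin.prod_univ_succ]
    simp
  have h3 : (gr G (ext1 t Z')).det = G 0 0 * (gr (WRM3.schur G) Z').det := by
    rw [det_schur _ (by rw [gr_ext1_00]; exact h0), gr_ext1_00, schur_gr_ext1 G h0]
  rw [h1, h2, h3]

/-- induction step data: reduction of rank along an approximate minimiser -/
theorem rwrm_aux {n : ℕ} {E : ℝ} (hE : 1 ≤ E) (F : ℝ → ℝ)
    (H : ∀ m ≤ n, ∀ G : Matrix (Fin m) (Fin m) ℝ, G.PosDef → SubDet G → ∀ r : ℝ,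
      {z : Fin m → ℤ | qf G (iv z) ≤ r}.Finite ∧
        ({z : Fin m → ℤ | qf G (iv z) ≤ r}.ncard : ℝ) ≤ F r) :
    ∀ (k m : ℕ), m ≤ n → ∀ G : Matrix (Fin m) (Fin m) ℝ, G.PosDef →
      ∀ Z : Matrix (Fin m) (Fin k) ℤ, (gr G Z).det ≠ 0 →
      (∀ (j : ℕ) (Y : Matrix (Fin m) (Fin j) ℤ), (gr G Y).det ≠ 0 →
        E ^ k * (gr G Z).det ≤ E * (E ^ j * (gr G Y).det)) →
      ∃ (l : ℕ) (T : (Fin m → ℝ) →ₗ[ℝ] (Fin l → ℝ)), Function.Surjective T ∧ l + k = m ∧
        ∀ r : ℝ, ((fun z : Fin m → ℤ => T (iv z)) '' {z | qf G (iv z) ≤ r}).Finite ∧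
          (((fun z : Fin m → ℤ => T (iv z)) '' {z | qf G (iv z) ≤ r}).ncard : ℝ)
            ≤ F (E ^ 2 * r) := by
  have hE0 : 0 < E := by linarith
  intro k
  induction k with
  | zero =>
    intro m hm G hG Z _ hmin
    refine ⟨m, LinearMap.id, fun x => ⟨x, rfl⟩, rfl, fun r => ?_⟩
    have hsub : SubDet (E ^ 2 • G) := by
      rw [subDet_iff]
      intro j Y hY
      rw [gr_smul_mat, Matrix.det_smul, Fintype.card_fin] at hY ⊢
      have hY' : (gr G Y).det ≠ 0 := right_ne_zero_of_mul hY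
      have hpos := det_gr_pos hG hY'
      have h1 := hmin j Y hY'
      rw [pow_zero, one_mul, Matrix.det_isEmpty] at h1
      rcases Nat.eq_zero_or_pos j with rfl | hj
      · simp [Matrix.det_isEmpty]
      · have h2 : (E ^ 2) ^ j = E ^ (j - 1) * (E * E ^ j) := by
          rw [← pow_mul, ← pow_succ', ← pow_add]
          congr 1
          omega
        rw [h2, mul_assoc, mul_assoc]
        have h3 : (1:ℝ) ≤ E ^ (j - 1) := one_le_pow₀ hE
        calc (1:ℝ) = 1 * 1 := by ring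
          _ ≤ E ^ (j - 1) * (E * (E ^ j * (gr G Y).det)) :=
            mul_le_mul h3 h1 zero_le_one (by positivity)
    have hpd : (E ^ 2 • G).PosDef := hG.smul (by positivity)
    obtain ⟨hf, hc⟩ := H m hm _ hpd hsub (E ^ 2 * r)
    have hset : {z : Fin m → ℤ | qf (E ^ 2 • G) (iv z) ≤ E ^ 2 * r} =
        {z : Fin m → ℤ | qf G (iv z) ≤ r} := by
      ext z
      simp only [Set.mem_ofPred_eq, qf_smul_mat]
      exact mul_le_mul_iff_right₀ (by positivity)
    rw [hset] at hf hc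
    refine ⟨hf.image _, le_trans ?_ hc⟩
    exact_mod_cast Set.ncard_image_le hf
  | succ k ih =>
    intro m hm G hG Z hZ hmin
    have hinj := inj_of_det_ne hZ
    have hkm : k + 1 ≤ m := card_le_of_inj hinj
    obtain ⟨m, rfl⟩ : ∃ m', m = m' + 1 := ⟨m - 1, by omega⟩
    set z : Fin (m+1) → ℤ := fun a => Z a 0 with hz
    have hz0 : z ≠ 0 := by
      intro h
      have h1 : (im Z).mulVec (Pi.single 0 1) = (im Z).mulVec 0 := by
        rw [Matrix.mulVec_zero]
        ext a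
        have := congrFun h a
        simp only [hz, Pi.zero_apply] at this
        simp [im, this]
      have h2 := congrFun (hinj h1) 0
      simp at h2
    obtain ⟨U, d, hU, hd, hzU⟩ := exists_primitive z hz0
    set G1 := gr G U with hG1
    have hG1p : G1.PosDef := gr_posDef_unit hG hU
    have h00 : 0 < G1 0 0 := posDef_diag hG1p 0
    have hUinv : U * U⁻¹ = 1 := Matrix.mul_nonsing_inv U hU
    have hinvU : U⁻¹ * U = 1 := Matrix.nonsing_inv_mul U hU
    set W := U⁻¹ * Z with hW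
    have hZW : Z = U * W := by rw [hW, ← Matrix.mul_assoc, hUinv, Matrix.one_mul]
    have hWcol : ∀ i, W i 0 = if i = 0 then d else 0 := by
      intro i
      have h1 : W i 0 = d * (U⁻¹ * U) i 0 := by
        rw [hW, Matrix.mul_apply, Matrix.mul_apply, Finset.mul_sum]
        refine Finset.sum_congr rfl fun a _ => ?_
        have := congrFun hzU a
        simp only [hz] at this
        rw [this]; ring
      rw [h1, hinvU, Matrix.one_apply]
      split_ifs <;> simp
    set Z' : Matrix (Fin m) (Fin k) ℤ := Matrix.of fun i j => W i.succ j.succ with hZ'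
    set G' := WRM3.schur G1 with hG'
    have hG'p : G'.PosDef := schur_posDef hG1p
    have hdet : (gr G Z).det = (d : ℝ) ^ 2 * (G1 0 0 * (gr G' Z').det) := by
      conv_lhs => rw [hZW, gr_mul]
      exact det_gr_first_col G1 h00.ne' W d (by rw [hWcol]; simp)
        (fun i => by rw [hWcol]; simp)
    have hZ'0 : (gr G' Z').det ≠ 0 := by
      intro h
      rw [hdet, h] at hZ
      simp at hZ
    have hZ'pos := det_gr_pos hG'p hZ'0
    have hd2 : (1:ℝ) ≤ (d:ℝ) ^ 2 := by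
      have h1 : 1 ≤ |d| := Int.one_le_abs hd
      have h2 : (1:ℝ) ≤ |(d:ℝ)| := by exact_mod_cast h1
      rw [← sq_abs]; nlinarith
    obtain ⟨l, T', hT's, hl, hT'⟩ := ih m (by omega) G' hG'p Z' hZ'0 (by
      intro j Y hY
      have hYpos := det_gr_pos hG'p hY
      have hY1 : (gr G (U * ext1 0 Y)).det = G1 0 0 * (gr G' Y).det := by
        rw [gr_mul, det_schur _ (by rw [gr_ext1_00]; exact h00.ne'), gr_ext1_00,
          schur_gr_ext1 _ h00.ne']
      have h1 := hmin (j+1) (U * ext1 0 Y) (by rw [hY1]; positivity)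
      rw [hY1, hdet] at h1
      have h2 : E ^ (k+1) * (G1 0 0 * (gr G' Z').det) ≤
          E * (E ^ (j+1) * (G1 0 0 * (gr G' Y).det)) := by
        refine le_trans ?_ h1
        have : 0 ≤ E ^ (k+1) * (G1 0 0 * (gr G' Z').det) := by positivity
        nlinarith
      have h3 : (E * G1 0 0) * (E ^ k * (gr G' Z').det) ≤
          (E * G1 0 0) * (E * (E ^ j * (gr G' Y).det)) := by
        calc (E * G1 0 0) * (E ^ k * (gr G' Z').det)
            = E ^ (k+1) * (G1 0 0 * (gr G' Z').det) := by ring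
          _ ≤ E * (E ^ (j+1) * (G1 0 0 * (gr G' Y).det)) := h2
          _ = (E * G1 0 0) * (E * (E ^ j * (gr G' Y).det)) := by ring
      exact le_of_mul_le_mul_left h3 (by positivity))
    -- the linear map
    set f : (Fin (m+1) → ℝ) →ₗ[ℝ] (Fin m → ℝ) :=
      (LinearMap.funLeft ℝ ℝ Fin.succ).comp (im U⁻¹).mulVecLin with hf
    have hfap : ∀ x i, f x i = (im U⁻¹ *ᵥ x) (Fin.succ i) := by
      intro x i
      rw [hf]
      rfl
    have hfs : Function.Surjective f := by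
      intro y
      refine ⟨im U *ᵥ (Fin.cons 0 y), ?_⟩
      ext i
      rw [hfap, Matrix.mulVec_mulVec, ← WRM3.im_mul, hinvU, WRM3.im_one, Matrix.one_mulVec, Fin.cons_succ]
    refine ⟨l, T'.comp f, hT's.comp hfs, by omega, fun r => ?_⟩
    obtain ⟨hfin, hcard⟩ := hT' r
    have hsub : ((fun z : Fin (m+1) → ℤ => (T'.comp f) (iv z)) '' {z | qf G (iv z) ≤ r}) ⊆
        ((fun z : Fin m → ℤ => T' (iv z)) '' {z | qf G' (iv z) ≤ r}) := by
      rintro _ ⟨x, hx, rfl⟩
      simp only [Set.mem_ofPred_eq] at hx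
      set y : Fin (m+1) → ℤ := U⁻¹ *ᵥ x with hy
      have hxy : iv x = im U *ᵥ iv y := by
        rw [WRM3.im_mulVec_iv, hy, Matrix.mulVec_mulVec, hUinv, Matrix.one_mulVec]
      have hq : qf G1 (iv y) ≤ r := by
        rw [hG1, qf_gr, ← hxy]; exact hx
      refine ⟨fun i => y i.succ, ?_, ?_⟩
      · simp only [Set.mem_ofPred_eq]
        have h1 := qf_cons G1 (posDef_symm hG1p) h00.ne' (iv y)
        have h2 : 0 ≤ G1 0 0 * (iv y 0 + (∑ j : Fin m, G1 0 j.succ * iv y j.succ) / G1 0 0) ^ 2 := by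
          positivity
        have h3 : qf G' (fun j => iv y j.succ) ≤ r := by linarith
        exact h3
      · simp only [LinearMap.comp_apply]
        congr 1
        ext i
        rw [hfap, WRM3.im_mulVec_iv]
        rfl
    refine ⟨hfin.subset hsub, le_trans ?_ hcard⟩
    exact_mod_cast Set.ncard_le_ncard hsub hfin

/-- **relative weak reverse Minkowski theorem** -/
theorem rwrm {δ : ℝ} (hδ : 0 < δ) : ∃ n0 : ℕ, ∀ n : ℕ, n0 ≤ n → 1 ≤ n ∧
    ∀ m ≤ n, ∀ G : Matrix (Fin m) (Fin m) ℝ, G.PosDef → ∀ D E : ℝ, 0 < D → 1 < E →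
      DetGe (1 / D) G →
      ∃ (k l : ℕ) (T : (Fin m → ℝ) →ₗ[ℝ] (Fin l → ℝ)), Function.Surjective T ∧ l + k = m ∧
        E ^ k ≤ E * D ∧
        ∀ r : ℝ, ((fun z : Fin m → ℤ => T (iv z)) '' {z | qf G (iv z) ≤ r}).Finite ∧
          (((fun z : Fin m → ℤ => T (iv z)) '' {z | qf G (iv z) ≤ r}).ncard : ℝ)
            ≤ Real.exp (2 * (n : ℝ) ^ (1 - δ / 4) + Real.pi * (n : ℝ) ^ (2 * δ) * (E ^ 2 * r)) := by
  obtain ⟨n0, h⟩ := wrm hδ
  refine ⟨n0, fun n hn => ?_⟩
  obtain ⟨hn1, h⟩ := h n hn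
  refine ⟨hn1, fun m hm G hG D E hD hE hdet => ?_⟩
  have hE0 : 0 < E := by linarith
  -- approximate minimiser
  set S : Set ℝ := {v | ∃ (k : ℕ) (Z : Matrix (Fin m) (Fin k) ℤ), (gr G Z).det ≠ 0 ∧
    v = E ^ k * (gr G Z).det} with hS
  have hlow : ∀ v ∈ S, 1 / D ≤ v := by
    rintro v ⟨k, Z, hZ, rfl⟩
    have h1 := hdet k Z hZ
    have h2 : (1:ℝ) ≤ E ^ k := one_le_pow₀ hE.le
    have h3 : 0 < 1 / D := by positivity
    nlinarith
  have hne : S.Nonempty := ⟨_, 0, 0, by simp, rfl⟩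
  have hbdd : BddBelow S := ⟨1 / D, hlow⟩
  have hinf : 1 / D ≤ sInf S := le_csInf hne hlow
  have hinf0 : 0 < sInf S := lt_of_lt_of_le (by positivity) hinf
  obtain ⟨v, ⟨k, Z, hZ, rfl⟩, hv⟩ := exists_lt_of_csInf_lt hne
    (show sInf S < E * sInf S by nlinarith)
  have hmin : ∀ (j : ℕ) (Y : Matrix (Fin m) (Fin j) ℤ), (gr G Y).det ≠ 0 →
      E ^ k * (gr G Z).det ≤ E * (E ^ j * (gr G Y).det) := by
    intro j Y hY
    have h1 : sInf S ≤ E ^ j * (gr G Y).det := csInf_le hbdd ⟨j, Y, hY, rfl⟩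
    have h2 : E * sInf S ≤ E * (E ^ j * (gr G Y).det) := by gcongr
    linarith
  obtain ⟨l, T, hTs, hl, hT⟩ := rwrm_aux hE.le
    (fun r => Real.exp (2 * (n : ℝ) ^ (1 - δ / 4) + Real.pi * (n : ℝ) ^ (2 * δ) * r))
    (fun m hm G hG hsub r => h (Fin m) (by simpa using hm) G hG hsub r)
    k m hm G hG Z hZ hmin
  refine ⟨k, l, T, hTs, hl, ?_, hT⟩
  have h0 := hmin 0 (0 : Matrix (Fin m) (Fin 0) ℤ) (by simp)
  have hd0 : (gr G (0 : Matrix (Fin m) (Fin 0) ℤ)).det = 1 := Matrix.det_isEmpty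
  rw [hd0, pow_zero, mul_one, mul_one] at h0
  have h1 := hdet k Z hZ
  have h2 : E ^ k * (1 / D) ≤ E := by
    refine le_trans ?_ h0
    gcongr
  rw [mul_one_div, div_le_iff₀ hD] at h2
  exact h2

end Crest.Agent.R152.TP
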