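import Crest.Agent.R152.TP1

set_option autoImplicit false

/-!
# Row 152, module TP (helper199), part 2: the lattice `A⁻¹ ℤⁿ`

Its Gram matrix is `G = (A⁻¹)ᵀ A⁻¹`; all sub-determinants are at least `1 / (det A)²`.
-/

namespace Crest.Agent.R152.TP

open Matrix Module Crest.Agent.R152.WRM Crest.Agent.R152.WRM3

/-- index of the image of an integer matrix -/
theorem card_quot_range {m : ℕ} (A : Matrix (Fin m) (Fin m) ℤ) (hA : A.det ≠ 0) :
    Nat.card ((Fin m → ℤ) ⧸ LinearMap.range A.mulVecLin) = A.det.natAbs := by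
  have hinj : Function.Injective A.mulVecLin := by
    rw [Matrix.coe_mulVecLin]
    exact Matrix.mulVec_injective_of_det_ne_zero hA
  let e : (Fin m → ℤ) ≃ₗ[ℤ] LinearMap.range A.mulVecLin := LinearEquiv.ofInjective _ hinj
  let bN : Basis (Fin m) ℤ (LinearMap.range A.mulVecLin) := (Pi.basisFun ℤ (Fin m)).map e
  have h := Submodule.natAbs_det_basis_change (Pi.basisFun ℤ (Fin m)) _ bN
  rw [← h, Pi.basisFun_det_apply]
  congr 1
  rw [← Matrix.det_transpose]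
  congr 1
  ext i j
  simp [bN, e, Matrix.transpose_apply]


/-- the Gram matrix of `A⁻¹ ℤᵐ` -/
noncomputable def gi {m : ℕ} (A : Matrix (Fin m) (Fin m) ℤ) : Matrix (Fin m) (Fin m) ℝ :=
  ((im A)⁻¹)ᵀ * (im A)⁻¹

theorem im_det_ne {m : ℕ} {A : Matrix (Fin m) (Fin m) ℤ} (hA : A.det ≠ 0) : (im A).det ≠ 0 := by
  rw [im_det]; exact_mod_cast hA

theorem gi_posDef {m : ℕ} {A : Matrix (Fin m) (Fin m) ℤ} (hA : A.det ≠ 0) : (gi A).PosDef := by
  have h1 : IsUnit (im A).det := isUnit_iff_ne_zero.mpr (im_det_ne hA)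
  have hinj : Function.Injective ((im A)⁻¹).mulVec := by
    rw [Matrix.mulVec_injective_iff_isUnit, Matrix.isUnit_nonsing_inv_iff, Matrix.isUnit_iff_isUnit_det]
    exact h1
  have h2 := (Matrix.PosDef.one (n := Fin m) (R := ℝ)).conjTranspose_mul_mul_same hinj
  simpa [gi, Matrix.conjTranspose_eq_transpose_of_trivial] using h2

theorem qf_gi {m : ℕ} (A : Matrix (Fin m) (Fin m) ℤ) (x : Fin m → ℝ) :
    qf (gi A) x = ∑ i, ((im A)⁻¹ *ᵥ x) i ^ 2 := qf_AtA _ x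

/-- **sub-determinants of `A⁻¹ ℤᵐ`** -/
theorem detGe_gi {m : ℕ} {A : Matrix (Fin m) (Fin m) ℤ} (hA : A.det ≠ 0) :
    DetGe (1 / (A.det : ℝ) ^ 2) (gi A) := by
  intro k Z hZ
  have hdA : 0 < (A.det : ℝ) ^ 2 := by
    have : (A.det : ℝ) ≠ 0 := by exact_mod_cast hA
    positivity
  have hZpos := det_gr_pos (gi_posDef hA) hZ
  set Rg : Submodule ℤ (Fin m → ℤ) := LinearMap.range A.mulVecLin with hRg
  set K : Submodule ℤ (Fin k → ℤ) := Submodule.comap Z.mulVecLin Rg with hK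
  have hcard := card_quot_range A hA
  have hfin : Finite ((Fin m → ℤ) ⧸ Rg) :=
    Nat.finite_of_card_ne_zero (by rw [hcard]; exact Int.natAbs_ne_zero.mpr hA)
  let φ : ((Fin k → ℤ) ⧸ K) →ₗ[ℤ] ((Fin m → ℤ) ⧸ Rg) := Submodule.mapQ K Rg Z.mulVecLin le_rfl
  have hφ : Function.Injective φ := by
    rw [← LinearMap.ker_eq_bot, Submodule.ker_mapQ]
    exact Submodule.mkQ_map_self K
  have hfinK : Finite ((Fin k → ℤ) ⧸ K) := Finite.of_injective φ hφ
  have hcardK : Nat.card ((Fin k → ℤ) ⧸ K) ≤ A.det.natAbs := by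
    rw [← hcard]; exact Nat.card_le_card_of_injective φ hφ
  have hrank : Module.finrank ℤ K = k := by
    rw [(Submodule.finiteQuotient_iff K).mp hfinK]; simp
  let bK : Basis (Fin k) ℤ K := (Module.finBasis ℤ K).reindex (finCongr hrank)
  set P : Matrix (Fin k) (Fin k) ℤ := Matrix.of fun i j => (bK j : Fin k → ℤ) i with hP
  have hPdet : P.det.natAbs = Nat.card ((Fin k → ℤ) ⧸ K) := by
    rw [← Submodule.natAbs_det_basis_change (Pi.basisFun ℤ (Fin k)) K bK, Pi.basisFun_det_apply,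
      ← Matrix.det_transpose]
    rfl
  have hP0 : P.det ≠ 0 := by
    intro h
    have h1 : Nat.card ((Fin k → ℤ) ⧸ K) ≠ 0 := Nat.card_pos.ne'
    rw [← hPdet, h] at h1
    simp at h1
  have hmem : ∀ j, ∃ y : Fin m → ℤ, A *ᵥ y = Z *ᵥ (bK j : Fin k → ℤ) := by
    intro j
    have h1 : Z.mulVecLin (bK j : Fin k → ℤ) ∈ Rg := (bK j).2
    obtain ⟨y, hy⟩ := h1
    exact ⟨y, by simpa using hy⟩
  choose y hy using hmem
  set Y : Matrix (Fin m) (Fin k) ℤ := Matrix.of fun i j => y j i with hY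
  have hZP : Z * P = A * Y := by
    ext i j
    have h1 := congrFun (hy j) i
    simp only [Matrix.mulVec, dotProduct] at h1
    rw [Matrix.mul_apply, Matrix.mul_apply]
    simp only [hP, hY, Matrix.of_apply]
    exact h1.symm
  have hinv : (im A)⁻¹ * im A = 1 :=
    Matrix.nonsing_inv_mul _ (isUnit_iff_ne_zero.mpr (im_det_ne hA))
  have hgr : gr (gi A) (Z * P) = im (Yᵀ * Y) := by
    unfold gr gi
    rw [hZP, WRM3.im_mul, WRM3.im_mul, WRM3.im_transpose]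
    rw [Matrix.transpose_mul]
    have e1 : (im Y)ᵀ * (im A)ᵀ * (((im A)⁻¹)ᵀ * (im A)⁻¹) * (im A * im Y) =
        (im Y)ᵀ * ((im A)⁻¹ * im A)ᵀ * (((im A)⁻¹ * im A) * im Y) := by
      rw [Matrix.transpose_mul]
      simp only [Matrix.mul_assoc]
    rw [e1, hinv]
    simp
  have hdet1 : (gr (gi A) (Z * P)).det = (P.det : ℝ) ^ 2 * (gr (gi A) Z).det := by
    rw [gr_mul, det_gr]
  have hPr : (0:ℝ) < (P.det : ℝ) ^ 2 := by
    have : (P.det : ℝ) ≠ 0 := by exact_mod_cast hP0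
    positivity
  have h1 : (1:ℝ) ≤ (P.det : ℝ) ^ 2 * (gr (gi A) Z).det := by
    rw [← hdet1, hgr, im_det]
    have h2 : (0:ℝ) < ((Yᵀ * Y).det : ℝ) := by
      rw [← im_det, ← hgr, hdet1]; positivity
    have h3 : 0 < (Yᵀ * Y).det := by exact_mod_cast h2
    exact_mod_cast h3
  have h4 : (P.det : ℝ) ^ 2 ≤ (A.det : ℝ) ^ 2 := by
    have h5 : P.det.natAbs ≤ A.det.natAbs := by rw [hPdet]; exact hcardK
    have h6 : |P.det| ≤ |A.det| := by
      rw [Int.abs_eq_natAbs, Int.abs_eq_natAbs]; exact_mod_cast h5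
    have h7 : |(P.det : ℝ)| ≤ |(A.det : ℝ)| := by exact_mod_cast h6
    exact sq_le_sq.mpr h7
  rw [div_le_iff₀ hdA]
  calc (1:ℝ) ≤ (P.det : ℝ) ^ 2 * (gr (gi A) Z).det := h1
    _ ≤ (A.det : ℝ) ^ 2 * (gr (gi A) Z).det := by gcongr
    _ = (gr (gi A) Z).det * (A.det : ℝ) ^ 2 := by ring

end Crest.Agent.R152.TP
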