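import Crest.Agent.R152.TP2
import Crest.Agent.R152.ROD4

set_option autoImplicit false

/-!
# Row 152, module TP (helper199), part 3: counting sign vectors with `A⁻¹ x` bounded
-/

open Crest.FinProb Crest.ProbabilityR.SignMatrix Crest.Agent.R152.Base

namespace Crest.Agent.R152.TP

open Matrix Module Crest.Agent.R152.WRM Crest.Agent.R152.WRM3

theorem half_pow_mul {k n : ℕ} (h : k ≤ n) : ((1/2 : ℝ)) ^ (n - k) * 2 ^ n = 2 ^ k := by
  obtain ⟨j, rfl⟩ := Nat.exists_eq_add_of_le h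
  rw [Nat.add_sub_cancel_left, one_div, inv_pow, pow_add]
  field_simp

/-- a fibre of a linear map contains at most `2 ^ dim ker` sign vectors -/
theorem count_fiber {n l : ℕ} (T : (Fin n → ℝ) →ₗ[ℝ] (Fin l → ℝ)) (y : Fin l → ℝ)
    (s : Finset (Fin n → Bool)) (hs : ∀ x ∈ s, T (fun i => ((sg (x i) : ℤ) : ℝ)) = y) :
    s.card ≤ 2 ^ finrank ℝ (LinearMap.ker T) := by
  classical
  rcases s.eq_empty_or_nonempty with rfl | ⟨x0, hx0⟩
  · simp
  set z0 : Fin n → ℝ := fun i => ((sg (x0 i) : ℤ) : ℝ) with hz0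
  have h1 := ROD.odlyzko_sign (K := ℝ) (p := 1/2) (M := 1/2) (by norm_num) (by norm_num) le_rfl
    (by norm_num) (by norm_num) (by norm_num) (LinearMap.ker T) z0
  have h2 : (s : Set (Fin n → Bool)) ⊆
      {z : Fin n → Bool | (fun i => ((sg (z i) : ℤ) : ℝ)) - z0 ∈ LinearMap.ker T} := by
    intro x hx
    simp only [Set.mem_ofPred_eq, LinearMap.mem_ker, map_sub]
    rw [hs x hx, hs x0 hx0, sub_self]
  have h3 := (prob_mono (by norm_num) (by norm_num) h2).trans h1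
  rw [ROD.prob_half_eq, Fintype.card_fin, div_le_iff₀ (by positivity)] at h3
  have hk : finrank ℝ (LinearMap.ker T) ≤ n := by
    have := Submodule.finrank_le (LinearMap.ker T)
    rwa [Module.finrank_fintype_fun_eq_card, Fintype.card_fin] at this
  rw [half_pow_mul hk] at h3
  exact_mod_cast h3

/-- coordinates of `A⁻¹ x` -/
noncomputable def vv {n : ℕ} (A : Matrix (Fin n) (Fin n) ℤ) (x : Fin n → Bool) : Fin n → ℝ :=
  (im A)⁻¹ *ᵥ (fun i => ((sg (x i) : ℤ) : ℝ))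

theorem im_mul_vv {n : ℕ} {A : Matrix (Fin n) (Fin n) ℤ} (hA : A.det ≠ 0) (x : Fin n → Bool) :
    im A *ᵥ vv A x = fun i => ((sg (x i) : ℤ) : ℝ) := by
  unfold vv
  rw [Matrix.mulVec_mulVec, Matrix.mul_nonsing_inv _ (isUnit_iff_ne_zero.mpr (im_det_ne hA)),
    Matrix.one_mulVec]

theorem sg_sub_sq (a b : Bool) : (((sg a : ℤ) : ℝ) - ((sg b : ℤ) : ℝ)) ^ 2 ≤ 4 := by
  cases a <;> cases b <;> norm_num [sg]

/-- **main count** (deterministic) -/
theorem count_main {δ : ℝ} (hδ : 0 < δ) : ∃ n0 : ℕ, ∀ n : ℕ, n0 ≤ n → 1 ≤ n ∧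
    ∀ A : Matrix (Fin n) (Fin n) ℤ, A.det ≠ 0 →
    ∀ (m : ℕ) (c : Fin m → (Fin n → ℝ) →ₗ[ℝ] ℝ) (t2 : ℝ), 0 < t2 → m ≤ n ^ 2 →
    (∀ l v, (c l v) ^ 2 ≤ ∑ j, v j ^ 2) →
    (∀ v, ∑ j, v j ^ 2 ≤ ∑ l, (c l v) ^ 2 + (∑ q, (im A *ᵥ v) q ^ 2) / t2) →
    ∀ E : ℝ, 1 < E → ∀ (B : ℝ) (K : ℕ), 0 ≤ B → (n : ℝ) ^ 2 * B + 1 ≤ K →
    ∀ s : Finset (Fin n → Bool), (∀ x ∈ s, ∀ i, |vv A x i| ≤ B) →
    ∃ k : ℕ, E ^ k ≤ E * (A.det : ℝ) ^ 2 ∧
      (s.card : ℝ) ≤ ((2 * K + 1 : ℕ) : ℝ) ^ m *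
        Real.exp (2 * (n : ℝ) ^ (1 - δ / 4) +
          Real.pi * (n : ℝ) ^ (2 * δ) * (E ^ 2 * (1 + 4 * n / t2))) * 2 ^ k := by
  classical
  obtain ⟨n0, h⟩ := rwrm hδ
  refine ⟨n0, fun n hn => ?_⟩
  obtain ⟨hn1, h⟩ := h n hn
  refine ⟨hn1, fun A hA m c t2 ht2 hm h2 h1 E hE B K hB hK s hs => ?_⟩
  have hdA : 0 < (A.det : ℝ) ^ 2 := by
    have : (A.det : ℝ) ≠ 0 := by exact_mod_cast hA
    positivity
  obtain ⟨k, l, T, hTs, hlk, hEk, hT⟩ := h n le_rfl (gi A) (gi_posDef hA) _ E hdA hE (detGe_gi hA)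
  refine ⟨k, hEk, ?_⟩
  have hnpos : (0:ℝ) < n := by exact_mod_cast hn1
  have hker : finrank ℝ (LinearMap.ker T) = k := by
    have e1 := T.finrank_range_add_finrank_ker
    rw [LinearMap.range_eq_top.mpr hTs, finrank_top, Module.finrank_fintype_fun_eq_card,
      Module.finrank_fintype_fun_eq_card, Fintype.card_fin, Fintype.card_fin] at e1
    omega
  set r : ℝ := 1 + 4 * n / t2 with hr
  obtain ⟨hfin, hcard⟩ := hT r
  set X : Set (Fin l → ℝ) := (fun z : Fin n → ℤ => T (iv z)) '' {z | qf (gi A) (iv z) ≤ r} with hX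
  set M : ℝ := Real.exp (2 * (n : ℝ) ^ (1 - δ / 4) +
          Real.pi * (n : ℝ) ^ (2 * δ) * (E ^ 2 * r)) with hM
  -- cells
  let cell : (Fin n → Bool) → (Fin m → ℤ) := fun x l => ⌊(n : ℝ) * c l (vv A x)⌋
  have hcell : ∀ x ∈ s, cell x ∈ Fintype.piFinset (fun _ : Fin m => Finset.Icc (-(K : ℤ)) K) := by
    intro x hx
    rw [Fintype.mem_piFinset]
    intro l
    have e1 : (c l (vv A x)) ^ 2 ≤ (n * B) ^ 2 := by
      refine (h2 l _).trans ?_
      calc ∑ j, vv A x j ^ 2 ≤ ∑ _j : Fin n, B ^ 2 := by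
            refine Finset.sum_le_sum fun j _ => ?_
            rw [← sq_abs]
            exact pow_le_pow_left₀ (abs_nonneg _) (hs x hx j) 2
        _ = n * B ^ 2 := by simp
        _ ≤ (n * B) ^ 2 := by
            rw [mul_pow]
            have : (1:ℝ) ≤ n := by exact_mod_cast hn1
            have h4 : (n:ℝ) ≤ n ^ 2 := by nlinarith
            exact mul_le_mul_of_nonneg_right h4 (sq_nonneg B)
    have e2 : |c l (vv A x)| ≤ n * B := by
      apply abs_le_of_sq_le_sq e1 (by positivity) 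
    have e3 : |(n : ℝ) * c l (vv A x)| ≤ n ^ 2 * B := by
      rw [abs_mul, abs_of_pos hnpos]
      calc (n:ℝ) * |c l (vv A x)| ≤ n * (n * B) := by gcongr
        _ = n ^ 2 * B := by ring
    obtain ⟨e4, e5⟩ := abs_le.mp e3
    rw [Finset.mem_Icc]
    constructor
    · have e6 := Int.lt_floor_add_one ((n : ℝ) * c l (vv A x))
      have e7 : (-(K:ℝ)) ≤ (⌊(n : ℝ) * c l (vv A x)⌋ : ℝ) := by linarith
      have : ((-(K:ℤ) : ℤ) : ℝ) ≤ ((⌊(n : ℝ) * c l (vv A x)⌋ : ℤ) : ℝ) := by push_cast; linarith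
      exact_mod_cast this
    · have e6 := Int.floor_le ((n : ℝ) * c l (vv A x))
      have : ((⌊(n : ℝ) * c l (vv A x)⌋ : ℤ) : ℝ) ≤ ((K:ℤ) : ℝ) := by push_cast; linarith
      exact_mod_cast this
  -- distances in a cell
  have hdist : ∀ x ∈ s, ∀ x' ∈ s, cell x = cell x' →
      qf (gi A) (iv (fun i => sg (x i) - sg (x' i))) ≤ r := by
    intro x hx x' hx' hcc
    have e0 : iv (fun i => sg (x i) - sg (x' i)) =
        (fun i => ((sg (x i) : ℤ) : ℝ)) - (fun i => ((sg (x' i) : ℤ) : ℝ)) := by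
      ext i; simp [iv]
    rw [qf_gi, e0, Matrix.mulVec_sub]
    change ∑ i, ((vv A x - vv A x') i) ^ 2 ≤ r
    refine (h1 _).trans ?_
    rw [hr]
    have e1 : ∑ l, (c l (vv A x - vv A x')) ^ 2 ≤ 1 := by
      have e2 : ∀ l, (c l (vv A x - vv A x')) ^ 2 ≤ 1 / (n:ℝ) ^ 2 := by
        intro l
        have e3 : cell x l = cell x' l := congrFun hcc l
        have e4 : |(n : ℝ) * c l (vv A x) - (n : ℝ) * c l (vv A x')| < 1 :=
          Int.abs_sub_lt_one_of_floor_eq_floor e3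
        rw [← mul_sub, ← map_sub, abs_mul, abs_of_pos hnpos] at e4
        rw [le_div_iff₀ (by positivity), ← sq_abs, ← mul_pow]
        have e5 : 0 ≤ |c l (vv A x - vv A x')| * n := by positivity
        have e6 : |c l (vv A x - vv A x')| * n ≤ 1 := by rw [mul_comm]; exact e4.le
        nlinarith
      calc ∑ l, (c l (vv A x - vv A x')) ^ 2 ≤ ∑ _l : Fin m, 1 / (n:ℝ) ^ 2 :=
            Finset.sum_le_sum fun l _ => e2 l
        _ = m / (n:ℝ) ^ 2 := by simp [div_eq_mul_inv]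
        _ ≤ 1 := by
            rw [div_le_one (by positivity)]
            exact_mod_cast hm
    have e2 : (∑ q, (im A *ᵥ (vv A x - vv A x')) q ^ 2) ≤ 4 * n := by
      rw [Matrix.mulVec_sub, im_mul_vv hA, im_mul_vv hA]
      calc ∑ q, (((fun i => ((sg (x i) : ℤ) : ℝ)) - (fun i => ((sg (x' i) : ℤ) : ℝ))) q) ^ 2
          ≤ ∑ _q : Fin n, (4:ℝ) := Finset.sum_le_sum fun q _ => sg_sub_sq _ _
        _ = 4 * n := by simp [mul_comm]
    have e3 : (∑ q, (im A *ᵥ (vv A x - vv A x')) q ^ 2) / t2 ≤ 4 * n / t2 := by gcongr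
    linarith
  -- one cell
  have hone : ∀ a : Fin m → ℤ, ((s.filter fun x => cell x = a).card : ℝ) ≤ M * 2 ^ k := by
    intro a
    set sa := s.filter fun x => cell x = a with hsa
    rcases sa.eq_empty_or_nonempty with he | ⟨x0, hx0⟩
    · rw [he]; simp; positivity
    have hx0' := Finset.mem_filter.mp hx0
    let f : (Fin n → Bool) → (Fin l → ℝ) := fun x => T (fun i => ((sg (x i) : ℤ) : ℝ))
    have hfib : ∀ y ∈ sa.image f, (sa.filter fun x => f x = y).card ≤ 2 ^ k := by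
      intro y _
      rw [← hker]
      exact count_fiber T y _ fun x hx => (Finset.mem_filter.mp hx).2
    have hc1 : sa.card ≤ 2 ^ k * (sa.image f).card :=
      Finset.card_le_mul_card_image sa (2 ^ k) hfib
    have himg : ((sa.image f).card : ℝ) ≤ M := by
      refine le_trans ?_ hcard
      have hsub : ((sa.image f : Finset (Fin l → ℝ)) : Set (Fin l → ℝ)) ⊆
          (fun y => y + f x0) '' X := by
        intro y hy
        rw [Finset.mem_coe, Finset.mem_image] at hy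
        obtain ⟨x, hx, rfl⟩ := hy
        have hx' := Finset.mem_filter.mp hx
        refine ⟨T (iv (fun i => sg (x i) - sg (x0 i))), ⟨_, ?_, rfl⟩, ?_⟩
        · exact hdist x hx'.1 x0 hx0'.1 (by rw [hx'.2, hx0'.2])
        · change T (iv (fun i => sg (x i) - sg (x0 i))) + f x0 = f x
          have e0 : iv (fun i => sg (x i) - sg (x0 i)) =
              (fun i => ((sg (x i) : ℤ) : ℝ)) - (fun i => ((sg (x0 i) : ℤ) : ℝ)) := by
            ext i; simp [iv]
          rw [e0, map_sub]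
          exact sub_add_cancel _ _
      have e1 : (sa.image f).card ≤ X.ncard := by
        rw [← Set.ncard_coe_finset]
        refine (Set.ncard_le_ncard hsub (hfin.image _)).trans ?_
        exact Set.ncard_image_le hfin
      exact_mod_cast e1
    calc ((sa.card : ℕ) : ℝ) ≤ ((2 ^ k * (sa.image f).card : ℕ) : ℝ) := by exact_mod_cast hc1
      _ = (sa.image f).card * 2 ^ k := by push_cast; ring
      _ ≤ M * 2 ^ k := by gcongr
  -- sum over the cells
  have hsum : s.card = ∑ a ∈ s.image cell, (s.filter fun x => cell x = a).card :=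
    Finset.card_eq_sum_card_image cell s
  have hcells : ((s.image cell).card : ℝ) ≤ ((2 * K + 1 : ℕ) : ℝ) ^ m := by
    have e1 : s.image cell ⊆ Fintype.piFinset (fun _ : Fin m => Finset.Icc (-(K : ℤ)) K) := by
      intro y hy
      obtain ⟨x, hx, rfl⟩ := Finset.mem_image.mp hy
      exact hcell x hx
    have e2 := Finset.card_le_card e1
    rw [Fintype.card_piFinset, Finset.prod_const, Finset.card_univ, Fintype.card_fin,
      Int.card_Icc] at e2
    have e3 : ((K:ℤ) + 1 - -(K:ℤ)).toNat = 2 * K + 1 := by omega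
    rw [e3] at e2
    exact_mod_cast e2
  rw [hsum]
  push_cast
  calc ∑ a ∈ s.image cell, ((s.filter fun x => cell x = a).card : ℝ)
      ≤ ∑ _a ∈ s.image cell, M * 2 ^ k := Finset.sum_le_sum fun a _ => hone a
    _ = (s.image cell).card * (M * 2 ^ k) := by simp
    _ ≤ ((2 * K + 1 : ℕ) : ℝ) ^ m * (M * 2 ^ k) := by gcongr
    _ = _ := by push_cast; ring

end Crest.Agent.R152.TP
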