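import Mathlib
import Crest.Agent.R152.TopP

set_option autoImplicit false
set_option linter.unusedSectionVars false

/-! Row 152, module TOP, part T: all but boundedly many rows are typical. -/

open Crest.FinProb Crest.ProbabilityR.SignMatrix

namespace Crest.Agent.R152.TopT

open Crest.Agent.R152.Base Crest.Agent.R152.Top

/-- the coins of row `i` off the diagonal -/
def rowc {n : ℕ} (w : Sym2 (Fin (n+1)) → Bool) (i : Fin (n+1)) : Fin n → Bool :=
  fun j => w s(i, i.succAbove j)

/-- the pairs (row in `T`, column outside `T`) are different coins -/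
theorem pair_inj {N : ℕ} (T : Finset (Fin N)) :
    Function.Injective (fun x : {i // i ∈ T} × {j // j ∉ T} => s((x.1 : Fin N), (x.2 : Fin N))) := by
  rintro ⟨⟨a, ha⟩, ⟨b, hb⟩⟩ ⟨⟨c, hc⟩, ⟨d, hd⟩⟩ h
  simp only [Sym2.eq_iff] at h
  rcases h with ⟨h1, h2⟩ | ⟨h1, h2⟩
  · subst h1; subst h2; rfl
  · subst h1; exact absurd ha hd

/-- restricting a row to fewer columns increases the weight -/
theorem weight_rowc_le {n : ℕ} {p : ℝ} (hp0 : 0 ≤ p) (hp1 : p ≤ 1)
    (w : Sym2 (Fin (n+1)) → Bool) (T : Finset (Fin (n+1))) {i : Fin (n+1)} (hi : i ∈ T) :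
    bernoulliWeight p (rowc w i) ≤
      bernoulliWeight p (fun j : {j // j ∉ T} => w s(i, (j : Fin (n+1)))) := by
  classical
  set f : Fin (n+1) → ℝ := fun j => if w s(i, j) then p else 1 - p with hf
  have hf0 : ∀ j, 0 ≤ f j := by intro j; simp only [hf]; split_ifs <;> linarith
  have hf1 : ∀ j, f j ≤ 1 := by intro j; simp only [hf]; split_ifs <;> linarith
  have h1 : bernoulliWeight p (rowc w i) = ∏ j ∈ Finset.univ.erase i, f j := by
    unfold bernoulliWeight rowc
    have h2 : ∏ j ∈ Finset.univ.erase i, f j = ∏ j ∈ Finset.univ.image i.succAbove, f j := by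
      congr 1
      ext j
      simp only [Finset.mem_erase, Finset.mem_univ, and_true, Finset.mem_image, true_and]
      constructor
      · intro h; exact Fin.exists_succAbove_eq h
      · rintro ⟨k, rfl⟩; exact Fin.succAbove_ne i k
    rw [h2, Finset.prod_image (fun a _ b _ h => Fin.succAbove_right_injective h)]
  have h3 : bernoulliWeight p (fun j : {j // j ∉ T} => w s(i, (j : Fin (n+1)))) =
      ∏ j ∈ Tᶜ, f j := by
    unfold bernoulliWeight
    exact (Finset.prod_subtype Tᶜ (fun x => by simp) f).symm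
  rw [h1, h3]
  refine Finset.prod_le_prod_of_subset_of_le_one ?_ (fun j _ => hf0 j) (fun j _ _ => hf1 j)
  intro j hj
  simp only [Finset.mem_compl] at hj
  simp only [Finset.mem_erase, Finset.mem_univ, and_true]
  rintro rfl
  exact hj hi

/-- one fixed set of rows -/
theorem prob_T {n : ℕ} {p t : ℝ} (hp0 : 0 ≤ p) (hp1 : p ≤ 1) (ht : 0 < t)
    (T : Finset (Fin (n+1))) :
    bernoulliProb p {w : Sym2 (Fin (n+1)) → Bool | ∀ i ∈ T, t < bernoulliWeight p (rowc w i)} ≤
      (rate p ^ (n + 1 - T.card) / t) ^ T.card := by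
  classical
  let g : {i // i ∈ T} × {j // j ∉ T} → Sym2 (Fin (n+1)) := fun x => s((x.1 : Fin (n+1)), (x.2 : Fin (n+1)))
  have hg : Function.Injective g := pair_inj T
  let V : {i // i ∈ T} → Set ({j // j ∉ T} → Bool) := fun _ => {x | t ≤ bernoulliWeight p x}
  have hV : ∀ j, bernoulliProb p (V j) ≤ rate p ^ (n + 1 - T.card) / t := by
    intro j
    have h1 := markov hp0 hp1 (F := fun x : {j // j ∉ T} → Bool => bernoulliWeight p x)
      (fun x => weight_nonneg hp0 hp1 x) ht
    rw [ex_weight] at h1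
    have h2 : Fintype.card {j // j ∉ T} = n + 1 - T.card := by
      simp
    rw [h2] at h1
    exact h1
  have h3 := prob_rows hp0 hp1 V hV
  have h4 := prob_inj hg p {ω : {i // i ∈ T} × {j // j ∉ T} → Bool | ∀ j, (fun t => ω (j, t)) ∈ V j}
  rw [← h4] at h3
  have h5 : Fintype.card {i // i ∈ T} = T.card := by simp
  rw [h5] at h3
  refine le_trans (prob_mono hp0 hp1 ?_) h3
  intro w hw i
  have h6 := (hw i i.2).le
  exact h6.trans (weight_rowc_le hp0 hp1 w T i.2)

open Classical in
/-- **All but boundedly many rows are typical.** -/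
theorem typ {p th : ℝ} (hp0 : 0 < p) (hp1 : p < 1) (hth : rate p < th) :
    ∃ K : ℕ, ∃ n0 : ℕ, ∀ n ≥ n0,
      bernoulliProb p {w : Sym2 (Fin (n+1)) → Bool |
        K ≤ (Finset.univ.filter (fun i => th ^ n < bernoulliWeight p (rowc w i))).card} ≤
        (1/4 : ℝ) ^ n := by
  have hr := rate_pos p
  have hth0 : 0 < th := hr.trans hth
  have hx0 : 0 < rate p / th := div_pos hr hth0
  have hx1 : rate p / th < 1 := (div_lt_one hth0).2 hth
  obtain ⟨K, hK⟩ := exists_pow_lt_of_lt_one (show (0:ℝ) < 1/8 by norm_num) hx1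
  -- the polynomial factor
  have hpoly : ∀ᶠ n : ℕ in Filter.atTop, ((n:ℝ) + 1) ^ K * (rate p ^ K)⁻¹ ^ K ≤ 2 ^ n := by
    set c : ℝ := (rate p ^ K)⁻¹ ^ K with hc
    have hc0 : 0 < c := by positivity
    have h1 := (tendsto_pow_const_div_const_pow_of_one_lt K (show (1:ℝ) < 2 by norm_num)).comp
      (Filter.tendsto_add_atTop_nat 1)
    have h2 := h1.eventually (ge_mem_nhds (show (0:ℝ) < 1 / (2 * c) by positivity))
    filter_upwards [h2] with n hn
    simp only [Function.comp_apply] at hn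
    push_cast at hn
    rw [div_le_div_iff₀ (by positivity) (by positivity)] at hn
    rw [pow_succ] at hn
    nlinarith [hn]
  obtain ⟨n0, hn0⟩ := Filter.eventually_atTop.1 hpoly
  refine ⟨K, max n0 K, fun n hn => ?_⟩
  have hn1 : n0 ≤ n := (le_max_left _ _).trans hn
  have hn2 : K ≤ n := (le_max_right _ _).trans hn
  have hcov : {w : Sym2 (Fin (n+1)) → Bool |
        K ≤ (Finset.univ.filter (fun i => th ^ n < bernoulliWeight p (rowc w i))).card} ⊆
      ⋃ T ∈ Finset.powersetCard K (Finset.univ : Finset (Fin (n+1))),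
        {w : Sym2 (Fin (n+1)) → Bool | ∀ i ∈ T, th ^ n < bernoulliWeight p (rowc w i)} := by
    intro w hw
    obtain ⟨T, hT1, hT2⟩ := Finset.exists_subset_card_eq hw
    simp only [Set.mem_iUnion]
    refine ⟨T, by simp [Finset.mem_powersetCard, hT2], ?_⟩
    intro i hi
    have := hT1 hi
    simpa using this
  refine (prob_mono hp0.le hp1.le hcov).trans ((prob_biUnion_le hp0.le hp1.le _ _).trans ?_)
  have hone : ∀ T ∈ Finset.powersetCard K (Finset.univ : Finset (Fin (n+1))),
      bernoulliProb p {w : Sym2 (Fin (n+1)) → Bool |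
        ∀ i ∈ T, th ^ n < bernoulliWeight p (rowc w i)} ≤
        (rate p ^ (n + 1 - K) / th ^ n) ^ K := by
    intro T hT
    have hc : T.card = K := (Finset.mem_powersetCard.1 hT).2
    have := prob_T hp0.le hp1.le (pow_pos hth0 n) T
    rwa [hc] at this
  refine (Finset.sum_le_sum hone).trans ?_
  rw [Finset.sum_const, Finset.card_powersetCard, Finset.card_univ, Fintype.card_fin, nsmul_eq_mul]
  have hch : ((n+1).choose K : ℝ) ≤ ((n:ℝ) + 1) ^ K := by
    have := Nat.choose_le_pow (n+1) K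
    exact_mod_cast this
  have hrr : rate p ^ (n + 1 - K) / th ^ n ≤ (rate p ^ K)⁻¹ * (rate p / th) ^ n := by
    have h1 : rate p ^ (n + 1 - K) ≤ (rate p ^ K)⁻¹ * rate p ^ n := by
      rw [le_inv_mul_iff₀ (pow_pos hr K), ← pow_add]
      refine pow_le_pow_of_le_one hr.le (rate_le_one hp0.le hp1.le) (by omega)
    rw [div_pow, ← mul_div_assoc]
    exact div_le_div_of_nonneg_right h1 (pow_pos hth0 n).le
  have hpos : 0 ≤ rate p ^ (n + 1 - K) / th ^ n := by positivity
  calc ((n+1).choose K : ℝ) * (rate p ^ (n + 1 - K) / th ^ n) ^ K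
      ≤ ((n:ℝ) + 1) ^ K * ((rate p ^ K)⁻¹ * (rate p / th) ^ n) ^ K := by
        refine mul_le_mul hch (pow_le_pow_left₀ hpos hrr K) (by positivity) (by positivity)
    _ = (((n:ℝ) + 1) ^ K * (rate p ^ K)⁻¹ ^ K) * ((rate p / th) ^ K) ^ n := by
        rw [mul_pow, ← pow_mul, ← pow_mul (rate p / th), mul_comm n K]; ring
    _ ≤ 2 ^ n * (1/8) ^ n := by
        refine mul_le_mul (hn0 n hn1) (pow_le_pow_left₀ (by positivity) hK.le n) (by positivity) (by positivity)
    _ = (1/4) ^ n := by rw [← mul_pow]; norm_num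

end Crest.Agent.R152.TopT

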