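import Mathlib
import Crest.Agent.R152.TopX2
import Crest.Agent.R152.Asm5

set_option autoImplicit false
set_option linter.unusedSectionVars false

/-! Row 152, module TOP, part X3: the top assembly applied to `Asm.H_holds`. -/

open Crest.FinProb Crest.ProbabilityR.SignMatrix Filter

namespace Crest.Agent.R152.Top

open Crest.Agent.R152.Base Crest.Agent.R152.Asm Crest.Agent.R152.Crk

/-- **Top assembly**, with the hypothesis in the form of `Asm.H_holds`. -/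
theorem top_of_H {p : ℝ} (hp0 : 0 < p) (hp1 : p < 1)
    (H : ∀ ε : ℝ, 0 < ε → ∃ δ : ℝ, 0 < δ ∧
    ∃ R : (n : ℕ) → Matrix (Fin n) (Fin n) ℤ → Set (Fin n → Bool),
    (∀ᶠ n : ℕ in atTop, bernoulliProb p {w : Sym2 (Fin (n + 1)) → Bool |
      (symMat w).det = 0 ∧ (∃ i, (del (symMat w) i).det ≠ 0) ∧
      (Set.ncard {i | (del (symMat w) i).det ≠ 0 ∧
        Asm.rowB w i ∈ R n (del (symMat w) i)} : ℝ) <
        δ * ((n + 1 : ℕ) : ℝ)} ≤ (rate p + ε) ^ n) ∧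
    (∀ᶠ n : ℕ in atTop, bernoulliProb p {w : Sym2 (Fin n) → Bool |
      (symMat w).det ≠ 0 ∧ (1 + ε) ^ n < ((R n (symMat w)).ncard : ℝ)} ≤ (rate p + ε) ^ n)) :
    ∀ ε : ℝ, 0 < ε → ∀ᶠ n : ℕ in atTop, singularProb n p ≤ (rate p + ε) ^ n := by
  refine top hp0 hp1 ?_
  intro ε hε
  obtain ⟨δ, hδ, R, h1, h2⟩ := H ε hε
  refine ⟨δ, hδ, R, ?_, h2⟩
  filter_upwards [h1] with n hn
  refine (prob_mono hp0.le hp1.le ?_).trans hn
  rintro w ⟨⟨hdet, hex⟩, hw⟩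
  refine ⟨hdet, hex, ?_⟩
  have hset : {i | (del (symMat w) i).det ≠ 0 ∧ Asm.rowB w i ∈ R n (del (symMat w) i)} ⊆
      gi (R n) (symMat w) := by
    rintro i ⟨ha, hb⟩
    exact ⟨ha, _, hb, rfl⟩
  have h3 := Set.ncard_le_ncard hset (Set.toFinite _)
  have h4 : (Set.ncard {i | (del (symMat w) i).det ≠ 0 ∧
      Asm.rowB w i ∈ R n (del (symMat w) i)} : ℝ) ≤ Set.ncard (gi (R n) (symMat w)) := by
    exact_mod_cast h3
  refine lt_of_le_of_lt h4 (lt_of_lt_of_le hw ?_)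
  push_cast
  nlinarith

/-- everything except the five inputs -/
theorem final {p : ℝ} (hp0 : 0 < p) (hp1 : p < 1) (hG : GLO p) (hT : T1p p) (hS : SPK p)
    (hN : NMZ p) (hD : DIV) :
    ∀ ε : ℝ, 0 < ε → ∀ᶠ n : ℕ in atTop, singularProb n p ≤ (rate p + ε) ^ n :=
  top_of_H hp0 hp1 (H_holds hp0 hp1 hG hT hS hN hD)

end Crest.Agent.R152.Top
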