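import Crest.Agent.R152.WRMDefs

/-!
# Row 152, WRM-3a: reduction theory for positive definite Gram matrices

Every positive definite `G` has a unimodular transform which is *reduced*
(Hermite / LLL type reduction), hence if `det G ≤ C` and all nonzero integral vectors have
`qf G z ≥ c > 0`, then some transform has all its diagonal entries bounded by a constant.
-/

namespace Crest.Agent.R152.WRM3

open Matrix
open Crest.Agent.R152.WRM

set_option autoImplicit false

lemma im_mul {α β γ : Type*} [Fintype β] (U : Matrix α β ℤ) (V : Matrix β γ ℤ) :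
    im (U * V) = im U * im V := by
  ext i j; simp [Matrix.mul_apply, im]

lemma im_transpose {α β : Type*} (U : Matrix α β ℤ) : im Uᵀ = (im U)ᵀ := rfl

lemma im_one {α : Type*} [DecidableEq α] : im (1 : Matrix α α ℤ) = 1 := by
  ext i j; by_cases h : i = j <;> simp [im, Matrix.one_apply, h]

lemma im_det {α : Type*} [DecidableEq α] [Fintype α] (U : Matrix α α ℤ) :
    (im U).det = (U.det : ℝ) := by
  have := (RingHom.map_det (Int.castRingHom ℝ) U).symm
  simpa [im, RingHom.mapMatrix_apply] using this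

/-- Gram matrix of the sublattice spanned by the columns of `Z` -/
def gr {α β : Type*} [Fintype α] (G : Matrix α α ℝ) (Z : Matrix α β ℤ) : Matrix β β ℝ :=
  (im Z)ᵀ * G * im Z

lemma gr_mul {α β γ : Type*} [Fintype α] [Fintype β] (G : Matrix α α ℝ) (Z : Matrix α β ℤ)
    (W : Matrix β γ ℤ) : gr G (Z * W) = gr (gr G Z) W := by
  unfold gr
  rw [im_mul, Matrix.transpose_mul]
  simp only [Matrix.mul_assoc]

lemma gr_one {α : Type*} [DecidableEq α] [Fintype α] (G : Matrix α α ℝ) :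
    gr G (1 : Matrix α α ℤ) = G := by
  unfold gr; rw [im_one]; simp

lemma qf_gr {α β : Type*} [Fintype α] [Fintype β] (G : Matrix α α ℝ) (Z : Matrix α β ℤ)
    (x : β → ℝ) : qf (gr G Z) x = qf G (im Z *ᵥ x) := by
  unfold qf gr
  rw [Matrix.mul_assoc, ← Matrix.mulVec_mulVec, Matrix.dotProduct_mulVec, Matrix.vecMul_transpose,
    ← Matrix.mulVec_mulVec]

lemma PosDef.qf_pos {α : Type*} [Fintype α] {G : Matrix α α ℝ} (hG : G.PosDef) {x : α → ℝ}
    (hx : x ≠ 0) : 0 < qf G x := by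
  have := hG.dotProduct_mulVec_pos hx
  simpa [qf] using this

lemma det_gr {α : Type*} [DecidableEq α] [Fintype α] (G : Matrix α α ℝ) (U : Matrix α α ℤ) :
    (gr G U).det = (U.det : ℝ) ^ 2 * G.det := by
  unfold gr
  rw [Matrix.det_mul, Matrix.det_mul, Matrix.det_transpose, im_det]; ring

lemma isUnit_det_cast {α : Type*} [DecidableEq α] [Fintype α] {U : Matrix α α ℤ}
    (h : IsUnit U.det) : (U.det : ℝ) ^ 2 = 1 := by
  rcases Int.isUnit_iff.mp h with h | h <;> simp [h]

lemma det_gr_unit {α : Type*} [DecidableEq α] [Fintype α] (G : Matrix α α ℝ)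
    {U : Matrix α α ℤ} (h : IsUnit U.det) : (gr G U).det = G.det := by
  rw [det_gr, isUnit_det_cast h, one_mul]

/-- Schur complement of the upper left entry -/
noncomputable def schur {m : ℕ} (G : Matrix (Fin (m+1)) (Fin (m+1)) ℝ) :
    Matrix (Fin m) (Fin m) ℝ :=
  Matrix.of fun i j => G i.succ j.succ - G i.succ 0 * G 0 j.succ / G 0 0

lemma qf_eq_sum {α : Type*} [Fintype α] (G : Matrix α α ℝ) (x : α → ℝ) :
    qf G x = ∑ i, ∑ j, x i * G i j * x j := by
  unfold qf
  simp only [dotProduct, Matrix.mulVec, Finset.mul_sum]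
  refine Finset.sum_congr rfl fun i _ => Finset.sum_congr rfl fun j _ => ?_
  ring

lemma qf_cons {m : ℕ} (G : Matrix (Fin (m+1)) (Fin (m+1)) ℝ) (hs : ∀ i j, G i j = G j i)
    (h0 : G 0 0 ≠ 0) (x : Fin (m+1) → ℝ) :
    qf G x = G 0 0 * (x 0 + (∑ j : Fin m, G 0 j.succ * x j.succ) / G 0 0) ^ 2
      + qf (schur G) (fun j => x j.succ) := by
  rw [qf_eq_sum, qf_eq_sum]
  simp only [Fin.sum_univ_succ, schur, Matrix.of_apply]
  have h1 : ∑ i : Fin m, x i.succ * G i.succ 0 * x 0
      = (∑ j : Fin m, G 0 j.succ * x j.succ) * x 0 := by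
    rw [Finset.sum_mul]; refine Finset.sum_congr rfl fun i _ => ?_
    rw [hs i.succ 0]; ring
  have h2 : ∑ i : Fin m, x 0 * G 0 i.succ * x i.succ
      = (∑ j : Fin m, G 0 j.succ * x j.succ) * x 0 := by
    rw [Finset.sum_mul]; refine Finset.sum_congr rfl fun i _ => ?_
    ring
  have h3 : ∑ i : Fin m, ∑ j : Fin m, x i.succ * (G i.succ j.succ -
      G i.succ 0 * G 0 j.succ / G 0 0) * x j.succ
      = (∑ i : Fin m, ∑ j : Fin m, x i.succ * G i.succ j.succ * x j.succ)
        - (∑ j : Fin m, G 0 j.succ * x j.succ) ^ 2 / G 0 0 := by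
    have : (∑ j : Fin m, G 0 j.succ * x j.succ) ^ 2 / G 0 0
        = ∑ i : Fin m, ∑ j : Fin m, (G 0 i.succ * x i.succ) * (G 0 j.succ * x j.succ) / G 0 0 := by
      rw [sq, Finset.sum_mul_sum, Finset.sum_div]
      refine Finset.sum_congr rfl fun i _ => ?_
      rw [Finset.sum_div]
    rw [this, ← Finset.sum_sub_distrib]
    refine Finset.sum_congr rfl fun i _ => ?_
    rw [← Finset.sum_sub_distrib]
    refine Finset.sum_congr rfl fun j _ => ?_
    rw [hs i.succ 0]; ring
  rw [Finset.sum_add_distrib, h1, h2, h3]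
  field_simp
  ring

lemma posDef_symm {α : Type*} [Fintype α] {G : Matrix α α ℝ} (hG : G.PosDef) (i j : α) :
    G i j = G j i := by
  have := hG.isHermitian.apply j i
  simpa using this.symm ▸ rfl


lemma posDef_diag {α : Type*} [Fintype α] [DecidableEq α] {G : Matrix α α ℝ} (hG : G.PosDef)
    (i : α) : 0 < G i i := by
  have h := PosDef.qf_pos hG (x := Pi.single i 1) (by
    intro h; have := congrFun h i; simp at this)
  simpa [qf] using h

lemma posDef_of_q {α : Type*} [Fintype α] {G : Matrix α α ℝ} (hs : ∀ i j, G i j = G j i)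
    (h : ∀ x : α → ℝ, x ≠ 0 → 0 < qf G x) : G.PosDef := by
  refine Matrix.PosDef.of_dotProduct_mulVec_pos ?_ ?_
  · ext i j; simp [Matrix.conjTranspose_apply, hs j i]
  · intro x hx; simpa [qf] using h x hx

lemma schur_symm {m : ℕ} {G : Matrix (Fin (m+1)) (Fin (m+1)) ℝ} (hs : ∀ i j, G i j = G j i)
    (i j : Fin m) : schur G i j = schur G j i := by
  simp only [schur, Matrix.of_apply]
  rw [hs i.succ j.succ, hs i.succ 0, hs 0 j.succ]; ring

lemma schur_posDef {m : ℕ} {G : Matrix (Fin (m+1)) (Fin (m+1)) ℝ} (hG : G.PosDef) :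
    (schur G).PosDef := by
  have hs := posDef_symm hG
  have h0 : 0 < G 0 0 := posDef_diag hG 0
  refine posDef_of_q (schur_symm hs) fun y hy => ?_
  set x : Fin (m+1) → ℝ := Fin.cons (-(∑ j : Fin m, G 0 j.succ * y j) / G 0 0) y with hx
  have hx0 : x ≠ 0 := by
    intro h
    apply hy
    ext j
    have := congrFun h j.succ
    simpa [hx] using this
  have h1 := PosDef.qf_pos hG hx0
  rw [qf_cons G hs h0.ne' x] at h1
  have h2 : (x 0 + (∑ j : Fin m, G 0 j.succ * x j.succ) / G 0 0) = 0 := by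
    simp only [hx, Fin.cons_zero, Fin.cons_succ]; field_simp; ring
  rw [h2] at h1
  simpa [hx] using h1

lemma det_schur {m : ℕ} (G : Matrix (Fin (m+1)) (Fin (m+1)) ℝ) (h0 : G 0 0 ≠ 0) :
    G.det = G 0 0 * (schur G).det := by
  -- column operations: subtract `G 0 j.succ / G 0 0` times column 0
  set B : Matrix (Fin (m+1)) (Fin (m+1)) ℝ := Matrix.of fun i j =>
    Fin.cases (motive := fun _ => ℝ) (G i 0) (fun j' => G i j'.succ - G i 0 * G 0 j'.succ / G 0 0) j
    with hB
  have h1 : G.det = B.det := by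
    rw [← Matrix.det_transpose G, ← Matrix.det_transpose B]
    refine Matrix.det_eq_of_forall_row_eq_smul_add_const
      (fun j => Fin.cases (motive := fun _ => ℝ) 0 (fun j' => G 0 j'.succ / G 0 0) j) 0
      (by simp) ?_
    intro j i
    rw [Matrix.transpose_apply, Matrix.transpose_apply, Matrix.transpose_apply]
    refine Fin.cases ?_ (fun j' => ?_) j
    · simp [hB]
    · simp only [hB, Matrix.of_apply, Fin.cases_succ, Fin.cases_zero]; ring
  rw [h1, Matrix.det_succ_row_zero, Fin.sum_univ_succ]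
  have h2 : ∀ j : Fin m, B 0 j.succ = 0 := by
    intro j; simp only [hB, Matrix.of_apply, Fin.cases_succ]; field_simp; ring
  have h3 : B 0 0 = G 0 0 := by simp [hB]
  simp only [h2, h3, mul_zero, zero_mul, Finset.sum_const_zero, add_zero, Fin.val_zero, pow_zero,
    one_mul]
  congr 2

/-- extension of `U2` to a unimodular matrix with first column `e_0` and first row `(1,t)` -/
def ext1 {m k : ℕ} (t : Fin k → ℤ) (U : Matrix (Fin m) (Fin k) ℤ) :
    Matrix (Fin (m+1)) (Fin (k+1)) ℤ :=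
  Matrix.of (Fin.cons (Fin.cons 1 t) (fun i => Fin.cons 0 (U i)))

@[simp] lemma ext1_00 {m k : ℕ} (t : Fin k → ℤ) (U : Matrix (Fin m) (Fin k) ℤ) :
    ext1 t U 0 0 = 1 := rfl
@[simp] lemma ext1_0s {m k : ℕ} (t : Fin k → ℤ) (U : Matrix (Fin m) (Fin k) ℤ) (j : Fin k) :
    ext1 t U 0 j.succ = t j := rfl
@[simp] lemma ext1_s0 {m k : ℕ} (t : Fin k → ℤ) (U : Matrix (Fin m) (Fin k) ℤ) (i : Fin m) :
    ext1 t U i.succ 0 = 0 := rfl
@[simp] lemma ext1_ss {m k : ℕ} (t : Fin k → ℤ) (U : Matrix (Fin m) (Fin k) ℤ) (i : Fin m)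
    (j : Fin k) : ext1 t U i.succ j.succ = U i j := rfl

lemma det_ext1 {m : ℕ} (t : Fin m → ℤ) (U : Matrix (Fin m) (Fin m) ℤ) :
    (ext1 t U).det = U.det := by
  rw [Matrix.det_succ_column_zero, Fin.sum_univ_succ]
  simp only [ext1_00, ext1_s0, mul_zero, zero_mul, Finset.sum_const_zero, add_zero, Fin.val_zero,
    pow_zero, one_mul]
  congr 1

lemma gr_apply {α β : Type*} [Fintype α] (G : Matrix α α ℝ) (Z : Matrix α β ℤ) (i j : β) :
    gr G Z i j = ∑ a, ∑ b, (Z a i : ℝ) * G a b * (Z b j : ℝ) := by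
  simp only [gr, Matrix.mul_apply, Matrix.transpose_apply, im, Matrix.map_apply,
    Finset.sum_mul]
  rw [Finset.sum_comm]

lemma gr_ext1_00 {m k : ℕ} (G : Matrix (Fin (m+1)) (Fin (m+1)) ℝ) (t : Fin k → ℤ)
    (U : Matrix (Fin m) (Fin k) ℤ) : gr G (ext1 t U) 0 0 = G 0 0 := by
  rw [gr_apply]; simp [Fin.sum_univ_succ]

lemma gr_ext1_0s {m k : ℕ} (G : Matrix (Fin (m+1)) (Fin (m+1)) ℝ) (t : Fin k → ℤ)
    (U : Matrix (Fin m) (Fin k) ℤ) (j : Fin k) : gr G (ext1 t U) 0 j.succ =
      G 0 0 * t j + ∑ l : Fin m, G 0 l.succ * U l j := by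
  rw [gr_apply]; simp [Fin.sum_univ_succ]

lemma gr_ext1_s0 {m k : ℕ} (G : Matrix (Fin (m+1)) (Fin (m+1)) ℝ) (t : Fin k → ℤ)
    (U : Matrix (Fin m) (Fin k) ℤ) (i : Fin k) : gr G (ext1 t U) i.succ 0 =
      G 0 0 * t i + ∑ l : Fin m, G l.succ 0 * U l i := by
  rw [gr_apply]; simp [Fin.sum_univ_succ, mul_comm]

lemma schur_gr_ext1 {m k : ℕ} (G : Matrix (Fin (m+1)) (Fin (m+1)) ℝ) (h0 : G 0 0 ≠ 0)
    (t : Fin k → ℤ) (U : Matrix (Fin m) (Fin k) ℤ) :
    schur (gr G (ext1 t U)) = gr (schur G) U := by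
  ext i j
  have hss : gr G (ext1 t U) i.succ j.succ = t i * G 0 0 * t j
      + t i * (∑ l : Fin m, G 0 l.succ * U l j) + (∑ l : Fin m, G l.succ 0 * U l i) * t j
      + ∑ a : Fin m, ∑ b : Fin m, (U a i : ℝ) * G a.succ b.succ * U b j := by
    rw [gr_apply]
    simp only [Fin.sum_univ_succ, ext1_0s, ext1_ss]
    rw [Finset.sum_add_distrib, Finset.sum_mul, Finset.mul_sum]
    have e1 : ∑ x : Fin m, (t i : ℝ) * G 0 x.succ * (U x j : ℝ)
      = ∑ x : Fin m, (t i : ℝ) * (G 0 x.succ * U x j) :=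
      Finset.sum_congr rfl fun x _ => by ring
    have e2 : ∑ x : Fin m, (U x i : ℝ) * G x.succ 0 * (t j : ℝ)
      = ∑ x : Fin m, (G x.succ 0 * U x i) * (t j : ℝ) :=
      Finset.sum_congr rfl fun x _ => by ring
    rw [e1, e2]; ring
  have hr : gr (schur G) U i j = (∑ a : Fin m, ∑ b : Fin m, (U a i : ℝ) * G a.succ b.succ * U b j)
      - (∑ l : Fin m, G l.succ 0 * U l i) * (∑ l : Fin m, G 0 l.succ * U l j) / G 0 0 := by
    rw [gr_apply, Finset.sum_mul_sum, Finset.sum_div, ← Finset.sum_sub_distrib]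
    refine Finset.sum_congr rfl fun a _ => ?_
    rw [Finset.sum_div, ← Finset.sum_sub_distrib]
    refine Finset.sum_congr rfl fun b _ => ?_
    simp only [schur, Matrix.of_apply]; ring
  rw [hr]
  simp only [schur, Matrix.of_apply]
  rw [hss, gr_ext1_00, gr_ext1_0s, gr_ext1_s0]
  field_simp
  ring

lemma im_injective_of_isUnit {m : ℕ} {U : Matrix (Fin m) (Fin m) ℤ} (h : IsUnit U.det) :
    Function.Injective (im U).mulVec := by
  have h1 : IsUnit (im U).det := by
    rw [im_det]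
    rcases Int.isUnit_iff.mp h with h | h <;> simp [h]
  exact Matrix.mulVec_injective_iff_isUnit.mpr ((Matrix.isUnit_iff_isUnit_det _).mpr h1)

lemma gr_posDef {α β : Type*} [Fintype α] [Fintype β] {G : Matrix α α ℝ} (hG : G.PosDef)
    {Z : Matrix α β ℤ} (h : Function.Injective (im Z).mulVec) : (gr G Z).PosDef := by
  have := hG.conjTranspose_mul_mul_same (B := im Z) h
  simpa [gr, Matrix.conjTranspose_eq_transpose_of_trivial] using this

lemma gr_posDef_unit {m : ℕ} {G : Matrix (Fin m) (Fin m) ℝ} (hG : G.PosDef)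
    {U : Matrix (Fin m) (Fin m) ℤ} (h : IsUnit U.det) : (gr G U).PosDef :=
  gr_posDef hG (im_injective_of_isUnit h)

end Crest.Agent.R152.WRM3
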