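import Crest.Agent.R152.WRM3a

/-!
# Row 152, WRM-3b: existence of reduced bases
-/

namespace Crest.Agent.R152.WRM3

open Matrix
open Crest.Agent.R152.WRM

set_option autoImplicit false

lemma qf_smul {α : Type*} [Fintype α] (G : Matrix α α ℝ) (c : ℝ) (x : α → ℝ) :
    qf G (c • x) = c ^ 2 * qf G x := by
  unfold qf
  rw [Matrix.mulVec_smul, dotProduct_smul, smul_dotProduct]
  simp only [smul_eq_mul]; ring

lemma continuous_qf {α : Type*} [Fintype α] (G : Matrix α α ℝ) : Continuous (qf G) := by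
  unfold qf
  fun_prop

/-- a positive definite form dominates a multiple of the squared sup norm -/
lemma exists_qf_lower {α : Type*} [Fintype α] {G : Matrix α α ℝ} (hG : G.PosDef) :
    ∃ c : ℝ, 0 < c ∧ ∀ x : α → ℝ, c * ‖x‖ ^ 2 ≤ qf G x := by
  rcases isEmpty_or_nonempty α with he | hne
  · refine ⟨1, one_pos, fun x => ?_⟩
    have : x = 0 := Subsingleton.elim _ _
    simp [this, qf]
  have hc : IsCompact (Metric.sphere (0 : α → ℝ) 1) := isCompact_sphere _ _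
  have hne' : (Metric.sphere (0 : α → ℝ) 1).Nonempty := by
    refine ⟨fun _ => 1, ?_⟩
    rw [mem_sphere_zero_iff_norm]
    simp
  obtain ⟨x0, hx0, hmin⟩ := hc.exists_isMinOn hne' (continuous_qf G).continuousOn
  have hx0' : x0 ≠ 0 := by
    intro h; simp [h] at hx0
  refine ⟨qf G x0, PosDef.qf_pos hG hx0', fun x => ?_⟩
  by_cases hx : x = 0
  · simp [hx, qf]
  have hn : 0 < ‖x‖ := norm_pos_iff.mpr hx
  have h1 : (‖x‖⁻¹ • x) ∈ Metric.sphere (0 : α → ℝ) 1 := by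
    simp [norm_smul, hn.ne']
  have h2 := hmin h1
  have h2 : qf G x0 ≤ qf G (‖x‖⁻¹ • x) := h2
  rw [qf_smul] at h2
  have h3 : qf G x = ‖x‖ ^ 2 * (‖x‖⁻¹ ^ 2 * qf G x) := by
    field_simp
  rw [h3]
  calc qf G x0 * ‖x‖ ^ 2 = ‖x‖ ^ 2 * qf G x0 := by ring
    _ ≤ _ := by gcongr

lemma norm_iv_sq_le {α : Type*} [Fintype α] {G : Matrix α α ℝ} {c : ℝ} (hc : 0 < c)
    (h : ∀ x : α → ℝ, c * ‖x‖ ^ 2 ≤ qf G x) {R : ℝ} {z : α → ℤ} (hz : qf G (iv z) ≤ R) :
    ∀ i, |(z i : ℝ)| ^ 2 ≤ R / c := by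
  intro i
  have h1 : |(z i : ℝ)| ≤ ‖iv z‖ := by
    have := norm_le_pi_norm (iv z) i
    simpa [iv] using this
  have h2 := h (iv z)
  rw [le_div_iff₀ hc]
  calc |(z i : ℝ)| ^ 2 * c ≤ ‖iv z‖ ^ 2 * c := by gcongr
    _ ≤ R := by linarith

/-- finitely many integral vectors of bounded length -/
lemma finite_qf_le {α : Type*} [Fintype α] {G : Matrix α α ℝ} (hG : G.PosDef) (R : ℝ) :
    {z : α → ℤ | qf G (iv z) ≤ R}.Finite := by
  obtain ⟨c, hc, h⟩ := exists_qf_lower hG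
  set K : ℤ := ⌈R / c⌉ with hK
  refine Set.Finite.subset (Set.Finite.pi' (t := fun _ : α => Set.Icc (-K) K)
    (fun _ => Set.finite_Icc _ _)) ?_
  intro z hz i
  have h1 := norm_iv_sq_le hc h hz i
  have h2 : ((|z i| : ℤ) : ℝ) ^ 2 ≤ K := by
    push_cast
    exact h1.trans (Int.le_ceil _)
  have h3 : |z i| ^ 2 ≤ K := by exact_mod_cast h2
  have h4 : |z i| ≤ K := by
    rcases eq_or_ne (z i) 0 with h0 | h0
    · rw [h0] at h3 ⊢; simpa using h3
    · have : 1 ≤ |z i| := Int.one_le_abs h0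
      nlinarith
  exact abs_le.mp h4

/-- reduced Gram matrices -/
def Reduced : ∀ {m : ℕ}, Matrix (Fin m) (Fin m) ℝ → Prop
  | 0, _ => True
  | m + 1, G => (∀ j : Fin m, |G 0 j.succ| ≤ G 0 0 / 2) ∧
      (∀ h : 0 < m, 3 / 4 * G 0 0 ≤ schur G ⟨0, h⟩ ⟨0, h⟩) ∧ Reduced (schur G)

lemma isUnit_det_mul {m : ℕ} {U V : Matrix (Fin m) (Fin m) ℤ} (hU : IsUnit U.det)
    (hV : IsUnit V.det) : IsUnit (U * V).det := by
  rw [Matrix.det_mul]; exact hU.mul hV

/-- permutation matrices -/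
def permM {α : Type*} [DecidableEq α] (σ : Equiv.Perm α) : Matrix α α ℤ :=
  (1 : Matrix α α ℤ).submatrix id σ

lemma permM_det {α : Type*} [DecidableEq α] [Fintype α] (σ : Equiv.Perm α) :
    IsUnit (permM σ).det := by
  rw [permM, Matrix.det_permute', Matrix.det_one, mul_one]
  rcases Int.units_eq_one_or (Equiv.Perm.sign σ) with h | h <;> simp [h]

lemma gr_permM {α : Type*} [DecidableEq α] [Fintype α] (G : Matrix α α ℝ) (σ : Equiv.Perm α)
    (i j : α) : gr G (permM σ) i j = G (σ i) (σ j) := by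
  rw [gr_apply]
  simp [permM, Matrix.one_apply]

/-- minimal first vector of a basis -/
lemma exists_min_first {m : ℕ} {G : Matrix (Fin (m+1)) (Fin (m+1)) ℝ} (hG : G.PosDef) :
    ∃ U : Matrix (Fin (m+1)) (Fin (m+1)) ℤ, IsUnit U.det ∧
      ∀ V : Matrix (Fin (m+1)) (Fin (m+1)) ℤ, IsUnit V.det → gr G U 0 0 ≤ gr G V 0 0 := by
  have key : ∀ V : Matrix (Fin (m+1)) (Fin (m+1)) ℤ, gr G V 0 0 = qf G (iv (fun a => V a 0)) := by
    intro V
    rw [gr_apply, qf_eq_sum]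
    simp only [iv]
  set S : Set (Fin (m+1) → ℤ) := {z | qf G (iv z) ≤ G 0 0 ∧ ∃ V : Matrix (Fin (m+1)) (Fin (m+1)) ℤ,
    IsUnit V.det ∧ z = fun a => V a 0} with hS
  have hfin : S.Finite := (finite_qf_le hG (G 0 0)).subset fun z hz => hz.1
  have hne : S.Nonempty := by
    refine ⟨fun a => (1 : Matrix (Fin (m+1)) (Fin (m+1)) ℤ) a 0, ?_, 1, by simp, rfl⟩
    have := key 1
    rw [gr_one] at this
    rw [← this]
  obtain ⟨z, hz, hmin⟩ := Set.exists_min_image S (fun z => qf G (iv z)) hfin hne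
  obtain ⟨hz1, U, hU, rfl⟩ := hz
  refine ⟨U, hU, fun V hV => ?_⟩
  rw [key, key]
  by_cases h : qf G (iv (fun a => V a 0)) ≤ G 0 0
  · exact hmin _ ⟨h, V, hV, rfl⟩
  · push Not at h
    exact hz1.trans h.le

/-- every positive definite form is unimodularly equivalent to a reduced one -/
theorem exists_reduced : ∀ {m : ℕ} (G : Matrix (Fin m) (Fin m) ℝ), G.PosDef →
    ∃ U : Matrix (Fin m) (Fin m) ℤ, IsUnit U.det ∧ Reduced (gr G U) := by
  intro m
  induction m with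
  | zero => intro G _; exact ⟨1, by simp, trivial⟩
  | succ m ih =>
    intro G hG
    obtain ⟨U1, hU1, hmin⟩ := exists_min_first hG
    set G1 := gr G U1 with hG1
    have hG1p : G1.PosDef := gr_posDef_unit hG hU1
    have h0 : 0 < G1 0 0 := posDef_diag hG1p 0
    obtain ⟨U2, hU2, hred⟩ := ih (schur G1) (schur_posDef hG1p)
    -- size reduction
    set P : Fin m → ℝ := fun j => ∑ l : Fin m, G1 0 l.succ * U2 l j with hP
    set t : Fin m → ℤ := fun j => -round (P j / G1 0 0) with ht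
    set G2 := gr G1 (ext1 t U2) with hG2
    have h00 : G2 0 0 = G1 0 0 := gr_ext1_00 _ _ _
    have hsr : ∀ j : Fin m, |G2 0 j.succ| ≤ G2 0 0 / 2 := by
      intro j
      rw [h00, hG2, gr_ext1_0s]
      have h1 : G1 0 0 * (t j : ℝ) + ∑ l : Fin m, G1 0 l.succ * (U2 l j : ℝ)
          = G1 0 0 * (P j / G1 0 0 - round (P j / G1 0 0)) := by
        rw [ht, hP]; push_cast; field_simp; ring
      rw [h1, abs_mul, abs_of_pos h0]
      have := abs_sub_round (P j / G1 0 0)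
      nlinarith
    have hs : schur G2 = gr (schur G1) U2 := schur_gr_ext1 G1 h0.ne' t U2
    have hU : IsUnit (U1 * ext1 t U2).det := isUnit_det_mul hU1 (by rw [det_ext1]; exact hU2)
    have hG2p : G2.PosDef := gr_posDef_unit hG1p (by rw [det_ext1]; exact hU2)
    refine ⟨U1 * ext1 t U2, hU, ?_⟩
    rw [gr_mul]
    refine ⟨hsr, ?_, by rw [hs]; exact hred⟩
    intro hm
    -- swap the first two vectors
    set j1 : Fin (m+1) := (⟨0, hm⟩ : Fin m).succ with hj1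
    set W : Matrix (Fin (m+1)) (Fin (m+1)) ℤ := permM (Equiv.swap 0 j1) with hW
    have hWdet : IsUnit W.det := permM_det _
    have h3 := hmin (U1 * ext1 t U2 * W) (isUnit_det_mul hU hWdet)
    rw [gr_mul, gr_mul] at h3
    have h4 : gr G2 W 0 0 = G2 j1 j1 := by
      rw [hW, gr_permM, Equiv.swap_apply_left]
    rw [← hG1, ← hG2, h4] at h3
    have h5 : G2 j1 j1 = schur G2 ⟨0, hm⟩ ⟨0, hm⟩ + G2 0 j1 ^ 2 / G2 0 0 := by
      have := posDef_symm hG2p j1 0
      simp only [schur, Matrix.of_apply]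
      rw [← hj1, this]; ring
    have h6 : G2 0 j1 ^ 2 / G2 0 0 ≤ G2 0 0 / 4 := by
      have h00' : 0 < G2 0 0 := by rw [h00]; exact h0
      rw [div_le_iff₀ h00']
      have := hsr ⟨0, hm⟩
      have h7 : G2 0 j1 ^ 2 ≤ (G2 0 0 / 2) ^ 2 := by
        rw [← sq_abs]; gcongr
      nlinarith
    rw [h00] at h6
    rw [h00] at h5
    show 3 / 4 * G2 0 0 ≤ schur G2 ⟨0, hm⟩ ⟨0, hm⟩
    rw [h00]
    linarith

end Crest.Agent.R152.WRM3
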