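import Crest.Agent.R152.WRM3b

/-!
# Row 152, WRM-3c: compactness of reduced forms
-/

namespace Crest.Agent.R152.WRM3

open Matrix
open Crest.Agent.R152.WRM

set_option autoImplicit false

/-- diagonal bound for reduced forms -/
noncomputable def KB : ℕ → ℝ → ℝ → ℝ
  | 0, _, C => C
  | m + 1, c, C => 4 / 3 * KB m (3 / 4 * c) (C / c)

theorem reduced_bound : ∀ (m : ℕ) (c C : ℝ) (G : Matrix (Fin (m+1)) (Fin (m+1)) ℝ), 0 < c →
    G.PosDef → Reduced G → c ≤ G 0 0 → G.det ≤ C → ∀ j, G j j ≤ KB m c C := by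
  intro m
  induction m with
  | zero =>
    intro c C G hc hG _ _ hdet j
    have : j = 0 := Fin.fin_one_eq_zero j
    subst this
    simpa [KB] using hdet
  | succ m ih =>
    intro c C G hc hG hred h0 hdet
    have hpos : 0 < G 0 0 := posDef_diag hG 0
    have hSp := schur_posDef hG
    have hdetS : (schur G).det ≤ C / c := by
      rw [det_schur G hpos.ne'] at hdet
      rw [le_div_iff₀ hc]
      have h1 : 0 < (schur G).det := hSp.det_pos
      nlinarith
    have h1 : 3 / 4 * G 0 0 ≤ schur G 0 0 := hred.2.1 (Nat.succ_pos m)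
    have hb := ih (3 / 4 * c) (C / c) (schur G) (by positivity) hSp hred.2.2 (by linarith) hdetS
    have hb0 := hb 0
    intro j
    refine Fin.cases ?_ (fun j => ?_) j
    · simp only [KB]; linarith
    · have h2 : G j.succ j.succ = schur G j j + G 0 j.succ ^ 2 / G 0 0 := by
        simp only [schur, Matrix.of_apply]
        rw [posDef_symm hG j.succ 0]; ring
      have h3 : G 0 j.succ ^ 2 / G 0 0 ≤ G 0 0 / 4 := by
        rw [div_le_iff₀ hpos]
        have := hred.1 j
        have h7 : G 0 j.succ ^ 2 ≤ (G 0 0 / 2) ^ 2 := by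
          rw [← sq_abs]; gcongr
        nlinarith
      have := hb j
      simp only [KB]
      linarith

/-- **RED**: bounded determinant and bounded first minimum ⟹ bounded basis. -/
theorem red (m : ℕ) (c C : ℝ) (hc : 0 < c) : ∃ C1 : ℝ, ∀ G : Matrix (Fin m) (Fin m) ℝ,
    G.PosDef → (∀ z : Fin m → ℤ, z ≠ 0 → c ≤ qf G (iv z)) → G.det ≤ C →
    ∃ U : Matrix (Fin m) (Fin m) ℤ, IsUnit U.det ∧ ∀ i, gr G U i i ≤ C1 := by
  rcases m with _ | m
  · exact ⟨0, fun G _ _ _ => ⟨1, by simp, fun i => i.elim0⟩⟩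
  refine ⟨KB m c C, fun G hG hmin hdet => ?_⟩
  obtain ⟨U, hU, hred⟩ := exists_reduced G hG
  refine ⟨U, hU, reduced_bound m c C _ hc (gr_posDef_unit hG hU) hred ?_ ?_⟩
  · have key : gr G U 0 0 = qf G (iv (fun a => U a 0)) := by
      rw [gr_apply, qf_eq_sum]; simp only [iv]
    rw [key]
    apply hmin
    intro h
    have : U.det = 0 := Matrix.det_eq_zero_of_column_eq_zero 0 (fun i => congrFun h i)
    rw [this] at hU
    exact not_isUnit_zero hU
  · rw [det_gr_unit G hU]; exact hdet

end Crest.Agent.R152.WRM3
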