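import Crest.Agent.R152.WRM3c

/-!
# Row 152, WRM-3d: Minkowski's first theorem, primitive vectors and the covering radius
-/

namespace Crest.Agent.R152.WRM3

open Matrix MeasureTheory Module
open Crest.Agent.R152.WRM

set_option autoImplicit false

lemma qf_AtA {m : ℕ} (A : Matrix (Fin m) (Fin m) ℝ) (x : Fin m → ℝ) :
    qf (Aᵀ * A) x = ∑ i, (A *ᵥ x) i ^ 2 := by
  unfold qf
  rw [← Matrix.mulVec_mulVec, Matrix.dotProduct_mulVec, Matrix.vecMul_transpose]
  simp [dotProduct, sq]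

open scoped MatrixOrder in
lemma exists_AtA {m : ℕ} {G : Matrix (Fin m) (Fin m) ℝ} (hG : G.PosDef) :
    ∃ A : Matrix (Fin m) (Fin m) ℝ, G = Aᵀ * A ∧ A.det ≠ 0 := by
  obtain ⟨A, hA⟩ := CStarAlgebra.nonneg_iff_eq_star_mul_self.mp hG.posSemidef.nonneg
  have hA' : G = Aᵀ * A := by
    rw [hA, Matrix.star_eq_conjTranspose, Matrix.conjTranspose_eq_transpose_of_trivial]
  refine ⟨A, hA', ?_⟩
  have := hG.det_pos
  rw [hA', Matrix.det_mul, Matrix.det_transpose] at this
  intro h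
  simp [h] at this

/-- Minkowski: a positive definite form of determinant `≤ 1` in `m ≥ 1` variables has a nonzero
integral vector with `qf ≤ 4m`. -/
theorem minkowski {m : ℕ} {G : Matrix (Fin (m+1)) (Fin (m+1)) ℝ} (hG : G.PosDef)
    (hdet : G.det ≤ 1) : ∃ z : Fin (m+1) → ℤ, z ≠ 0 ∧ qf G (iv z) ≤ 4 * (m + 1) := by
  obtain ⟨A, rfl, hA⟩ := exists_AtA hG
  have hA1 : |A.det| ≤ 1 := by
    rw [Matrix.det_mul, Matrix.det_transpose, ← sq] at hdet
    rw [← sq_abs] at hdet
    have := abs_nonneg A.det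
    nlinarith
  set b := Pi.basisFun ℝ (Fin (m+1)) with hb
  have h_fund := ZSpan.isAddFundamentalDomain' b volume
  have hcount : Countable (Submodule.span ℤ (Set.range b)).toAddSubgroup := by
    change Countable (Submodule.span ℤ (Set.range b))
    infer_instance
  set s : Set (Fin (m+1) → ℝ) := (Matrix.toLin' A) ⁻¹' (Metric.closedBall 0 2) with hs
  have hsymm : ∀ x ∈ s, -x ∈ s := by
    intro x hx
    simp only [hs, Set.mem_preimage, mem_closedBall_zero_iff, map_neg, norm_neg] at hx ⊢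
    exact hx
  have hconv : Convex ℝ s := (convex_closedBall _ _).linear_preimage _
  have hvol : volume (ZSpan.fundamentalDomain b) = 1 := by
    rw [hb, ZSpan.fundamentalDomain_pi_basisFun, volume_pi, Measure.pi_pi, Real.volume_Ico]
    simp
  have hlt : volume (ZSpan.fundamentalDomain b) * 2 ^ finrank ℝ (Fin (m+1) → ℝ) < volume s := by
    rw [hvol, one_mul, hs, Measure.addHaar_preimage_linearMap volume (by
      rw [LinearMap.det_toLin']; exact hA), LinearMap.det_toLin', Real.volume_pi_closedBall _ (by norm_num)]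
    simp only [finrank_fintype_fun_eq_card, Fintype.card_fin]
    have h1 : (2:ENNReal) ^ (m+1) = ENNReal.ofReal (2 ^ (m+1)) := by
      rw [ENNReal.ofReal_pow (by norm_num)]; simp
    rw [h1, ← ENNReal.ofReal_mul (by positivity)]
    rw [ENNReal.ofReal_lt_ofReal_iff (by positivity)]
    have h2 : (1:ℝ) ≤ |A.det⁻¹| := by
      rw [abs_inv]; exact (one_le_inv₀ (abs_pos.mpr hA)).mpr hA1
    calc (2:ℝ) ^ (m+1) < (2*2)^(m+1) := by gcongr; norm_num
      _ ≤ |A.det⁻¹| * (2*2)^(m+1) := le_mul_of_one_le_left (by positivity) h2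
  obtain ⟨⟨x, hx⟩, hne, hmem⟩ :=
    exists_ne_zero_mem_lattice_of_measure_mul_two_pow_lt_measure h_fund hsymm hconv hlt
  have hx' : ∃ z : Fin (m+1) → ℤ, x = iv z := by
    have hx2 : x ∈ Submodule.span ℤ (Set.range b) := hx
    have h3 := (b.mem_span_iff_repr_mem ℤ x).mp hx2
    choose z hz using h3
    refine ⟨z, ?_⟩
    ext i
    have := hz i
    simp only [hb, Pi.basisFun_repr] at this
    rw [← this]; simp [iv]
  obtain ⟨z, rfl⟩ := hx'
  refine ⟨z, ?_, ?_⟩
  · rintro rfl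
    apply hne
    ext i
    simp [iv]
  · rw [qf_AtA]
    have h5 : ∀ i, (A *ᵥ iv z) i ^ 2 ≤ 4 := by
      intro i
      have h6 : ‖(Matrix.toLin' A) (iv z)‖ ≤ 2 := by
        simpa [hs] using hmem
      have h7 := (norm_le_pi_norm ((Matrix.toLin' A) (iv z)) i).trans h6
      rw [Matrix.toLin'_apply, Real.norm_eq_abs] at h7
      rw [← sq_abs]
      nlinarith [abs_nonneg ((A *ᵥ iv z) i)]
    calc ∑ i, (A *ᵥ iv z) i ^ 2 ≤ ∑ i : Fin (m+1), (4:ℝ) := Finset.sum_le_sum fun i _ => h5 i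
      _ = 4 * (m+1) := by simp; ring


/-- a nonzero integral vector is a multiple of the first vector of a basis of `ℤ^(m+1)` -/
theorem exists_primitive {m : ℕ} (z : Fin (m+1) → ℤ) (hz : z ≠ 0) :
    ∃ (U : Matrix (Fin (m+1)) (Fin (m+1)) ℤ) (d : ℤ), IsUnit U.det ∧ d ≠ 0 ∧
      z = fun a => d * U a 0 := by
  obtain ⟨n, snf⟩ := (Submodule.span ℤ {z}).smithNormalForm (Pi.basisFun ℤ (Fin (m+1)))
  have hn : n = 1 := by
    have h1 := Module.finrank_eq_card_basis snf.bN
    rw [← (LinearEquiv.toSpanNonzeroSingleton ℤ (Fin (m+1) → ℤ) z hz).finrank_eq] at h1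
    simpa using h1.symm
  subst hn
  set σ : Equiv.Perm (Fin (m+1)) := Equiv.swap 0 (snf.f 0) with hσ
  set b : Basis (Fin (m+1)) ℤ (Fin (m+1) → ℤ) := snf.bM.reindex σ with hb
  have hb0 : b 0 = snf.bM (snf.f 0) := by
    simp [hb, hσ]
  set U : Matrix (Fin (m+1)) (Fin (m+1)) ℤ := (Pi.basisFun ℤ (Fin (m+1))).toMatrix b with hU
  have hUdet : IsUnit U.det := by
    have := (Pi.basisFun ℤ (Fin (m+1))).invertibleToMatrix b
    exact (Matrix.isUnit_iff_isUnit_det _).mp (isUnit_of_invertible U)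
  have hU0 : ∀ a, U a 0 = b 0 a := by
    intro a
    simp [hU, Basis.toMatrix_apply]
  have hmem : z ∈ Submodule.span ℤ {z} := Submodule.mem_span_singleton_self z
  have h2 : (⟨z, hmem⟩ : Submodule.span ℤ {z}) = ∑ i, snf.bN.repr ⟨z, hmem⟩ i • snf.bN i :=
    (snf.bN.sum_repr _).symm
  have h3 : z = (snf.bN.repr ⟨z, hmem⟩ 0 * snf.a 0) • b 0 := by
    have h4 := congrArg Subtype.val h2
    simp only [Fin.sum_univ_one, Submodule.coe_smul_of_tower] at h4
    rw [snf.snf 0] at h4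
    rw [mul_smul, hb0]
    exact h4
  refine ⟨U, snf.bN.repr ⟨z, hmem⟩ 0 * snf.a 0, hUdet, ?_, ?_⟩
  · intro h
    rw [h, zero_smul] at h3
    exact hz h3
  · ext a
    rw [hU0]
    have := congrFun h3 a
    simpa using this


/-- all sublattice determinants are at least `c` -/
def DetGe {α : Type*} [Fintype α] (c : ℝ) (G : Matrix α α ℝ) : Prop :=
  ∀ (k : ℕ) (Z : Matrix α (Fin k) ℤ), (gr G Z).det ≠ 0 → c ≤ (gr G Z).det

lemma subDet_iff {α : Type*} [Fintype α] (G : Matrix α α ℝ) : SubDet G ↔ DetGe 1 G := Iff.rfl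

lemma DetGe.gr {α β : Type*} [Fintype α] [Fintype β] {c : ℝ} {G : Matrix α α ℝ} (h : DetGe c G)
    (U : Matrix α β ℤ) : DetGe c (gr G U) := by
  intro k Z hZ
  rw [← gr_mul] at hZ ⊢
  exact h k _ hZ

lemma DetGe.schur {m : ℕ} {c : ℝ} {G : Matrix (Fin (m+1)) (Fin (m+1)) ℝ} (h : DetGe c G)
    (h0 : 0 < G 0 0) : DetGe (c / G 0 0) (schur G) := by
  intro k Z hZ
  have h1 : (Crest.Agent.R152.WRM3.gr G (ext1 0 Z)).det
      = G 0 0 * (Crest.Agent.R152.WRM3.gr (Crest.Agent.R152.WRM3.schur G) Z).det := by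
    rw [det_schur _ (by rw [gr_ext1_00]; exact h0.ne'), gr_ext1_00, schur_gr_ext1 G h0.ne']
  have h2 := h (k+1) (ext1 0 Z) (by rw [h1]; exact mul_ne_zero h0.ne' hZ)
  rw [div_le_iff₀ h0]
  rw [h1] at h2
  linarith

lemma iv_smul_int {α : Type*} (d : ℤ) (v : α → ℤ) : iv (fun a => d * v a) = (d : ℝ) • iv v := by
  ext a; simp [iv]

/-- short primitive vector as the first basis vector -/
theorem exists_short_first {m : ℕ} {G : Matrix (Fin (m+1)) (Fin (m+1)) ℝ} (hG : G.PosDef)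
    (hdet : G.det ≤ 1) :
    ∃ U : Matrix (Fin (m+1)) (Fin (m+1)) ℤ, IsUnit U.det ∧ gr G U 0 0 ≤ 4 * (m + 1) := by
  obtain ⟨z, hz, hq⟩ := minkowski hG hdet
  obtain ⟨U, d, hU, hd, rfl⟩ := exists_primitive z hz
  refine ⟨U, hU, ?_⟩
  have key : gr G U 0 0 = qf G (iv (fun a => U a 0)) := by
    rw [gr_apply, qf_eq_sum]; simp only [iv]
  rw [key]
  rw [iv_smul_int, qf_smul] at hq
  have h1 : (1:ℝ) ≤ (d:ℝ) ^ 2 := by
    have : (1:ℤ) ≤ d ^ 2 := by
      have := Int.one_le_abs hd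
      nlinarith [abs_nonneg d, sq_abs d]
    exact_mod_cast this
  have h2 : 0 ≤ qf G (iv fun a => U a 0) := by
    rw [← key]; exact (posDef_diag (gr_posDef_unit hG hU) 0).le
  nlinarith

lemma im_mulVec_iv {α β : Type*} [Fintype β] (U : Matrix α β ℤ) (z : β → ℤ) :
    im U *ᵥ iv z = iv (U *ᵥ z) := by
  ext a; simp [im, iv, Matrix.mulVec, dotProduct]

/-- **covering radius** of a lattice all of whose sublattices have determinant `≥ det G` -/
theorem cover : ∀ (m : ℕ) (G : Matrix (Fin m) (Fin m) ℝ), G.PosDef → DetGe G.det G →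
    ∀ x : Fin m → ℝ, ∃ z : Fin m → ℤ, qf G (x - iv z) ≤ m * (m + 1) / 2 := by
  intro m
  induction m with
  | zero =>
    intro G _ _ x
    refine ⟨0, ?_⟩
    simp [qf, dotProduct]
  | succ m ih =>
    intro G hG hd x
    have hdet1 : G.det ≤ 1 := by
      have := hd 0 (Matrix.of fun _ (j : Fin 0) => j.elim0) (by simp)
      simpa using this
    obtain ⟨U, hU, hU0⟩ := exists_short_first hG hdet1
    set G' := gr G U with hG'
    have hGp : G'.PosDef := gr_posDef_unit hG hU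
    have h0 : 0 < G' 0 0 := posDef_diag hGp 0
    have hd' : DetGe G'.det G' := by
      rw [hG', det_gr_unit G hU]; exact hd.gr U
    have hd2 : DetGe (schur G').det (schur G') := by
      have h1 := hd'.schur h0
      rwa [det_schur G' h0.ne', mul_div_cancel_left₀ _ h0.ne'] at h1
    -- coordinates of `x`
    have hUr : IsUnit (im U).det := by
      rw [im_det]
      rcases Int.isUnit_iff.mp hU with h | h <;> simp [h]
    set x' : Fin (m+1) → ℝ := (im U)⁻¹ *ᵥ x with hx'
    have hxx : x = im U *ᵥ x' := by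
      rw [hx', Matrix.mulVec_mulVec, Matrix.mul_nonsing_inv _ hUr, Matrix.one_mulVec]
    obtain ⟨z2, hz2⟩ := ih (schur G') (schur_posDef hGp) hd2 (fun j => x' j.succ)
    set y : Fin m → ℝ := fun j => x' j.succ - z2 j with hy
    set r : ℝ := x' 0 + (∑ j : Fin m, G' 0 j.succ * y j) / G' 0 0 with hr
    set z' : Fin (m+1) → ℤ := Fin.cons (round r) z2 with hz'
    refine ⟨U *ᵥ z', ?_⟩
    have h1 : qf G (x - iv (U *ᵥ z')) = qf G' (x' - iv z') := by
      rw [hG', qf_gr, Matrix.mulVec_sub, im_mulVec_iv, ← hxx]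
    rw [h1, qf_cons G' (posDef_symm hGp) h0.ne']
    have h2 : (fun j : Fin m => (x' - iv z') j.succ) = (fun j => x' j.succ) - iv z2 := by
      ext j; simp [hz', iv]
    have h3 : (x' - iv z') 0 + (∑ j : Fin m, G' 0 j.succ * (x' - iv z') j.succ) / G' 0 0
        = r - round r := by
      have h4 : ∀ j : Fin m, (x' - iv z') j.succ = y j := by
        intro j; simp [hz', iv, hy]
      simp only [h4]
      simp only [Pi.sub_apply, hz', iv, Fin.cons_zero, hr]
      ring
    rw [h2, h3]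
    have h5 : (r - round r) ^ 2 ≤ 1 / 4 := by
      have := abs_sub_round r
      rw [← sq_abs]
      nlinarith [abs_nonneg (r - round r)]
    push_cast
    nlinarith

/-- covering radius of a stable lattice -/
theorem cover_stable {m : ℕ} {G : Matrix (Fin m) (Fin m) ℝ} (hG : Stable G) (x : Fin m → ℝ) :
    ∃ z : Fin m → ℤ, qf G (x - iv z) ≤ m * (m + 1) / 2 :=
  cover m G hG.posDef (by rw [hG.det_eq]; exact hG.sub) x

end Crest.Agent.R152.WRM3
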