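import Crest.Agent.R152.WRM3d

/-!
# Row 152, WRM-3e: minimisers on the set of stable lattices, openness
-/

namespace Crest.Agent.R152.WRM3

open Matrix Module Filter Topology
open Crest.Agent.R152.WRM

set_option autoImplicit false

lemma continuous_gr {α β : Type*} [Fintype α] (Z : Matrix α β ℤ) :
    Continuous (fun G : Matrix α α ℝ => gr G Z) := by
  unfold gr
  fun_prop

lemma continuous_det_gr {α β : Type*} [Fintype α] [Fintype β] [DecidableEq β]
    (Z : Matrix α β ℤ) : Continuous (fun G : Matrix α α ℝ => (gr G Z).det) :=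
  (continuous_gr Z).matrix_det

/-- integral vector as a one-column matrix -/
lemma det_col {α : Type*} [Fintype α] (G : Matrix α α ℝ) (z : α → ℤ) :
    (gr G (Matrix.of fun a (_ : Fin 1) => z a)).det = qf G (iv z) := by
  rw [Matrix.det_fin_one, gr_apply, qf_eq_sum]; simp [iv]

lemma iv_ne_zero {α : Type*} {z : α → ℤ} (hz : z ≠ 0) : iv z ≠ 0 := by
  intro h
  apply hz
  ext i
  have := congrFun h i
  simpa [iv] using this

lemma Stable.one_le {α : Type*} [Fintype α] [DecidableEq α] {G : Matrix α α ℝ} (hG : Stable G)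
    {z : α → ℤ} (hz : z ≠ 0) : 1 ≤ qf G (iv z) := by
  have h := hG.sub 1 (Matrix.of fun a (_ : Fin 1) => z a)
  have h1 : ((im (Matrix.of fun a (_ : Fin 1) => z a))ᵀ * G *
    im (Matrix.of fun a (_ : Fin 1) => z a)).det = qf G (iv z) := det_col G z
  rw [h1] at h
  exact h (PosDef.qf_pos hG.posDef (iv_ne_zero hz)).ne'

lemma stable_gr {m : ℕ} {G : Matrix (Fin m) (Fin m) ℝ} (hG : Stable G)
    {U : Matrix (Fin m) (Fin m) ℤ} (hU : IsUnit U.det) : Stable (gr G U) :=
  ⟨gr_posDef_unit hG.posDef hU, by rw [det_gr_unit G hU, hG.det_eq],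
    DetGe.gr (c := 1) hG.sub U⟩

/-- every stable lattice has a bounded basis -/
theorem stable_red (m : ℕ) : ∃ C1 : ℝ, ∀ G : Matrix (Fin m) (Fin m) ℝ, Stable G →
    ∃ U : Matrix (Fin m) (Fin m) ℤ, IsUnit U.det ∧ ∀ i, gr G U i i ≤ C1 := by
  obtain ⟨C1, h⟩ := red m 1 1 one_pos
  exact ⟨C1, fun G hG => h G hG.posDef (fun z hz => Stable.one_le hG hz) hG.det_eq.le⟩

lemma abs_entry_le {α : Type*} [Fintype α] [DecidableEq α] {G : Matrix α α ℝ}
    (hs : ∀ i j, G i j = G j i) (hq : ∀ x : α → ℝ, 0 ≤ qf G x) {C : ℝ} (hC : ∀ i, G i i ≤ C)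
    (i j : α) : |G i j| ≤ C := by
  have key : ∀ (i j : α) (e : ℝ), qf G (Pi.single i 1 + e • Pi.single j 1)
      = G i i + e * (G i j + G j i) + e ^ 2 * G j j := by
    intro i j e
    unfold qf
    rw [Matrix.mulVec_add, Matrix.mulVec_smul, add_dotProduct, dotProduct_add, dotProduct_add,
      smul_dotProduct, smul_dotProduct, dotProduct_smul, dotProduct_smul]
    simp only [Matrix.mulVec_single_one, single_one_dotProduct, Matrix.col_apply, smul_eq_mul]
    ring
  have h1 := hq (Pi.single i 1 + (1:ℝ) • Pi.single j 1)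
  have h2 := hq (Pi.single i 1 + (-1:ℝ) • Pi.single j 1)
  rw [key] at h1 h2
  have h3 := hC i
  have h4 := hC j
  rw [hs j i] at h1 h2
  rw [abs_le]; constructor <;> nlinarith

lemma stable_one (m : ℕ) : Stable (1 : Matrix (Fin m) (Fin m) ℝ) := by
  refine ⟨Matrix.PosDef.one, Matrix.det_one, ?_⟩
  intro k Z hZ
  have h1 : (im Z)ᵀ * (1 : Matrix (Fin m) (Fin m) ℝ) * im Z = im (Zᵀ * Z) := by
    rw [im_mul, im_transpose, Matrix.mul_one]
  rw [h1, im_det] at hZ ⊢
  have h2 : (0:ℝ) ≤ ((Zᵀ * Z).det : ℝ) := by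
    rw [← im_det, im_mul, im_transpose]
    have := (Matrix.posSemidef_conjTranspose_mul_self (im Z)).det_nonneg
    rwa [Matrix.conjTranspose_eq_transpose_of_trivial] at this
  have h3 : (0:ℤ) ≤ (Zᵀ * Z).det := by exact_mod_cast h2
  have h4 : (Zᵀ * Z).det ≠ 0 := by exact_mod_cast hZ
  have h5 : 1 ≤ (Zᵀ * Z).det := by omega
  exact_mod_cast h5

/-- **existence of minimisers** on the set of stable lattices -/
theorem exists_min_stable (m : ℕ) (F : Matrix (Fin m) (Fin m) ℝ → ℝ)
    (hF : ContinuousOn F {G | G.PosDef})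
    (hinv : ∀ (G : Matrix (Fin m) (Fin m) ℝ) (U : Matrix (Fin m) (Fin m) ℤ), G.PosDef →
      IsUnit U.det → F ((im U)ᵀ * G * im U) = F G) :
    ∃ G0 : Matrix (Fin m) (Fin m) ℝ, Stable G0 ∧
      ∀ G : Matrix (Fin m) (Fin m) ℝ, Stable G → F G0 ≤ F G := by
  obtain ⟨C, hC⟩ := stable_red m
  set K : Set (Matrix (Fin m) (Fin m) ℝ) := {G | (∀ i j, G i j = G j i) ∧ (∀ x, 0 ≤ qf G x) ∧
    G.det = 1 ∧ (∀ (k : ℕ) (Z : Matrix (Fin m) (Fin k) ℤ), (gr G Z).det = 0 ∨
      1 ≤ (gr G Z).det) ∧ ∀ i, G i i ≤ C} with hK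
  have hKs : ∀ G ∈ K, Stable G := by
    rintro G ⟨h1, h2, h3, h4, -⟩
    have hps : G.PosSemidef := by
      refine Matrix.PosSemidef.of_dotProduct_mulVec_nonneg ?_ ?_
      · ext i j; simp [Matrix.conjTranspose_apply, h1 j i]
      · intro x; simpa [qf] using h2 x
    refine ⟨hps.posDef_iff_det_ne_zero.mpr (by rw [h3]; norm_num), h3, ?_⟩
    intro k Z hZ
    rcases h4 k Z with h | h
    · exact absurd h hZ
    · exact h
  have hclosed : IsClosed K := by
    have e1 : IsClosed {G : Matrix (Fin m) (Fin m) ℝ | ∀ i j, G i j = G j i} := by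
      simp only [Set.ofPred_forall]
      refine isClosed_iInter fun i => isClosed_iInter fun j => ?_
      exact isClosed_eq (by fun_prop) (by fun_prop)
    have e2 : IsClosed {G : Matrix (Fin m) (Fin m) ℝ | ∀ x, 0 ≤ qf G x} := by
      simp only [Set.ofPred_forall]
      refine isClosed_iInter fun x => isClosed_le continuous_const ?_
      unfold qf; fun_prop
    have e3 : IsClosed {G : Matrix (Fin m) (Fin m) ℝ | G.det = 1} :=
      isClosed_eq (by fun_prop) continuous_const
    have e4 : IsClosed {G : Matrix (Fin m) (Fin m) ℝ | ∀ (k : ℕ) (Z : Matrix (Fin m) (Fin k) ℤ),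
        (gr G Z).det = 0 ∨ 1 ≤ (gr G Z).det} := by
      simp only [Set.ofPred_forall]
      refine isClosed_iInter fun k => isClosed_iInter fun Z => ?_
      exact (isClosed_eq (continuous_det_gr Z) continuous_const).union
        (isClosed_le continuous_const (continuous_det_gr Z))
    have e5 : IsClosed {G : Matrix (Fin m) (Fin m) ℝ | ∀ i, G i i ≤ C} := by
      simp only [Set.ofPred_forall]
      exact isClosed_iInter fun i => isClosed_le (by fun_prop) continuous_const
    exact e1.inter (e2.inter (e3.inter (e4.inter e5)))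
  have hcomp : IsCompact K := by
    have hbox : IsCompact (Set.univ.pi fun _ : Fin m => Set.univ.pi fun _ : Fin m =>
        Set.Icc (-C) C) := isCompact_univ_pi fun _ => isCompact_univ_pi fun _ => isCompact_Icc
    refine IsCompact.of_isClosed_subset hbox hclosed ?_
    rintro G ⟨h1, h2, -, -, h5⟩ i _ j _
    exact abs_le.mp (abs_entry_le h1 h2 h5 i j)
  have hmem : ∀ G : Matrix (Fin m) (Fin m) ℝ, Stable G → ∃ G' ∈ K, F G' = F G := by
    intro G hG
    obtain ⟨U, hU, hb⟩ := hC G hG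
    refine ⟨gr G U, ?_, hinv G U hG.posDef hU⟩
    have hS := stable_gr hG hU
    refine ⟨posDef_symm hS.posDef, ?_, hS.det_eq, ?_, hb⟩
    · intro x
      by_cases hx : x = 0
      · simp [hx, qf]
      · exact (PosDef.qf_pos hS.posDef hx).le
    · intro k Z
      by_cases h : (gr (gr G U) Z).det = 0
      · exact Or.inl h
      · exact Or.inr (hS.sub k Z h)
  obtain ⟨G1, hG1, -⟩ := hmem 1 (stable_one m)
  obtain ⟨G0, hG0, hmin⟩ := hcomp.exists_isMinOn ⟨G1, hG1⟩
    (hF.mono fun G hG => (hKs G hG).posDef)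
  refine ⟨G0, hKs G0 hG0, fun G hG => ?_⟩
  obtain ⟨G', hG', h⟩ := hmem G hG
  rw [← h]
  exact hmin hG'

end Crest.Agent.R152.WRM3
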