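import Mathlib

set_option linter.unusedSectionVars false
set_option linter.deprecated false

/-!
Row 152, weak reverse Minkowski, module WRM-4 (a): the Voronoi cell of a lattice.
-/

open MeasureTheory Metric Module Submodule

namespace Crest.Agent.R152.WRM4

section General

variable {E : Type*} [NormedAddCommGroup E] [InnerProductSpace ℝ E]

/-- Voronoi cell of `L`. -/
def Vor (L : Submodule ℤ E) : Set E := {x | ∀ y ∈ L, ‖x‖ ≤ ‖x - y‖}

theorem mem_Vor {L : Submodule ℤ E} {x : E} : x ∈ Vor L ↔ ∀ y ∈ L, ‖x‖ ≤ ‖x - y‖ := Iff.rfl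

theorem norm_le_sub_iff (x y : E) : ‖x‖ ≤ ‖x - y‖ ↔ 2 * inner ℝ y x ≤ ‖y‖ ^ 2 := by
  rw [← sq_le_sq₀ (norm_nonneg _) (norm_nonneg _), norm_sub_sq_real, real_inner_comm]
  constructor <;> intro h <;> linarith

theorem mem_Vor_iff_inner {L : Submodule ℤ E} {x : E} :
    x ∈ Vor L ↔ ∀ y ∈ L, 2 * inner ℝ y x ≤ ‖y‖ ^ 2 := by
  simp only [mem_Vor, norm_le_sub_iff]

theorem zero_mem_Vor (L : Submodule ℤ E) : (0 : E) ∈ Vor L := by
  intro y _; simp

theorem neg_mem_Vor {L : Submodule ℤ E} {x : E} (hx : x ∈ Vor L) : -x ∈ Vor L := by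
  intro y hy
  have := hx (-y) (L.neg_mem hy)
  rw [norm_neg]
  calc ‖x‖ ≤ ‖x - -y‖ := this
    _ = ‖-x - y‖ := by rw [← norm_neg]; congr 1; abel

theorem convex_Vor (L : Submodule ℤ E) : Convex ℝ (Vor L) := by
  intro x hx z hz a b ha hb hab
  rw [mem_Vor_iff_inner] at hx hz ⊢
  intro y hy
  rw [inner_add_right, inner_smul_right, inner_smul_right]
  have h1 := hx y hy
  have h2 := hz y hy
  have h3 : a * (2 * inner ℝ y x) ≤ a * ‖y‖ ^ 2 := mul_le_mul_of_nonneg_left h1 ha
  have h4 : b * (2 * inner ℝ y z) ≤ b * ‖y‖ ^ 2 := mul_le_mul_of_nonneg_left h2 hb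
  have h5 : a * ‖y‖ ^ 2 + b * ‖y‖ ^ 2 = ‖y‖ ^ 2 := by rw [← add_mul, hab, one_mul]
  linarith

theorem isClosed_Vor (L : Submodule ℤ E) : IsClosed (Vor L) := by
  have : Vor L = ⋂ y ∈ L, {x : E | ‖x‖ ≤ ‖x - y‖} := by
    ext x; simp [mem_Vor]
  rw [this]
  refine isClosed_biInter fun y _ => ?_
  exact isClosed_le continuous_norm (continuous_norm.comp (continuous_id.sub continuous_const))

theorem smul_mem_Vor {L : Submodule ℤ E} {x : E} (hx : x ∈ Vor L) {a : ℝ} (ha : 0 ≤ a)
    (ha1 : a ≤ 1) : a • x ∈ Vor L := by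
  have := convex_Vor L hx (zero_mem_Vor L) ha (sub_nonneg.2 ha1) (by ring)
  simpa using this

/-- The distance to the lattice is periodic. -/
theorem infDist_add_mem (L : Submodule ℤ E) (x : E) {y : E} (hy : y ∈ L) :
    infDist (x + y) (L : Set E) = infDist x (L : Set E) := by
  have key : ∀ (x : E) {y : E}, y ∈ L → infDist (x + y) (L : Set E) ≤ infDist x (L : Set E) := by
    intro x y hy
    have hne : (L : Set E).Nonempty := ⟨0, L.zero_mem⟩
    refine (le_infDist hne).2 fun z hz => ?_
    calc infDist (x + y) (L : Set E) ≤ dist (x + y) (z + y) :=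
          infDist_le_dist_of_mem (L.add_mem hz hy)
      _ = dist x z := by simp
  refine le_antisymm (key x hy) ?_
  have := key (x + y) (L.neg_mem hy)
  simpa using this

theorem infDist_eq_norm_of_mem_Vor {L : Submodule ℤ E} {x : E} (hx : x ∈ Vor L) :
    infDist x (L : Set E) = ‖x‖ := by
  have hne : (L : Set E).Nonempty := ⟨0, L.zero_mem⟩
  refine le_antisymm ?_ ?_
  · simpa using infDist_le_dist_of_mem (x := x) (L.zero_mem : (0 : E) ∈ (L : Set E))
  · refine (le_infDist hne).2 fun z hz => ?_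
    rw [dist_eq_norm]
    exact hx z hz

theorem mem_Vor_iff_infDist {L : Submodule ℤ E} {x : E} :
    x ∈ Vor L ↔ ‖x‖ ≤ infDist x (L : Set E) := by
  have hne : (L : Set E).Nonempty := ⟨0, L.zero_mem⟩
  rw [le_infDist hne]
  simp only [mem_Vor, dist_eq_norm, SetLike.mem_coe]

end General

section Lattice

variable {E : Type*} [NormedAddCommGroup E] [InnerProductSpace ℝ E] [FiniteDimensional ℝ E]

theorem isClosed_lattice (L : Submodule ℤ E) [DiscreteTopology L] : IsClosed (L : Set E) := by
  have : DiscreteTopology L.toAddSubgroup := ‹DiscreteTopology L›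
  rw [← coe_toAddSubgroup]
  exact AddSubgroup.isClosed_of_discrete

theorem exists_sub_mem_Vor (L : Submodule ℤ E) [DiscreteTopology L] (x : E) :
    ∃ y ∈ L, x - y ∈ Vor L := by
  have hne : (L : Set E).Nonempty := ⟨0, L.zero_mem⟩
  have hp : ProperSpace E := FiniteDimensional.proper ℝ E
  obtain ⟨y, hy, hxy⟩ := (isClosed_lattice L).exists_infDist_eq_dist hne x
  refine ⟨y, hy, ?_⟩
  rw [mem_Vor_iff_infDist]
  have : infDist (x - y) (L : Set E) = infDist x (L : Set E) := by
    rw [sub_eq_add_neg]; exact infDist_add_mem L x (L.neg_mem hy)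
  rw [this, hxy, dist_eq_norm]

theorem isBounded_Vor (L : Submodule ℤ E) [DiscreteTopology L] [IsZLattice ℝ L] :
    Bornology.IsBounded (Vor L) := by
  have hp : ProperSpace E := FiniteDimensional.proper ℝ E
  let b0 := Module.Free.chooseBasis ℤ L
  let b := b0.ofZLatticeBasis ℝ
  have hb : span ℤ (Set.range b) = L := b0.ofZLatticeBasis_span ℝ
  obtain ⟨R, hR⟩ := (ZSpan.fundamentalDomain_isBounded b).exists_norm_le
  refine isBounded_iff_forall_norm_le.2 ⟨R, fun x hx => ?_⟩
  have h1 : ((ZSpan.floor b x : span ℤ (Set.range b)) : E) ∈ L := by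
    exact hb.le (ZSpan.floor b x).2
  have h2 := hx _ h1
  refine h2.trans ?_
  exact hR _ (ZSpan.fract_mem_fundamentalDomain b x)

theorem isCompact_Vor (L : Submodule ℤ E) [DiscreteTopology L] [IsZLattice ℝ L] :
    IsCompact (Vor L) := by
  have hp : ProperSpace E := FiniteDimensional.proper ℝ E
  exact isCompact_of_isClosed_isBounded (isClosed_Vor L) (isBounded_Vor L)

variable [MeasurableSpace E] [BorelSpace E]

theorem measurableSet_Vor (L : Submodule ℤ E) : MeasurableSet (Vor L) :=
  (isClosed_Vor L).measurableSet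

/-- points equidistant from two distinct points have measure zero -/
theorem volume_equidist (y : E) (hy : y ≠ 0) : volume {x : E | ‖x‖ = ‖x - y‖} = 0 := by
  let f : E →ₗ[ℝ] ℝ := (innerSL ℝ y : E →L[ℝ] ℝ)
  have hset : {x : E | ‖x‖ = ‖x - y‖} ⊆
      (AffineSubspace.mk' ((1 / 2 : ℝ) • y) (LinearMap.ker f) : Set E) := by
    intro x hx
    simp only [Set.mem_setOf_eq] at hx
    have h2 : ‖x‖ ^ 2 = ‖x - y‖ ^ 2 := by rw [hx]
    rw [norm_sub_sq_real] at h2
    rw [SetLike.mem_coe, AffineSubspace.mem_mk', LinearMap.mem_ker]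
    simp only [f, vsub_eq_sub, map_sub, map_smul]
    simp only [ContinuousLinearMap.coe_coe, innerSL_apply_apply, smul_eq_mul]
    rw [real_inner_self_eq_norm_sq, real_inner_comm]
    linarith
  refine measure_mono_null hset (Measure.addHaar_affineSubspace volume _ ?_)
  intro htop
  have h0 : (y : E) ∈ (AffineSubspace.mk' ((1 / 2 : ℝ) • y) (LinearMap.ker f)) := by
    rw [htop]; exact AffineSubspace.mem_top _ _ _
  rw [AffineSubspace.mem_mk', LinearMap.mem_ker] at h0
  simp only [f, vsub_eq_sub, map_sub, map_smul, ContinuousLinearMap.coe_coe,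
    innerSL_apply_apply, smul_eq_mul, real_inner_self_eq_norm_sq] at h0
  have : 0 < ‖y‖ ^ 2 := by positivity
  linarith

instance instVAddInv (L : Submodule ℤ E) : VAddInvariantMeasure L E (volume : Measure E) :=
  inferInstanceAs <| VAddInvariantMeasure L.toAddSubgroup E (volume : Measure E)

instance instMeasVAdd (L : Submodule ℤ E) : MeasurableConstVAdd L E :=
  inferInstanceAs <| MeasurableConstVAdd L.toAddSubgroup E

theorem isAddFundamentalDomain_Vor (L : Submodule ℤ E) [DiscreteTopology L] [IsZLattice ℝ L] :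
    IsAddFundamentalDomain L (Vor L) (volume : Measure E) := by
  refine IsAddFundamentalDomain.mk'' (measurableSet_Vor L).nullMeasurableSet ?_ ?_ ?_
  · refine Filter.Eventually.of_forall fun x => ?_
    obtain ⟨y, hy, hxy⟩ := exists_sub_mem_Vor L x
    refine ⟨⟨-y, L.neg_mem hy⟩, ?_⟩
    change -y + x ∈ Vor L
    rw [neg_add_eq_sub]; exact hxy
  · intro g hg
    have hg' : (g : E) ≠ 0 := fun h => hg (Subtype.ext h)
    refine measure_mono_null ?_ (volume_equidist (g : E) hg')
    intro x hx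
    obtain ⟨hx1, hx2⟩ := hx
    rw [Set.mem_vadd_set_iff_neg_vadd_mem] at hx1
    have hx1' : -(g : E) + x ∈ Vor L := hx1
    rw [neg_add_eq_sub] at hx1'
    refine le_antisymm (hx2 g g.2) ?_
    have := hx1' (-g) (L.neg_mem g.2)
    simpa using this
  · intro g
    exact (measurePreserving_vadd g volume).quasiMeasurePreserving

/-- integral of a periodic function over the Voronoi cell -/
theorem setIntegral_Vor_eq (L : Submodule ℤ E) [DiscreteTopology L] [IsZLattice ℝ L]
    {D : Set E} (hD : IsAddFundamentalDomain L D (volume : Measure E)) (g : E → ℝ)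
    (hg : ∀ (x : E) (y : E), y ∈ L → g (x + y) = g x) :
    ∫ x in D, g x = ∫ x in Vor L, g x := by
  refine IsAddFundamentalDomain.setIntegral_eq hD (isAddFundamentalDomain_Vor L) ?_
  intro y x
  change g ((y : E) + x) = g x
  rw [add_comm]; exact hg x y y.2

/-- `∫_D exp(-c dist(x,L)²) = ∫_{Vor L} exp(-c |x|²)` -/
theorem setIntegral_infDist (L : Submodule ℤ E) [DiscreteTopology L] [IsZLattice ℝ L]
    {D : Set E} (hD : IsAddFundamentalDomain L D (volume : Measure E)) (c : ℝ) :
    ∫ x in D, Real.exp (-c * (infDist x (L : Set E)) ^ 2)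
      = ∫ x in Vor L, Real.exp (-c * ‖x‖ ^ 2) := by
  rw [setIntegral_Vor_eq L hD _ (fun x y hy => by rw [infDist_add_mem L x hy])]
  refine setIntegral_congr_fun (measurableSet_Vor L) fun x hx => ?_
  rw [infDist_eq_norm_of_mem_Vor hx]

theorem volume_Vor_eq (L : Submodule ℤ E) [DiscreteTopology L] [IsZLattice ℝ L]
    {D : Set E} (hD : IsAddFundamentalDomain L D (volume : Measure E)) :
    volume (Vor L) = volume D :=
  IsAddFundamentalDomain.measure_eq (isAddFundamentalDomain_Vor L) hD

theorem covolume_eq_volume_Vor (L : Submodule ℤ E) [DiscreteTopology L] [IsZLattice ℝ L] :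
    ZLattice.covolume L = (volume (Vor L)).toReal :=
  ZLattice.covolume_eq_measure_fundamentalDomain L volume (isAddFundamentalDomain_Vor L)

end Lattice

end Crest.Agent.R152.WRM4
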