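import Mathlib
import Crest.Agent.Lib.PrekopaLeindler

/-!
# Row 152, module WRM-5: directional variance of a Gaussian restricted to a symmetric convex body

`anderson`, `dirvar`, `var_quad`.
-/

set_option autoImplicit false
set_option linter.unusedSectionVars false

open MeasureTheory Set Filter Topology
open Crest.Agent.Lib.PrekopaLeindler (PL PL_euclidean)
open scoped ENNReal NNReal RealInnerProductSpace

noncomputable section

namespace Crest.Agent.R152.WRM5

variable {V : Type*} [NormedAddCommGroup V] [InnerProductSpace ℝ V] [FiniteDimensional ℝ V]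
  [MeasurableSpace V] [BorelSpace V]

theorem PL_volume : PL V (volume : Measure V) := by
  refine PL.of_measurePreserving (E := EuclideanSpace ℝ (Fin (Module.finrank ℝ V)))
    (stdOrthonormalBasis ℝ V).repr.symm
    ((stdOrthonormalBasis ℝ V).repr.symm.measurePreserving) ?_ (PL_euclidean _)
  intro a b x y
  simp

/-- continuous functions are integrable on bounded sets. -/
theorem integrableOn_of_bounded {K : Set V} (hb : Bornology.IsBounded K) {f : V → ℝ}
    (hf : Continuous f) : IntegrableOn f K := by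
  have hc : IsCompact (closure K) := hb.isCompact_closure
  exact (hf.continuousOn.integrableOn_compact hc).mono_set subset_closure

/-- the Gaussian weight. -/
def gw (D : V →ₗ[ℝ] V) (c : ℝ) (x : V) : ℝ := Real.exp (-c * ‖D x‖ ^ 2)

theorem gw_pos (D : V →ₗ[ℝ] V) (c : ℝ) (x : V) : 0 < gw D c x := Real.exp_pos _

theorem gw_neg (D : V →ₗ[ℝ] V) (c : ℝ) (x : V) : gw D c (-x) = gw D c x := by
  simp [gw]

theorem continuous_lin (D : V →ₗ[ℝ] V) : Continuous (fun x => D x) :=
  D.continuous_of_finiteDimensional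

theorem continuous_gw (D : V →ₗ[ℝ] V) (c : ℝ) : Continuous (gw D c) := by
  unfold gw
  have := continuous_lin D
  fun_prop

/-- Anderson's inequality (shifts decrease the Gaussian integral over a symmetric convex set). -/
theorem anderson {W : Set V} (hW : Convex ℝ W) (hs : ∀ x ∈ W, -x ∈ W) (hm : MeasurableSet W)
    (hb : Bornology.IsBounded W) (D : V →ₗ[ℝ] V) {c : ℝ} (hc : 0 ≤ c) (z : V) :
    ∫ x in W, gw D c (x + z) ≤ ∫ x in W, gw D c x := by
  set f : V → ℝ≥0∞ := W.indicator (fun x => ENNReal.ofReal (gw D c (x + z))) with hf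
  set g : V → ℝ≥0∞ := W.indicator (fun x => ENNReal.ofReal (gw D c (x - z))) with hg
  set h : V → ℝ≥0∞ := W.indicator (fun x => ENNReal.ofReal (gw D c x)) with hh
  have hcg := continuous_gw D c
  have hfm : Measurable f := (Measurable.ennreal_ofReal (by fun_prop)).indicator hm
  have hgm : Measurable g := (Measurable.ennreal_ofReal (by fun_prop)).indicator hm
  have hhm : Measurable h := (Measurable.ennreal_ofReal (by fun_prop)).indicator hm
  have hfg : ∫⁻ x, g x = ∫⁻ x, f x := by
    rw [← lintegral_neg_eq_self f]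
    refine lintegral_congr fun x => ?_
    by_cases hx : x ∈ W
    · have hx' : -x ∈ W := hs x hx
      simp only [hf, hg, indicator_of_mem hx, indicator_of_mem hx']
      rw [← gw_neg]
      congr 2
      abel
    · have hx' : -x ∉ W := fun h' => hx (by simpa using hs _ h')
      simp only [hf, hg, indicator_of_notMem hx, indicator_of_notMem hx']
  have key := PL_volume (V := V) (1/2) (by norm_num) (by norm_num) f g h hfm hgm hhm ?_
  · rw [hfg] at key
    have e1 : (∫⁻ x, f x) ^ (1 - 1/2 : ℝ) * (∫⁻ x, f x) ^ (1/2 : ℝ) = ∫⁻ x, f x := by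
      rw [← ENNReal.rpow_add_of_nonneg _ _ (by norm_num) (by norm_num)]
      norm_num
    rw [e1] at key
    rw [integral_eq_lintegral_of_nonneg_ae, integral_eq_lintegral_of_nonneg_ae]
    · refine ENNReal.toReal_mono ?_ ?_
      · have := (integrableOn_of_bounded hb (continuous_gw D c)).lintegral_lt_top
        exact this.ne
      · rw [← lintegral_indicator hm, ← lintegral_indicator hm]
        exact key
    · exact Eventually.of_forall fun x => (gw_pos D c x).le
    · exact (continuous_gw D c).aestronglyMeasurable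
    · exact Eventually.of_forall fun x => (gw_pos D c _).le
    · exact (hcg.comp (continuous_add_const z)).aestronglyMeasurable
  · intro x y
    by_cases hx : x ∈ W
    swap
    · simp only [hf, indicator_of_notMem hx]
      rw [ENNReal.zero_rpow_of_pos (by norm_num), zero_mul]
      exact zero_le
    by_cases hy : y ∈ W
    swap
    · simp only [hg, indicator_of_notMem hy]
      rw [ENNReal.zero_rpow_of_pos (by norm_num), mul_zero]
      exact zero_le
    have hxy : (1 - 1/2 : ℝ) • x + (1/2 : ℝ) • y ∈ W := hW hx hy (by norm_num) (by norm_num)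
      (by norm_num)
    simp only [hf, hg, hh, indicator_of_mem hx, indicator_of_mem hy, indicator_of_mem hxy]
    rw [ENNReal.ofReal_rpow_of_pos (gw_pos _ _ _), ENNReal.ofReal_rpow_of_pos (gw_pos _ _ _),
      ← ENNReal.ofReal_mul (Real.rpow_nonneg (gw_pos _ _ _).le _)]
    refine ENNReal.ofReal_le_ofReal ?_
    unfold gw
    rw [← Real.exp_mul, ← Real.exp_mul, ← Real.exp_add, Real.exp_le_exp]
    set X := D (x + z)
    set Y := D (y - z)
    have e2 : D ((1 - 1/2 : ℝ) • x + (1/2 : ℝ) • y) = (1/2 : ℝ) • (X + Y) := by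
      simp only [X, Y, map_add, map_sub, map_smul]
      module
    rw [e2, norm_smul, mul_pow]
    have par := parallelogram_law_with_norm ℝ X Y
    have : ‖X + Y‖ ^ 2 ≤ 2 * (‖X‖ ^ 2 + ‖Y‖ ^ 2) := by nlinarith [norm_nonneg (X - Y)]
    have e3 : ‖(1/2 : ℝ)‖ ^ 2 = 1/4 := by norm_num
    rw [e3]
    nlinarith

theorem one_add_le_cosh (y : ℝ) : 1 + y ^ 2 / 2 ≤ Real.cosh y := by
  have h1 : Real.cosh y = 1 + 2 * Real.sinh (y / 2) ^ 2 := by
    have h := Real.cosh_two_mul (y / 2)
    rw [Real.cosh_sq] at h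
    have e : 2 * (y / 2) = y := by ring
    rw [e] at h
    linarith
  have h2 : (y / 2) ^ 2 ≤ Real.sinh (y / 2) ^ 2 := by
    rcases le_total 0 (y / 2) with h | h
    · exact pow_le_pow_left₀ h (Real.self_le_sinh_iff.2 h) 2
    · have h' : 0 ≤ -(y / 2) := by linarith
      have := pow_le_pow_left₀ h' (Real.self_le_sinh_iff.2 h') 2
      rw [Real.sinh_neg] at this
      simpa using this
  rw [h1]
  nlinarith

/-- directional variance. -/
theorem dirvar {W : Set V} (hW : Convex ℝ W) (hs : ∀ x ∈ W, -x ∈ W) (hm : MeasurableSet W)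
    (hb : Bornology.IsBounded W) (D : V →ₗ[ℝ] V) (hD : Function.Injective D) {c : ℝ} (hc : 0 < c)
    (b : V) :
    ∫ v in W, ⟪b, D v⟫ ^ 2 * gw D c v ≤ ‖b‖ ^ 2 / (2 * c) * ∫ v in W, gw D c v := by
  obtain ⟨w, rfl⟩ := (LinearMap.injective_iff_surjective.1 hD) b
  set b := D w with hbdef
  set I := ∫ v in W, ⟪b, D v⟫ ^ 2 * gw D c v with hI
  set J := ∫ v in W, gw D c v with hJ
  have hcD := continuous_lin D
  have hcg := continuous_gw D c
  have hJ0 : 0 ≤ J := integral_nonneg fun v => (gw_pos _ _ _).le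
  -- expansion of the shifted weight
  have hexp : ∀ (t : ℝ) (v : V), gw D c (v + t • w) =
      Real.exp (-c * t ^ 2 * ‖b‖ ^ 2) * (gw D c v * Real.exp (-(2 * c * t * ⟪b, D v⟫))) := by
    intro t v
    unfold gw
    rw [← Real.exp_add, ← Real.exp_add]
    congr 1
    rw [map_add, map_smul, norm_add_sq_real, norm_smul, inner_smul_right, ← hbdef,
      real_inner_comm]
    have : ‖t‖ ^ 2 = t ^ 2 := by simp
    rw [mul_pow, this]
    ring
  have key : ∀ t : ℝ, Real.exp (-c * t ^ 2 * ‖b‖ ^ 2) * (J + 2 * c ^ 2 * t ^ 2 * I) ≤ J := by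
    intro t
    have h1 := anderson hW hs hm hb D hc.le (t • w)
    have h2 := anderson hW hs hm hb D hc.le ((-t) • w)
    rw [← hJ] at h1 h2
    have h3 : ∫ v in W, (gw D c (v + t • w) + gw D c (v + (-t) • w)) ≤ 2 * J := by
      rw [integral_add]
      · linarith
      · exact integrableOn_of_bounded hb (hcg.comp (continuous_add_const _))
      · exact integrableOn_of_bounded hb (hcg.comp (continuous_add_const _))
    have h4 : ∫ v in W, 2 * (Real.exp (-c * t ^ 2 * ‖b‖ ^ 2) *
        (gw D c v + 2 * c ^ 2 * t ^ 2 * (⟪b, D v⟫ ^ 2 * gw D c v))) ≤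
        ∫ v in W, (gw D c (v + t • w) + gw D c (v + (-t) • w)) := by
      refine setIntegral_mono ?_ ?_ fun v => ?_
      · exact integrableOn_of_bounded hb (by fun_prop)
      · exact integrableOn_of_bounded hb
          ((hcg.comp (continuous_add_const _)).add (hcg.comp (continuous_add_const _)))
      · simp only
        rw [hexp t v, hexp (-t) v]
        set y := 2 * c * t * ⟪b, D v⟫ with hy
        have e1 : -c * (-t) ^ 2 * ‖b‖ ^ 2 = -c * t ^ 2 * ‖b‖ ^ 2 := by ring
        have e2 : -(2 * c * (-t) * ⟪b, D v⟫) = y := by rw [hy]; ring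
        rw [e1, e2]
        have hcosh : 1 + y ^ 2 / 2 ≤ Real.cosh y := one_add_le_cosh y
        rw [Real.cosh_eq] at hcosh
        have e3 : 2 * c ^ 2 * t ^ 2 * (⟪b, D v⟫ ^ 2 * gw D c v) = gw D c v * (y ^ 2 / 2) := by
          rw [hy]; ring
        rw [e3]
        have hg := gw_pos D c v
        have hE := Real.exp_pos (-c * t ^ 2 * ‖b‖ ^ 2)
        have : gw D c v * (1 + y ^ 2 / 2) ≤ gw D c v * ((Real.exp y + Real.exp (-y)) / 2) :=
          mul_le_mul_of_nonneg_left hcosh hg.le
        nlinarith [mul_le_mul_of_nonneg_left this hE.le]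
    have h5 : ∫ v in W, 2 * (Real.exp (-c * t ^ 2 * ‖b‖ ^ 2) *
        (gw D c v + 2 * c ^ 2 * t ^ 2 * (⟪b, D v⟫ ^ 2 * gw D c v))) =
        2 * (Real.exp (-c * t ^ 2 * ‖b‖ ^ 2) * (J + 2 * c ^ 2 * t ^ 2 * I)) := by
      rw [integral_const_mul, integral_const_mul, integral_add, integral_const_mul]
      · exact integrableOn_of_bounded hb hcg
      · exact integrableOn_of_bounded hb (by fun_prop)
    rw [h5] at h4
    linarith
  -- divide by t^2
  have key2 : ∀ t : ℝ, t ≠ 0 → 2 * c * I ≤ ‖b‖ ^ 2 * Real.exp (c * t ^ 2 * ‖b‖ ^ 2) * J := by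
    intro t ht
    have h := key t
    set s := c * t ^ 2 * ‖b‖ ^ 2 with hs'
    have e1 : -c * t ^ 2 * ‖b‖ ^ 2 = -s := by rw [hs']; ring
    rw [e1, Real.exp_neg] at h
    have hE := Real.exp_pos s
    have h' : J + 2 * c ^ 2 * t ^ 2 * I ≤ Real.exp s * J := by
      rw [inv_mul_le_iff₀ hE] at h
      exact h
    have h6 : 1 - Real.exp (-s) ≤ s := by
      have := Real.add_one_le_exp (-s)
      linarith
    have h7 : Real.exp s - 1 ≤ s * Real.exp s := by
      have : Real.exp s * Real.exp (-s) = 1 := by rw [← Real.exp_add]; simp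
      nlinarith
    have h8 : 2 * c ^ 2 * t ^ 2 * I ≤ s * Real.exp s * J := by nlinarith
    have ht2 : 0 < c * t ^ 2 := by positivity
    have h9 : (c * t ^ 2) * (2 * c * I) ≤ (c * t ^ 2) * (‖b‖ ^ 2 * Real.exp s * J) := by
      rw [hs'] at h8 ⊢
      nlinarith
    exact le_of_mul_le_mul_left h9 ht2
  have lim : 2 * c * I ≤ ‖b‖ ^ 2 * J := by
    have ht : Tendsto (fun t : ℝ => ‖b‖ ^ 2 * Real.exp (c * t ^ 2 * ‖b‖ ^ 2) * J) (𝓝[≠] 0)
        (𝓝 (‖b‖ ^ 2 * Real.exp (c * 0 ^ 2 * ‖b‖ ^ 2) * J)) := by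
      refine Tendsto.mono_left ?_ nhdsWithin_le_nhds
      exact Continuous.tendsto (by fun_prop) 0
    have e : ‖b‖ ^ 2 * Real.exp (c * 0 ^ 2 * ‖b‖ ^ 2) * J = ‖b‖ ^ 2 * J := by simp
    rw [e] at ht
    refine ge_of_tendsto ht ?_
    filter_upwards [self_mem_nhdsWithin] with t ht'
    exact key2 t ht'
  rw [div_mul_eq_mul_div, le_div_iff₀ (by positivity)]
  linarith

end Crest.Agent.R152.WRM5
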