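import Mathlib

/-!
# Weak K-convexity on the discrete cube (Walsh analysis part)

Signs are functions `e : Fin m → ℤˣ`.
-/

set_option autoImplicit false

namespace Crest.Agent.R152.WRM6

open Finset

variable {m : ℕ}

/-- Sign vectors. -/
abbrev Sg (m : ℕ) : Type := Fin m → ℤˣ

/-- real value of a unit -/
def sv (u : ℤˣ) : ℝ := ((u : ℤ) : ℝ)

@[simp] lemma sv_one : sv 1 = 1 := by simp [sv]
@[simp] lemma sv_neg_one : sv (-1) = -1 := by simp [sv]

lemma sv_mul (a b : ℤˣ) : sv (a * b) = sv a * sv b := by simp [sv]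

lemma sv_cases (u : ℤˣ) : sv u = 1 ∨ sv u = -1 := by
  rcases Int.units_eq_one_or u with h | h <;> simp [h]

lemma sv_sq (u : ℤˣ) : sv u * sv u = 1 := by
  rcases sv_cases u with h | h <;> simp [h]

lemma sum_units (f : ℤˣ → ℝ) : ∑ u, f u = f 1 + f (-1) := by
  rw [show (Finset.univ : Finset ℤˣ) = {1, -1} from rfl]
  rw [Finset.sum_insert (by decide), Finset.sum_singleton]

/-- Walsh function -/
def walsh (S : Finset (Fin m)) (e : Sg m) : ℝ := ∏ i ∈ S, sv (e i)

lemma walsh_mul (S : Finset (Fin m)) (e f : Sg m) :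
    walsh S (e * f) = walsh S e * walsh S f := by
  simp [walsh, sv_mul, Finset.prod_mul_distrib]

lemma walsh_sq (S : Finset (Fin m)) (e : Sg m) : walsh S e * walsh S e = 1 := by
  rw [walsh, ← Finset.prod_mul_distrib]
  exact Finset.prod_eq_one fun i _ => sv_sq _

lemma sum_prod_cube (g : Fin m → ℤˣ → ℝ) :
    ∑ e : Sg m, ∏ i, g i (e i) = ∏ i, (g i 1 + g i (-1)) := by
  have h := Finset.prod_univ_sum (fun _ : Fin m => (Finset.univ : Finset ℤˣ)) g
  rw [Fintype.piFinset_univ] at h
  rw [← h]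
  exact Finset.prod_congr rfl fun i _ => sum_units _

/-- completeness relation of the Walsh functions -/
lemma sum_walsh_walsh (e f : Sg m) :
    ∑ S : Finset (Fin m), walsh S e * walsh S f = if e = f then (2:ℝ)^m else 0 := by
  have h1 : ∑ S : Finset (Fin m), walsh S e * walsh S f = ∏ i : Fin m, (1 + sv (e i) * sv (f i)) := by
    rw [Finset.prod_one_add]
    rw [Finset.powerset_univ]
    refine Finset.sum_congr rfl fun S _ => ?_
    rw [walsh, walsh, Finset.prod_mul_distrib]
  rw [h1]
  split_ifs with h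
  · subst h
    simp only [sv_sq]
    norm_num
  · obtain ⟨i, hi⟩ := Function.ne_iff.mp h
    apply Finset.prod_eq_zero (Finset.mem_univ i)
    rcases Int.units_eq_one_or (e i) with h1 | h1 <;> rcases Int.units_eq_one_or (f i) with h2 | h2
    · exact absurd (h1.trans h2.symm) hi
    · simp [h1, h2]
    · simp [h1, h2]
    · exact absurd (h1.trans h2.symm) hi

/-- Walsh coefficient (unnormalised) -/
def wc (f : Sg m → ℝ) (S : Finset (Fin m)) : ℝ := ∑ e, f e * walsh S e

lemma wc_inv (f : Sg m → ℝ) (e : Sg m) :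
    ∑ S, wc f S * walsh S e = (2:ℝ)^m * f e := by
  simp only [wc, Finset.sum_mul]
  rw [Finset.sum_comm]
  have : ∀ y : Sg m, ∑ S : Finset (Fin m), f y * walsh S y * walsh S e
      = f y * (if y = e then (2:ℝ)^m else 0) := by
    intro y
    rw [← sum_walsh_walsh, Finset.mul_sum]
    exact Finset.sum_congr rfl fun S _ => by ring
  simp only [this]
  simp [mul_comm]

/-- Parseval -/
lemma parseval (f : Sg m → ℝ) : (2:ℝ)^m * ∑ e, f e ^ 2 = ∑ S, wc f S ^ 2 := by
  rw [Finset.mul_sum]
  have : ∀ e : Sg m, (2:ℝ)^m * f e ^ 2 = ∑ S, wc f S * walsh S e * f e := by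
    intro e
    rw [← Finset.sum_mul, wc_inv]; ring
  simp only [this]
  rw [Finset.sum_comm]
  refine Finset.sum_congr rfl fun S _ => ?_
  have h : wc f S ^ 2 = wc f S * ∑ e, f e * walsh S e := by rw [pow_two]; rfl
  rw [h, Finset.mul_sum]
  exact Finset.sum_congr rfl fun e _ => by ring

/-- convolution of a scalar kernel with a vector valued function -/
def conv {V : Type*} [AddCommGroup V] [Module ℝ V] (k : Sg m → ℝ) (F : Sg m → V) (e : Sg m) : V :=
  ∑ n, k n • F (e * n)

lemma wc_conv (k : Sg m → ℝ) (f : Sg m → ℝ) (S : Finset (Fin m)) :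
    wc (conv k f) S = wc k S * wc f S := by
  simp only [wc, conv, smul_eq_mul, Finset.sum_mul]
  rw [Finset.sum_comm]
  refine Finset.sum_congr rfl fun n _ => ?_
  rw [Finset.mul_sum]
  refine Fintype.sum_equiv (Equiv.mulRight n) _ _ fun e => ?_
  simp only [Equiv.coe_mulRight]
  rw [walsh_mul]
  have := walsh_sq S n
  linear_combination (-(k n * f (e * n) * walsh S e)) * this

/-- `L2(l2)` bound for convolution operators -/
lemma conv_l2 (k : Sg m → ℝ) (d : ℝ) (hd : ∀ S, |wc k S| ≤ d) (f : Sg m → ℝ) :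
    ∑ e, conv k f e ^ 2 ≤ d ^ 2 * ∑ e, f e ^ 2 := by
  have h2 : (0:ℝ) < 2 ^ m := by positivity
  rw [← mul_le_mul_iff_right₀ h2, parseval]
  have : (2:ℝ)^m * (d ^ 2 * ∑ e, f e ^ 2) = ∑ S, d ^ 2 * wc f S ^ 2 := by
    rw [← Finset.mul_sum, ← parseval]; ring
  rw [this]
  refine Finset.sum_le_sum fun S _ => ?_
  rw [wc_conv, mul_pow]
  have : wc k S ^ 2 ≤ d ^ 2 := sq_le_sq' (by have := abs_le.mp (hd S); linarith) (by have := abs_le.mp (hd S); linarith)
  exact mul_le_mul_of_nonneg_right this (sq_nonneg _)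

/-! ### Kernels -/

/-- noise kernel -/
noncomputable def noise (m : ℕ) (r : ℝ) (n : Sg m) : ℝ := ((2:ℝ)^m)⁻¹ * ∏ i, (1 + r * sv (n i))

lemma noise_nonneg {r : ℝ} (h0 : 0 ≤ r) (h1 : r ≤ 1) (n : Sg m) : 0 ≤ noise m r n := by
  unfold noise
  have : 0 ≤ ∏ i, (1 + r * sv (n i)) := by
    refine Finset.prod_nonneg fun i _ => ?_
    rcases sv_cases (n i) with h | h <;> rw [h] <;> linarith
  positivity

lemma wc_noise (r : ℝ) (S : Finset (Fin m)) : wc (noise m r) S = r ^ S.card := by
  have h1 : ∀ e : Sg m, noise m r e * walsh S e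
      = ((2:ℝ)^m)⁻¹ * ∏ i, ((1 + r * sv (e i)) * (if i ∈ S then sv (e i) else 1)) := by
    intro e
    rw [noise, walsh, Finset.prod_mul_distrib, Finset.prod_ite_mem, Finset.univ_inter, mul_assoc]
  simp only [wc, h1]
  rw [← Finset.mul_sum]
  have h2 := sum_prod_cube (m := m) (fun i u => ((1 + r * sv u) * (if i ∈ S then sv u else 1)))
  rw [h2]
  have h3 : ∀ i : Fin m, ((1 + r * sv 1) * (if i ∈ S then sv 1 else 1) + (1 + r * sv (-1)) * (if i ∈ S then sv (-1) else 1))
      = 2 * (if i ∈ S then r else 1) := by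
    intro i
    split_ifs
    · simp; ring
    · simp; ring
  simp only [h3]
  rw [Finset.prod_mul_distrib, Finset.prod_ite_mem, Finset.univ_inter]
  simp only [Finset.prod_const, Finset.card_univ, Fintype.card_fin]
  field_simp

lemma noise_sum (r : ℝ) : ∑ n, noise m r n = 1 := by
  have := wc_noise (m := m) r ∅
  simpa [wc, walsh] using this

/-- kernel of the Rademacher projection -/
noncomputable def rad (m : ℕ) (n : Sg m) : ℝ := ((2:ℝ)^m)⁻¹ * ∑ i, sv (n i)

lemma wc_rad (S : Finset (Fin m)) : wc (rad m) S = if S.card = 1 then 1 else 0 := by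
  have h1 : ∀ e : Sg m, rad m e * walsh S e
      = ∑ i, ((2:ℝ)^m)⁻¹ * ∏ j, ((if j = i then sv (e j) else 1) * (if j ∈ S then sv (e j) else 1)) := by
    intro e
    rw [rad, walsh, mul_assoc, Finset.sum_mul, Finset.mul_sum]
    refine Finset.sum_congr rfl fun i _ => ?_
    rw [Finset.prod_mul_distrib, Finset.prod_ite_mem, Finset.univ_inter]
    simp
  simp only [wc, h1]
  rw [Finset.sum_comm]
  have h2 : ∀ i : Fin m, ∑ e : Sg m, ((2:ℝ)^m)⁻¹ * ∏ j, ((if j = i then sv (e j) else 1) * (if j ∈ S then sv (e j) else 1))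
      = if S = {i} then 1 else 0 := by
    intro i
    rw [← Finset.mul_sum]
    rw [sum_prod_cube (m := m) (fun j u => ((if j = i then sv u else 1) * (if j ∈ S then sv u else 1)))]
    split_ifs with h
    · subst h
      have : ∀ j : Fin m, ((if j = i then sv 1 else 1) * (if j ∈ ({i} : Finset (Fin m)) then sv 1 else 1) +
        (if j = i then sv (-1) else 1) * (if j ∈ ({i} : Finset (Fin m)) then sv (-1) else 1)) = 2 := by
        intro j
        by_cases hj : j = i
        · subst hj; simp; norm_num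
        · simp [hj]; norm_num
      simp only [this]
      simp
    · -- exists j with j ∈ S xor j = i
      have : ∃ j, ¬ (j ∈ S ↔ j = i) := by
        by_contra hcon
        push Not at hcon
        apply h
        ext j
        simp [hcon j]
      obtain ⟨j, hj⟩ := this
      apply mul_eq_zero_of_right
      apply Finset.prod_eq_zero (Finset.mem_univ j)
      by_cases h1 : j ∈ S <;> by_cases h2 : j = i
      · exact absurd ⟨fun _ => h2, fun _ => h1⟩ hj
      · simp [h1, h2]
      · rw [if_neg h1, if_pos h2, if_pos h2, if_neg h1]; simp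
      · exact absurd ⟨fun h => absurd h h1, fun h => absurd h h2⟩ hj
  simp only [h2]
  split_ifs with h
  · obtain ⟨i, rfl⟩ := Finset.card_eq_one.mp h
    simp
  · apply Finset.sum_eq_zero
    intro i _
    rw [if_neg]
    rintro rfl
    simp at h

end Crest.Agent.R152.WRM6
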