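import Crest.Agent.R152.WRM6A

/-!
# Weak K-convexity of finite dimensional norms
-/

set_option autoImplicit false

namespace Crest.Agent.R152.WRM6

open Finset

variable {m : ℕ}

/-- Moment coefficients: nodes `0, …, K`. -/
lemma exists_coeff (K : ℕ) :
    ∃ c : Fin (K+1) → ℝ, ∀ k : ℕ, k ≤ K → ∑ j : Fin (K+1), c j * (j : ℝ) ^ k = if k = 1 then 1 else 0 := by
  set v : Fin (K+1) → ℝ := fun j => (j : ℝ) with hv
  have hinj : Function.Injective v := by
    intro a b h
    simp only [hv] at h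
    exact Fin.ext (by exact_mod_cast h)
  have hdet : IsUnit (Matrix.vandermonde v).transpose.det := by
    rw [Matrix.det_transpose]
    exact isUnit_iff_ne_zero.mpr (Matrix.det_vandermonde_ne_zero_iff.mpr hinj)
  have hsurj : Function.Surjective ((Matrix.vandermonde v).transpose).mulVec :=
    Matrix.mulVec_surjective_iff_isUnit.mpr ((Matrix.isUnit_iff_isUnit_det _).mpr hdet)
  obtain ⟨c, hc⟩ := hsurj (fun k : Fin (K+1) => if (k : ℕ) = 1 then 1 else 0)
  refine ⟨c, fun k hk => ?_⟩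
  have h := congrFun hc ⟨k, by omega⟩
  simp only [Matrix.mulVec, dotProduct, Matrix.transpose_apply, Matrix.vandermonde_apply, hv] at h
  rw [← h]
  exact Finset.sum_congr rfl fun j _ => by ring

/-- mean square (unnormalised) of `N ∘ F` in `L²` -/
noncomputable def nrm2 (f : Sg m → ℝ) : ℝ := Real.sqrt (∑ e, f e ^ 2)

lemma nrm2_nonneg (f : Sg m → ℝ) : 0 ≤ nrm2 f := Real.sqrt_nonneg _

lemma nrm2_eq (f : Sg m → ℝ) : nrm2 f = ‖(WithLp.toLp 2 f : EuclideanSpace ℝ (Sg m))‖ := by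
  rw [EuclideanSpace.norm_eq]
  simp [nrm2]

lemma nrm2_mono {f g : Sg m → ℝ} (h0 : ∀ e, 0 ≤ f e) (h : ∀ e, f e ≤ g e) : nrm2 f ≤ nrm2 g := by
  unfold nrm2
  apply Real.sqrt_le_sqrt
  exact Finset.sum_le_sum fun e _ => pow_le_pow_left₀ (h0 e) (h e) 2

lemma nrm2_add_le (f g : Sg m → ℝ) : nrm2 (fun e => f e + g e) ≤ nrm2 f + nrm2 g := by
  simp only [nrm2_eq]
  have : (WithLp.toLp 2 (fun e => f e + g e) : EuclideanSpace ℝ (Sg m)) = WithLp.toLp 2 f + WithLp.toLp 2 g := rfl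
  rw [this]
  exact norm_add_le _ _

lemma nrm2_smul {c : ℝ} (hc : 0 ≤ c) (f : Sg m → ℝ) : nrm2 (fun e => c * f e) = c * nrm2 f := by
  unfold nrm2
  have : ∑ e, (c * f e) ^ 2 = c ^ 2 * ∑ e, f e ^ 2 := by
    rw [Finset.mul_sum]; exact Finset.sum_congr rfl fun e _ => by ring
  rw [this, Real.sqrt_mul (sq_nonneg c), Real.sqrt_sq hc]

lemma nrm2_sum_le {ι : Type*} (s : Finset ι) (f : ι → Sg m → ℝ) :
    nrm2 (fun e => ∑ i ∈ s, f i e) ≤ ∑ i ∈ s, nrm2 (f i) := by
  classical
  induction s using Finset.induction_on with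
  | empty => simp [nrm2]
  | insert a s ha ih =>
    simp only [Finset.sum_insert ha]
    exact (nrm2_add_le _ _).trans (by linarith)

lemma nrm2_translate (f : Sg m → ℝ) (n : Sg m) : nrm2 (fun e => f (e * n)) = nrm2 f := by
  unfold nrm2
  congr 1
  exact Fintype.sum_equiv (Equiv.mulRight n) _ _ fun e => rfl

/-- convolution with a scalar kernel is bounded by its `ℓ¹` norm, for any seminorm -/
lemma conv_norm {V : Type*} [AddCommGroup V] [Module ℝ V] (N : Seminorm ℝ V) (k : Sg m → ℝ)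
    (F : Sg m → V) :
    nrm2 (fun e => N (conv k F e)) ≤ (∑ n, |k n|) * nrm2 (fun e => N (F e)) := by
  have h1 : nrm2 (fun e => N (conv k F e)) ≤ nrm2 (fun e => ∑ n, |k n| * N (F (e * n))) := by
    apply nrm2_mono (fun e => apply_nonneg N _)
    intro e
    unfold conv
    refine (Finset.le_sum_of_subadditive N (map_zero N).le (map_add_le_add N) _ _).trans ?_
    exact Finset.sum_le_sum fun n _ => by rw [map_smul_eq_mul, Real.norm_eq_abs]
  refine h1.trans ((nrm2_sum_le _ _).trans ?_)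
  rw [Finset.sum_mul]
  refine Finset.sum_le_sum fun n _ => ?_
  rw [nrm2_smul (abs_nonneg _), nrm2_translate (fun e => N (F e)) n]

/-- Euclidean length -/
noncomputable def l2 (x : Fin m → ℝ) : ℝ := Real.sqrt (∑ i, x i ^ 2)

lemma l2_nonneg (x : Fin m → ℝ) : 0 ≤ l2 x := Real.sqrt_nonneg _

lemma l2_sq (x : Fin m → ℝ) : l2 x ^ 2 = ∑ i, x i ^ 2 :=
  Real.sq_sqrt (Finset.sum_nonneg fun _ _ => sq_nonneg _)

/-- convolution operators are bounded on `L²(ℓ²)` by the sup of the multiplier. -/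
lemma conv_l2_vec (k : Sg m → ℝ) (d : ℝ) (hd0 : 0 ≤ d) (hd : ∀ S, |wc k S| ≤ d) (F : Sg m → Fin m → ℝ) :
    nrm2 (fun e => l2 (conv k F e)) ≤ d * nrm2 (fun e => l2 (F e)) := by
  unfold nrm2
  rw [← Real.sqrt_sq hd0, ← Real.sqrt_mul (sq_nonneg d)]
  apply Real.sqrt_le_sqrt
  simp only [l2_sq]
  rw [Finset.sum_comm, Finset.sum_comm (s := Finset.univ) (t := Finset.univ) (f := fun e i => F e i ^ 2),
    Finset.mul_sum]
  refine Finset.sum_le_sum fun i _ => ?_
  have h := conv_l2 k d hd (fun e => F e i)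
  refine le_trans (le_of_eq ?_) h
  refine Finset.sum_congr rfl fun e _ => ?_
  congr 1
  simp [conv, Finset.sum_apply]

/-- the Rademacher projection -/
noncomputable def R1 {V : Type*} [AddCommGroup V] [Module ℝ V] (F : Sg m → V) (e : Sg m) : V :=
  conv (rad m) F e

/-- linear combination of kernels -/
lemma conv_sub {V : Type*} [AddCommGroup V] [Module ℝ V] (k l : Sg m → ℝ) (F : Sg m → V) (e : Sg m) :
    conv (fun n => k n - l n) F e = conv k F e - conv l F e := by
  simp [conv, sub_smul, Finset.sum_sub_distrib]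

/-- **weak K-convexity**, kernel form with a free parameter `r`. -/
theorem kconv_aux (K : ℕ) (hK : 1 ≤ K) (c : Fin (K+1) → ℝ)
    (hc : ∀ k : ℕ, k ≤ K → ∑ j : Fin (K+1), c j * (j : ℝ) ^ k = if k = 1 then 1 else 0)
    (N : Seminorm ℝ (Fin m → ℝ)) (R : ℝ) (hR : 1 ≤ R) (hN1 : ∀ x, N x ≤ R * l2 x)
    (hN2 : ∀ x, l2 x ≤ R * N x) (r : ℝ) (hr : 0 < r) (hrK : (K:ℝ) * r ≤ 1) (F : Sg m → Fin m → ℝ) :
    nrm2 (fun e => N (R1 F e)) ≤
      ((∑ j, |c j|) / r + K * (∑ j, |c j|) * (K * r) ^ K * R ^ 2) * nrm2 (fun e => N (F e)) := by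
  set Q : Sg m → ℝ := fun n => r⁻¹ * ∑ j : Fin (K+1), c j * noise m (j * r) n with hQ
  set D : Sg m → ℝ := fun n => Q n - rad m n with hD
  have hKpos : (0:ℝ) < K := by exact_mod_cast hK
  have hjr : ∀ j : Fin (K+1), (0:ℝ) ≤ j * r ∧ (j:ℝ) * r ≤ 1 := by
    intro j
    refine ⟨by positivity, le_trans ?_ hrK⟩
    have : (j:ℝ) ≤ K := by exact_mod_cast Nat.lt_succ_iff.mp j.2
    exact mul_le_mul_of_nonneg_right this hr.le
  -- ℓ¹ norm of Q
  have hQ1 : ∑ n, |Q n| ≤ (∑ j, |c j|) / r := by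
    have : ∀ n, |Q n| ≤ r⁻¹ * ∑ j : Fin (K+1), |c j| * noise m (j * r) n := by
      intro n
      rw [hQ]
      simp only [abs_mul, abs_of_pos (inv_pos.mpr hr)]
      apply mul_le_mul_of_nonneg_left _ (inv_pos.mpr hr).le
      refine (Finset.abs_sum_le_sum_abs _ _).trans ?_
      refine Finset.sum_le_sum fun j _ => ?_
      rw [abs_mul, abs_of_nonneg (noise_nonneg (hjr j).1 (hjr j).2 n)]
    refine (Finset.sum_le_sum fun n _ => this n).trans ?_
    rw [← Finset.mul_sum, Finset.sum_comm]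
    simp only [← Finset.mul_sum, noise_sum, mul_one]
    rw [div_eq_inv_mul]
  -- multiplier of D
  set S1 : ℝ := ∑ j, |c j| with hS1
  have hS1nn : 0 ≤ S1 := Finset.sum_nonneg fun _ _ => abs_nonneg _
  have hDS : ∀ S, |wc D S| ≤ K * S1 * (K * r) ^ K := by
    intro S
    have hwQ : wc Q S = r⁻¹ * ∑ j : Fin (K+1), c j * (j * r) ^ S.card := by
      have : ∀ e, Q e * walsh S e = r⁻¹ * ∑ j : Fin (K+1), c j * (noise m (j * r) e * walsh S e) := by
        intro e
        rw [hQ]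
        simp only [mul_assoc, Finset.sum_mul]
      simp only [wc, this]
      rw [← Finset.mul_sum, Finset.sum_comm]
      congr 1
      refine Finset.sum_congr rfl fun j _ => ?_
      rw [← Finset.mul_sum]
      congr 1
      exact wc_noise _ S
    have hwD : wc D S = r⁻¹ * (∑ j : Fin (K+1), c j * (j * r) ^ S.card) - if S.card = 1 then 1 else 0 := by
      rw [← hwQ, ← wc_rad]
      simp only [wc, hD, sub_mul, Finset.sum_sub_distrib]
    have hfac : ∑ j : Fin (K+1), c j * ((j:ℝ) * r) ^ S.card = r ^ S.card * ∑ j : Fin (K+1), c j * (j:ℝ) ^ S.card := by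
      rw [Finset.mul_sum]; exact Finset.sum_congr rfl fun j _ => by rw [mul_pow]; ring
    by_cases hcard : S.card ≤ K
    · have : wc D S = 0 := by
        rw [hwD, hfac, hc _ hcard]
        split_ifs with h1
        · rw [h1]; field_simp; ring
        · simp
      rw [this, abs_zero]
      positivity
    · push Not at hcard
      have hne : S.card ≠ 1 := by omega
      rw [hwD, if_neg hne, sub_zero, abs_mul, abs_of_pos (inv_pos.mpr hr)]
      have h1 : |∑ j : Fin (K+1), c j * ((j:ℝ) * r) ^ S.card| ≤ S1 * (K * r) ^ (K+1) := by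
        refine (Finset.abs_sum_le_sum_abs _ _).trans ?_
        rw [hS1, Finset.sum_mul]
        refine Finset.sum_le_sum fun j _ => ?_
        rw [abs_mul, abs_of_nonneg (pow_nonneg (hjr j).1 _)]
        apply mul_le_mul_of_nonneg_left _ (abs_nonneg _)
        calc ((j:ℝ) * r) ^ S.card ≤ ((K:ℝ) * r) ^ S.card := by
              apply pow_le_pow_left₀ (hjr j).1
              have : (j:ℝ) ≤ K := by exact_mod_cast Nat.lt_succ_iff.mp j.2
              exact mul_le_mul_of_nonneg_right this hr.le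
          _ ≤ ((K:ℝ) * r) ^ (K+1) := by
              apply pow_le_pow_of_le_one (by positivity) hrK (by omega)
      calc r⁻¹ * |∑ j : Fin (K+1), c j * ((j:ℝ) * r) ^ S.card| ≤ r⁻¹ * (S1 * (K * r) ^ (K+1)) :=
            mul_le_mul_of_nonneg_left h1 (inv_pos.mpr hr).le
        _ = K * S1 * (K * r) ^ K := by rw [pow_succ]; field_simp
  -- assemble
  have hdecomp : ∀ e, R1 F e = conv Q F e - conv D F e := by
    intro e
    have : conv D F e = conv Q F e - conv (rad m) F e := conv_sub Q (rad m) F e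
    rw [this, R1]; abel
  have hstep1 : nrm2 (fun e => N (R1 F e)) ≤ nrm2 (fun e => N (conv Q F e)) + nrm2 (fun e => N (conv D F e)) := by
    refine le_trans ?_ (nrm2_add_le _ _)
    apply nrm2_mono (fun e => apply_nonneg N _)
    intro e
    rw [hdecomp e]
    exact map_sub_le_add N _ _
  have hstep2 : nrm2 (fun e => N (conv Q F e)) ≤ S1 / r * nrm2 (fun e => N (F e)) :=
    (conv_norm N Q F).trans (mul_le_mul_of_nonneg_right hQ1 (nrm2_nonneg _))
  have hstep3 : nrm2 (fun e => N (conv D F e)) ≤ K * S1 * (K * r) ^ K * R ^ 2 * nrm2 (fun e => N (F e)) := by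
    have a1 : nrm2 (fun e => N (conv D F e)) ≤ R * nrm2 (fun e => l2 (conv D F e)) := by
      rw [← nrm2_smul (by linarith)]
      exact nrm2_mono (fun e => apply_nonneg N _) fun e => hN1 _
    have a2 := conv_l2_vec D (K * S1 * (K * r) ^ K) (by positivity) hDS F
    have a3 : nrm2 (fun e => l2 (F e)) ≤ R * nrm2 (fun e => N (F e)) := by
      rw [← nrm2_smul (by linarith)]
      exact nrm2_mono (fun e => l2_nonneg _) fun e => hN2 _
    have hnn : 0 ≤ K * S1 * (K * r) ^ K := by positivity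
    calc nrm2 (fun e => N (conv D F e)) ≤ R * nrm2 (fun e => l2 (conv D F e)) := a1
      _ ≤ R * (K * S1 * (K * r) ^ K * (R * nrm2 (fun e => N (F e)))) := by
          apply mul_le_mul_of_nonneg_left _ (by linarith)
          exact a2.trans (mul_le_mul_of_nonneg_left a3 hnn)
      _ = K * S1 * (K * r) ^ K * R ^ 2 * nrm2 (fun e => N (F e)) := by ring
  calc nrm2 (fun e => N (R1 F e)) ≤ _ := hstep1
    _ ≤ S1 / r * nrm2 (fun e => N (F e)) + K * S1 * (K * r) ^ K * R ^ 2 * nrm2 (fun e => N (F e)) :=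
        add_le_add hstep2 hstep3
    _ = _ := by ring

/-- **Weak K-convexity.** -/
theorem kconv (K : ℕ) (hK : 1 ≤ K) :
    ∃ C : ℝ, 0 < C ∧ ∀ (m : ℕ) (N : Seminorm ℝ (Fin m → ℝ)) (R : ℝ), 1 ≤ R →
      (∀ x, N x ≤ R * l2 x) → (∀ x, l2 x ≤ R * N x) → ∀ F : Sg m → Fin m → ℝ,
      nrm2 (fun e => N (R1 F e)) ≤ C * R ^ ((2:ℝ) / K) * nrm2 (fun e => N (F e)) := by
  obtain ⟨c, hc⟩ := exists_coeff K
  set S1 : ℝ := ∑ j, |c j| with hS1
  have hS1nn : 0 ≤ S1 := Finset.sum_nonneg fun _ _ => abs_nonneg _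
  have hKpos : (0:ℝ) < K := by exact_mod_cast hK
  refine ⟨2 * K * S1 + 1, by positivity, ?_⟩
  intro m N R hR hN1 hN2 F
  have hRpos : 0 < R := by linarith
  set t : ℝ := R ^ ((2:ℝ) / K) with ht
  have htpos : 0 < t := Real.rpow_pos_of_pos hRpos _
  have ht1 : 1 ≤ t := Real.one_le_rpow hR (by positivity)
  have htK : t ^ K = R ^ 2 := by
    rw [ht, ← Real.rpow_natCast, ← Real.rpow_mul hRpos.le]
    rw [div_mul_cancel₀ _ hKpos.ne']
    norm_num
  set r : ℝ := 1 / (K * t) with hr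
  have hrpos : 0 < r := by positivity
  have hKr : (K:ℝ) * r = 1 / t := by rw [hr]; field_simp
  have h := kconv_aux K hK c hc N R hR hN1 hN2 r hrpos (by rw [hKr]; rw [div_le_one htpos]; exact ht1) F
  refine h.trans ?_
  apply mul_le_mul_of_nonneg_right _ (nrm2_nonneg _)
  rw [hKr, div_pow, one_pow, htK, ← hS1]
  have e1 : S1 / r = K * S1 * t := by rw [hr]; field_simp
  rw [e1]
  have e2 : (K:ℝ) * S1 * (1 / R ^ 2) * R ^ 2 = K * S1 := by field_simp
  rw [e2]
  nlinarith [mul_nonneg hKpos.le hS1nn]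

end Crest.Agent.R152.WRM6
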