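import Crest.Agent.R152.WRM6B

/-!
# Good position of a norm (minimal mean on sign vectors) and the `ℓ ℓ*` estimate
-/

set_option autoImplicit false

namespace Crest.Agent.R152.WRM6

open Finset Matrix Filter Topology

variable {m : ℕ}

/-- sign vector as a real vector -/
def sgv (e : Sg m) : Fin m → ℝ := fun i => sv (e i)

/-- average over the cube -/
noncomputable def avg (f : Sg m → ℝ) : ℝ := ((2:ℝ)^m)⁻¹ * ∑ e, f e

lemma avg_nonneg {f : Sg m → ℝ} (h : ∀ e, 0 ≤ f e) : 0 ≤ avg f :=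
  mul_nonneg (by positivity) (Finset.sum_nonneg fun e _ => h e)

lemma avg_mono {f g : Sg m → ℝ} (h : ∀ e, f e ≤ g e) : avg f ≤ avg g :=
  mul_le_mul_of_nonneg_left (Finset.sum_le_sum fun e _ => h e) (by positivity)

lemma avg_add (f g : Sg m → ℝ) : avg (fun e => f e + g e) = avg f + avg g := by
  simp [avg, Finset.sum_add_distrib, mul_add]

lemma avg_const_mul (c : ℝ) (f : Sg m → ℝ) : avg (fun e => c * f e) = c * avg f := by
  simp only [avg, ← Finset.mul_sum]; ring

lemma avg_le_nrm2 (f : Sg m → ℝ) : avg f ≤ (Real.sqrt ((2:ℝ)^m))⁻¹ * nrm2 f := by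
  have h2 : (0:ℝ) < 2 ^ m := by positivity
  have hcs : (∑ e : Sg m, f e) ^ 2 ≤ (2:ℝ)^m * ∑ e, f e ^ 2 := by
    have := sq_sum_le_card_mul_sum_sq (s := (Finset.univ : Finset (Sg m))) (f := f)
    have hc : ((Finset.univ : Finset (Sg m)).card : ℝ) = 2 ^ m := by
      rw [Finset.card_univ]; simp [Fintype.card_pi]
    rw [hc] at this
    exact this
  have h1 : ∑ e : Sg m, f e ≤ Real.sqrt ((2:ℝ)^m) * nrm2 f := by
    rw [nrm2, ← Real.sqrt_mul h2.le]
    exact Real.le_sqrt_of_sq_le hcs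
  have hs : Real.sqrt ((2:ℝ)^m) * Real.sqrt ((2:ℝ)^m) = 2 ^ m := Real.mul_self_sqrt h2.le
  have hsp : 0 < Real.sqrt ((2:ℝ)^m) := Real.sqrt_pos.mpr h2
  have h3 : avg f ≤ ((2:ℝ)^m)⁻¹ * (Real.sqrt ((2:ℝ)^m) * nrm2 f) :=
    mul_le_mul_of_nonneg_left h1 (by positivity)
  refine h3.trans (le_of_eq ?_)
  generalize Real.sqrt ((2:ℝ)^m) = s at hs hsp
  rw [← hs, mul_inv, mul_assoc, ← mul_assoc s⁻¹ s, inv_mul_cancel₀ hsp.ne', one_mul]

lemma sum_sv_sv (j k : Fin m) : ∑ e : Sg m, sv (e j) * sv (e k) = if j = k then (2:ℝ)^m else 0 := by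
  have h1 : ∀ e : Sg m, sv (e j) * sv (e k)
      = ∏ l, ((if l = j then sv (e l) else 1) * (if l = k then sv (e l) else 1)) := by
    intro e
    rw [Finset.prod_mul_distrib]
    simp
  simp only [h1]
  rw [sum_prod_cube (m := m) (fun l u => ((if l = j then sv u else 1) * (if l = k then sv u else 1)))]
  split_ifs with h
  · subst h
    have : ∀ l : Fin m, ((if l = j then sv 1 else 1) * (if l = j then sv 1 else 1) +
        (if l = j then sv (-1) else 1) * (if l = j then sv (-1) else 1)) = 2 := by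
      intro l
      by_cases hl : l = j
      · simp [hl]; norm_num
      · simp [hl]; norm_num
    simp only [this]
    simp
  · apply Finset.prod_eq_zero (Finset.mem_univ j)
    simp [h]

/-- mean norm on sign vectors -/
noncomputable def ell (N : Seminorm ℝ (Fin m → ℝ)) (A : Matrix (Fin m) (Fin m) ℝ) : ℝ :=
  avg (fun e => N (A *ᵥ sgv e))

lemma ell_nonneg (N : Seminorm ℝ (Fin m → ℝ)) (A : Matrix (Fin m) (Fin m) ℝ) : 0 ≤ ell N A :=
  avg_nonneg fun _ => apply_nonneg N _

lemma ell_add_le (N : Seminorm ℝ (Fin m → ℝ)) (A B : Matrix (Fin m) (Fin m) ℝ) :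
    ell N (A + B) ≤ ell N A + ell N B := by
  unfold ell
  rw [← avg_add]
  apply avg_mono
  intro e
  rw [Matrix.add_mulVec]
  exact map_add_le_add N _ _

lemma ell_smul (N : Seminorm ℝ (Fin m → ℝ)) {c : ℝ} (hc : 0 ≤ c) (A : Matrix (Fin m) (Fin m) ℝ) :
    ell N (c • A) = c * ell N A := by
  unfold ell
  rw [← avg_const_mul]
  congr 1
  ext e
  rw [Matrix.smul_mulVec, map_smul_eq_mul, Real.norm_eq_abs, abs_of_nonneg hc]

lemma l2_le_norm (x : Fin m → ℝ) : l2 x ≤ Real.sqrt m * ‖x‖ := by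
  unfold l2
  rw [← Real.sqrt_sq (norm_nonneg x), ← Real.sqrt_mul (by positivity)]
  apply Real.sqrt_le_sqrt
  calc ∑ i, x i ^ 2 ≤ ∑ _i : Fin m, ‖x‖ ^ 2 := by
        refine Finset.sum_le_sum fun i _ => ?_
        rw [← sq_abs]
        exact pow_le_pow_left₀ (abs_nonneg _) (by simpa using norm_le_pi_norm x i) 2
    _ = m * ‖x‖ ^ 2 := by simp

lemma abs_le_l2 (x : Fin m → ℝ) (i : Fin m) : |x i| ≤ l2 x := by
  unfold l2
  apply Real.abs_le_sqrt
  exact Finset.single_le_sum (f := fun i => x i ^ 2) (fun i _ => sq_nonneg _) (Finset.mem_univ i)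

lemma continuous_N (N : Seminorm ℝ (Fin m → ℝ)) {R : ℝ} (hR : 1 ≤ R) (hN1 : ∀ x, N x ≤ R * l2 x) :
    Continuous N := by
  have hc : 0 ≤ R * Real.sqrt m := by positivity
  set c : NNReal := Real.toNNReal (R * Real.sqrt m) with hcdef
  have hcc : (c : ℝ) = R * Real.sqrt m := Real.coe_toNNReal _ hc
  have hval : ∀ x, (c • normSeminorm ℝ (Fin m → ℝ)) x = R * Real.sqrt m * ‖x‖ := by
    intro x
    rw [← hcc]
    rfl
  refine Seminorm.continuous_of_le (q := c • normSeminorm ℝ (Fin m → ℝ)) ?_ ?_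
  · have : (⇑(c • normSeminorm ℝ (Fin m → ℝ)) : (Fin m → ℝ) → ℝ)
        = fun x => (R * Real.sqrt m) * ‖x‖ := by
      ext x
      exact hval x
    rw [this]
    exact continuous_const.mul continuous_norm
  · intro x
    have h := (hN1 x).trans (mul_le_mul_of_nonneg_left (l2_le_norm x) (by linarith))
    rw [hval, mul_assoc]
    exact h

lemma continuous_ell (N : Seminorm ℝ (Fin m → ℝ)) {R : ℝ} (hR : 1 ≤ R) (hN1 : ∀ x, N x ≤ R * l2 x) :
    Continuous (ell N) := by
  unfold ell avg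
  refine continuous_const.mul (continuous_finsetSum _ fun e _ => ?_)
  exact (continuous_N N hR hN1).comp (continuous_id.matrix_mulVec continuous_const)

lemma entry_le (N : Seminorm ℝ (Fin m → ℝ)) {R : ℝ} (hN2 : ∀ x, l2 x ≤ R * N x)
    (A : Matrix (Fin m) (Fin m) ℝ) (i j : Fin m) : |A i j| ≤ R * ell N A := by
  have h1 : A i j = avg (fun e => sv (e j) * (A *ᵥ sgv e) i) := by
    unfold avg
    have : ∀ e : Sg m, sv (e j) * (A *ᵥ sgv e) i = ∑ k, A i k * (sv (e j) * sv (e k)) := by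
      intro e
      simp only [Matrix.mulVec, dotProduct, sgv, Finset.mul_sum]
      exact Finset.sum_congr rfl fun k _ => by ring
    simp only [this]
    rw [Finset.sum_comm]
    simp only [← Finset.mul_sum, sum_sv_sv]
    simp
    field_simp
  calc |A i j| = |avg (fun e => sv (e j) * (A *ᵥ sgv e) i)| := by rw [← h1]
    _ ≤ avg (fun e => R * N (A *ᵥ sgv e)) := by
        unfold avg
        rw [abs_mul, abs_of_nonneg (by positivity : (0:ℝ) ≤ ((2:ℝ)^m)⁻¹)]
        apply mul_le_mul_of_nonneg_left _ (by positivity)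
        refine (Finset.abs_sum_le_sum_abs _ _).trans (Finset.sum_le_sum fun e _ => ?_)
        rw [abs_mul]
        have : |sv (e j)| = 1 := by rcases sv_cases (e j) with h | h <;> simp [h]
        rw [this, one_mul]
        exact (abs_le_l2 _ i).trans (hN2 _)
    _ = R * ell N A := avg_const_mul _ _

/-- existence of a minimiser of `ell` on `det = 1` -/
lemma exists_min (N : Seminorm ℝ (Fin m → ℝ)) {R : ℝ} (hR : 1 ≤ R) (hN1 : ∀ x, N x ≤ R * l2 x)
    (hN2 : ∀ x, l2 x ≤ R * N x) :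
    ∃ B : Matrix (Fin m) (Fin m) ℝ, B.det = 1 ∧ ∀ A : Matrix (Fin m) (Fin m) ℝ, A.det = 1 → ell N B ≤ ell N A := by
  set M : ℝ := R * ell N 1 with hM
  set S : Set (Matrix (Fin m) (Fin m) ℝ) := {A | A.det = 1 ∧ ell N A ≤ ell N 1} with hS
  have hclosed : IsClosed S := by
    apply IsClosed.inter
    · exact isClosed_eq (Continuous.matrix_det continuous_id) continuous_const
    · exact isClosed_le (continuous_ell N hR hN1) continuous_const
  have hcomp : IsCompact S := by
    have hbox : IsCompact (Set.pi Set.univ (fun _ : Fin m => Set.pi Set.univ (fun _ : Fin m => Set.Icc (-M) M))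
        : Set (Fin m → Fin m → ℝ)) :=
      isCompact_univ_pi fun _ => isCompact_univ_pi fun _ => isCompact_Icc
    refine IsCompact.of_isClosed_subset hbox hclosed ?_
    intro A hA
    intro i _ j _
    have h := entry_le N hN2 A i j
    have h2 : R * ell N A ≤ M := mul_le_mul_of_nonneg_left hA.2 (by linarith)
    exact abs_le.mp (h.trans h2)
  have hne : S.Nonempty := ⟨1, by simp [hS]⟩
  obtain ⟨B, hB, hmin⟩ := hcomp.exists_isMinOn hne (continuous_ell N hR hN1).continuousOn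
  refine ⟨B, hB.1, fun A hA => ?_⟩
  by_cases h : ell N A ≤ ell N 1
  · exact hmin ⟨hA, h⟩
  · exact hB.2.trans (le_of_lt (not_le.mp h))

lemma hasDerivAt_det (T : Matrix (Fin m) (Fin m) ℝ) :
    HasDerivAt (fun t : ℝ => (1 + t • T).det) T.trace 0 := by
  set p : Polynomial ℝ := (det (1 + (Polynomial.X : Polynomial ℝ) • T.map Polynomial.C)).divX.divX with hp
  have h : (fun t : ℝ => (1 + t • T).det) = fun t => 1 + T.trace * t + p.eval t * t ^ 2 := by
    ext t
    exact Matrix.det_one_add_smul t T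
  rw [h]
  have h1 : HasDerivAt (fun t : ℝ => 1 + T.trace * t) T.trace 0 := by
    simpa using ((hasDerivAt_id (0:ℝ)).const_mul T.trace).const_add 1
  have h2 : HasDerivAt (fun t : ℝ => p.eval t * t ^ 2) 0 0 := by
    have := (p.hasDerivAt (0:ℝ)).fun_mul (hasDerivAt_pow 2 (0:ℝ))
    simpa using this
  simpa using h1.fun_add h2

/-- first order condition at a minimiser -/
lemma first_order (N : Seminorm ℝ (Fin m → ℝ)) (hm : 0 < m) (B : Matrix (Fin m) (Fin m) ℝ)
    (hB : B.det = 1) (hpos : 0 < ell N B)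
    (hmin : ∀ A : Matrix (Fin m) (Fin m) ℝ, A.det = 1 → ell N B ≤ ell N A) (T : Matrix (Fin m) (Fin m) ℝ) :
    T.trace * ell N B ≤ m * ell N (B * T) := by
  set a := ell N (B * T) with ha
  set b := ell N B with hb
  have ha0 : 0 ≤ a := ell_nonneg _ _
  -- inequality for small positive t
  have key : ∀ t : ℝ, 0 < t → 0 < (1 + t • T).det → (1 + t • T).det * b ^ m ≤ (b + t * a) ^ m := by
    intro t ht hd
    set d := (1 + t • T).det with hdd
    set l : ℝ := d ^ ((m:ℝ)⁻¹) with hl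
    have hlpos : 0 < l := Real.rpow_pos_of_pos hd _
    have hlm : l ^ m = d := Real.rpow_inv_natCast_pow hd.le hm.ne'
    have hdet : (l⁻¹ • (B * (1 + t • T))).det = 1 := by
      rw [Matrix.det_smul, Matrix.det_mul, hB, one_mul, Fintype.card_fin, inv_pow, hlm, ← hdd]
      exact inv_mul_cancel₀ hd.ne'
    have h1 := hmin _ hdet
    rw [ell_smul N (inv_pos.mpr hlpos).le] at h1
    have h2 : ell N (B * (1 + t • T)) ≤ b + t * a := by
      rw [Matrix.mul_add, Matrix.mul_one, Matrix.mul_smul]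
      refine (ell_add_le N _ _).trans ?_
      rw [ell_smul N ht.le]
    have h3 : l * b ≤ b + t * a := by
      have : b ≤ l⁻¹ * (b + t * a) := h1.trans (mul_le_mul_of_nonneg_left h2 (inv_pos.mpr hlpos).le)
      calc l * b ≤ l * (l⁻¹ * (b + t * a)) := mul_le_mul_of_nonneg_left this hlpos.le
        _ = b + t * a := by field_simp
    calc d * b ^ m = (l * b) ^ m := by rw [mul_pow, hlm]
      _ ≤ (b + t * a) ^ m := pow_le_pow_left₀ (by positivity) h3 m
  -- derivative
  have hder : HasDerivAt (fun t : ℝ => (b + t * a) ^ m - (1 + t • T).det * b ^ m)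
      (m * b ^ (m-1) * a - T.trace * b ^ m) 0 := by
    have h1 : HasDerivAt (fun t : ℝ => b + t * a) a 0 := by
      simpa using ((hasDerivAt_id (0:ℝ)).mul_const a).const_add b
    have h2 := h1.fun_pow m
    have h3 := (hasDerivAt_det T).mul_const (b ^ m)
    have h4 := h2.fun_sub h3
    simpa using h4
  have hdetpos : ∀ᶠ t in 𝓝[>] (0:ℝ), 0 < (1 + t • T).det := by
    have hc : ContinuousAt (fun t : ℝ => (1 + t • T).det) 0 := (hasDerivAt_det T).continuousAt
    have : (0:ℝ) < (fun t : ℝ => (1 + t • T).det) 0 := by simp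
    exact (hc.eventually (lt_mem_nhds this)).filter_mono nhdsWithin_le_nhds
  have hnonneg : 0 ≤ m * b ^ (m-1) * a - T.trace * b ^ m := by
    have ht := hasDerivAt_iff_tendsto_slope_zero.mp hder
    have ht' := ht.mono_left (nhdsWithin_mono (0:ℝ) (fun t (h : 0 < t) => (ne_of_gt h : t ≠ 0)) :
      𝓝[>] (0:ℝ) ≤ 𝓝[≠] 0)
    refine ge_of_tendsto ht' ?_
    filter_upwards [hdetpos, self_mem_nhdsWithin] with t h1 h2
    have h2' : (0:ℝ) < t := h2
    have h3 := key t h2' h1
    simp only [zero_add, zero_mul, add_zero, zero_smul, Matrix.det_one, one_mul, sub_self, sub_zero,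
      smul_eq_mul]
    apply mul_nonneg (inv_pos.mpr h2').le
    linarith
  have hbm : b ^ m = b ^ (m-1) * b := by
    rw [← pow_succ]; congr 1; omega
  have hbp : 0 < b ^ (m-1) := pow_pos hpos _
  rw [hbm] at hnonneg
  have : 0 ≤ b ^ (m-1) * (m * a - T.trace * b) := by nlinarith [hnonneg]
  have := nonneg_of_mul_nonneg_right this hbp
  linarith

lemma R1_apply (G : Sg m → Fin m → ℝ) (e : Sg m) (i : Fin m) :
    R1 G e i = ∑ j, (avg fun f => G f i * sv (f j)) * sv (e j) := by
  have h1 : R1 G e i = ∑ n, rad m n * G (e * n) i := by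
    simp [R1, conv, Finset.sum_apply]
  rw [h1]
  have h2 : ∑ n, rad m n * G (e * n) i = ∑ f, rad m (e * f) * G f i := by
    refine Fintype.sum_equiv (Equiv.mulLeft e) _ _ fun n => ?_
    have : e * (e * n) = n := by
      rw [← mul_assoc]
      have : e * e = 1 := by
        ext i; simp
      rw [this, one_mul]
    simp [this]
  rw [h2]
  simp only [avg, rad, Finset.mul_sum, Finset.sum_mul, Pi.mul_apply, sv_mul]
  rw [Finset.sum_comm]
  exact Finset.sum_congr rfl fun j _ => Finset.sum_congr rfl fun f _ => by ring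

lemma conv_mulVec (k : Sg m → ℝ) (B : Matrix (Fin m) (Fin m) ℝ) (G : Sg m → Fin m → ℝ) (e : Sg m) :
    B *ᵥ (conv k G e) = conv k (fun f => B *ᵥ G f) e := by
  simp only [conv]
  rw [← Matrix.mulVecLin_apply, map_sum]
  simp

/-- **Good position** (`ℓ ℓ*` estimate). -/
theorem good_position (K : ℕ) (hK : 1 ≤ K) :
    ∃ C : ℝ, 0 < C ∧ ∀ (m : ℕ) (N : Seminorm ℝ (Fin m → ℝ)) (R : ℝ), 1 ≤ R →
      (∀ x, N x ≤ R * l2 x) → (∀ x, l2 x ≤ R * N x) →
      ∃ A : Matrix (Fin m) (Fin m) ℝ, A.det = 1 ∧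
        ∀ G : Sg m → Fin m → ℝ, (∀ e, N (A *ᵥ G e) ≤ 1) →
          ell N A * avg (fun e => G e ⬝ᵥ sgv e) ≤ m * (C * R ^ ((2:ℝ) / K)) := by
  obtain ⟨C, hC, hkc⟩ := kconv K hK
  refine ⟨C, hC, fun m N R hR hN1 hN2 => ?_⟩
  have hRpos : 0 < R := by linarith
  have hCR : 0 < C * R ^ ((2:ℝ) / K) := mul_pos hC (Real.rpow_pos_of_pos hRpos _)
  obtain ⟨B, hB, hmin⟩ := exists_min N hR hN1 hN2
  refine ⟨B, hB, fun G hG => ?_⟩
  rcases Nat.eq_zero_or_pos m with hm | hm
  · subst hm
    have hN0 : ∀ x : Fin 0 → ℝ, N x = 0 := fun x => by rw [Subsingleton.elim x 0, map_zero]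
    have h0 : ell N B = 0 := by
      simp only [ell, avg, hN0, Finset.sum_const_zero, mul_zero]
    rw [h0]; simp
  have hpos : 0 < ell N B := by
    rcases (ell_nonneg N B).lt_or_eq with h | h
    · exact h
    · exfalso
      have hz : B = 0 := by
        ext i j
        have := entry_le N hN2 B i j
        rw [← h, mul_zero] at this
        simpa using this
      have : Nonempty (Fin m) := ⟨⟨0, hm⟩⟩
      rw [hz, Matrix.det_zero] at hB
      exact zero_ne_one hB
  set T : Matrix (Fin m) (Fin m) ℝ := fun i j => avg fun f => G f i * sv (f j) with hT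
  have h1 := first_order N hm B hB hpos hmin T
  have htr : T.trace = avg (fun e => G e ⬝ᵥ sgv e) := by
    simp only [Matrix.trace, Matrix.diag, hT, avg, dotProduct, sgv]
    rw [← Finset.mul_sum, Finset.sum_comm]
  have hTe : ∀ e : Sg m, T *ᵥ sgv e = R1 G e := by
    intro e
    ext i
    rw [R1_apply]
    rfl
  have h2 : ell N (B * T) ≤ C * R ^ ((2:ℝ) / K) := by
    have e1 : ell N (B * T) = avg (fun e => N (R1 (fun f => B *ᵥ G f) e)) := by
      unfold ell
      congr 1
      ext e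
      rw [← Matrix.mulVec_mulVec, hTe, R1, conv_mulVec, ← R1]
    rw [e1]
    refine (avg_le_nrm2 _).trans ?_
    have h2m : (0:ℝ) < 2 ^ m := by positivity
    have hsp : 0 < Real.sqrt ((2:ℝ)^m) := Real.sqrt_pos.mpr h2m
    have e2 := hkc m N R hR hN1 hN2 (fun f => B *ᵥ G f)
    have e3 : nrm2 (fun e => N (B *ᵥ G e)) ≤ Real.sqrt ((2:ℝ)^m) := by
      refine (nrm2_mono (g := fun _ => 1) (fun e => apply_nonneg N _) hG).trans ?_
      unfold nrm2
      apply Real.sqrt_le_sqrt
      simp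
    calc (Real.sqrt ((2:ℝ)^m))⁻¹ * nrm2 (fun e => N (R1 (fun f => B *ᵥ G f) e))
        ≤ (Real.sqrt ((2:ℝ)^m))⁻¹ * (C * R ^ ((2:ℝ) / K) * Real.sqrt ((2:ℝ)^m)) := by
          apply mul_le_mul_of_nonneg_left _ (inv_pos.mpr hsp).le
          exact e2.trans (mul_le_mul_of_nonneg_left e3 hCR.le)
      _ = C * R ^ ((2:ℝ) / K) := by field_simp
  rw [htr] at h1
  calc ell N B * avg (fun e => G e ⬝ᵥ sgv e) = avg (fun e => G e ⬝ᵥ sgv e) * ell N B := mul_comm _ _
    _ ≤ m * ell N (B * T) := h1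
    _ ≤ m * (C * R ^ ((2:ℝ) / K)) := mul_le_mul_of_nonneg_left h2 (by positivity)

end Crest.Agent.R152.WRM6
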