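import Mathlib
import Crest.Agent.Lib.PrekopaLeindler

/-!
# WRM-7, part A: the Urysohn-type lower bound from Prekopa–Leindler

`urysohn_pl` : if `W` is a measurable subset of `EuclideanSpace ℝ (Fin m)` of positive finite volume and
`h z ≥ ⟪x, z⟫` for all `x ∈ W`, then
`log (vol W) + m / 2 ≤ 2 π ∫ h z exp (-π ‖z‖²) dz`.
-/

set_option autoImplicit false

open MeasureTheory Set Real
open scoped ENNReal Pointwise

namespace Crest.Agent.R152.WRM7

/-- The Euclidean space of dimension `m`. -/
abbrev Eu (m : ℕ) := EuclideanSpace ℝ (Fin m)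

/-- The gaussian weight `exp (-π ‖z‖²)`. -/
noncomputable def gw {m : ℕ} (z : Eu m) : ℝ := Real.exp (-Real.pi * ‖z‖ ^ 2)

lemma gw_pos {m : ℕ} (z : Eu m) : 0 < gw z := Real.exp_pos _

lemma continuous_gw {m : ℕ} : Continuous (gw : Eu m → ℝ) := by
  unfold gw; fun_prop

lemma integrable_exp_neg {m : ℕ} {b : ℝ} (hb : 0 < b) :
    Integrable (fun z : Eu m => Real.exp (-b * ‖z‖ ^ 2)) := by
  have h := GaussianFourier.integrable_cexp_neg_mul_sq_norm_add (V := Eu m)
    (b := (b : ℂ)) (by simpa using hb) 0 0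
  have h2 := h.norm
  refine h2.congr (Filter.Eventually.of_forall fun z => ?_)
  simp [Complex.norm_exp]
  left
  norm_cast

lemma integral_gw {m : ℕ} : ∫ z : Eu m, gw z = 1 := by
  unfold gw
  rw [GaussianFourier.integral_rexp_neg_mul_sq_norm Real.pi_pos]
  rw [div_self Real.pi_pos.ne', Real.one_rpow]

lemma integral_exp_neg_pi_mul {m : ℕ} {t : ℝ} (ht : 0 < t) :
    ∫ z : Eu m, Real.exp (-(Real.pi * t) * ‖z‖ ^ 2) = (1 / t) ^ ((m : ℝ) / 2) := by
  rw [GaussianFourier.integral_rexp_neg_mul_sq_norm (by positivity)]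
  simp only [finrank_euclideanSpace, Fintype.card_fin]
  congr 1
  field_simp

/-- Functions of at most exponential growth are integrable against the gaussian weight. -/
lemma integrable_gw_mul {m : ℕ} {F : Eu m → ℝ} (hF : AEStronglyMeasurable F volume) {C a : ℝ}
    (h : ∀ z, |F z| ≤ C * Real.exp (a * ‖z‖)) : Integrable (fun z => gw z * F z) := by
  have hI := (integrable_exp_neg (m := m) (b := Real.pi / 2) (by positivity)).const_mul
    (C * Real.exp (a ^ 2 / (2 * Real.pi)))
  refine hI.mono' (continuous_gw.aestronglyMeasurable.mul hF)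
    (Filter.Eventually.of_forall fun z => ?_)
  rw [Real.norm_eq_abs, abs_mul, abs_of_pos (gw_pos z)]
  have hC : 0 ≤ C := by
    have h0 := (abs_nonneg _).trans (h z)
    by_contra hc
    push Not at hc
    have := mul_neg_of_neg_of_pos hc (Real.exp_pos (a * ‖z‖))
    linarith
  calc gw z * |F z| ≤ gw z * (C * Real.exp (a * ‖z‖)) :=
        mul_le_mul_of_nonneg_left (h z) (gw_pos z).le
    _ = C * Real.exp (-Real.pi * ‖z‖ ^ 2 + a * ‖z‖) := by
        rw [gw, Real.exp_add]; ring
    _ ≤ C * Real.exp (a ^ 2 / (2 * Real.pi) + -(Real.pi / 2) * ‖z‖ ^ 2) := by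
        apply mul_le_mul_of_nonneg_left _ hC
        apply Real.exp_le_exp.mpr
        have hp := Real.pi_pos
        have : 0 ≤ (Real.pi / 2) * (‖z‖ - a / Real.pi) ^ 2 := by positivity
        have h2 : (Real.pi / 2) * (‖z‖ - a / Real.pi) ^ 2
            = (Real.pi / 2) * ‖z‖ ^ 2 - a * ‖z‖ + a ^ 2 / (2 * Real.pi) := by
          field_simp
          ring
        rw [h2] at this
        linarith
    _ = _ := by rw [Real.exp_add]; ring

lemma exp_le_second (y : ℝ) : Real.exp y ≤ 1 + y + y ^ 2 * Real.exp |y| := by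
  have h1 : Real.exp y - 1 ≤ y * Real.exp y := by
    have h := Real.add_one_le_exp (-y)
    have hp := Real.exp_pos y
    have : (-y + 1) * Real.exp y ≤ Real.exp (-y) * Real.exp y :=
      mul_le_mul_of_nonneg_right h hp.le
    rw [← Real.exp_add] at this
    simp at this
    linarith
  rcases le_or_gt 0 y with hy | hy
  · rw [abs_of_nonneg hy]
    have : y * (Real.exp y - 1) ≤ y * (y * Real.exp y) := mul_le_mul_of_nonneg_left h1 hy
    nlinarith
  · have h2 : 1 - Real.exp y ≤ -y := by
      have := Real.add_one_le_exp y; linarith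
    have h3 : 1 ≤ Real.exp |y| := Real.one_le_exp (abs_nonneg y)
    have h4 : (-y) * (1 - Real.exp y) ≤ (-y) * (-y) :=
      mul_le_mul_of_nonneg_left h2 (by linarith)
    nlinarith [mul_le_mul_of_nonneg_left h3 (sq_nonneg y)]

/-- The Prekopa–Leindler step. -/
lemma pl_step {m : ℕ} {W : Set (Eu m)} (hWm : MeasurableSet W)
    {h : Eu m → ℝ} (hmeas : Measurable h)
    {R : ℝ} (hR : ∀ z, |h z| ≤ R * ‖z‖) (hh : ∀ x ∈ W, ∀ z : Eu m, inner ℝ x z ≤ h z)
    {t : ℝ} (ht0 : 0 < t) (ht1 : t < 1) :
    (volume W).toReal ^ (1 - t) * ((1 / t) ^ ((m : ℝ) / 2)) ^ t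
      ≤ ∫ z : Eu m, gw z * Real.exp ((1 - t) * (2 * Real.pi * h z)) := by
  have hR0 : ∀ z : Eu m, 0 ≤ R * ‖z‖ := fun z => (abs_nonneg _).trans (hR z)
  set f : Eu m → ℝ≥0∞ := W.indicator (fun _ => 1) with hf
  set g : Eu m → ℝ≥0∞ := fun y => ENNReal.ofReal (Real.exp (-(Real.pi * t) * ‖y‖ ^ 2)) with hg
  set H : Eu m → ℝ≥0∞ := fun z =>
    ENNReal.ofReal (gw z * Real.exp ((1 - t) * (2 * Real.pi * h z))) with hH
  have hfm : Measurable f := measurable_const.indicator hWm
  have hgm : Measurable g := by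
    apply Measurable.ennreal_ofReal
    fun_prop
  have hHm : Measurable H := by
    apply Measurable.ennreal_ofReal
    exact continuous_gw.measurable.mul
      (Real.measurable_exp.comp ((hmeas.const_mul _).const_mul _))
  have key := Lib.PrekopaLeindler.PL_euclidean m t ht0 ht1 f g H hfm hgm hHm (by
    intro x y
    by_cases hx : x ∈ W
    · rw [hf, Set.indicator_of_mem hx, ENNReal.one_rpow, one_mul, hg, hH]
      simp only
      rw [ENNReal.ofReal_rpow_of_pos (Real.exp_pos _)]
      apply ENNReal.ofReal_le_ofReal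
      rw [← Real.exp_mul, gw, ← Real.exp_add]
      apply Real.exp_le_exp.mpr
      set z := (1 - t) • x + t • y with hz
      have h1 : inner ℝ x z ≤ h z := hh x hx z
      have h2 : t • y = z - (1 - t) • x := by rw [hz]; abel
      have h3 : t ^ 2 * ‖y‖ ^ 2 = ‖z‖ ^ 2 - 2 * ((1 - t) * inner ℝ x z) + (1 - t) ^ 2 * ‖x‖ ^ 2 := by
        have : ‖t • y‖ ^ 2 = ‖z - (1 - t) • x‖ ^ 2 := by rw [h2]
        rw [norm_smul, mul_pow, Real.norm_eq_abs, sq_abs, @norm_sub_sq ℝ, inner_smul_right,
          norm_smul, mul_pow, Real.norm_eq_abs, sq_abs] at this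
        rw [this]
        simp only [RCLike.re_to_real]
        rw [real_inner_comm]
      have hp := Real.pi_pos
      have h4 : 0 ≤ (1 - t) ^ 2 * ‖x‖ ^ 2 := by positivity
      have h5 : (1 - t) * inner ℝ x z ≤ (1 - t) * h z :=
        mul_le_mul_of_nonneg_left h1 (by linarith)
      have h6 : -(Real.pi * t) * ‖y‖ ^ 2 * t = - Real.pi * (t ^ 2 * ‖y‖ ^ 2) := by ring
      rw [h6, h3]
      have h7 : -Real.pi * (‖z‖ ^ 2 - 2 * ((1 - t) * inner ℝ x z) + (1 - t) ^ 2 * ‖x‖ ^ 2)
          = -Real.pi * ‖z‖ ^ 2 + 2 * Real.pi * ((1 - t) * inner ℝ x z)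
            - Real.pi * ((1 - t) ^ 2 * ‖x‖ ^ 2) := by ring
      rw [h7]
      have h8 : 0 ≤ Real.pi * ((1 - t) ^ 2 * ‖x‖ ^ 2) := by positivity
      have h9 : 2 * Real.pi * ((1 - t) * inner ℝ x z) ≤ 2 * Real.pi * ((1 - t) * h z) :=
        mul_le_mul_of_nonneg_left h5 (by positivity)
      linarith
    · rw [hf, Set.indicator_of_notMem hx, ENNReal.zero_rpow_of_pos (by linarith), zero_mul]
      exact bot_le)
  have e1 : ∫⁻ x, f x = volume W := by
    rw [hf, lintegral_indicator hWm]; simp
  have e2 : ∫⁻ x, g x = ENNReal.ofReal ((1 / t) ^ ((m : ℝ) / 2)) := by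
    rw [← integral_exp_neg_pi_mul ht0, ofReal_integral_eq_lintegral_ofReal
      (integrable_exp_neg (by positivity))
      (Filter.Eventually.of_forall fun z => (Real.exp_pos _).le)]
  have hHint : Integrable (fun z : Eu m => gw z * Real.exp ((1 - t) * (2 * Real.pi * h z))) := by
    refine integrable_gw_mul (C := 1) (a := 2 * Real.pi * R) ?_ ?_
    · exact (Real.measurable_exp.comp ((hmeas.const_mul _).const_mul _)).aestronglyMeasurable
    · intro z
      rw [abs_of_pos (Real.exp_pos _), one_mul]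
      apply Real.exp_le_exp.mpr
      have h1 : h z ≤ R * ‖z‖ := (le_abs_self _).trans (hR z)
      have h2 : (1 - t) * (2 * Real.pi * h z) ≤ (1 - t) * (2 * Real.pi * (R * ‖z‖)) := by
        apply mul_le_mul_of_nonneg_left _ (by linarith)
        exact mul_le_mul_of_nonneg_left h1 (by positivity)
      have h3 : (1 - t) * (2 * Real.pi * (R * ‖z‖)) ≤ 1 * (2 * Real.pi * (R * ‖z‖)) := by
        apply mul_le_mul_of_nonneg_right (by linarith)
        exact mul_nonneg (by positivity) (hR0 z)
      linarith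
  have e3 : ∫⁻ x, H x = ENNReal.ofReal (∫ z : Eu m, gw z * Real.exp ((1 - t) * (2 * Real.pi * h z))) := by
    rw [ofReal_integral_eq_lintegral_ofReal hHint
      (Filter.Eventually.of_forall fun z => mul_nonneg (gw_pos z).le (Real.exp_pos _).le)]
  rw [e1, e2, e3] at key
  have hint0 : 0 ≤ ∫ z : Eu m, gw z * Real.exp ((1 - t) * (2 * Real.pi * h z)) :=
    integral_nonneg fun z => mul_nonneg (gw_pos z).le (Real.exp_pos _).le
  have key2 := ENNReal.toReal_mono ENNReal.ofReal_ne_top key
  rw [ENNReal.toReal_ofReal hint0, ENNReal.toReal_mul, ← ENNReal.toReal_rpow,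
    ← ENNReal.toReal_rpow, ENNReal.toReal_ofReal (by positivity)] at key2
  exact key2

/-- **Urysohn-type lower bound.** -/
theorem urysohn_pl {m : ℕ} {W : Set (Eu m)} (hWm : MeasurableSet W) (hWfin : volume W ≠ ∞)
    (hW0 : volume W ≠ 0) {h : Eu m → ℝ} (hmeas : Measurable h)
    {R : ℝ} (hR : ∀ z, |h z| ≤ R * ‖z‖) (hh : ∀ x ∈ W, ∀ z : Eu m, inner ℝ x z ≤ h z) :
    Real.log (volume W).toReal + (m : ℝ) / 2 ≤ 2 * Real.pi * ∫ z : Eu m, gw z * h z := by
  set v := (volume W).toReal with hv
  have hv0 : 0 < v := ENNReal.toReal_pos hW0 hWfin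
  have hR0 : ∀ z : Eu m, 0 ≤ R * ‖z‖ := fun z => (abs_nonneg _).trans (hR z)
  set X : Eu m → ℝ := fun z => 2 * Real.pi * h z with hX
  have hXm : Measurable X := hmeas.const_mul _
  have hXb : ∀ z, |X z| ≤ 2 * Real.pi * R * ‖z‖ := by
    intro z
    rw [hX]
    simp only
    rw [abs_mul, abs_of_pos (by positivity : (0:ℝ) < 2 * Real.pi), mul_assoc (2 * Real.pi)]
    exact mul_le_mul_of_nonneg_left (hR z) (by positivity)
  have hXsq : ∀ z, X z ^ 2 * Real.exp |X z| ≤ 2 * Real.exp (2 * (2 * Real.pi * R) * ‖z‖) := by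
    intro z
    have h1 : X z ^ 2 ≤ 2 * Real.exp |X z| := by
      have := Real.quadratic_le_exp_of_nonneg (abs_nonneg (X z))
      rw [← sq_abs]
      nlinarith [abs_nonneg (X z)]
    calc X z ^ 2 * Real.exp |X z| ≤ 2 * Real.exp |X z| * Real.exp |X z| :=
          mul_le_mul_of_nonneg_right h1 (Real.exp_pos _).le
      _ = 2 * Real.exp (2 * |X z|) := by rw [mul_assoc, ← Real.exp_add]; ring_nf
      _ ≤ _ := by
          apply mul_le_mul_of_nonneg_left _ (by norm_num)
          apply Real.exp_le_exp.mpr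
          have := hXb z
          nlinarith
  have i1 : Integrable (fun z => gw z * X z) := by
    refine integrable_gw_mul (C := 1) (a := 2 * Real.pi * R) hXm.aestronglyMeasurable ?_
    intro z
    rw [one_mul]
    refine (hXb z).trans ?_
    have := Real.add_one_le_exp (2 * Real.pi * R * ‖z‖)
    linarith
  have i2 : Integrable (fun z => gw z * (X z ^ 2 * Real.exp |X z|)) := by
    refine integrable_gw_mul (C := 2) (a := 2 * (2 * Real.pi * R)) ?_ ?_
    · exact ((hXm.pow_const 2).mul (Real.measurable_exp.comp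
        (measurable_norm.comp hXm))).aestronglyMeasurable
    · intro z
      rw [abs_of_nonneg (by positivity)]
      exact hXsq z
  have i0 : Integrable (fun z : Eu m => gw z) := by
    have := integrable_exp_neg (m := m) Real.pi_pos
    exact this
  set M := ∫ z, gw z * (X z ^ 2 * Real.exp |X z|) with hM
  have hM0 : 0 ≤ M := integral_nonneg fun z => mul_nonneg (gw_pos z).le (by positivity)
  set EX := ∫ z, gw z * X z with hEX
  have main : ∀ u : ℝ, 0 < u → u < 1 → Real.log v + (m : ℝ) * (1 - u) / 2 ≤ EX + u * M := by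
    intro u hu0 hu1
    have hs := pl_step hWm hmeas hR hh (t := 1 - u) (by linarith) (by linarith)
    rw [← hv] at hs
    have e0 : 1 - (1 - u) = u := by ring
    rw [e0] at hs
    have up : ∫ z : Eu m, gw z * Real.exp (u * (2 * Real.pi * h z)) ≤ 1 + u * EX + u ^ 2 * M := by
      have hle : ∀ z, gw z * Real.exp (u * X z) ≤
          gw z + u * (gw z * X z) + u ^ 2 * (gw z * (X z ^ 2 * Real.exp |X z|)) := by
        intro z
        have h1 := exp_le_second (u * X z)
        have h2 : Real.exp |u * X z| ≤ Real.exp |X z| := by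
          apply Real.exp_le_exp.mpr
          rw [abs_mul, abs_of_pos hu0]
          nlinarith [abs_nonneg (X z)]
        have h3 : (u * X z) ^ 2 * Real.exp |u * X z| ≤ u ^ 2 * (X z ^ 2 * Real.exp |X z|) := by
          calc (u * X z) ^ 2 * Real.exp |u * X z| ≤ (u * X z) ^ 2 * Real.exp |X z| :=
                mul_le_mul_of_nonneg_left h2 (sq_nonneg _)
            _ = _ := by ring
        have h4 : Real.exp (u * X z) ≤ 1 + u * X z + u ^ 2 * (X z ^ 2 * Real.exp |X z|) := by
          linarith
        have h5 := mul_le_mul_of_nonneg_left h4 (gw_pos z).le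
        calc gw z * Real.exp (u * X z) ≤ _ := h5
          _ = _ := by ring
      calc ∫ z : Eu m, gw z * Real.exp (u * (2 * Real.pi * h z))
          ≤ ∫ z, (gw z + u * (gw z * X z) + u ^ 2 * (gw z * (X z ^ 2 * Real.exp |X z|))) := by
            refine integral_mono_of_nonneg
              (Filter.Eventually.of_forall fun z => mul_nonneg (gw_pos z).le (Real.exp_pos _).le)
              ((i0.add (i1.const_mul u)).add (i2.const_mul (u ^ 2)))
              (Filter.Eventually.of_forall hle)
        _ = 1 + u * EX + u ^ 2 * M := by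
            have e1 := integral_add (f := fun z => gw z + u * (gw z * X z))
              (g := fun z => u ^ 2 * (gw z * (X z ^ 2 * rexp |X z|)))
              (i0.add (i1.const_mul u)) (i2.const_mul (u ^ 2))
            have e2 := integral_add (f := fun z : Eu m => gw z)
              (g := fun z => u * (gw z * X z)) i0 (i1.const_mul u)
            rw [e1, e2, integral_const_mul, integral_const_mul, integral_gw]
    have low : 1 + u * Real.log v + (m : ℝ) * (1 - u) * u / 2 ≤
        v ^ u * ((1 / (1 - u)) ^ ((m : ℝ) / 2)) ^ (1 - u) := by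
      have hu' : 0 < 1 - u := by linarith
      rw [← Real.rpow_mul (by positivity), Real.rpow_def_of_pos hv0,
        Real.rpow_def_of_pos (by positivity), ← Real.exp_add]
      have hlog : u ≤ Real.log (1 / (1 - u)) := by
        rw [one_div, Real.log_inv]
        have := Real.log_le_sub_one_of_pos hu'
        linarith
      have h1 := Real.add_one_le_exp (Real.log v * u + Real.log (1 / (1 - u)) * ((m : ℝ) / 2 * (1 - u)))
      have h2 : u * ((m : ℝ) / 2 * (1 - u)) ≤ Real.log (1 / (1 - u)) * ((m : ℝ) / 2 * (1 - u)) :=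
        mul_le_mul_of_nonneg_right hlog (by positivity)
      nlinarith
    have h3 : 1 + u * Real.log v + (m : ℝ) * (1 - u) * u / 2 ≤ 1 + u * EX + u ^ 2 * M :=
      low.trans (hs.trans up)
    have h4 : u * (Real.log v + (m : ℝ) * (1 - u) / 2) ≤ u * (EX + u * M) := by nlinarith
    exact le_of_mul_le_mul_left h4 hu0
  have hEX' : EX = 2 * Real.pi * ∫ z : Eu m, gw z * h z := by
    rw [hEX, ← integral_const_mul]
    congr 1
    ext z
    rw [hX]; ring
  rw [← hEX']
  apply le_of_forall_pos_le_add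
  intro ε hε
  set A := M + (m : ℝ) / 2 + 1 with hA
  have hA1 : 1 ≤ A := by
    have : (0:ℝ) ≤ (m : ℝ) / 2 := by positivity
    linarith
  set u := min (1 / 2) (ε / A) with hu
  have hu0 : 0 < u := lt_min (by norm_num) (by positivity)
  have hu1 : u < 1 := (min_le_left _ _).trans_lt (by norm_num)
  have hm := main u hu0 hu1
  have hu2 : u * A ≤ ε := by
    have : u ≤ ε / A := min_le_right _ _
    calc u * A ≤ ε / A * A := mul_le_mul_of_nonneg_right this (by linarith)
      _ = ε := by field_simp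
  rw [hA] at hu2
  nlinarith

end Crest.Agent.R152.WRM7
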