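import Crest.Agent.R152.WRM7A

/-!
# WRM-7, part B: comparison of Gaussian and Rademacher averages of a seminorm
-/

set_option autoImplicit false

open MeasureTheory Set Real
open scoped ENNReal Pointwise

namespace Crest.Agent.R152.WRM7

/-- The sign of a boolean. -/
def sg (b : Bool) : ℝ := if b then 1 else -1

lemma abs_sg (b : Bool) : |sg b| = 1 := by cases b <;> simp [sg]

lemma sg_mul_sg (a b : Bool) : sg a * sg b = sg (a == b) := by
  cases a <;> cases b <;> simp [sg]

/-- The sign vector of a boolean vector. -/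
noncomputable def sgv {m : ℕ} (e : Fin m → Bool) : Eu m := WithLp.toLp 2 (fun i => sg (e i))

/-- Coordinatewise multiplication. -/
noncomputable def mulv {m : ℕ} (a : Fin m → ℝ) (x : Eu m) : Eu m :=
  WithLp.toLp 2 (fun i => a i * x i)

/-- The Rademacher average of a function. -/
noncomputable def rad {m : ℕ} (N : Eu m → ℝ) : ℝ := (∑ e : Fin m → Bool, N (sgv e)) / 2 ^ m

@[simp] lemma sgv_apply {m : ℕ} (e : Fin m → Bool) (i : Fin m) : sgv e i = sg (e i) := rfl

@[simp] lemma mulv_apply {m : ℕ} (a : Fin m → ℝ) (x : Eu m) (i : Fin m) :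
    mulv a x i = a i * x i := rfl

lemma mulv_sgv {m : ℕ} (d e : Fin m → Bool) :
    mulv (fun i => sg (d i)) (sgv e) = sgv (fun i => d i == e i) := by
  ext i
  simp [sg_mul_sg]

lemma sum_sgv_flip {m : ℕ} (N : Eu m → ℝ) (d : Fin m → Bool) :
    ∑ e : Fin m → Bool, N (mulv (fun i => sg (d i)) (sgv e)) = ∑ e : Fin m → Bool, N (sgv e) := by
  have hinv : Function.Involutive (fun e : Fin m → Bool => fun i => d i == e i) := by
    intro e
    ext i
    show (d i == (d i == e i)) = e i
    cases d i <;> cases e i <;> rfl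
  rw [← Equiv.sum_comp hinv.toPerm (fun e => N (sgv e))]
  refine Finset.sum_congr rfl fun e _ => ?_
  rw [mulv_sgv]
  rfl

/-- **Contraction principle.** -/
lemma sum_mulv_le {m : ℕ} (N : Seminorm ℝ (Eu m)) {A : ℝ} (hA : 0 ≤ A) {a : Fin m → ℝ}
    (ha : ∀ i, |a i| ≤ A) :
    ∑ e : Fin m → Bool, N (mulv a (sgv e)) ≤ A * ∑ e : Fin m → Bool, N (sgv e) := by
  have key : ∀ b : Fin m → ℝ, (∀ i, |b i| ≤ 1) →
      ∑ e : Fin m → Bool, N (mulv b (sgv e)) ≤ ∑ e : Fin m → Bool, N (sgv e) := by
    intro b hb
    have hconv : ConvexOn ℝ (univ : Set (Fin m → ℝ))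
        (fun b : Fin m → ℝ => ∑ e : Fin m → Bool, N (mulv b (sgv e))) := by
      refine ⟨convex_univ, ?_⟩
      intro x _ y _ p q hp hq hpq
      simp only [smul_eq_mul]
      rw [Finset.mul_sum, Finset.mul_sum, ← Finset.sum_add_distrib]
      refine Finset.sum_le_sum fun e _ => ?_
      have h1 : mulv (p • x + q • y) (sgv e) = p • mulv x (sgv e) + q • mulv y (sgv e) := by
        ext i
        simp
        ring
      rw [h1]
      refine (map_add_le_add N _ _).trans ?_
      rw [map_smul_eq_mul, map_smul_eq_mul, Real.norm_of_nonneg hp, Real.norm_of_nonneg hq]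
    have hmem : b ∈ convexHull ℝ ((univ : Set (Fin m)).pi fun _ => ({-1, 1} : Set ℝ)) := by
      rw [convexHull_pi]
      intro i _
      rw [convexHull_pair, segment_eq_Icc (by norm_num)]
      exact abs_le.mp (hb i)
    obtain ⟨y, hy, hle⟩ := hconv.exists_ge_of_mem_convexHull (subset_univ _) hmem
    refine hle.trans ?_
    have hy' : y = fun i => sg (decide (y i = 1)) := by
      ext i
      have := hy i (mem_univ i)
      simp only [mem_insert_iff, mem_singleton_iff] at this
      rcases this with h | h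
      · rw [h]; norm_num [sg]
      · rw [h]; simp [sg]
    rw [hy']
    exact (sum_sgv_flip (fun x => N x) _).le
  rcases hA.eq_or_lt with h0 | hpos
  · have : a = 0 := by
      ext i
      have := ha i
      rw [← h0] at this
      simpa using abs_nonpos_iff.mp this
    have h1 : ∀ e : Fin m → Bool, mulv a (sgv e) = 0 := by
      intro e; ext i; simp [this]
    rw [← h0, zero_mul]
    simp [h1]
  · have h1 : ∀ e : Fin m → Bool, N (mulv a (sgv e)) = A * N (mulv (fun i => a i / A) (sgv e)) := by
      intro e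
      have : mulv a (sgv e) = A • mulv (fun i => a i / A) (sgv e) := by
        ext i
        simp
        field_simp
      rw [this, map_smul_eq_mul, Real.norm_of_nonneg hA]
    simp only [h1]
    rw [← Finset.mul_sum]
    apply mul_le_mul_of_nonneg_left _ hA
    apply key
    intro i
    rw [abs_div, abs_of_pos hpos, div_le_one hpos]
    exact ha i

/-- The sign flip as a linear isometry. -/
noncomputable def flipL {m : ℕ} (d : Fin m → Bool) : Eu m ≃ₗᵢ[ℝ] Eu m :=
  LinearIsometryEquiv.piLpCongrRight 2 (fun i =>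
    if d i then LinearIsometryEquiv.refl ℝ ℝ else LinearIsometryEquiv.neg ℝ)

lemma flipL_apply {m : ℕ} (d : Fin m → Bool) (x : Eu m) :
    flipL d x = mulv (fun i => sg (d i)) x := by
  ext i
  simp only [flipL, LinearIsometryEquiv.piLpCongrRight_apply, mulv_apply]
  cases h : d i <;> simp [sg]

lemma gw_flip {m : ℕ} (d : Fin m → Bool) (x : Eu m) :
    gw (mulv (fun i => sg (d i)) x) = gw x := by
  rw [← flipL_apply, gw, gw, LinearIsometryEquiv.norm_map]

lemma integral_flip {m : ℕ} (N : Eu m → ℝ) (d : Fin m → Bool) :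
    ∫ z, gw z * N (mulv (fun i => sg (d i)) z) = ∫ z, gw z * N z := by
  have h := (flipL d).measurePreserving.integral_comp
    (flipL d).toHomeomorph.measurableEmbedding (fun z => gw z * N z)
  rw [← h]
  refine integral_congr_ae (Filter.Eventually.of_forall fun z => ?_)
  simp only [flipL_apply, gw_flip]

lemma continuous_of_le {m : ℕ} (N : Seminorm ℝ (Eu m)) {b : ℝ} (hb : ∀ x, N x ≤ b * ‖x‖) :
    Continuous N := by
  have hb0 : ∀ x : Eu m, 0 ≤ b * ‖x‖ := fun x => (apply_nonneg N x).trans (hb x)
  have : LipschitzWith (Real.toNNReal b) N := by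
    apply LipschitzWith.of_dist_le_mul
    intro x y
    rw [Real.dist_eq, dist_eq_norm]
    have h1 : |N x - N y| ≤ N (x - y) := abs_sub_map_le_sub N x y
    refine h1.trans ((hb _).trans ?_)
    rw [Real.coe_toNNReal']
    exact mul_le_mul_of_nonneg_right (le_max_left _ _) (norm_nonneg _)
  exact this.continuous

/-- The sup norm of a vector. -/
noncomputable def supn {m : ℕ} (z : Eu m) : ℝ := ‖(WithLp.ofLp z : Fin m → ℝ)‖

lemma supn_nonneg {m : ℕ} (z : Eu m) : 0 ≤ supn z := norm_nonneg _

lemma abs_le_supn {m : ℕ} (z : Eu m) (i : Fin m) : |z i| ≤ supn z := by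
  have := norm_le_pi_norm (WithLp.ofLp z : Fin m → ℝ) i
  simpa [supn] using this

lemma abs_le_norm {m : ℕ} (z : Eu m) (i : Fin m) : |z i| ≤ ‖z‖ := by
  have := PiLp.norm_apply_le z i
  simpa using this

lemma supn_le_norm {m : ℕ} (z : Eu m) : supn z ≤ ‖z‖ := by
  rw [supn, pi_norm_le_iff_of_nonneg (norm_nonneg _)]
  intro i
  simpa using abs_le_norm z i

lemma continuous_supn {m : ℕ} : Continuous (supn : Eu m → ℝ) := by
  unfold supn
  exact continuous_norm.comp (PiLp.continuous_ofLp 2 _)

lemma le_exp_norm {m : ℕ} (z : Eu m) : ‖z‖ ≤ Real.exp (1 * ‖z‖) := by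
  have := Real.add_one_le_exp (1 * ‖z‖)
  linarith

lemma integrable_gw_sn {m : ℕ} (N : Seminorm ℝ (Eu m)) {b : ℝ} (hb : ∀ x, N x ≤ b * ‖x‖) :
    Integrable (fun z => gw z * N z) := by
  refine integrable_gw_mul (C := |b|) (a := 1) (continuous_of_le N hb).aestronglyMeasurable ?_
  intro z
  rw [abs_of_nonneg (apply_nonneg N z)]
  calc N z ≤ b * ‖z‖ := hb z
    _ ≤ |b| * ‖z‖ := mul_le_mul_of_nonneg_right (le_abs_self b) (norm_nonneg _)
    _ ≤ |b| * Real.exp (1 * ‖z‖) := mul_le_mul_of_nonneg_left (le_exp_norm z) (abs_nonneg b)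

lemma integrable_gw_supn {m : ℕ} : Integrable (fun z : Eu m => gw z * supn z) := by
  refine integrable_gw_mul (C := 1) (a := 1) continuous_supn.aestronglyMeasurable ?_
  intro z
  rw [abs_of_nonneg (supn_nonneg z), one_mul]
  exact (supn_le_norm z).trans (le_exp_norm z)

/-- Comparison of the Gaussian average and the Rademacher average, first form. -/
lemma gauss_le_rad {m : ℕ} (N : Seminorm ℝ (Eu m)) {b : ℝ} (hb : ∀ x, N x ≤ b * ‖x‖) :
    ∫ z, gw z * N z ≤ (∫ z : Eu m, gw z * supn z) * rad N := by
  have h2m : (0 : ℝ) < 2 ^ m := by positivity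
  have hcard : (Fintype.card (Fin m → Bool) : ℝ) = 2 ^ m := by
    simp
  have hint : ∀ d : Fin m → Bool,
      Integrable (fun z => gw z * N (mulv (fun i => sg (d i)) z)) := by
    intro d
    have h := (flipL d).measurePreserving.integrable_comp_emb
      (flipL d).toHomeomorph.measurableEmbedding (g := fun z => gw z * N z)
    have h2 := h.mpr (integrable_gw_sn N hb)
    refine h2.congr (Filter.Eventually.of_forall fun z => ?_)
    simp only [Function.comp_apply, flipL_apply, gw_flip]
  have h1 : 2 ^ m * ∫ z, gw z * N z =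
      ∫ z, gw z * ∑ d : Fin m → Bool, N (mulv (fun i => z i) (sgv d)) := by
    calc 2 ^ m * ∫ z, gw z * N z = ∑ d : Fin m → Bool, ∫ z, gw z * N z := by
          rw [Finset.sum_const, Finset.card_univ, nsmul_eq_mul, hcard]
      _ = ∑ d : Fin m → Bool, ∫ z, gw z * N (mulv (fun i => sg (d i)) z) := by
          refine Finset.sum_congr rfl fun d _ => ?_
          rw [integral_flip N d]
      _ = ∫ z, ∑ d : Fin m → Bool, gw z * N (mulv (fun i => sg (d i)) z) := by
          rw [integral_finsetSum]
          intro d _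
          exact hint d
      _ = _ := by
          refine integral_congr_ae (Filter.Eventually.of_forall fun z => ?_)
          simp only
          rw [Finset.mul_sum]
          refine Finset.sum_congr rfl fun d _ => ?_
          congr 2
          ext i
          simp [mul_comm]
  have h3 : ∫ z, gw z * ∑ d : Fin m → Bool, N (mulv (fun i => z i) (sgv d))
      ≤ ∫ z : Eu m, (gw z * supn z) * ∑ d : Fin m → Bool, N (sgv d) := by
    refine integral_mono_of_nonneg (Filter.Eventually.of_forall fun z => ?_)
      (integrable_gw_supn.mul_const _) (Filter.Eventually.of_forall fun z => ?_)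
    · exact mul_nonneg (gw_pos z).le (Finset.sum_nonneg fun d _ => apply_nonneg N _)
    · simp only
      rw [mul_assoc]
      apply mul_le_mul_of_nonneg_left _ (gw_pos z).le
      exact sum_mulv_le N (supn_nonneg z) (abs_le_supn z)
  rw [integral_mul_const] at h3
  rw [rad, ← mul_div_assoc, le_div_iff₀ h2m, mul_comm]
  rw [h1]
  exact h3

lemma integral_gw_exp_sq {m : ℕ} (i : Fin m) :
    ∫ z : Eu m, gw z * Real.exp ((Real.pi / 2) * (z i) ^ 2) = Real.sqrt 2 := by
  have h := (PiLp.volume_preserving_toLp (Fin m)).integral_comp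
    (MeasurableEquiv.toLp 2 (Fin m → ℝ)).measurableEmbedding
    (fun z : Eu m => gw z * Real.exp ((Real.pi / 2) * (z i) ^ 2))
  rw [← h]
  set c : Fin m → ℝ := fun j => if j = i then Real.pi / 2 else Real.pi with hc
  have h2 : ∀ x : Fin m → ℝ, gw (WithLp.toLp 2 x : Eu m) *
      Real.exp ((Real.pi / 2) * ((WithLp.toLp 2 x : Eu m) i) ^ 2)
      = ∏ j, Real.exp (-(c j) * (x j) ^ 2) := by
    intro x
    rw [gw, ← Real.exp_add, ← Real.exp_sum, EuclideanSpace.norm_sq_eq]
    congr 1
    simp only [Real.norm_eq_abs, sq_abs]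
    rw [Finset.mul_sum]
    have h3 : ∀ j, -(c j) * (x j) ^ 2 = -Real.pi * (x j) ^ 2 +
        (if j = i then (Real.pi / 2) * (x j) ^ 2 else 0) := by
      intro j
      simp only [hc]
      split_ifs <;> ring
    simp only [h3]
    rw [Finset.sum_add_distrib, Finset.sum_ite_eq' Finset.univ i]
    simp
  simp only [h2]
  rw [integral_fintype_prod_volume_eq_prod (fun j x => Real.exp (-(c j) * x ^ 2))]
  simp only [integral_gaussian]
  have h4 : ∀ j, Real.sqrt (Real.pi / c j) = if j = i then Real.sqrt 2 else 1 := by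
    intro j
    simp only [hc]
    split_ifs with hj
    · congr 1
      field_simp
    · rw [div_self Real.pi_pos.ne', Real.sqrt_one]
  simp only [h4]
  rw [Finset.prod_ite_eq' Finset.univ i]
  simp

lemma integrable_gw_exp_sq {m : ℕ} (i : Fin m) :
    Integrable (fun z : Eu m => gw z * Real.exp ((Real.pi / 2) * (z i) ^ 2)) := by
  have hI := integrable_exp_neg (m := m) (b := Real.pi / 2) (by positivity)
  refine hI.mono' ?_ (Filter.Eventually.of_forall fun z => ?_)
  · apply Continuous.aestronglyMeasurable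
    apply continuous_gw.mul
    fun_prop
  · rw [Real.norm_eq_abs, abs_of_nonneg (mul_nonneg (gw_pos z).le (Real.exp_pos _).le), gw,
      ← Real.exp_add]
    apply Real.exp_le_exp.mpr
    have h1 : (z i) ^ 2 ≤ ‖z‖ ^ 2 := by
      rw [← sq_abs]
      exact pow_le_pow_left₀ (abs_nonneg _) (abs_le_norm z i) 2
    have := mul_le_mul_of_nonneg_left h1 (by positivity : (0:ℝ) ≤ Real.pi / 2)
    linarith

lemma integrable_gw_supn_sq {m : ℕ} : Integrable (fun z : Eu m => gw z * supn z ^ 2) := by
  refine integrable_gw_mul (C := 2) (a := 1) (continuous_supn.pow 2).aestronglyMeasurable ?_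
  intro z
  rw [abs_of_nonneg (sq_nonneg _), one_mul]
  have h1 : supn z ^ 2 ≤ ‖z‖ ^ 2 := pow_le_pow_left₀ (supn_nonneg z) (supn_le_norm z) 2
  have := Real.quadratic_le_exp_of_nonneg (norm_nonneg z)
  nlinarith [norm_nonneg z]

/-- Second moment of the maximum of Gaussian variables. -/
lemma integral_gw_supn_sq {m : ℕ} :
    ∫ z : Eu m, gw z * supn z ^ 2 ≤ Real.log (m + 2) := by
  have hm2 : (2:ℝ) ≤ (m : ℝ) + 2 := by
    have : (0:ℝ) ≤ m := Nat.cast_nonneg m
    linarith
  have hlog0 : 0 < Real.log (m + 2) := Real.log_pos (by linarith)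
  rcases Nat.eq_zero_or_pos m with h0 | hpos
  · subst h0
    have : ∀ z : Eu 0, supn z = 0 := by
      intro z
      have h1 := supn_le_norm z
      have h2 : ‖z‖ = 0 := by
        rw [Subsingleton.elim z 0, norm_zero]
      exact le_antisymm (h2 ▸ h1) (supn_nonneg z)
    simp [this]
    exact Real.log_nonneg (by norm_num)
  · set A : ℝ := Real.sqrt 2 * (m + 2) with hA
    have hs2 : 0 < Real.sqrt 2 := Real.sqrt_pos.mpr (by norm_num)
    have hApos : 0 < A := by positivity
    have hp := Real.pi_pos
    have hpt : ∀ z : Eu m, (Real.pi / 2) * (gw z * supn z ^ 2) ≤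
        (Real.log A - 1) * gw z +
          (1 / A) * ∑ i : Fin m, gw z * Real.exp ((Real.pi / 2) * (z i) ^ 2) := by
      intro z
      set y := (Real.pi / 2) * supn z ^ 2 with hy
      have h1 : y ≤ Real.log A - 1 + Real.exp y / A := by
        have := Real.add_one_le_exp (y - Real.log A)
        rw [Real.exp_sub, Real.exp_log hApos] at this
        linarith
      have h2 : Real.exp y ≤ ∑ i : Fin m, Real.exp ((Real.pi / 2) * (z i) ^ 2) := by
        have : Nonempty (Fin m) := ⟨⟨0, hpos⟩⟩
        obtain ⟨i, hi⟩ : ∃ i : Fin m, supn z = |z i| := by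
          obtain ⟨i, -, hi⟩ := Finset.exists_max_image Finset.univ (fun i => |z i|)
            Finset.univ_nonempty
          refine ⟨i, le_antisymm ?_ (abs_le_supn z i)⟩
          rw [supn, pi_norm_le_iff_of_nonneg (abs_nonneg _)]
          intro j
          simpa using hi j (Finset.mem_univ j)
        rw [hy, hi, sq_abs]
        exact Finset.single_le_sum (f := fun i => Real.exp ((Real.pi / 2) * (z i) ^ 2))
          (fun j _ => (Real.exp_pos _).le) (Finset.mem_univ i)
      have h3 : y ≤ Real.log A - 1 +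
          (1 / A) * ∑ i : Fin m, Real.exp ((Real.pi / 2) * (z i) ^ 2) := by
        refine h1.trans ?_
        have : Real.exp y / A ≤ (1 / A) * ∑ i : Fin m, Real.exp ((Real.pi / 2) * (z i) ^ 2) := by
          rw [div_eq_mul_one_div, mul_comm]
          exact mul_le_mul_of_nonneg_left h2 (by positivity)
        linarith
      have h4 := mul_le_mul_of_nonneg_left h3 (gw_pos z).le
      calc (Real.pi / 2) * (gw z * supn z ^ 2) = gw z * y := by rw [hy]; ring
        _ ≤ _ := h4
        _ = _ := by
            rw [mul_add, ← Finset.mul_sum]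
            ring
    have hI1 : Integrable (fun z : Eu m => (Real.log A - 1) * gw z) :=
      (integrable_exp_neg (m := m) Real.pi_pos).const_mul _
    have hI2 : Integrable (fun z : Eu m =>
        (1 / A) * ∑ i : Fin m, gw z * Real.exp ((Real.pi / 2) * (z i) ^ 2)) :=
      (integrable_finsetSum _ fun i _ => integrable_gw_exp_sq i).const_mul _
    have h5 : ∫ z : Eu m, (Real.pi / 2) * (gw z * supn z ^ 2) ≤
        ∫ z : Eu m, ((Real.log A - 1) * gw z +
          (1 / A) * ∑ i : Fin m, gw z * Real.exp ((Real.pi / 2) * (z i) ^ 2)) :=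
      integral_mono (integrable_gw_supn_sq.const_mul _) (hI1.add hI2) hpt
    have e1 := integral_add (f := fun z : Eu m => (Real.log A - 1) * gw z)
      (g := fun z : Eu m => (1 / A) * ∑ i : Fin m, gw z * Real.exp ((Real.pi / 2) * (z i) ^ 2))
      hI1 hI2
    rw [e1, integral_const_mul, integral_const_mul, integral_const_mul, integral_gw,
      integral_finsetSum _ (fun i _ => integrable_gw_exp_sq i)] at h5
    simp only [integral_gw_exp_sq] at h5
    rw [Finset.sum_const, Finset.card_univ, Fintype.card_fin, nsmul_eq_mul] at h5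
    have h6 : (1 / A) * ((m : ℝ) * Real.sqrt 2) ≤ 1 := by
      rw [hA]
      rw [one_div, inv_mul_le_iff₀ (by positivity)]
      nlinarith
    have h7 : Real.log A ≤ (3 / 2) * Real.log (m + 2) := by
      rw [hA, Real.log_mul hs2.ne' (by positivity), Real.log_sqrt (by norm_num)]
      have : Real.log 2 ≤ Real.log (m + 2) := Real.log_le_log (by norm_num) hm2
      linarith
    have h8 : (Real.pi / 2) * ∫ z : Eu m, gw z * supn z ^ 2 ≤ (3 / 2) * Real.log (m + 2) := by
      linarith
    have h9 : (3 / 2) * Real.log (m + 2) ≤ (Real.pi / 2) * Real.log (m + 2) := by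
      have := Real.pi_gt_three
      nlinarith
    exact le_of_mul_le_mul_left (h8.trans h9) (by positivity)

/-- First moment of the maximum of Gaussian variables. -/
lemma integral_gw_supn {m : ℕ} :
    ∫ z : Eu m, gw z * supn z ≤ Real.sqrt (Real.log (m + 2)) := by
  have hm2 : (1:ℝ) < (m : ℝ) + 2 := by
    have : (0:ℝ) ≤ m := Nat.cast_nonneg m
    linarith
  set τ := Real.sqrt (Real.log (m + 2)) with hτ
  have hlog : 0 < Real.log (m + 2) := Real.log_pos hm2
  have hτ0 : 0 < τ := Real.sqrt_pos.mpr hlog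
  have hτ2 : τ ^ 2 = Real.log (m + 2) := Real.sq_sqrt hlog.le
  have h1 : ∀ z : Eu m, 2 * τ * (gw z * supn z) ≤ gw z * supn z ^ 2 + τ ^ 2 * gw z := by
    intro z
    have h := mul_nonneg (gw_pos z).le (sq_nonneg (supn z - τ))
    nlinarith
  have hI : Integrable (fun z : Eu m => τ ^ 2 * gw z) :=
    (integrable_exp_neg (m := m) Real.pi_pos).const_mul _
  have h2 : ∫ z : Eu m, 2 * τ * (gw z * supn z) ≤
      ∫ z : Eu m, (gw z * supn z ^ 2 + τ ^ 2 * gw z) :=
    integral_mono (integrable_gw_supn.const_mul _) (integrable_gw_supn_sq.add hI) h1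
  rw [integral_add integrable_gw_supn_sq hI, integral_const_mul, integral_const_mul,
    integral_gw] at h2
  have h3 := integral_gw_supn_sq (m := m)
  have h4 : 2 * τ * ∫ z : Eu m, gw z * supn z ≤ 2 * τ * τ := by nlinarith
  exact le_of_mul_le_mul_left h4 (by positivity)

lemma rad_nonneg {m : ℕ} (N : Seminorm ℝ (Eu m)) : 0 ≤ rad N :=
  div_nonneg (Finset.sum_nonneg fun _ _ => apply_nonneg N _) (by positivity)

/-- **Comparison of the Gaussian and the Rademacher average of a seminorm.** -/
theorem gauss_le {m : ℕ} (N : Seminorm ℝ (Eu m)) {b : ℝ} (hb : ∀ x, N x ≤ b * ‖x‖) :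
    ∫ z, gw z * N z ≤ Real.sqrt (Real.log (m + 2)) * rad N :=
  (gauss_le_rad N hb).trans (mul_le_mul_of_nonneg_right integral_gw_supn (rad_nonneg N))

end Crest.Agent.R152.WRM7
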