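import Crest.Agent.R152.WRM7B

/-!
# WRM-7, part C: from the ll*-position to the gaussian measure of the body
-/

set_option autoImplicit false

open MeasureTheory Set Real
open scoped ENNReal Pointwise

namespace Crest.Agent.R152.WRM7

/-- The unit ball of a seminorm. -/
def ub {m : ℕ} (N : Seminorm ℝ (Eu m)) : Set (Eu m) := {x | N x ≤ 1}

/-- The support function of the unit ball. -/
noncomputable def supf {m : ℕ} (N : Seminorm ℝ (Eu m)) (z : Eu m) : ℝ :=
  sSup ((fun x => inner ℝ x z) '' ub N)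

section

variable {m : ℕ} {N : Seminorm ℝ (Eu m)} {a b : ℝ}

lemma zero_mem_ub : (0 : Eu m) ∈ ub N := by simp [ub]

lemma neg_mem_ub {x : Eu m} (hx : x ∈ ub N) : -x ∈ ub N := by
  simpa [ub, map_neg_eq_map] using hx

lemma convex_ub : Convex ℝ (ub N) := by
  intro x hx y hy p q hp hq hpq
  have h := map_add_le_add N (p • x) (q • y)
  rw [map_smul_eq_mul, map_smul_eq_mul, Real.norm_of_nonneg hp, Real.norm_of_nonneg hq] at h
  have hx' : N x ≤ 1 := hx
  have hy' : N y ≤ 1 := hy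
  show N (p • x + q • y) ≤ 1
  nlinarith

lemma isClosed_ub (hb : ∀ x, N x ≤ b * ‖x‖) : IsClosed (ub N) :=
  isClosed_le (continuous_of_le N hb) continuous_const

lemma norm_le_of_mem (ha : 0 < a) (hab : ∀ x, a * ‖x‖ ≤ N x) {x : Eu m} (hx : x ∈ ub N) :
    ‖x‖ ≤ 1 / a := by
  rw [le_div_iff₀ ha]
  have := hab x
  have h2 : N x ≤ 1 := hx
  linarith

lemma isCompact_ub (ha : 0 < a) (hab : ∀ x, a * ‖x‖ ≤ N x) (hb : ∀ x, N x ≤ b * ‖x‖) :
    IsCompact (ub N) := by
  apply Metric.isCompact_of_isClosed_isBounded (isClosed_ub hb)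
  rw [isBounded_iff_forall_norm_le]
  exact ⟨1 / a, fun x hx => norm_le_of_mem ha hab hx⟩

lemma inner_le_aux (ha : 0 < a) (hab : ∀ x, a * ‖x‖ ≤ N x) (z : Eu m) {x : Eu m}
    (hx : x ∈ ub N) : inner ℝ x z ≤ (1 / a) * ‖z‖ :=
  (real_inner_le_norm x z).trans
    (mul_le_mul_of_nonneg_right (norm_le_of_mem ha hab hx) (norm_nonneg z))

lemma bddAbove_aux (ha : 0 < a) (hab : ∀ x, a * ‖x‖ ≤ N x) (z : Eu m) :
    BddAbove ((fun x => inner ℝ x z) '' ub N) := by
  refine ⟨(1 / a) * ‖z‖, ?_⟩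
  rintro _ ⟨x, hx, rfl⟩
  exact inner_le_aux ha hab z hx

lemma nonempty_aux (z : Eu m) : ((fun x => inner ℝ x z) '' ub N).Nonempty :=
  ⟨_, 0, zero_mem_ub, rfl⟩

lemma inner_le_supf (ha : 0 < a) (hab : ∀ x, a * ‖x‖ ≤ N x) (z : Eu m) {x : Eu m}
    (hx : x ∈ ub N) : inner ℝ x z ≤ supf N z :=
  le_csSup (bddAbove_aux ha hab z) ⟨x, hx, rfl⟩

lemma supf_le (ha : 0 < a) (hab : ∀ x, a * ‖x‖ ≤ N x) (z : Eu m) :
    supf N z ≤ (1 / a) * ‖z‖ := by
  apply csSup_le (nonempty_aux z)
  rintro _ ⟨x, hx, rfl⟩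
  exact inner_le_aux ha hab z hx

lemma exists_supf (ha : 0 < a) (hab : ∀ x, a * ‖x‖ ≤ N x) (hb : ∀ x, N x ≤ b * ‖x‖) (z : Eu m) :
    ∃ x ∈ ub N, inner ℝ x z = supf N z := by
  obtain ⟨x, hx, hmax⟩ := (isCompact_ub ha hab hb).exists_isMaxOn ⟨0, zero_mem_ub⟩
    (f := fun x : Eu m => inner ℝ x z) (by fun_prop)
  refine ⟨x, hx, le_antisymm (inner_le_supf ha hab z hx) ?_⟩
  apply csSup_le (nonempty_aux z)
  rintro _ ⟨y, hy, rfl⟩
  exact hmax hy

/-- The support function as a seminorm. -/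
noncomputable def supS (N : Seminorm ℝ (Eu m)) {a : ℝ} (ha : 0 < a)
    (hab : ∀ x, a * ‖x‖ ≤ N x) : Seminorm ℝ (Eu m) :=
  Seminorm.ofSMulLE (supf N)
    (by
      have h1 : (fun x : Eu m => inner ℝ x (0 : Eu m)) '' ub N = {0} := by
        ext t
        simp only [inner_zero_right, mem_image, mem_singleton_iff]
        constructor
        · rintro ⟨x, _, h⟩; exact h.symm
        · rintro rfl; exact ⟨0, zero_mem_ub, rfl⟩
      rw [supf, h1, csSup_singleton])
    (by
      intro x y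
      apply csSup_le (nonempty_aux _)
      rintro _ ⟨w, hw, rfl⟩
      simp only
      rw [inner_add_right]
      exact add_le_add (inner_le_supf ha hab x hw) (inner_le_supf ha hab y hw))
    (by
      intro r x
      apply csSup_le (nonempty_aux _)
      rintro _ ⟨w, hw, rfl⟩
      simp only
      rw [inner_smul_right, Real.norm_eq_abs]
      rcases le_or_gt 0 r with hr | hr
      · rw [abs_of_nonneg hr]
        exact mul_le_mul_of_nonneg_left (inner_le_supf ha hab x hw) hr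
      · rw [abs_of_neg hr]
        have h1 := inner_le_supf ha hab x (neg_mem_ub hw)
        rw [inner_neg_left] at h1
        nlinarith)

lemma supS_apply (ha : 0 < a) (hab : ∀ x, a * ‖x‖ ≤ N x) (z : Eu m) :
    supS N ha hab z = supf N z := rfl

/-- **Lower bound for the Rademacher average of the support function.** -/
lemma rad_supS_ge (ha : 0 < a) (hab : ∀ x, a * ‖x‖ ≤ N x) (hb : ∀ x, N x ≤ b * ‖x‖)
    (hvol : 1 ≤ volume (ub N)) :
    (m : ℝ) / (4 * Real.pi * Real.sqrt (Real.log (m + 2))) ≤ rad (supS N ha hab) := by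
  have hcomp := isCompact_ub ha hab hb
  have hfin : volume (ub N) ≠ ∞ := hcomp.measure_lt_top.ne
  have hne : volume (ub N) ≠ 0 := (lt_of_lt_of_le one_pos hvol).ne'
  have hSb : ∀ x, supS N ha hab x ≤ (1 / a) * ‖x‖ := fun x => supf_le ha hab x
  have hcont := continuous_of_le (supS N ha hab) hSb
  have h1 := urysohn_pl (W := ub N) hcomp.measurableSet hfin hne (h := supS N ha hab)
    hcont.measurable (R := 1 / a)
    (fun z => by rw [abs_of_nonneg (apply_nonneg _ z)]; exact hSb z)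
    (fun x hx z => inner_le_supf ha hab z hx)
  have hlog : 0 ≤ Real.log (volume (ub N)).toReal := by
    apply Real.log_nonneg
    rw [← ENNReal.toReal_one]
    exact (ENNReal.toReal_le_toReal ENNReal.one_ne_top hfin).mpr hvol
  have h2 := gauss_le (supS N ha hab) hSb
  have hm2 : (1:ℝ) < (m : ℝ) + 2 := by
    have : (0:ℝ) ≤ m := Nat.cast_nonneg m
    linarith
  have hτ0 : 0 < Real.sqrt (Real.log (m + 2)) := Real.sqrt_pos.mpr (Real.log_pos hm2)
  have hp := Real.pi_pos
  rw [div_le_iff₀ (by positivity)]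
  have h3 : 2 * Real.pi * ∫ z, gw z * supS N ha hab z ≤
      2 * Real.pi * (Real.sqrt (Real.log (m + 2)) * rad (supS N ha hab)) :=
    mul_le_mul_of_nonneg_left h2 (by positivity)
  nlinarith

/-- **Upper bound for the gaussian average in the ll*-position.** -/
theorem gauss_avg_le (hm : 0 < m) (ha : 0 < a) (hab : ∀ x, a * ‖x‖ ≤ N x)
    (hb : ∀ x, N x ≤ b * ‖x‖) (hvol : 1 ≤ volume (ub N)) {K : ℝ}
    (hK : ∀ F : (Fin m → Bool) → Eu m, (∀ e, N (F e) ≤ 1) →
      rad N * ((∑ e, inner ℝ (F e) (sgv e)) / 2 ^ m) ≤ m * K) :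
    ∫ z, gw z * N z ≤ 4 * Real.pi * K * Real.log (m + 2) := by
  have hm2 : (1:ℝ) < (m : ℝ) + 2 := by
    have : (0:ℝ) ≤ m := Nat.cast_nonneg m
    linarith
  have hlog : 0 < Real.log (m + 2) := Real.log_pos hm2
  set τ := Real.sqrt (Real.log (m + 2)) with hτ
  have hτ0 : 0 < τ := Real.sqrt_pos.mpr hlog
  have hτ2 : τ ^ 2 = Real.log (m + 2) := Real.sq_sqrt hlog.le
  have hp := Real.pi_pos
  have hm0 : (0 : ℝ) < m := Nat.cast_pos.mpr hm
  choose F hF1 hF2 using fun e : Fin m → Bool => exists_supf ha hab hb (sgv e)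
  have h1 := hK F hF1
  have h2 : (∑ e, inner ℝ (F e) (sgv e)) / 2 ^ m = rad (supS N ha hab) := by
    rw [rad]
    congr 1
    exact Finset.sum_congr rfl fun e _ => hF2 e
  rw [h2] at h1
  have h3 := rad_supS_ge ha hab hb hvol
  rw [← hτ] at h3
  have h4 : rad N * ((m : ℝ) / (4 * Real.pi * τ)) ≤ m * K :=
    (mul_le_mul_of_nonneg_left h3 (rad_nonneg N)).trans h1
  have h5 : rad N ≤ 4 * Real.pi * τ * K := by
    rw [mul_div_assoc', div_le_iff₀ (by positivity)] at h4
    have h6 : (m : ℝ) * rad N ≤ m * (4 * Real.pi * τ * K) := by nlinarith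
    exact le_of_mul_le_mul_left h6 hm0
  have h6 := gauss_le N hb
  rw [← hτ] at h6
  calc ∫ z, gw z * N z ≤ τ * rad N := h6
    _ ≤ τ * (4 * Real.pi * τ * K) := mul_le_mul_of_nonneg_left h5 hτ0.le
    _ = 4 * Real.pi * K * τ ^ 2 := by ring
    _ = _ := by rw [hτ2]

/-- Markov's inequality for the gaussian measure, rescaled. -/
lemma gauss_markov (hb : ∀ x, N x ≤ b * ‖x‖) {s : ℝ} (hs : 0 < s) :
    (1 - s * ∫ z, gw z * N z) * s ^ m ≤
      ∫ x in ub N, Real.exp (-(Real.pi / s ^ 2) * ‖x‖ ^ 2) := by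
  have hmeas : MeasurableSet (ub N) := (isClosed_ub hb).measurableSet
  set F : Eu m → ℝ := (ub N).indicator (fun x => Real.exp (-(Real.pi / s ^ 2) * ‖x‖ ^ 2)) with hF
  have h1 : ∫ x in ub N, Real.exp (-(Real.pi / s ^ 2) * ‖x‖ ^ 2) = ∫ x, F x := by
    rw [hF, integral_indicator hmeas]
  have h2 := Measure.integral_comp_smul (volume : Measure (Eu m)) F s
  rw [finrank_euclideanSpace, Fintype.card_fin, abs_of_pos (by positivity), smul_eq_mul] at h2
  have hFs : ∀ z : Eu m, F (s • z) = if N (s • z) ≤ 1 then gw z else 0 := by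
    intro z
    rw [hF]
    by_cases h : N (s • z) ≤ 1
    · rw [if_pos h, Set.indicator_of_mem (show s • z ∈ ub N from h), gw, norm_smul,
        Real.norm_of_nonneg hs.le]
      congr 1
      field_simp
    · rw [if_neg h, Set.indicator_of_notMem (show ¬ s • z ∈ ub N from h)]
  have h3 : ∀ z : Eu m, gw z - s * (gw z * N z) ≤ F (s • z) := by
    intro z
    rw [hFs, map_smul_eq_mul, Real.norm_of_nonneg hs.le]
    have hg := gw_pos z
    have hn : 0 ≤ N z := apply_nonneg N z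
    split_ifs with h
    · have : 0 ≤ s * (gw z * N z) := by positivity
      linarith
    · push Not at h
      nlinarith
  have hI0 : Integrable (fun z : Eu m => gw z) := integrable_exp_neg (m := m) Real.pi_pos
  have hI1 : Integrable (fun z : Eu m => s * (gw z * N z)) := (integrable_gw_sn N hb).const_mul s
  have hFsm : Measurable (fun z : Eu m => F (s • z)) := by
    have : Measurable F := by
      apply Measurable.indicator _ hmeas
      fun_prop
    exact this.comp (measurable_const_smul s)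
  have hI2 : Integrable (fun z : Eu m => F (s • z)) := by
    refine hI0.mono' hFsm.aestronglyMeasurable (Filter.Eventually.of_forall fun z => ?_)
    rw [hFs]
    split_ifs with h
    · rw [Real.norm_of_nonneg (gw_pos z).le]
    · simpa using (gw_pos z).le
  have h4 : ∫ z : Eu m, (gw z - s * (gw z * N z)) ≤ ∫ z : Eu m, F (s • z) :=
    integral_mono (hI0.sub hI1) hI2 h3
  rw [integral_sub hI0 hI1, integral_const_mul, integral_gw, h2] at h4
  rw [h1]
  have hsm : 0 < s ^ m := by positivity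
  calc (1 - s * ∫ z, gw z * N z) * s ^ m ≤ ((s ^ m)⁻¹ * ∫ x, F x) * s ^ m :=
        mul_le_mul_of_nonneg_right h4 hsm.le
    _ = ∫ x, F x := by field_simp

/-- **Output of (7.3)**: the gaussian measure of the unit ball in the ll*-position. -/
theorem gauss_ball_ge (hm : 0 < m) (ha : 0 < a) (hab : ∀ x, a * ‖x‖ ≤ N x)
    (hb : ∀ x, N x ≤ b * ‖x‖) (hvol : 1 ≤ volume (ub N)) {K : ℝ}
    (hK : ∀ F : (Fin m → Bool) → Eu m, (∀ e, N (F e) ≤ 1) →
      rad N * ((∑ e, inner ℝ (F e) (sgv e)) / 2 ^ m) ≤ m * K) {s : ℝ} (hs : 0 < s) :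
    (1 - s * (4 * Real.pi * K * Real.log (m + 2))) * s ^ m ≤
      ∫ x in ub N, Real.exp (-(Real.pi / s ^ 2) * ‖x‖ ^ 2) := by
  refine le_trans ?_ (gauss_markov hb hs)
  apply mul_le_mul_of_nonneg_right _ (by positivity)
  have := mul_le_mul_of_nonneg_left (gauss_avg_le hm ha hab hb hvol hK) hs.le
  linarith

end

end Crest.Agent.R152.WRM7
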