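import Mathlib
import Crest.Agent.Lib.PrekopaLeindler

/-!
# Row 152, weak reverse Minkowski, step (5) part 1

Directional variance of a Gaussian restricted to a symmetric convex set.
-/

set_option autoImplicit false

open MeasureTheory Set
open scoped ENNReal

namespace Crest.Agent.R152.WrmB

variable {m : ℕ}

/-- weighted square norm -/
def wsq (a x : Fin m → ℝ) : ℝ := ∑ i, a i * x i ^ 2

lemma continuous_wsq (a : Fin m → ℝ) : Continuous (wsq a) := by
  unfold wsq; fun_prop

lemma intOn {K : Set (Fin m → ℝ)} (hK : Bornology.IsBounded K) {f : (Fin m → ℝ) → ℝ}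
    (hf : Continuous f) : IntegrableOn f K :=
  (hf.continuousOn.integrableOn_compact hK.isCompact_closure).mono_set subset_closure

lemma wsq_neg (a x : Fin m → ℝ) : wsq a (-x) = wsq a x := by
  simp [wsq]

lemma wsq_mid (a : Fin m → ℝ) (ha : ∀ i, 0 ≤ a i) (x y : Fin m → ℝ) :
    wsq a ((1 - (1/2:ℝ)) • x + (1/2:ℝ) • y) ≤ (wsq a x + wsq a y) / 2 := by
  unfold wsq
  rw [← Finset.sum_add_distrib, Finset.sum_div]
  refine Finset.sum_le_sum fun i _ => ?_
  have := ha i
  simp only [Pi.add_apply, Pi.smul_apply, smul_eq_mul]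
  nlinarith [mul_nonneg this (sq_nonneg (x i - y i))]

/-- Shifted Gaussian mass of a symmetric convex set is maximal at the centre. -/
lemma shift_le {K : Set (Fin m → ℝ)} (hKm : MeasurableSet K) (hKc : Convex ℝ K)
    (hKs : ∀ x ∈ K, -x ∈ K) {c : ℝ} (hc : 0 ≤ c) (a : Fin m → ℝ) (ha : ∀ i, 0 ≤ a i)
    (e : Fin m → ℝ) :
    ∫⁻ x in K, ENNReal.ofReal (Real.exp (-c * wsq a (x - e)))
      ≤ ∫⁻ x in K, ENNReal.ofReal (Real.exp (-c * wsq a x)) := by
  have hmeas : ∀ e : Fin m → ℝ, Measurable (K.indicator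
      fun x => ENNReal.ofReal (Real.exp (-c * wsq a (x - e)))) := by
    intro e
    refine Measurable.indicator ?_ hKm
    have : Continuous fun x : Fin m → ℝ => Real.exp (-c * wsq a (x - e)) := by
      have := continuous_wsq a
      fun_prop
    exact this.measurable.ennreal_ofReal
  have key := Crest.Agent.Lib.PrekopaLeindler.PL_pi m (1/2) (by norm_num) (by norm_num)
    (K.indicator fun x => ENNReal.ofReal (Real.exp (-c * wsq a (x - e))))
    (K.indicator fun x => ENNReal.ofReal (Real.exp (-c * wsq a (x - (-e)))))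
    (K.indicator fun x => ENNReal.ofReal (Real.exp (-c * wsq a (x - 0))))
    (hmeas e) (hmeas (-e)) (hmeas 0) (by
      intro x y
      by_cases hx : x ∈ K
      · by_cases hy : y ∈ K
        · have hz : (1 - (1/2:ℝ)) • x + (1/2:ℝ) • y ∈ K := hKc hx hy (by norm_num) (by norm_num)
            (by norm_num)
          rw [indicator_of_mem hx, indicator_of_mem hy, indicator_of_mem hz]
          rw [ENNReal.ofReal_rpow_of_pos (Real.exp_pos _), ENNReal.ofReal_rpow_of_pos
            (Real.exp_pos _), ← ENNReal.ofReal_mul (by positivity)]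
          refine ENNReal.ofReal_le_ofReal ?_
          rw [← Real.exp_mul, ← Real.exp_mul, ← Real.exp_add]
          refine Real.exp_le_exp.mpr ?_
          have h1 := wsq_mid a ha (x - e) (y - (-e))
          have h2 : (1 - (1/2:ℝ)) • (x - e) + (1/2:ℝ) • (y - (-e))
              = ((1 - (1/2:ℝ)) • x + (1/2:ℝ) • y) - 0 := by
            ext i; simp; ring
          rw [h2] at h1
          nlinarith [mul_le_mul_of_nonneg_left h1 hc]
        · rw [indicator_of_notMem hy, ENNReal.zero_rpow_of_pos (by norm_num), mul_zero]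
          exact bot_le
      · rw [indicator_of_notMem hx, ENNReal.zero_rpow_of_pos (by norm_num), zero_mul]
        exact bot_le)
  rw [lintegral_indicator hKm, lintegral_indicator hKm, lintegral_indicator hKm] at key
  have hsym : ∫⁻ x in K, ENNReal.ofReal (Real.exp (-c * wsq a (x - (-e))))
      = ∫⁻ x in K, ENNReal.ofReal (Real.exp (-c * wsq a (x - e))) := by
    rw [← lintegral_indicator hKm, ← lintegral_indicator hKm,
      ← lintegral_neg_eq_self (μ := (volume : Measure (Fin m → ℝ)))]
    refine lintegral_congr fun x => ?_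
    by_cases hx : x ∈ K
    · rw [indicator_of_mem hx, indicator_of_mem (hKs x hx)]
      have h3 : wsq a (-x - -e) = wsq a (x - e) := by
        rw [← wsq_neg a (x - e)]
        congr 1
        ext i; simp; ring
      rw [h3]
    · have : -x ∉ K := fun h => hx (by simpa using hKs _ h)
      rw [indicator_of_notMem hx, indicator_of_notMem this]
  rw [hsym] at key
  simp only [sub_zero] at key
  set G := ∫⁻ x in K, ENNReal.ofReal (Real.exp (-c * wsq a (x - e))) with hG
  have hGG : G ^ (1 - (1/2:ℝ)) * G ^ (1/2:ℝ) = G := by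
    rw [← ENNReal.rpow_add_of_nonneg _ _ (by norm_num) (by norm_num)]
    norm_num
  rwa [hGG] at key

/-- Expansion of the shifted weighted norm. -/
lemma wsq_sub (a x e : Fin m → ℝ) :
    wsq a (x - e) = wsq a x - 2 * (∑ i, a i * x i * e i) + wsq a e := by
  unfold wsq
  rw [Finset.mul_sum, ← Finset.sum_sub_distrib, ← Finset.sum_add_distrib]
  refine Finset.sum_congr rfl fun i _ => ?_
  simp only [Pi.sub_apply]; ring

/-- Real form of `shift_le`. -/
lemma shift_le_real {K : Set (Fin m → ℝ)} (hKm : MeasurableSet K) (hKc : Convex ℝ K)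
    (hKs : ∀ x ∈ K, -x ∈ K) (hKb : Bornology.IsBounded K) {c : ℝ} (hc : 0 ≤ c)
    (a : Fin m → ℝ) (ha : ∀ i, 0 ≤ a i) (e : Fin m → ℝ) :
    ∫ x in K, Real.exp (-c * wsq a (x - e)) ≤ ∫ x in K, Real.exp (-c * wsq a x) := by
  have hcont : ∀ e : Fin m → ℝ, Continuous fun x : Fin m → ℝ => Real.exp (-c * wsq a (x - e)) := by
    intro e
    have := continuous_wsq a
    fun_prop
  have h := shift_le hKm hKc hKs hc a ha e
  have h0 := hcont 0
  simp only [sub_zero] at h0
  rw [← ofReal_integral_eq_lintegral_ofReal (intOn hKb (hcont e))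
      (Filter.Eventually.of_forall fun x => (Real.exp_pos _).le),
    ← ofReal_integral_eq_lintegral_ofReal (intOn hKb h0)
      (Filter.Eventually.of_forall fun x => (Real.exp_pos _).le)] at h
  rwa [ENNReal.ofReal_le_ofReal_iff (integral_nonneg fun x => (Real.exp_pos _).le)] at h

/-- Exponential moment form: `E cosh` bound. -/
lemma cosh_le {K : Set (Fin m → ℝ)} (hKm : MeasurableSet K) (hKc : Convex ℝ K)
    (hKs : ∀ x ∈ K, -x ∈ K) (hKb : Bornology.IsBounded K) {c : ℝ} (hc : 0 ≤ c)
    (a : Fin m → ℝ) (ha : ∀ i, 0 ≤ a i) (e : Fin m → ℝ) :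
    ∫ x in K, Real.cosh (2 * c * ∑ i, a i * x i * e i) * Real.exp (-c * wsq a x)
      ≤ Real.exp (c * wsq a e) * ∫ x in K, Real.exp (-c * wsq a x) := by
  have hcw := continuous_wsq a
  have h1 := shift_le_real hKm hKc hKs hKb hc a ha e
  have h2 := shift_le_real hKm hKc hKs hKb hc a ha (-e)
  have i1 : IntegrableOn (fun x => Real.exp (-c * wsq a (x - e))) K := intOn hKb (by fun_prop)
  have i2 : IntegrableOn (fun x => Real.exp (-c * wsq a (x - (-e)))) K := intOn hKb (by fun_prop)
  have h3 : ∫ x in K, Real.cosh (2 * c * ∑ i, a i * x i * e i) * Real.exp (-c * wsq a x)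
      = Real.exp (c * wsq a e) * (∫ x in K, (Real.exp (-c * wsq a (x - e))
        + Real.exp (-c * wsq a (x - (-e)))) / 2) := by
    rw [← integral_const_mul]
    refine integral_congr_ae (Filter.Eventually.of_forall fun x => ?_)
    simp only
    have e1 := wsq_sub a x e
    have e2 := wsq_sub a x (-e)
    have e3 : ∑ i, a i * x i * (-e) i = - ∑ i, a i * x i * e i := by
      rw [← Finset.sum_neg_distrib]; exact Finset.sum_congr rfl fun i _ => by simp
    rw [e3, wsq_neg] at e2
    rw [Real.cosh_eq, e1, e2]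
    set s := ∑ i, a i * x i * e i
    have f1 : Real.exp (c * wsq a e) * Real.exp (-c * (wsq a x - 2 * s + wsq a e))
        = Real.exp (2 * c * s) * Real.exp (-c * wsq a x) := by
      rw [← Real.exp_add, ← Real.exp_add]; congr 1; ring
    have f2 : Real.exp (c * wsq a e) * Real.exp (-c * (wsq a x - 2 * (-s) + wsq a e))
        = Real.exp (-(2 * c * s)) * Real.exp (-c * wsq a x) := by
      rw [← Real.exp_add, ← Real.exp_add]; congr 1; ring
    have f3 : Real.exp (c * wsq a e) * ((Real.exp (-c * (wsq a x - 2 * s + wsq a e))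
        + Real.exp (-c * (wsq a x - 2 * (-s) + wsq a e))) / 2)
        = (Real.exp (c * wsq a e) * Real.exp (-c * (wsq a x - 2 * s + wsq a e))
          + Real.exp (c * wsq a e) * Real.exp (-c * (wsq a x - 2 * (-s) + wsq a e))) / 2 := by
      ring
    rw [f3, f1, f2]
    ring
  rw [h3]
  refine mul_le_mul_of_nonneg_left ?_ (Real.exp_pos _).le
  rw [integral_div, integral_add i1 i2]
  linarith

lemma one_add_sq_half_le_cosh (x : ℝ) : 1 + x ^ 2 / 2 ≤ Real.cosh x := by
  have key : ∀ y : ℝ, 0 ≤ y → 1 + y ^ 2 / 2 ≤ Real.cosh y := by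
    intro y hy
    have h1 : Real.cosh y = 1 + 2 * Real.sinh (y / 2) ^ 2 := by
      have h := Real.cosh_two_mul (y / 2)
      have h' := Real.cosh_sq (y / 2)
      rw [show 2 * (y / 2) = y by ring] at h
      rw [h, h']; ring
    have h2 : y / 2 ≤ Real.sinh (y / 2) := Real.self_le_sinh_iff.mpr (by linarith)
    rw [h1]
    nlinarith [h2, hy]
  rcases le_total 0 x with hx | hx
  · exact key x hx
  · have := key (-x) (by linarith)
    rw [Real.cosh_neg] at this
    nlinarith [this]

/-- **Directional variance bound** for a Gaussian restricted to a symmetric convex set. -/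
theorem dirVar {K : Set (Fin m → ℝ)} (hKm : MeasurableSet K) (hKc : Convex ℝ K)
    (hKs : ∀ x ∈ K, -x ∈ K) (hKb : Bornology.IsBounded K) {c : ℝ} (hc : 0 < c)
    (a : Fin m → ℝ) (ha : ∀ i, 0 ≤ a i) (e : Fin m → ℝ) :
    ∫ x in K, (∑ i, a i * x i * e i) ^ 2 * Real.exp (-c * wsq a x)
      ≤ wsq a e / (2 * c) * ∫ x in K, Real.exp (-c * wsq a x) := by
  have hcw := continuous_wsq a
  set J := ∫ x in K, Real.exp (-c * wsq a x) with hJ
  set I := ∫ x in K, (∑ i, a i * x i * e i) ^ 2 * Real.exp (-c * wsq a x) with hI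
  have hJ0 : 0 ≤ J := integral_nonneg fun x => (Real.exp_pos _).le
  have hwe : 0 ≤ wsq a e := Finset.sum_nonneg fun i _ => mul_nonneg (ha i) (sq_nonneg _)
  have iJ : IntegrableOn (fun x => Real.exp (-c * wsq a x)) K := intOn hKb (by fun_prop)
  have iI : IntegrableOn (fun x => (∑ i, a i * x i * e i) ^ 2 * Real.exp (-c * wsq a x)) K :=
    intOn hKb (by fun_prop)
  -- inequality for each small `τ`
  have key : ∀ τ : ℝ, 0 < τ → 2 * c ^ 2 * I ≤ (Real.exp (c * wsq a e * τ ^ 2) - 1) / τ ^ 2 * J := by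
    intro τ hτ
    have h := cosh_le hKm hKc hKs hKb hc.le a ha (τ • e)
    have hw : wsq a (τ • e) = wsq a e * τ ^ 2 := by
      unfold wsq; rw [Finset.sum_mul]
      exact Finset.sum_congr rfl fun i _ => by simp only [Pi.smul_apply, smul_eq_mul]; ring
    have hs : ∀ x : Fin m → ℝ, ∑ i, a i * x i * (τ • e) i = τ * ∑ i, a i * x i * e i := by
      intro x
      rw [Finset.mul_sum]
      exact Finset.sum_congr rfl fun i _ => by simp only [Pi.smul_apply, smul_eq_mul]; ring
    rw [hw] at h
    have h4 : ∫ x in K, ((1 + 2 * c ^ 2 * τ ^ 2 * (∑ i, a i * x i * e i) ^ 2)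
          * Real.exp (-c * wsq a x))
        ≤ ∫ x in K, Real.cosh (2 * c * ∑ i, a i * x i * (τ • e) i) * Real.exp (-c * wsq a x) := by
      refine setIntegral_mono (intOn hKb (by fun_prop)) (intOn hKb (by fun_prop)) ?_
      intro x
      simp only
      refine mul_le_mul_of_nonneg_right ?_ (Real.exp_pos _).le
      rw [hs x]
      have := one_add_sq_half_le_cosh (2 * c * (τ * ∑ i, a i * x i * e i))
      nlinarith [this]
    have h5 : ∫ x in K, ((1 + 2 * c ^ 2 * τ ^ 2 * (∑ i, a i * x i * e i) ^ 2)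
          * Real.exp (-c * wsq a x)) = J + 2 * c ^ 2 * τ ^ 2 * I := by
      rw [hJ, hI, ← integral_const_mul, ← integral_add iJ (iI.const_mul _)]
      refine integral_congr_ae (Filter.Eventually.of_forall fun x => ?_)
      simp only; ring
    have h6 : J + 2 * c ^ 2 * τ ^ 2 * I ≤ Real.exp (c * (wsq a e * τ ^ 2)) * J := by
      rw [← h5]; exact h4.trans h
    have hτ2 : 0 < τ ^ 2 := by positivity
    rw [div_mul_eq_mul_div, le_div_iff₀ hτ2]
    rw [mul_assoc c]
    nlinarith [h6]
  have hlim : Filter.Tendsto (fun τ : ℝ => (Real.exp (c * wsq a e * τ ^ 2) - 1) / τ ^ 2 * J)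
      (nhdsWithin 0 (Ioi 0)) (nhds (c * wsq a e * J)) := by
    have hd : HasDerivAt (fun u : ℝ => Real.exp (c * wsq a e * u)) (c * wsq a e) 0 := by
      have := ((hasDerivAt_id (0:ℝ)).const_mul (c * wsq a e)).exp
      simpa using this
    have h7 := hd.tendsto_slope_zero_right
    have h8 : Filter.Tendsto (fun τ : ℝ => τ ^ 2) (nhdsWithin 0 (Ioi 0)) (nhdsWithin 0 (Ioi 0)) := by
      refine tendsto_nhdsWithin_iff.mpr ⟨?_, ?_⟩
      · have : Filter.Tendsto (fun τ : ℝ => τ ^ 2) (nhds 0) (nhds (0 ^ 2)) :=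
          (continuous_pow 2).tendsto 0
        rw [zero_pow (by norm_num)] at this
        exact this.mono_left nhdsWithin_le_nhds
      · filter_upwards [self_mem_nhdsWithin] with τ hτ
        have : (0:ℝ) < τ := hτ
        exact pow_pos this 2
    have h9 := (h7.comp h8).mul_const J
    refine h9.congr fun τ => ?_
    simp [smul_eq_mul, div_eq_inv_mul]
  have h10 : 2 * c ^ 2 * I ≤ c * wsq a e * J :=
    ge_of_tendsto hlim (by filter_upwards [self_mem_nhdsWithin] with τ hτ using key τ hτ)
  rw [div_mul_eq_mul_div, le_div_iff₀ (by positivity)]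
  have : c * (I * (2 * c)) ≤ c * (wsq a e * J) := by nlinarith [h10]
  exact le_of_mul_le_mul_left this hc

end Crest.Agent.R152.WrmB
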