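import Crest.Agent.R152.WrmB1

/-!
# Row 152, weak reverse Minkowski, step (5) part 2

Variance of a quadratic form under a Gaussian restricted to a symmetric convex set.
-/

set_option autoImplicit false

open MeasureTheory Set
open scoped ENNReal

namespace Crest.Agent.R152.WrmB

variable {m : ℕ}

lemma lint_scale {F : (Fin m → ℝ) → ℝ≥0∞} (hF : Measurable F) :
    ∫⁻ y, F y = 2 ^ m * ∫⁻ v : Fin m → ℝ, F ((2:ℝ) • v) := by
  have h := Measure.map_addHaar_smul (volume : Measure (Fin m → ℝ)) (r := 2) (by norm_num)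
  have h1 : ∫⁻ v : Fin m → ℝ, F ((2:ℝ) • v) = ∫⁻ y, F y ∂(Measure.map (fun v => (2:ℝ) • v) volume) := by
    rw [lintegral_map hF (by fun_prop)]
  have h' : Measure.map (fun v : Fin m → ℝ => (2:ℝ) • v) volume
      = ENNReal.ofReal |((2:ℝ) ^ m)⁻¹| • volume := by
    have := h
    simp only [Module.finrank_fintype_fun_eq_card, Fintype.card_fin] at this
    exact this
  rw [h1, h', lintegral_smul_measure, smul_eq_mul, ← mul_assoc]
  have : (2:ℝ≥0∞) ^ m * ENNReal.ofReal |((2:ℝ) ^ m)⁻¹| = 1 := by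
    rw [abs_of_pos (by positivity), ENNReal.ofReal_inv_of_pos (by positivity),
      ENNReal.ofReal_pow (by norm_num)]
    simp only [ENNReal.ofReal_ofNat]
    exact ENNReal.mul_inv_cancel (by simp) (by simp)
  rw [this, one_mul]

lemma lint_rot {F : (Fin m → ℝ) → (Fin m → ℝ) → ℝ≥0∞} (hF : Measurable (Function.uncurry F)) :
    ∫⁻ x, ∫⁻ y, F x y = 2 ^ m * ∫⁻ u, ∫⁻ v, F (u + v) (u - v) := by
  have h1 : ∀ x, ∫⁻ y, F x y = 2 ^ m * ∫⁻ v : Fin m → ℝ, F x (x - (2:ℝ) • v) := by
    intro x
    have hx : Measurable fun y => F x y := hF.comp measurable_prodMk_left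
    rw [← lintegral_sub_left_eq_self (fun y => F x y) x]
    exact lint_scale (F := fun y => F x (x - y)) (hx.comp (by fun_prop))
  have hm1 : Measurable (Function.uncurry fun (x v : Fin m → ℝ) => F x (x - (2:ℝ) • v)) := by
    exact hF.comp (f := fun p : (Fin m → ℝ) × (Fin m → ℝ) => (p.1, p.1 - (2:ℝ) • p.2)) (by fun_prop)
  have hm2 : Measurable (Function.uncurry fun (v u : Fin m → ℝ) => F (u + v) (u - v)) := by
    exact hF.comp (f := fun p : (Fin m → ℝ) × (Fin m → ℝ) => (p.2 + p.1, p.2 - p.1)) (by fun_prop)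
  calc ∫⁻ x, ∫⁻ y, F x y = ∫⁻ x, 2 ^ m * ∫⁻ v : Fin m → ℝ, F x (x - (2:ℝ) • v) := by
        simp_rw [h1]
    _ = 2 ^ m * ∫⁻ x, ∫⁻ v : Fin m → ℝ, F x (x - (2:ℝ) • v) := by
        exact lintegral_const_mul _ hm1.lintegral_prod_right'
    _ = 2 ^ m * ∫⁻ v, ∫⁻ x : Fin m → ℝ, F x (x - (2:ℝ) • v) := by
        rw [lintegral_lintegral_swap hm1.aemeasurable]
    _ = 2 ^ m * ∫⁻ v, ∫⁻ u : Fin m → ℝ, F (u + v) (u - v) := by
        congr 1
        refine lintegral_congr fun v => ?_
        rw [← lintegral_add_right_eq_self _ v]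
        refine lintegral_congr fun u => ?_
        congr 1
        ext i; simp; ring
    _ = _ := by
        rw [lintegral_lintegral_swap hm2.aemeasurable]

/-- `q`-form: `∑ h i * a i * x i ^ 2`. -/
def qf (h a x : Fin m → ℝ) : ℝ := ∑ i, h i * a i * x i ^ 2

lemma continuous_qf (h a : Fin m → ℝ) : Continuous (qf h a) := by
  unfold qf; fun_prop

lemma qf_add_sub (h a u v : Fin m → ℝ) :
    qf h a (u + v) - qf h a (u - v) = 4 * ∑ i, a i * v i * (h i * u i) := by
  unfold qf
  rw [Finset.mul_sum, ← Finset.sum_sub_distrib]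
  refine Finset.sum_congr rfl fun i _ => ?_
  simp only [Pi.add_apply, Pi.sub_apply]; ring

lemma wsq_add_sub (a u v : Fin m → ℝ) :
    wsq a (u + v) + wsq a (u - v) = 2 * wsq a u + 2 * wsq a v := by
  unfold wsq
  rw [Finset.mul_sum, Finset.mul_sum, ← Finset.sum_add_distrib, ← Finset.sum_add_distrib]
  refine Finset.sum_congr rfl fun i _ => ?_
  simp only [Pi.add_apply, Pi.sub_apply]; ring

/-- Lintegral form of `dirVar`. -/
lemma dirVar_lint {K : Set (Fin m → ℝ)} (hKm : MeasurableSet K) (hKc : Convex ℝ K)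
    (hKs : ∀ x ∈ K, -x ∈ K) (hKb : Bornology.IsBounded K) {c : ℝ} (hc : 0 < c)
    (a : Fin m → ℝ) (ha : ∀ i, 0 ≤ a i) (e : Fin m → ℝ) :
    ∫⁻ x in K, ENNReal.ofReal ((∑ i, a i * x i * e i) ^ 2 * Real.exp (-c * wsq a x))
      ≤ ∫⁻ x in K, ENNReal.ofReal (wsq a e / (2 * c) * Real.exp (-c * wsq a x)) := by
  have hcw := continuous_wsq a
  have hwe : 0 ≤ wsq a e := Finset.sum_nonneg fun i _ => mul_nonneg (ha i) (sq_nonneg _)
  rw [← ofReal_integral_eq_lintegral_ofReal (intOn hKb (by fun_prop))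
      (Filter.Eventually.of_forall fun x => by positivity),
    ← ofReal_integral_eq_lintegral_ofReal (intOn hKb (by fun_prop))
      (Filter.Eventually.of_forall fun x => by positivity)]
  refine ENNReal.ofReal_le_ofReal ?_
  rw [integral_const_mul]
  exact dirVar hKm hKc hKs hKb hc a ha e

/-- inner integral comparison, for a fixed midpoint `u`. -/
lemma inner_le {V : Set (Fin m → ℝ)} (hVm : MeasurableSet V) (hVc : Convex ℝ V)
    (hVb : Bornology.IsBounded V) {c : ℝ} (hc : 0 < c)
    (a : Fin m → ℝ) (ha : ∀ i, 0 ≤ a i) (h u : Fin m → ℝ) :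
    ∫⁻ v, (V.indicator (fun _ => (1:ℝ≥0∞)) (u + v) * V.indicator (fun _ => (1:ℝ≥0∞)) (u - v)
        * ENNReal.ofReal ((qf h a (u + v) - qf h a (u - v)) ^ 2
          * Real.exp (-c * (wsq a (u + v) + wsq a (u - v)))))
      ≤ ∫⁻ v, (V.indicator (fun _ => (1:ℝ≥0∞)) (u + v) * V.indicator (fun _ => (1:ℝ≥0∞)) (u - v)
        * ENNReal.ofReal ((1 / c) * (∑ i, a i * h i ^ 2 * ((u + v) i + (u - v) i) ^ 2)
          * Real.exp (-c * (wsq a (u + v) + wsq a (u - v))))) := by
  set K : Set (Fin m → ℝ) := {v | u + v ∈ V ∧ u - v ∈ V} with hK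
  have hKm : MeasurableSet K := by
    have h1 : MeasurableSet ((fun v => u + v) ⁻¹' V) := hVm.preimage (by fun_prop)
    have h2 : MeasurableSet ((fun v => u - v) ⁻¹' V) := hVm.preimage (by fun_prop)
    exact h1.inter h2
  have hKc : Convex ℝ K := by
    intro x hx y hy p q hp hq hpq
    constructor
    · have := hVc hx.1 hy.1 hp hq hpq
      have e : p • (u + x) + q • (u + y) = u + (p • x + q • y) := by
        calc p • (u + x) + q • (u + y) = (p + q) • u + (p • x + q • y) := by module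
          _ = _ := by rw [hpq, one_smul]
      rwa [e] at this
    · have := hVc hx.2 hy.2 hp hq hpq
      have e : p • (u - x) + q • (u - y) = u - (p • x + q • y) := by
        calc p • (u - x) + q • (u - y) = (p + q) • u - (p • x + q • y) := by module
          _ = _ := by rw [hpq, one_smul]
      rwa [e] at this
  have hKs : ∀ x ∈ K, -x ∈ K := by
    intro x hx
    refine ⟨?_, ?_⟩
    · have := hx.2; rwa [sub_eq_add_neg] at this
    · have := hx.1; rwa [sub_neg_eq_add]
  have hKb : Bornology.IsBounded K := by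
    obtain ⟨R, hR⟩ := hVb.subset_closedBall 0
    refine (Metric.isBounded_closedBall (x := (0 : Fin m → ℝ)) (r := R + ‖u‖)).subset ?_
    intro v hv
    have h1 := hR hv.1
    rw [mem_closedBall_zero_iff] at h1 ⊢
    have : v = (u + v) - u := by abel
    rw [this]
    exact (norm_sub_le _ _).trans (by linarith)
  have hind : ∀ v, V.indicator (fun _ => (1:ℝ≥0∞)) (u + v) * V.indicator (fun _ => (1:ℝ≥0∞)) (u - v)
      = K.indicator (fun _ => (1:ℝ≥0∞)) v := by
    intro v
    by_cases h1 : u + v ∈ V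
    · by_cases h2 : u - v ∈ V
      · rw [indicator_of_mem h1, indicator_of_mem h2, indicator_of_mem (show v ∈ K from ⟨h1, h2⟩),
          one_mul]
      · rw [indicator_of_notMem h2, indicator_of_notMem (show v ∉ K from fun h => h2 h.2), mul_zero]
    · rw [indicator_of_notMem h1, indicator_of_notMem (show v ∉ K from fun h => h1 h.1), zero_mul]
  have key := dirVar_lint hKm hKc hKs hKb (c := 2 * c) (by linarith) a ha (fun i => h i * u i)
  set κ : ℝ := 16 * Real.exp (-(2 * c) * wsq a u) with hκ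
  have hκ0 : 0 ≤ κ := by positivity
  have e1 : ∀ v, V.indicator (fun _ => (1:ℝ≥0∞)) (u + v) * V.indicator (fun _ => (1:ℝ≥0∞)) (u - v)
        * ENNReal.ofReal ((qf h a (u + v) - qf h a (u - v)) ^ 2
          * Real.exp (-c * (wsq a (u + v) + wsq a (u - v))))
      = K.indicator (fun v => ENNReal.ofReal κ * ENNReal.ofReal
        ((∑ i, a i * v i * (h i * u i)) ^ 2 * Real.exp (-(2 * c) * wsq a v))) v := by
    intro v
    rw [hind v]
    by_cases hv : v ∈ K
    · rw [indicator_of_mem hv, indicator_of_mem hv, one_mul, ← ENNReal.ofReal_mul hκ0]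
      congr 1
      rw [qf_add_sub, wsq_add_sub, hκ]
      have : Real.exp (-c * (2 * wsq a u + 2 * wsq a v))
          = Real.exp (-(2 * c) * wsq a u) * Real.exp (-(2 * c) * wsq a v) := by
        rw [← Real.exp_add]; congr 1; ring
      rw [this]; ring
    · rw [indicator_of_notMem hv, indicator_of_notMem hv, zero_mul]
  have e2 : ∀ v, V.indicator (fun _ => (1:ℝ≥0∞)) (u + v) * V.indicator (fun _ => (1:ℝ≥0∞)) (u - v)
        * ENNReal.ofReal ((1 / c) * (∑ i, a i * h i ^ 2 * ((u + v) i + (u - v) i) ^ 2)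
          * Real.exp (-c * (wsq a (u + v) + wsq a (u - v))))
      = K.indicator (fun v => ENNReal.ofReal κ * ENNReal.ofReal
        (wsq a (fun i => h i * u i) / (2 * (2 * c)) * Real.exp (-(2 * c) * wsq a v))) v := by
    intro v
    rw [hind v]
    by_cases hv : v ∈ K
    · rw [indicator_of_mem hv, indicator_of_mem hv, one_mul, ← ENNReal.ofReal_mul hκ0]
      congr 1
      rw [wsq_add_sub, hκ]
      have h3 : Real.exp (-c * (2 * wsq a u + 2 * wsq a v))
          = Real.exp (-(2 * c) * wsq a u) * Real.exp (-(2 * c) * wsq a v) := by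
        rw [← Real.exp_add]; congr 1; ring
      have h4 : ∑ i, a i * h i ^ 2 * ((u + v) i + (u - v) i) ^ 2
          = 4 * wsq a (fun i => h i * u i) := by
        unfold wsq
        rw [Finset.mul_sum]
        refine Finset.sum_congr rfl fun i _ => ?_
        simp only [Pi.add_apply, Pi.sub_apply]; ring
      rw [h3, h4]
      field_simp
      ring
    · rw [indicator_of_notMem hv, indicator_of_notMem hv, zero_mul]
  rw [lintegral_congr e1, lintegral_congr e2, lintegral_indicator hKm, lintegral_indicator hKm,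
    lintegral_const_mul' _ _ ENNReal.ofReal_ne_top, lintegral_const_mul' _ _ ENNReal.ofReal_ne_top]
  gcongr

lemma intOn_prod {V : Set (Fin m → ℝ)} (hVb : Bornology.IsBounded V)
    {G : (Fin m → ℝ) × (Fin m → ℝ) → ℝ} (hG : Continuous G) :
    IntegrableOn G (V ×ˢ V) (volume.prod volume) := by
  have hb : Bornology.IsBounded (V ×ˢ V) := hVb.prod hVb
  exact (hG.continuousOn.integrableOn_compact hb.isCompact_closure).mono_set subset_closure

lemma lint_to_real {V : Set (Fin m → ℝ)} (hVm : MeasurableSet V)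
    (hVb : Bornology.IsBounded V) {G : (Fin m → ℝ) × (Fin m → ℝ) → ℝ} (hG : Continuous G)
    (hG0 : ∀ p, 0 ≤ G p) :
    ∫⁻ x, ∫⁻ y, (V.indicator (fun _ => (1:ℝ≥0∞)) x * V.indicator (fun _ => (1:ℝ≥0∞)) y
        * ENNReal.ofReal (G (x, y)))
      = ENNReal.ofReal (∫ p in V ×ˢ V, G p ∂(volume.prod volume)) := by
  rw [ofReal_integral_eq_lintegral_ofReal (intOn_prod hVb hG)
    (Filter.Eventually.of_forall hG0), ← lintegral_indicator (hVm.prod hVm)]
  have hmeas : Measurable ((V ×ˢ V).indicator fun p => ENNReal.ofReal (G p)) :=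
    hG.measurable.ennreal_ofReal.indicator (hVm.prod hVm)
  rw [lintegral_prod _ hmeas.aemeasurable]
  refine lintegral_congr fun x => lintegral_congr fun y => ?_
  by_cases hx : x ∈ V
  · by_cases hy : y ∈ V
    · rw [indicator_of_mem hx, indicator_of_mem hy, indicator_of_mem (mk_mem_prod hx hy)]
      simp
    · rw [indicator_of_notMem hy, indicator_of_notMem (show (x, y) ∉ V ×ˢ V from fun h => hy h.2),
        mul_zero, zero_mul]
  · rw [indicator_of_notMem hx, indicator_of_notMem (show (x, y) ∉ V ×ˢ V from fun h => hx h.1),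
      zero_mul, zero_mul]

/-- **Variance of a quadratic form** (weighted Gaussian restricted to a symmetric convex set). -/
theorem quadVar {V : Set (Fin m → ℝ)} (hVm : MeasurableSet V) (hVc : Convex ℝ V)
    (hVs : ∀ x ∈ V, -x ∈ V) (hVb : Bornology.IsBounded V) {c : ℝ} (hc : 0 < c)
    (a : Fin m → ℝ) (ha : ∀ i, 0 ≤ a i) (h : Fin m → ℝ) :
    (∫ x in V, qf h a x ^ 2 * Real.exp (-c * wsq a x)) * (∫ x in V, Real.exp (-c * wsq a x))
        - (∫ x in V, qf h a x * Real.exp (-c * wsq a x)) ^ 2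
      ≤ (1 / c) * (∫ x in V, (∑ i, a i * h i ^ 2 * x i ^ 2) * Real.exp (-c * wsq a x))
          * (∫ x in V, Real.exp (-c * wsq a x)) := by
  have hcw := continuous_wsq a
  have hcq := continuous_qf h a
  set G1 : (Fin m → ℝ) × (Fin m → ℝ) → ℝ := fun p => (qf h a p.1 - qf h a p.2) ^ 2
          * Real.exp (-c * (wsq a p.1 + wsq a p.2)) with hG1
  set G2 : (Fin m → ℝ) × (Fin m → ℝ) → ℝ := fun p =>
    (1 / c) * (∑ i, a i * h i ^ 2 * (p.1 i + p.2 i) ^ 2)
          * Real.exp (-c * (wsq a p.1 + wsq a p.2)) with hG2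
  have hG1c : Continuous G1 := by rw [hG1]; fun_prop
  have hG2c : Continuous G2 := by rw [hG2]; fun_prop
  have hG10 : ∀ p, 0 ≤ G1 p := fun p => by rw [hG1]; positivity
  have hG20 : ∀ p, 0 ≤ G2 p := fun p => by
    rw [hG2]
    have : 0 ≤ ∑ i, a i * h i ^ 2 * (p.1 i + p.2 i) ^ 2 :=
      Finset.sum_nonneg fun i _ => mul_nonneg (mul_nonneg (ha i) (sq_nonneg _)) (sq_nonneg _)
    positivity
  have hmeas : ∀ G : (Fin m → ℝ) × (Fin m → ℝ) → ℝ, Continuous G →
      Measurable (Function.uncurry fun x y : Fin m → ℝ =>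
        (V.indicator (fun _ => (1:ℝ≥0∞)) x * V.indicator (fun _ => (1:ℝ≥0∞)) y
        * ENNReal.ofReal (G (x, y)))) := by
    intro G hG
    have h1 : Measurable (V.indicator (fun _ => (1:ℝ≥0∞))) := measurable_const.indicator hVm
    exact ((h1.comp measurable_fst).mul (h1.comp measurable_snd)).mul hG.measurable.ennreal_ofReal
  have hle : ∫⁻ x, ∫⁻ y, (V.indicator (fun _ => (1:ℝ≥0∞)) x * V.indicator (fun _ => (1:ℝ≥0∞)) y
        * ENNReal.ofReal (G1 (x, y)))
      ≤ ∫⁻ x, ∫⁻ y, (V.indicator (fun _ => (1:ℝ≥0∞)) x * V.indicator (fun _ => (1:ℝ≥0∞)) y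
        * ENNReal.ofReal (G2 (x, y))) := by
    rw [lint_rot (hmeas G1 hG1c), lint_rot (hmeas G2 hG2c)]
    refine mul_le_mul' le_rfl (lintegral_mono fun u => ?_)
    exact inner_le hVm hVc hVb hc a ha h u
  rw [lint_to_real hVm hVb hG1c hG10, lint_to_real hVm hVb hG2c hG20,
    ENNReal.ofReal_le_ofReal_iff (integral_nonneg hG20)] at hle
  set A := ∫ x in V, qf h a x ^ 2 * Real.exp (-c * wsq a x) with hA
  set B := ∫ x in V, Real.exp (-c * wsq a x) with hB
  set C := ∫ x in V, qf h a x * Real.exp (-c * wsq a x) with hC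
  set D := ∫ x in V, (∑ i, a i * h i ^ 2 * x i ^ 2) * Real.exp (-c * wsq a x) with hD
  have e1 : ∫ p in V ×ˢ V, G1 p ∂(volume.prod volume) = 2 * (A * B) - 2 * C ^ 2 := by
    have i1 : ∫ p in V ×ˢ V, (qf h a p.1 ^ 2 * Real.exp (-c * wsq a p.1))
        * Real.exp (-c * wsq a p.2) ∂(volume.prod volume) = A * B :=
      setIntegral_prod_mul (fun x => qf h a x ^ 2 * Real.exp (-c * wsq a x))
        (fun x => Real.exp (-c * wsq a x)) V V
    have i2 : ∫ p in V ×ˢ V, Real.exp (-c * wsq a p.1) *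
        (qf h a p.2 ^ 2 * Real.exp (-c * wsq a p.2)) ∂(volume.prod volume) = B * A :=
      setIntegral_prod_mul (fun x => Real.exp (-c * wsq a x))
        (fun x => qf h a x ^ 2 * Real.exp (-c * wsq a x)) V V
    have i3 : ∫ p in V ×ˢ V, (qf h a p.1 * Real.exp (-c * wsq a p.1)) *
        (qf h a p.2 * Real.exp (-c * wsq a p.2)) ∂(volume.prod volume) = C * C :=
      setIntegral_prod_mul (fun x => qf h a x * Real.exp (-c * wsq a x))
        (fun x => qf h a x * Real.exp (-c * wsq a x)) V V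
    have : ∫ p in V ×ˢ V, G1 p ∂(volume.prod volume)
        = ∫ p in V ×ˢ V, ((qf h a p.1 ^ 2 * Real.exp (-c * wsq a p.1)) * Real.exp (-c * wsq a p.2)
          + Real.exp (-c * wsq a p.1) * (qf h a p.2 ^ 2 * Real.exp (-c * wsq a p.2))
          - 2 * ((qf h a p.1 * Real.exp (-c * wsq a p.1)) *
            (qf h a p.2 * Real.exp (-c * wsq a p.2)))) ∂(volume.prod volume) := by
      refine integral_congr_ae (Filter.Eventually.of_forall fun p => ?_)
      simp only [hG1]
      have : Real.exp (-c * (wsq a p.1 + wsq a p.2))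
          = Real.exp (-c * wsq a p.1) * Real.exp (-c * wsq a p.2) := by
        rw [← Real.exp_add]; congr 1; ring
      rw [this]; ring
    rw [this, integral_sub (intOn_prod hVb (by fun_prop)) (intOn_prod hVb (by fun_prop)),
      integral_add (intOn_prod hVb (by fun_prop)) (intOn_prod hVb (by fun_prop)),
      integral_const_mul, i1, i2, i3]
    ring
  have hodd : ∀ i, ∫ x in V, x i * Real.exp (-c * wsq a x) = 0 := by
    intro i
    have h1 : ∫ x in V, x i * Real.exp (-c * wsq a x)
        = ∫ x in V, -(x i * Real.exp (-c * wsq a x)) := by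
      rw [← integral_indicator hVm, ← integral_indicator hVm,
        ← integral_neg_eq_self (μ := (volume : Measure (Fin m → ℝ)))]
      refine integral_congr_ae (Filter.Eventually.of_forall fun x => ?_)
      simp only
      by_cases hx : x ∈ V
      · rw [indicator_of_mem hx, indicator_of_mem (hVs x hx), wsq_neg]
        simp
      · have : -x ∉ V := fun h => hx (by simpa using hVs _ h)
        rw [indicator_of_notMem hx, indicator_of_notMem this]
    rw [integral_neg] at h1
    linarith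
  have e2 : ∫ p in V ×ˢ V, G2 p ∂(volume.prod volume) = (1 / c) * (2 * (D * B)) := by
    have i1 : ∫ p in V ×ˢ V, ((∑ i, a i * h i ^ 2 * p.1 i ^ 2) * Real.exp (-c * wsq a p.1))
        * Real.exp (-c * wsq a p.2) ∂(volume.prod volume) = D * B :=
      setIntegral_prod_mul (fun x => (∑ i, a i * h i ^ 2 * x i ^ 2) * Real.exp (-c * wsq a x))
        (fun x => Real.exp (-c * wsq a x)) V V
    have i2 : ∫ p in V ×ˢ V, Real.exp (-c * wsq a p.1) *
        ((∑ i, a i * h i ^ 2 * p.2 i ^ 2) * Real.exp (-c * wsq a p.2)) ∂(volume.prod volume)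
        = B * D :=
      setIntegral_prod_mul (fun x => Real.exp (-c * wsq a x))
        (fun x => (∑ i, a i * h i ^ 2 * x i ^ 2) * Real.exp (-c * wsq a x)) V V
    have i3 : ∀ i, ∫ p in V ×ˢ V, (p.1 i * Real.exp (-c * wsq a p.1)) *
        (p.2 i * Real.exp (-c * wsq a p.2)) ∂(volume.prod volume) = 0 := by
      intro i
      have := setIntegral_prod_mul (μ := volume) (ν := volume)
        (fun x : Fin m → ℝ => x i * Real.exp (-c * wsq a x))
        (fun x : Fin m → ℝ => x i * Real.exp (-c * wsq a x)) V V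
      rw [hodd i, zero_mul] at this
      exact this
    have : ∫ p in V ×ˢ V, G2 p ∂(volume.prod volume)
        = ∫ p in V ×ˢ V, (1 / c) * ((((∑ i, a i * h i ^ 2 * p.1 i ^ 2)
              * Real.exp (-c * wsq a p.1)) * Real.exp (-c * wsq a p.2)
          + Real.exp (-c * wsq a p.1) * ((∑ i, a i * h i ^ 2 * p.2 i ^ 2)
              * Real.exp (-c * wsq a p.2)))
          + ∑ i, (2 * (a i * h i ^ 2)) * ((p.1 i * Real.exp (-c * wsq a p.1)) *
            (p.2 i * Real.exp (-c * wsq a p.2)))) ∂(volume.prod volume) := by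
      refine integral_congr_ae (Filter.Eventually.of_forall fun p => ?_)
      simp only [hG2]
      have h3 : Real.exp (-c * (wsq a p.1 + wsq a p.2))
          = Real.exp (-c * wsq a p.1) * Real.exp (-c * wsq a p.2) := by
        rw [← Real.exp_add]; congr 1; ring
      have h4 : ∑ i, a i * h i ^ 2 * (p.1 i + p.2 i) ^ 2
          = (∑ i, a i * h i ^ 2 * p.1 i ^ 2) + (∑ i, a i * h i ^ 2 * p.2 i ^ 2)
            + ∑ i, (2 * (a i * h i ^ 2)) * (p.1 i * p.2 i) := by
        rw [← Finset.sum_add_distrib, ← Finset.sum_add_distrib]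
        exact Finset.sum_congr rfl fun i _ => by ring
      have h5 : ∑ i, (2 * (a i * h i ^ 2)) * ((p.1 i * Real.exp (-c * wsq a p.1)) *
            (p.2 i * Real.exp (-c * wsq a p.2)))
          = (∑ i, (2 * (a i * h i ^ 2)) * (p.1 i * p.2 i))
            * (Real.exp (-c * wsq a p.1) * Real.exp (-c * wsq a p.2)) := by
        rw [Finset.sum_mul]
        exact Finset.sum_congr rfl fun i _ => by ring
      rw [h3, h4, h5]; ring
    rw [this, integral_const_mul, integral_add (intOn_prod hVb (by fun_prop))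
      (intOn_prod hVb (by fun_prop)),
      integral_add (intOn_prod hVb (by fun_prop)) (intOn_prod hVb (by fun_prop)), i1, i2,
      integral_finsetSum _ (fun i _ => intOn_prod hVb (by fun_prop))]
    have : ∑ i, ∫ p in V ×ˢ V, (2 * (a i * h i ^ 2)) * ((p.1 i * Real.exp (-c * wsq a p.1)) *
            (p.2 i * Real.exp (-c * wsq a p.2))) ∂(volume.prod volume) = 0 := by
      refine Finset.sum_eq_zero fun i _ => ?_
      rw [integral_const_mul, i3 i, mul_zero]
    rw [this]; ring
  rw [e1, e2] at hle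
  have : (1 / c) * D * B = (1 / c) * (D * B) := by ring
  rw [this]
  linarith

end Crest.Agent.R152.WrmB
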