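import Mathlib

/-!
# Row 152, weak reverse Minkowski, step (6a): weak K-convexity (helper725)

Rademacher projection of functions on the cube with values in a normed space: its norm is at most
`C_K * (b/a)^(1/(K+1))` if the norm is `a,b`-equivalent to the euclidean one (Lagrange interpolation
of noise operators).
-/

set_option autoImplicit false
open Finset

namespace Crest.Agent.R152.WrmK

/-- sign of a Boolean -/
def sg (b : Bool) : ℝ := if b then 1 else -1

theorem sg_sq (b : Bool) : sg b * sg b = 1 := by cases b <;> simp [sg]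
theorem sg_true : sg true = 1 := rfl
theorem sg_false : sg false = -1 := by simp [sg]

variable {n : ℕ}

/-- Walsh character -/
def wch (S : Finset (Fin n)) (e : Fin n → Bool) : ℝ := ∏ j ∈ S, sg (e j)

theorem sum_wch_mul (x y : Fin n → Bool) :
    ∑ S : Finset (Fin n), wch S x * wch S y = if x = y then (2 : ℝ) ^ n else 0 := by
  have h1 : ∑ S : Finset (Fin n), wch S x * wch S y = ∏ j : Fin n, (1 + sg (x j) * sg (y j)) := by
    rw [Finset.prod_one_add]
    simp [wch, Finset.prod_mul_distrib, Finset.powerset_univ]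
  rw [h1]
  split_ifs with h
  · subst h
    simp only [sg_sq]
    norm_num
  · obtain ⟨j, hj⟩ := Function.ne_iff.mp h
    refine Finset.prod_eq_zero (Finset.mem_univ j) ?_
    revert hj
    cases x j <;> cases y j <;> simp [sg]

theorem wch_orth (S T : Finset (Fin n)) :
    ∑ e : Fin n → Bool, wch S e * wch T e = if S = T then (2 : ℝ) ^ n else 0 := by
  have h1 : ∀ e : Fin n → Bool, wch S e * wch T e =
      ∏ j : Fin n, ((if j ∈ S then sg (e j) else 1) * (if j ∈ T then sg (e j) else 1)) := by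
    intro e
    rw [Finset.prod_mul_distrib, Finset.prod_ite_mem, Finset.prod_ite_mem]
    simp [wch]
  simp_rw [h1]
  have h2 : ∑ e : Fin n → Bool,
      ∏ j : Fin n, ((if j ∈ S then sg (e j) else 1) * (if j ∈ T then sg (e j) else 1)) =
      ∏ j : Fin n, ∑ b : Bool, ((if j ∈ S then sg b else 1) * (if j ∈ T then sg b else 1)) := by
    rw [Finset.prod_univ_sum, Fintype.piFinset_univ]
  rw [h2]
  split_ifs with h
  · subst h
    have : ∀ j : Fin n, ∑ b : Bool, ((if j ∈ S then sg b else 1) * (if j ∈ S then sg b else 1)) =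
        (2 : ℝ) := by
      intro j
      by_cases hj : j ∈ S <;> norm_num [hj, sg]
    rw [Finset.prod_congr rfl fun j _ => this j]
    simp
  · obtain ⟨j, hj⟩ : ∃ j, ¬ (j ∈ S ↔ j ∈ T) := by
      by_contra hc
      push Not at hc
      exact h (Finset.ext hc)
    refine Finset.prod_eq_zero (Finset.mem_univ j) ?_
    by_cases h1 : j ∈ S <;> by_cases h2 : j ∈ T <;> simp_all [sg]

/-- Fourier coefficient of a vector-valued function -/
noncomputable def hat {X : Type*} [AddCommGroup X] [Module ℝ X] (F : (Fin n → Bool) → X)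
    (S : Finset (Fin n)) : X := ((2 : ℝ) ^ n)⁻¹ • ∑ e, wch S e • F e

/-- multiplier operator -/
noncomputable def mul {X : Type*} [AddCommGroup X] [Module ℝ X] (lam : ℕ → ℝ)
    (F : (Fin n → Bool) → X) (x : Fin n → Bool) : X := ∑ S, (lam S.card * wch S x) • hat F S

theorem parseval (f : (Fin n → Bool) → ℝ) :
    ∑ S, hat f S ^ 2 = ((2 : ℝ) ^ n)⁻¹ * ∑ e, f e ^ 2 := by
  have h2n : ((2 : ℝ) ^ n) ≠ 0 := by positivity
  have h1 : ∀ S : Finset (Fin n), hat f S ^ 2 = ((2 : ℝ) ^ n)⁻¹ * ((2 : ℝ) ^ n)⁻¹ *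
      ∑ x, ∑ y, f x * f y * (wch S x * wch S y) := by
    intro S
    simp only [hat, smul_eq_mul]
    rw [mul_pow, sq, sq, Finset.sum_mul_sum]
    congr 1
    refine Finset.sum_congr rfl fun x _ => Finset.sum_congr rfl fun y _ => ?_
    ring
  simp_rw [h1]
  rw [← Finset.mul_sum, Finset.sum_comm]
  have h2 : ∀ x : Fin n → Bool, ∑ S : Finset (Fin n), ∑ y, f x * f y * (wch S x * wch S y) =
      (2 : ℝ) ^ n * f x ^ 2 := by
    intro x
    rw [Finset.sum_comm]
    simp_rw [← Finset.mul_sum, sum_wch_mul]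
    simp
    ring
  simp_rw [h2]
  rw [← Finset.mul_sum]
  field_simp

theorem hat_mul (lam : ℕ → ℝ) (f : (Fin n → Bool) → ℝ) (S : Finset (Fin n)) :
    hat (mul lam f) S = lam S.card * hat f S := by
  have h2n : ((2 : ℝ) ^ n) ≠ 0 := by positivity
  have : ∑ e, wch S e • mul lam f e = (2 : ℝ) ^ n * (lam S.card * hat f S) := by
    simp only [mul, smul_eq_mul, Finset.mul_sum]
    rw [Finset.sum_comm]
    have h1 : ∀ T : Finset (Fin n), ∑ e : Fin n → Bool, wch S e * (lam T.card * wch T e * hat f T) =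
        lam T.card * hat f T * (if S = T then (2 : ℝ) ^ n else 0) := by
      intro T
      rw [← wch_orth, Finset.mul_sum]
      refine Finset.sum_congr rfl fun e _ => ?_
      ring
    simp_rw [h1]
    simp
    ring
  rw [hat, this, smul_eq_mul, ← mul_assoc, inv_mul_cancel₀ h2n, one_mul]

/-- a multiplier bounded by `c` has norm at most `c` on `L²` -/
theorem mul_bound (lam : ℕ → ℝ) (c : ℝ) (h : ∀ k, k ≤ n → lam k ^ 2 ≤ c)
    (f : (Fin n → Bool) → ℝ) : ∑ e, mul lam f e ^ 2 ≤ c * ∑ e, f e ^ 2 := by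
  have h2n : (0 : ℝ) < (2 : ℝ) ^ n := by positivity
  have h1 := parseval (mul lam f)
  have h2 := parseval f
  simp_rw [hat_mul] at h1
  have h3 : ∑ S : Finset (Fin n), (lam S.card * hat f S) ^ 2 ≤ c * ∑ S, hat f S ^ 2 := by
    rw [Finset.mul_sum]
    refine Finset.sum_le_sum fun S _ => ?_
    rw [mul_pow]
    refine mul_le_mul_of_nonneg_right (h _ ?_) (sq_nonneg _)
    simpa using Finset.card_le_univ S
  rw [h1, h2, ← mul_assoc, mul_comm c, mul_assoc] at h3
  exact le_of_mul_le_mul_left h3 (inv_pos.mpr h2n)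

/-- kernel of the noise operator -/
noncomputable def ker (r : ℝ) (x y : Fin n → Bool) : ℝ :=
  ((2 : ℝ) ^ n)⁻¹ * ∏ j, (1 + r * (sg (x j) * sg (y j)))

theorem ker_nonneg {r : ℝ} (h0 : 0 ≤ r) (h1 : r ≤ 1) (x y : Fin n → Bool) : 0 ≤ ker r x y := by
  unfold ker
  refine mul_nonneg (by positivity) (Finset.prod_nonneg fun j _ => ?_)
  cases x j <;> cases y j <;> simp [sg] <;> linarith

theorem ker_symm (r : ℝ) (x y : Fin n → Bool) : ker r x y = ker r y x := by
  unfold ker
  congr 1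
  refine Finset.prod_congr rfl fun j _ => ?_
  ring

theorem sum_ker (r : ℝ) (x : Fin n → Bool) : ∑ y, ker r x y = 1 := by
  unfold ker
  rw [← Finset.mul_sum]
  have h2 : ∑ y : Fin n → Bool, ∏ j : Fin n, (1 + r * (sg (x j) * sg (y j))) =
      ∏ j : Fin n, ∑ b : Bool, (1 + r * (sg (x j) * sg b)) := by
    rw [Finset.prod_univ_sum, Fintype.piFinset_univ]
  rw [h2]
  have : ∀ j : Fin n, ∑ b : Bool, (1 + r * (sg (x j) * sg b)) = (2 : ℝ) := by
    intro j
    simp [sg]; ring
  rw [Finset.prod_congr rfl fun j _ => this j]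
  simp

theorem ker_eq (r : ℝ) (x y : Fin n → Bool) :
    ker r x y = ((2 : ℝ) ^ n)⁻¹ * ∑ S : Finset (Fin n), r ^ S.card * (wch S x * wch S y) := by
  unfold ker
  rw [Finset.prod_one_add]
  simp only [Finset.powerset_univ]
  congr 1
  refine Finset.sum_congr rfl fun S _ => ?_
  simp [wch, Finset.prod_mul_distrib]

/-- noise operator = multiplier `r^k` -/
theorem noise_eq {X : Type*} [AddCommGroup X] [Module ℝ X] (r : ℝ) (F : (Fin n → Bool) → X)
    (x : Fin n → Bool) : ∑ y, ker r x y • F y = mul (fun k => r ^ k) F x := by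
  simp only [mul, hat, ker_eq]
  simp_rw [Finset.mul_sum, Finset.sum_smul, smul_smul, Finset.smul_sum, smul_smul]
  rw [Finset.sum_comm]
  refine Finset.sum_congr rfl fun S _ => Finset.sum_congr rfl fun y _ => ?_
  congr 1
  ring

theorem jensen {ι X : Type*} [AddCommGroup X] [Module ℝ X] (N : Seminorm ℝ X) (s : Finset ι)
    (w : ι → ℝ) (F : ι → X) :
    N (∑ i ∈ s, w i • F i) ^ 2 ≤ (∑ i ∈ s, |w i|) * ∑ i ∈ s, |w i| * N (F i) ^ 2 := by
  have h1 : N (∑ i ∈ s, w i • F i) ≤ ∑ i ∈ s, |w i| * N (F i) := by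
    refine (Finset.le_sum_of_subadditive (fun x => N x) (map_zero N).le (fun x y => map_add_le_add N x y)
      s _).trans (le_of_eq ?_)
    refine Finset.sum_congr rfl fun i _ => ?_
    rw [map_smul_eq_mul, Real.norm_eq_abs]
  have h2 : (∑ i ∈ s, |w i| * N (F i)) ^ 2 ≤ (∑ i ∈ s, |w i|) * ∑ i ∈ s, |w i| * N (F i) ^ 2 := by
    refine Finset.sum_sq_le_sum_mul_sum_of_sq_le_mul s (fun i _ => abs_nonneg _)
      (fun i _ => mul_nonneg (abs_nonneg _) (sq_nonneg _)) (fun i _ => le_of_eq ?_)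
    ring
  exact (pow_le_pow_left₀ (apply_nonneg N _) h1 2).trans h2

/-- the noise operator is a contraction on `L²(N)` -/
theorem noise_le {X : Type*} [AddCommGroup X] [Module ℝ X] (N : Seminorm ℝ X) {r : ℝ}
    (h0 : 0 ≤ r) (h1 : r ≤ 1) (F : (Fin n → Bool) → X) :
    ∑ x, N (mul (fun k => r ^ k) F x) ^ 2 ≤ ∑ x, N (F x) ^ 2 := by
  have h2 : ∀ x, N (mul (fun k => r ^ k) F x) ^ 2 ≤ ∑ y, ker r x y * N (F y) ^ 2 := by
    intro x
    rw [← noise_eq]
    refine (jensen N Finset.univ _ F).trans (le_of_eq ?_)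
    have h3 : ∀ y, |ker r x y| = ker r x y := fun y => abs_of_nonneg (ker_nonneg h0 h1 x y)
    simp_rw [h3]
    rw [sum_ker, one_mul]
  refine (Finset.sum_le_sum fun x _ => h2 x).trans (le_of_eq ?_)
  rw [Finset.sum_comm]
  refine Finset.sum_congr rfl fun y _ => ?_
  rw [← Finset.sum_mul]
  have : ∑ x, ker r x y = 1 := by
    rw [← sum_ker r y]
    exact Finset.sum_congr rfl fun x _ => ker_symm r x y
  rw [this, one_mul]

/-- Lagrange coefficients -/
theorem exists_coeff (K : ℕ) : ∃ c : ℕ → ℝ, ∀ k ≤ K,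
    ∑ j ∈ Finset.range (K + 1), c j * (j : ℝ) ^ k = if k = 1 then 1 else 0 := by
  classical
  set v : ℕ → ℝ := fun j => (j : ℝ) with hv
  have hinj : Set.InjOn v (Finset.range (K + 1) : Set ℕ) := fun a _ b _ h => by
    simpa [hv] using h
  refine ⟨fun j => (Lagrange.basis (Finset.range (K + 1)) v j).coeff 1, fun k hk => ?_⟩
  have h1 := Lagrange.eq_interpolate (s := Finset.range (K + 1)) (v := v)
    (f := (Polynomial.X : Polynomial ℝ) ^ k) hinj (by
      rw [Polynomial.degree_X_pow, Finset.card_range]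
      exact_mod_cast Nat.lt_succ_of_le hk)
  have h2 := congrArg (fun p : Polynomial ℝ => p.coeff 1) h1
  simp only [Lagrange.interpolate_apply, Polynomial.finsetSum_coeff, Polynomial.coeff_C_mul,
    Polynomial.eval_pow, Polynomial.eval_X, Polynomial.coeff_X_pow] at h2
  simp only [hv] at h2
  rw [show (if k = 1 then (1 : ℝ) else 0) = if 1 = k then 1 else 0 by
    by_cases h : k = 1 <;> simp [h, eq_comm], h2]
  refine Finset.sum_congr rfl fun j _ => ?_
  ring

/-- the Rademacher projection -/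
noncomputable def rad {X : Type*} [AddCommGroup X] [Module ℝ X] (F : (Fin n → Bool) → X) :
    (Fin n → Bool) → X := mul (fun k => if k = 1 then 1 else 0) F

theorem mul_add_lam {X : Type*} [AddCommGroup X] [Module ℝ X] (lam mu : ℕ → ℝ)
    (F : (Fin n → Bool) → X) (x : Fin n → Bool) :
    mul (fun k => lam k + mu k) F x = mul lam F x + mul mu F x := by
  simp only [mul, add_mul, add_smul, Finset.sum_add_distrib]

theorem mul_sum_lam {X : Type*} [AddCommGroup X] [Module ℝ X] {ι : Type*} (s : Finset ι)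
    (w : ι → ℝ) (lam : ι → ℕ → ℝ) (F : (Fin n → Bool) → X) (x : Fin n → Bool) :
    mul (fun k => ∑ i ∈ s, w i * lam i k) F x = ∑ i ∈ s, w i • mul (lam i) F x := by
  simp only [mul, Finset.smul_sum, smul_smul]
  rw [Finset.sum_comm]
  refine Finset.sum_congr rfl fun S _ => ?_
  rw [Finset.sum_mul, Finset.sum_smul]
  refine Finset.sum_congr rfl fun i _ => ?_
  congr 1
  ring

theorem mul_apply_coord {m : ℕ} (lam : ℕ → ℝ) (F : (Fin n → Bool) → Fin m → ℝ)
    (x : Fin n → Bool) (i : Fin m) : mul lam F x i = mul lam (fun e => F e i) x := by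
  simp [mul, hat, Finset.sum_apply, smul_eq_mul]

/-- (6.1) weak K-convexity -/
theorem kconv (K : ℕ) (hK : 1 ≤ K) : ∃ C : ℝ, 0 < C ∧ ∀ (n m : ℕ) (N : Seminorm ℝ (Fin m → ℝ)) (a b : ℝ),
    0 < a → a ≤ b → (∀ x : Fin m → ℝ, a ^ 2 * ∑ i, x i ^ 2 ≤ N x ^ 2) →
    (∀ x : Fin m → ℝ, N x ^ 2 ≤ b ^ 2 * ∑ i, x i ^ 2) →
    ∀ F : (Fin n → Bool) → Fin m → ℝ,
      ∑ e, N (rad F e) ^ 2 ≤ (C * (b / a) ^ (1 / ((K : ℝ) + 1))) ^ 2 * ∑ e, N (F e) ^ 2 := by
  obtain ⟨c, hc⟩ := exists_coeff K
  set C0 : ℝ := 1 + ∑ j ∈ Finset.range (K + 1), |c j| with hC0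
  have hC0p : 0 < C0 := by
    have : 0 ≤ ∑ j ∈ Finset.range (K + 1), |c j| := Finset.sum_nonneg fun j _ => abs_nonneg _
    linarith
  have hC0s : ∑ j ∈ Finset.range (K + 1), |c j| ≤ C0 := by rw [hC0]; linarith
  refine ⟨2 * C0 * (K + 1), by positivity, ?_⟩
  intro n m N a b ha hab hl hu F
  have hb : 0 < b := lt_of_lt_of_le ha hab
  set ρ : ℝ := (b / a) ^ (1 / ((K : ℝ) + 1)) with hρ
  have hba : 1 ≤ b / a := by rw [le_div_iff₀ ha]; linarith
  have hρ1 : 1 ≤ ρ := Real.one_le_rpow hba (by positivity)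
  have hρp : 0 < ρ := by linarith
  have hρK : ρ ^ (K + 1) = b / a := by
    rw [hρ, ← Real.rpow_natCast, ← Real.rpow_mul (by positivity)]
    push_cast
    rw [one_div, inv_mul_cancel₀ (by positivity), Real.rpow_one]
  -- the scale
  set t : ℝ := ρ⁻¹ with ht
  have htp : 0 < t := inv_pos.mpr hρp
  have ht1 : t ≤ 1 := inv_le_one_of_one_le₀ hρ1
  set r : ℝ := t / (K + 1) with hr
  have hrp : 0 < r := by positivity
  have hrK : r * (K + 1) = t := by rw [hr]; field_simp
  -- multipliers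
  set lamA : ℕ → ℝ := fun k => ∑ j ∈ Finset.range (K + 1), (c j / r) * (r * j) ^ k with hlamA
  set lamE : ℕ → ℝ := fun k => (if k = 1 then 1 else 0) - lamA k with hlamE
  have hA : ∀ k, lamA k = r⁻¹ * r ^ k * ∑ j ∈ Finset.range (K + 1), c j * (j : ℝ) ^ k := by
    intro k
    rw [hlamA, Finset.mul_sum]
    refine Finset.sum_congr rfl fun j _ => ?_
    rw [mul_pow, div_eq_mul_inv]
    ring
  have hE0 : ∀ k ≤ K, lamE k = 0 := by
    intro k hk
    rw [hlamE]
    simp only
    rw [hA, hc k hk]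
    by_cases h1 : k = 1
    · subst h1
      simp
      rw [inv_mul_cancel₀ hrp.ne', sub_self]
    · simp [h1]
  have hE1 : ∀ k, lamE k ^ 2 ≤ (C0 * (K + 1) * t ^ K) ^ 2 := by
    intro k
    rcases le_or_gt k K with hk | hk
    · rw [hE0 k hk]
      simpa using sq_nonneg (C0 * (K + 1) * t ^ K)
    · obtain ⟨l, rfl⟩ : ∃ l, k = K + 1 + l := ⟨k - (K + 1), by omega⟩
      rw [← sq_abs (lamE _)]
      refine pow_le_pow_left₀ (abs_nonneg _) ?_ 2
      have hne : K + 1 + l ≠ 1 := by omega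
      have h1 : lamE (K + 1 + l) = - (r ^ (K + l) *
          ∑ j ∈ Finset.range (K + 1), c j * (j : ℝ) ^ (K + 1 + l)) := by
        rw [hlamE]
        simp only
        rw [hA, if_neg hne]
        have : r⁻¹ * r ^ (K + 1 + l) = r ^ (K + l) := by
          rw [show K + 1 + l = (K + l) + 1 by ring, pow_succ]
          field_simp
        rw [this]
        ring
      have h2 : |∑ j ∈ Finset.range (K + 1), c j * (j : ℝ) ^ (K + 1 + l)| ≤
          C0 * ((K : ℝ) + 1) ^ (K + 1 + l) := by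
        refine (Finset.abs_sum_le_sum_abs _ _).trans ?_
        refine le_trans ?_ (mul_le_mul_of_nonneg_right hC0s (by positivity))
        rw [Finset.sum_mul]
        refine Finset.sum_le_sum fun j hj => ?_
        rw [abs_mul, abs_of_nonneg (by positivity : (0 : ℝ) ≤ (j : ℝ) ^ (K + 1 + l))]
        refine mul_le_mul_of_nonneg_left ?_ (abs_nonneg _)
        refine pow_le_pow_left₀ (by positivity) ?_ _
        have := Finset.mem_range.mp hj
        exact_mod_cast this.le
      rw [h1, abs_neg, abs_mul, abs_of_nonneg (by positivity : (0 : ℝ) ≤ r ^ (K + l))]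
      calc r ^ (K + l) * |∑ j ∈ Finset.range (K + 1), c j * (j : ℝ) ^ (K + 1 + l)|
          ≤ r ^ (K + l) * (C0 * ((K : ℝ) + 1) ^ (K + 1 + l)) :=
            mul_le_mul_of_nonneg_left h2 (by positivity)
        _ = C0 * (K + 1) * (t ^ K * t ^ l) := by
            rw [← hrK, mul_pow, mul_pow, pow_add, pow_add, pow_add]
            ring
        _ ≤ C0 * (K + 1) * (t ^ K * 1) := by
            refine mul_le_mul_of_nonneg_left ?_ (by positivity)
            exact mul_le_mul_of_nonneg_left (pow_le_one₀ htp.le ht1) (by positivity)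
        _ = C0 * (K + 1) * t ^ K := by ring
  -- decomposition
  have hdec : ∀ x, rad F x = mul lamA F x + mul lamE F x := by
    intro x
    rw [← mul_add_lam]
    unfold rad
    congr 1
    funext k
    rw [hlamE]
    ring
  -- first part
  have hpart1 : ∑ x, N (mul lamA F x) ^ 2 ≤ (C0 / r) ^ 2 * ∑ e, N (F e) ^ 2 := by
    have h1 : ∀ x, N (mul lamA F x) ^ 2 ≤ (C0 / r) * ∑ j ∈ Finset.range (K + 1),
        |c j / r| * N (mul (fun k => (r * j) ^ k) F x) ^ 2 := by
      intro x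
      rw [hlamA, mul_sum_lam]
      refine (jensen N _ _ _).trans ?_
      refine mul_le_mul_of_nonneg_right ?_ (Finset.sum_nonneg fun j _ =>
        mul_nonneg (abs_nonneg _) (sq_nonneg _))
      simp_rw [abs_div, abs_of_pos hrp]
      rw [← Finset.sum_div]
      exact div_le_div_of_nonneg_right hC0s hrp.le
    refine (Finset.sum_le_sum fun x _ => h1 x).trans ?_
    rw [← Finset.mul_sum, Finset.sum_comm]
    have h2 : ∀ j ∈ Finset.range (K + 1), ∑ x, |c j / r| * N (mul (fun k => (r * j) ^ k) F x) ^ 2 ≤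
        |c j / r| * ∑ e, N (F e) ^ 2 := by
      intro j hj
      rw [← Finset.mul_sum]
      refine mul_le_mul_of_nonneg_left ?_ (abs_nonneg _)
      refine noise_le N (by positivity) ?_ F
      have : (j : ℝ) ≤ K + 1 := by exact_mod_cast (Finset.mem_range.mp hj).le
      calc r * (j : ℝ) ≤ r * (K + 1) := mul_le_mul_of_nonneg_left this hrp.le
        _ = t := hrK
        _ ≤ 1 := ht1
    have h3 : ∑ j ∈ Finset.range (K + 1), ∑ x, |c j / r| * N (mul (fun k => (r * j) ^ k) F x) ^ 2 ≤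
        (C0 / r) * ∑ e, N (F e) ^ 2 := by
      refine (Finset.sum_le_sum h2).trans ?_
      rw [← Finset.sum_mul]
      refine mul_le_mul_of_nonneg_right ?_ (Finset.sum_nonneg fun e _ => sq_nonneg _)
      simp_rw [abs_div, abs_of_pos hrp]
      rw [← Finset.sum_div]
      exact div_le_div_of_nonneg_right hC0s hrp.le
    calc (C0 / r) * ∑ j ∈ Finset.range (K + 1),
          ∑ x, |c j / r| * N (mul (fun k => (r * j) ^ k) F x) ^ 2
        ≤ (C0 / r) * ((C0 / r) * ∑ e, N (F e) ^ 2) :=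
          mul_le_mul_of_nonneg_left h3 (by positivity)
      _ = _ := by ring
  -- second part
  have hpart2 : ∑ x, N (mul lamE F x) ^ 2 ≤
      (b / a * (C0 * (K + 1) * t ^ K)) ^ 2 * ∑ e, N (F e) ^ 2 := by
    calc ∑ x, N (mul lamE F x) ^ 2 ≤ ∑ x, b ^ 2 * ∑ i, mul lamE F x i ^ 2 :=
          Finset.sum_le_sum fun x _ => hu _
      _ = b ^ 2 * ∑ i, ∑ x, mul lamE (fun e => F e i) x ^ 2 := by
          rw [← Finset.mul_sum, Finset.sum_comm]
          simp_rw [mul_apply_coord]
      _ ≤ b ^ 2 * ∑ i, (C0 * (K + 1) * t ^ K) ^ 2 * ∑ e, F e i ^ 2 := by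
          refine mul_le_mul_of_nonneg_left (Finset.sum_le_sum fun i _ => ?_) (sq_nonneg _)
          exact mul_bound lamE _ (fun k _ => hE1 k) _
      _ = (b * (C0 * (K + 1) * t ^ K)) ^ 2 * ∑ e, ∑ i, F e i ^ 2 := by
          rw [← Finset.mul_sum, Finset.sum_comm]
          ring
      _ ≤ (b * (C0 * (K + 1) * t ^ K)) ^ 2 * ∑ e, (a ^ 2)⁻¹ * N (F e) ^ 2 := by
          refine mul_le_mul_of_nonneg_left (Finset.sum_le_sum fun e _ => ?_) (sq_nonneg _)
          rw [le_inv_mul_iff₀ (by positivity)]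
          exact hl _
      _ = _ := by
          rw [← Finset.mul_sum]
          field_simp
  have hsum : ∑ e, N (rad F e) ^ 2 ≤ 2 * ∑ x, N (mul lamA F x) ^ 2 +
      2 * ∑ x, N (mul lamE F x) ^ 2 := by
    rw [Finset.mul_sum, Finset.mul_sum, ← Finset.sum_add_distrib]
    refine Finset.sum_le_sum fun x _ => ?_
    rw [hdec]
    have h1 := map_add_le_add N (mul lamA F x) (mul lamE F x)
    have h2 : 0 ≤ N (mul lamA F x + mul lamE F x) := apply_nonneg N _
    nlinarith [sq_nonneg (N (mul lamA F x) - N (mul lamE F x)), pow_le_pow_left₀ h2 h1 2]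
  have hS : 0 ≤ ∑ e, N (F e) ^ 2 := Finset.sum_nonneg fun e _ => sq_nonneg _
  have e1 : C0 / r = C0 * (K + 1) * ρ := by
    rw [hr, ht]; field_simp
  have e2 : b / a * (C0 * (K + 1) * t ^ K) = C0 * (K + 1) * ρ := by
    rw [← hρK, ht, pow_succ, inv_pow]
    field_simp
  rw [e1] at hpart1
  rw [e2] at hpart2
  calc ∑ e, N (rad F e) ^ 2 ≤ 2 * ∑ x, N (mul lamA F x) ^ 2 + 2 * ∑ x, N (mul lamE F x) ^ 2 := hsum
    _ ≤ 2 * ((C0 * (K + 1) * ρ) ^ 2 * ∑ e, N (F e) ^ 2) +
        2 * ((C0 * (K + 1) * ρ) ^ 2 * ∑ e, N (F e) ^ 2) := by linarith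
    _ = (2 * C0 * (K + 1) * ρ) ^ 2 * ∑ e, N (F e) ^ 2 := by ring

end Crest.Agent.R152.WrmK
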