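import Mathlib
import Crest.Agent.R152.WrmK

/-!
# Row 152, weak reverse Minkowski, step (6b): good position (helper725)

A matrix `B` of determinant one minimising the Rademacher average `ell N B = E N (B ε)` satisfies
`ell N B * E ⟨ε, F ε⟩ ≤ C (b/a)^(1/(K+1)) m` for every `F` with values in the unit ball of
`x ↦ N (B x)`.
-/

set_option autoImplicit false
open Finset Matrix

namespace Crest.Agent.R152.WrmK

variable {m : ℕ}

/-- sign vector -/
def sv (e : Fin m → Bool) : Fin m → ℝ := fun j => sg (e j)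

/-- Rademacher average of the norm `N (B ·)` -/
noncomputable def ell (N : Seminorm ℝ (Fin m → ℝ)) (B : Matrix (Fin m) (Fin m) ℝ) : ℝ :=
  ((2 : ℝ) ^ m)⁻¹ * ∑ e : Fin m → Bool, N (B *ᵥ sv e)

theorem sum_sg_mul_sg (i j : Fin m) :
    ∑ e : Fin m → Bool, sg (e i) * sg (e j) = if i = j then (2 : ℝ) ^ m else 0 := by
  have h := wch_orth (n := m) {i} {j}
  simpa [wch] using h

theorem ell_nonneg (N : Seminorm ℝ (Fin m → ℝ)) (B : Matrix (Fin m) (Fin m) ℝ) : 0 ≤ ell N B :=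
  mul_nonneg (by positivity) (Finset.sum_nonneg fun _ _ => apply_nonneg N _)

theorem ell_add (N : Seminorm ℝ (Fin m → ℝ)) (A B : Matrix (Fin m) (Fin m) ℝ) :
    ell N (A + B) ≤ ell N A + ell N B := by
  unfold ell
  rw [← mul_add, ← Finset.sum_add_distrib]
  refine mul_le_mul_of_nonneg_left (Finset.sum_le_sum fun e _ => ?_) (by positivity)
  rw [Matrix.add_mulVec]
  exact map_add_le_add N _ _

theorem ell_smul (N : Seminorm ℝ (Fin m → ℝ)) {c : ℝ} (hc : 0 ≤ c)
    (B : Matrix (Fin m) (Fin m) ℝ) : ell N (c • B) = c * ell N B := by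
  unfold ell
  simp_rw [Matrix.smul_mulVec, map_smul_eq_mul, Real.norm_eq_abs, abs_of_nonneg hc]
  rw [← Finset.mul_sum]
  ring

theorem coord_le (N : Seminorm ℝ (Fin m → ℝ)) {a : ℝ}
    (hl : ∀ x : Fin m → ℝ, a ^ 2 * ∑ i, x i ^ 2 ≤ N x ^ 2) (x : Fin m → ℝ) (i : Fin m) :
    a * |x i| ≤ N x := by
  have h1 : (a * |x i|) ^ 2 ≤ N x ^ 2 := by
    refine le_trans ?_ (hl x)
    rw [mul_pow, sq_abs]
    refine mul_le_mul_of_nonneg_left ?_ (sq_nonneg _)
    exact Finset.single_le_sum (f := fun i => x i ^ 2) (fun i _ => sq_nonneg _)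
      (Finset.mem_univ i)
  exact (abs_le_of_sq_le_sq' h1 (apply_nonneg N _)).2

theorem entry_le (N : Seminorm ℝ (Fin m → ℝ)) {a : ℝ} (ha : 0 < a)
    (hl : ∀ x : Fin m → ℝ, a ^ 2 * ∑ i, x i ^ 2 ≤ N x ^ 2) (B : Matrix (Fin m) (Fin m) ℝ)
    (i j : Fin m) : a * |B i j| ≤ ell N B := by
  have h2 : (0 : ℝ) < (2 : ℝ) ^ m := by positivity
  have h3 : ∑ e : Fin m → Bool, sg (e j) * (B *ᵥ sv e) i = (2 : ℝ) ^ m * B i j := by
    simp only [Matrix.mulVec, dotProduct, sv, Finset.mul_sum]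
    rw [Finset.sum_comm]
    have : ∀ k : Fin m, ∑ e : Fin m → Bool, sg (e j) * (B i k * sg (e k)) =
        B i k * (if j = k then (2 : ℝ) ^ m else 0) := by
      intro k
      rw [← sum_sg_mul_sg, Finset.mul_sum]
      refine Finset.sum_congr rfl fun e _ => ?_
      ring
    simp_rw [this]
    simp
    ring
  have h4 : (2 : ℝ) ^ m * |B i j| ≤ ∑ e : Fin m → Bool, |(B *ᵥ sv e) i| := by
    rw [← abs_of_pos h2, ← abs_mul, ← h3]
    refine (Finset.abs_sum_le_sum_abs _ _).trans (Finset.sum_le_sum fun e _ => ?_)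
    rw [abs_mul]
    have : |sg (e j)| = 1 := by cases e j <;> simp [sg]
    rw [this, one_mul]
  unfold ell
  rw [le_inv_mul_iff₀ h2]
  calc (2 : ℝ) ^ m * (a * |B i j|) = a * ((2 : ℝ) ^ m * |B i j|) := by ring
    _ ≤ a * ∑ e : Fin m → Bool, |(B *ᵥ sv e) i| := mul_le_mul_of_nonneg_left h4 ha.le
    _ = ∑ e : Fin m → Bool, a * |(B *ᵥ sv e) i| := by rw [Finset.mul_sum]
    _ ≤ _ := Finset.sum_le_sum fun e _ => coord_le N hl _ i

theorem cont_N (N : Seminorm ℝ (Fin m → ℝ)) : Continuous N := by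
  have h := N.convexOn
  exact continuousOn_univ.mp (h.continuousOn isOpen_univ)

theorem cont_ell (N : Seminorm ℝ (Fin m → ℝ)) : Continuous (ell N) := by
  unfold ell
  refine continuous_const.mul (continuous_finsetSum _ fun e _ => ?_)
  exact (cont_N N).comp (continuous_id.matrix_mulVec continuous_const)

theorem exists_min (N : Seminorm ℝ (Fin m → ℝ)) {a : ℝ} (ha : 0 < a)
    (hl : ∀ x : Fin m → ℝ, a ^ 2 * ∑ i, x i ^ 2 ≤ N x ^ 2) :
    ∃ B : Matrix (Fin m) (Fin m) ℝ, B.det = 1 ∧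
      ∀ B' : Matrix (Fin m) (Fin m) ℝ, B'.det = 1 → ell N B ≤ ell N B' := by
  set R : ℝ := ell N 1 / a with hR
  set box : Set (Matrix (Fin m) (Fin m) ℝ) :=
    Set.pi Set.univ fun _ => Set.pi Set.univ fun _ => Set.Icc (-R) R with hbox
  have hboxc : IsCompact box := by
    refine isCompact_univ_pi fun _ => isCompact_univ_pi fun _ => isCompact_Icc
  set S : Set (Matrix (Fin m) (Fin m) ℝ) := {B | B.det = 1 ∧ ell N B ≤ ell N 1} with hS
  have hSc : IsClosed S := by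
    refine IsClosed.inter ?_ ?_
    · exact isClosed_eq (continuous_id.matrix_det) continuous_const
    · exact isClosed_le (cont_ell N) continuous_const
  have hSb : S ⊆ box := by
    intro B hB i _ j _
    have h1 := (entry_le N ha hl B i j).trans hB.2
    have h2 : |B i j| ≤ R := by
      rw [hR, le_div_iff₀ ha]
      linarith
    exact ⟨(abs_le.mp h2).1, (abs_le.mp h2).2⟩
  have hScomp : IsCompact S := hboxc.of_isClosed_subset hSc hSb
  have h1S : (1 : Matrix (Fin m) (Fin m) ℝ) ∈ S := ⟨Matrix.det_one, le_refl _⟩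
  obtain ⟨B, hB, hmin⟩ := hScomp.exists_isMinOn ⟨1, h1S⟩ (cont_ell N).continuousOn
  refine ⟨B, hB.1, fun B' hB' => ?_⟩
  by_cases h : ell N B' ≤ ell N 1
  · exact hmin ⟨hB', h⟩
  · exact hB.2.trans (not_le.mp h).le

/-- homogeneous form of minimality -/
theorem min_hom (hm : 0 < m) (N : Seminorm ℝ (Fin m → ℝ)) {B : Matrix (Fin m) (Fin m) ℝ}
    (hmin : ∀ B' : Matrix (Fin m) (Fin m) ℝ, B'.det = 1 → ell N B ≤ ell N B')
    (B' : Matrix (Fin m) (Fin m) ℝ) (hB' : 0 < B'.det) :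
    ell N B ^ m * B'.det ≤ ell N B' ^ m := by
  set s : ℝ := B'.det ^ (1 / (m : ℝ)) with hs
  have hsp : 0 < s := Real.rpow_pos_of_pos hB' _
  have hsm : s ^ m = B'.det := by
    rw [hs, ← Real.rpow_natCast, ← Real.rpow_mul hB'.le]
    have : (m : ℝ) ≠ 0 := by positivity
    rw [one_div, inv_mul_cancel₀ this, Real.rpow_one]
  have h1 : (s⁻¹ • B').det = 1 := by
    rw [Matrix.det_smul, Fintype.card_fin, inv_pow, hsm, inv_mul_cancel₀ hB'.ne']
  have h2 := hmin _ h1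
  rw [ell_smul N (inv_pos.mpr hsp).le, le_inv_mul_iff₀ hsp] at h2
  have h3 := pow_le_pow_left₀ (mul_nonneg hsp.le (ell_nonneg N B)) h2 m
  rw [mul_pow, hsm] at h3
  linarith

theorem hasDerivAt_det (T : Matrix (Fin m) (Fin m) ℝ) :
    HasDerivAt (fun t : ℝ => (1 + t • T).det) T.trace 0 := by
  set q : Polynomial ℝ := (det (1 + (Polynomial.X : Polynomial ℝ) • T.map Polynomial.C)).divX.divX
    with hq
  have h1 : (fun t : ℝ => (1 + t • T).det) = fun t => 1 + T.trace * t + q.eval t * t ^ 2 := by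
    funext t
    exact Matrix.det_one_add_smul t T
  rw [h1]
  have h2 : HasDerivAt (fun t : ℝ => 1 + T.trace * t + q.eval t * t ^ 2)
      (0 + T.trace * 1 + ((Polynomial.derivative q).eval 0 * (0 : ℝ) ^ 2 +
        q.eval 0 * (((2 : ℕ) : ℝ) * (0 : ℝ) ^ (2 - 1)))) 0 := by
    exact (((hasDerivAt_const (0 : ℝ) (1 : ℝ)).add ((hasDerivAt_id (0 : ℝ)).const_mul _))).add
      ((q.hasDerivAt 0).mul (hasDerivAt_pow 2 (0 : ℝ)))
  simpa using h2

/-- (6.2) first-order condition at a minimiser -/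
theorem first_order (hm : 0 < m) (N : Seminorm ℝ (Fin m → ℝ)) {B : Matrix (Fin m) (Fin m) ℝ}
    (hdet : B.det = 1) (hpos : 0 < ell N B)
    (hmin : ∀ B' : Matrix (Fin m) (Fin m) ℝ, B'.det = 1 → ell N B ≤ ell N B')
    (T : Matrix (Fin m) (Fin m) ℝ) : T.trace * ell N B ≤ m * ell N (B * T) := by
  set L := ell N B with hL
  set g : ℝ → ℝ := fun t => (L + t * ell N (B * T)) ^ m - L ^ m * (1 + t • T).det with hg
  have hg0 : g 0 = 0 := by simp [hg]
  have hd : HasDerivAt g (m * L ^ (m - 1) * ell N (B * T) - L ^ m * T.trace) 0 := by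
    have h1 : HasDerivAt (fun t : ℝ => L + t * ell N (B * T)) (ell N (B * T)) 0 := by
      simpa using ((hasDerivAt_id (0 : ℝ)).mul_const (ell N (B * T))).const_add L
    have h2 := h1.pow m
    have h3 := (hasDerivAt_det T).const_mul (L ^ m)
    have h4 := h2.sub h3
    have h5 : (fun t => L + t * ell N (B * T)) ^ m - (fun y => L ^ m * (1 + y • T).det) = g := by
      funext t
      simp [hg]
    rw [h5] at h4
    simpa using h4
  -- nonnegativity for small positive `t`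
  have hev : ∀ᶠ t in nhdsWithin (0 : ℝ) (Set.Ioi 0), 0 ≤ slope g 0 t := by
    have hc : ContinuousAt (fun t : ℝ => (1 + t • T).det) 0 := (hasDerivAt_det T).continuousAt
    have h1 : ∀ᶠ t in nhds (0 : ℝ), 0 < (1 + t • T).det := by
      refine hc.eventually_const_lt ?_
      simp
    filter_upwards [nhdsWithin_le_nhds h1, self_mem_nhdsWithin] with t ht htp
    have htp' : 0 < t := htp
    have h2 := min_hom hm N hmin (B * (1 + t • T)) (by rw [Matrix.det_mul, hdet, one_mul]; exact ht)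
    rw [Matrix.det_mul, hdet, one_mul] at h2
    have h3 : ell N (B * (1 + t • T)) ≤ L + t * ell N (B * T) := by
      rw [mul_add, mul_one, Matrix.mul_smul]
      refine (ell_add N _ _).trans (le_of_eq ?_)
      rw [ell_smul N htp'.le]
    have h4 := h2.trans (pow_le_pow_left₀ (ell_nonneg N _) h3 m)
    rw [slope_def_field, hg0, sub_zero, sub_zero]
    refine div_nonneg ?_ htp'.le
    simp only [hg]
    linarith
  have hlim : Filter.Tendsto (slope g 0) (nhdsWithin (0 : ℝ) (Set.Ioi 0))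
      (nhds (m * L ^ (m - 1) * ell N (B * T) - L ^ m * T.trace)) := by
    refine (hasDerivAt_iff_tendsto_slope.mp hd).mono_left ?_
    exact nhdsWithin_mono _ fun t ht => ne_of_gt ht
  have hfin := ge_of_tendsto hlim hev
  obtain ⟨k, rfl⟩ : ∃ k, m = k + 1 := ⟨m - 1, by omega⟩
  rw [Nat.add_sub_cancel, pow_succ] at hfin
  have hLk : 0 < L ^ k := pow_pos hpos k
  have : 0 ≤ L ^ k * (((k + 1 : ℕ) : ℝ) * ell N (B * T) - T.trace * L) := by
    linarith
  have := nonneg_of_mul_nonneg_right this hLk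
  linarith

/-- the matrix `E (F ε) εᵀ` -/
noncomputable def tmat (F : (Fin m → Bool) → Fin m → ℝ) : Matrix (Fin m) (Fin m) ℝ :=
  fun i j => ((2 : ℝ) ^ m)⁻¹ * ∑ e : Fin m → Bool, sg (e j) * F e i

theorem trace_tmat (F : (Fin m → Bool) → Fin m → ℝ) :
    (tmat F).trace = ((2 : ℝ) ^ m)⁻¹ * ∑ e : Fin m → Bool, ∑ i, sg (e i) * F e i := by
  simp only [Matrix.trace, Matrix.diag, tmat]
  rw [← Finset.mul_sum, Finset.sum_comm]

theorem rad_eq (F : (Fin m → Bool) → Fin m → ℝ) (x : Fin m → Bool) :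
    rad F x = (tmat F) *ᵥ sv x := by
  funext i
  unfold rad
  rw [mul_apply_coord]
  simp only [mul, hat, smul_eq_mul, Matrix.mulVec, dotProduct, tmat, sv]
  have h1 : ∀ S : Finset (Fin m), ((if S.card = 1 then (1 : ℝ) else 0) * wch S x) *
      (((2 : ℝ) ^ m)⁻¹ * ∑ e, wch S e * F e i) =
      if S.card = 1 then wch S x * (((2 : ℝ) ^ m)⁻¹ * ∑ e, wch S e * F e i) else 0 := by
    intro S
    split_ifs <;> simp
  simp_rw [h1]
  rw [← Finset.sum_filter]
  have h2 : (Finset.univ.filter fun S : Finset (Fin m) => S.card = 1) =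
      Finset.univ.image (fun j : Fin m => ({j} : Finset (Fin m))) := by
    ext S
    simp [Finset.card_eq_one, eq_comm]
  rw [h2, Finset.sum_image (fun a _ b _ h => by simpa using h)]
  refine Finset.sum_congr rfl fun j _ => ?_
  simp only [wch, Finset.prod_singleton]
  ring

theorem rad_mulVec (B : Matrix (Fin m) (Fin m) ℝ) (F : (Fin m → Bool) → Fin m → ℝ)
    (x : Fin m → Bool) : rad (fun e => B *ᵥ F e) x = B *ᵥ rad F x := by
  rw [rad_eq, rad_eq, Matrix.mulVec_mulVec]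
  congr 1
  ext i j
  simp only [tmat, Matrix.mulVec, dotProduct, Matrix.mul_apply, Finset.mul_sum]
  rw [Finset.sum_comm]
  refine Finset.sum_congr rfl fun k _ => Finset.sum_congr rfl fun e _ => ?_
  ring

/-- (6.3) good position -/
theorem good_position (K : ℕ) (hK : 1 ≤ K) : ∃ C : ℝ, 0 < C ∧ ∀ (m : ℕ) (_ : 0 < m)
    (N : Seminorm ℝ (Fin m → ℝ)) (a b : ℝ), 0 < a → a ≤ b →
    (∀ x : Fin m → ℝ, a ^ 2 * ∑ i, x i ^ 2 ≤ N x ^ 2) →
    (∀ x : Fin m → ℝ, N x ^ 2 ≤ b ^ 2 * ∑ i, x i ^ 2) →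
    ∃ B : Matrix (Fin m) (Fin m) ℝ, B.det = 1 ∧ 0 < ell N B ∧
      ∀ F : (Fin m → Bool) → Fin m → ℝ, (∀ e, N (B *ᵥ F e) ≤ 1) →
        ell N B * (((2 : ℝ) ^ m)⁻¹ * ∑ e : Fin m → Bool, ∑ i, sg (e i) * F e i) ≤
          C * (b / a) ^ (1 / ((K : ℝ) + 1)) * m := by
  obtain ⟨C, hC, hkc⟩ := kconv K hK
  refine ⟨C, hC, ?_⟩
  intro m hm N a b ha hab hl hu
  obtain ⟨B, hdet, hmin⟩ := exists_min N ha hl
  have hpos : 0 < ell N B := by
    obtain ⟨i, j, hij⟩ : ∃ i j, B i j ≠ 0 := by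
      by_contra hc
      push Not at hc
      have hB0 : B = 0 := by ext i j; exact hc i j
      rw [hB0] at hdet
      have hne : Nonempty (Fin m) := ⟨⟨0, hm⟩⟩
      rw [Matrix.det_zero] at hdet
      exact zero_ne_one hdet
    exact lt_of_lt_of_le (mul_pos ha (abs_pos.mpr hij)) (entry_le N ha hl B i j)
  refine ⟨B, hdet, hpos, fun F hF => ?_⟩
  have h2m : (0 : ℝ) < (2 : ℝ) ^ m := by positivity
  set c : ℝ := C * (b / a) ^ (1 / ((K : ℝ) + 1)) with hc
  have hc0 : 0 ≤ c := by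
    have hb : 0 < b := lt_of_lt_of_le ha hab
    positivity
  have h1 := first_order hm N hdet hpos hmin (tmat F)
  rw [trace_tmat] at h1
  have h2 : ell N (B * tmat F) = ((2 : ℝ) ^ m)⁻¹ * ∑ e, N (rad (fun e => B *ᵥ F e) e) := by
    unfold ell
    congr 1
    refine Finset.sum_congr rfl fun e _ => ?_
    rw [rad_mulVec, rad_eq, Matrix.mulVec_mulVec]
  have h3 : ∑ e, N (rad (fun e => B *ᵥ F e) e) ^ 2 ≤ c ^ 2 * (2 : ℝ) ^ m := by
    refine (hkc m m N a b ha hab hl hu (fun e => B *ᵥ F e)).trans ?_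
    refine mul_le_mul_of_nonneg_left ?_ (sq_nonneg _)
    calc ∑ e, N (B *ᵥ F e) ^ 2 ≤ ∑ _e : Fin m → Bool, (1 : ℝ) :=
          Finset.sum_le_sum fun e _ => pow_le_one₀ (apply_nonneg N _) (hF e)
      _ = (2 : ℝ) ^ m := by simp
  have h4 : (∑ e, N (rad (fun e => B *ᵥ F e) e)) ^ 2 ≤ (c * (2 : ℝ) ^ m) ^ 2 := by
    have := sq_sum_le_card_mul_sum_sq (s := (Finset.univ : Finset (Fin m → Bool)))
      (f := fun e => N (rad (fun e => B *ᵥ F e) e))
    refine this.trans ?_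
    have hcard : (((Finset.univ : Finset (Fin m → Bool)).card : ℕ) : ℝ) = (2 : ℝ) ^ m := by simp
    rw [hcard]
    calc (2 : ℝ) ^ m * ∑ e, N (rad (fun e => B *ᵥ F e) e) ^ 2
        ≤ (2 : ℝ) ^ m * (c ^ 2 * (2 : ℝ) ^ m) := mul_le_mul_of_nonneg_left h3 h2m.le
      _ = (c * (2 : ℝ) ^ m) ^ 2 := by ring
  have h5 : ∑ e, N (rad (fun e => B *ᵥ F e) e) ≤ c * (2 : ℝ) ^ m :=
    (abs_le_of_sq_le_sq' h4 (by positivity)).2
  have h6 : ell N (B * tmat F) ≤ c := by
    rw [h2, inv_mul_le_iff₀ h2m]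
    linarith
  calc ell N B * (((2 : ℝ) ^ m)⁻¹ * ∑ e : Fin m → Bool, ∑ i, sg (e i) * F e i)
      = (((2 : ℝ) ^ m)⁻¹ * ∑ e : Fin m → Bool, ∑ i, sg (e i) * F e i) * ell N B := mul_comm _ _
    _ ≤ m * ell N (B * tmat F) := h1
    _ ≤ m * c := mul_le_mul_of_nonneg_left h6 (by positivity)
    _ = c * m := mul_comm _ _

end Crest.Agent.R152.WrmK
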