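import Mathlib
import Crest.Agent.R152.WrmK2

/-!
# Row 152, weak reverse Minkowski, step (6c): good position, for convex bodies (helper725)
-/

set_option autoImplicit false
open Finset Matrix
open scoped RealInnerProductSpace

namespace Crest.Agent.R152.WrmK

/-- sign vector in euclidean space -/
noncomputable def svE {m : ℕ} (e : Fin m → Bool) : EuclideanSpace ℝ (Fin m) := WithLp.toLp 2 (sv e)

/-- (6.3) good position, sup form -/
theorem good_position_body (K : ℕ) (hK : 1 ≤ K) : ∃ C : ℝ, 0 < C ∧ ∀ (m : ℕ) (_ : 0 < m)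
    (V : Set (EuclideanSpace ℝ (Fin m))) (r R : ℝ), 0 < r → r ≤ R → Convex ℝ V →
    (∀ x ∈ V, -x ∈ V) → Metric.ball 0 r ⊆ V → V ⊆ Metric.closedBall 0 R →
    ∃ B : EuclideanSpace ℝ (Fin m) →ₗ[ℝ] EuclideanSpace ℝ (Fin m), LinearMap.det B = 1 ∧
      0 < ((2 : ℝ) ^ m)⁻¹ * ∑ e : Fin m → Bool, gauge V (B (svE e)) ∧
      (((2 : ℝ) ^ m)⁻¹ * ∑ e : Fin m → Bool, gauge V (B (svE e))) *
      (((2 : ℝ) ^ m)⁻¹ * ∑ e : Fin m → Bool, sSup ((fun x => ⟪x, svE e⟫) '' (B ⁻¹' V))) ≤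
      C * (R / r) ^ (1 / ((K : ℝ) + 1)) * m := by
  obtain ⟨C, hC, hg⟩ := good_position K hK
  refine ⟨C, hC, ?_⟩
  intro m hm V r R hr hrR hconv hsymm hball hsub
  have hR : 0 < R := lt_of_lt_of_le hr hrR
  have h0 : (0 : EuclideanSpace ℝ (Fin m)) ∈ V := hball (by simpa using hr)
  have habs : Absorbent ℝ V := absorbent_nhds_zero (Filter.mem_of_superset (Metric.ball_mem_nhds 0 hr) hball)
  have hbal : Balanced ℝ V := by
    intro c hc x hx
    obtain ⟨y, hy, rfl⟩ := hx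
    have hc' : |c| ≤ 1 := by simpa using hc
    have h1 : (1 - (1 + c) / 2) • (-y) + ((1 + c) / 2) • y ∈ V := by
      refine hconv (hsymm y hy) hy ?_ ?_ (by ring)
      · linarith [(abs_le.mp hc').2]
      · linarith [(abs_le.mp hc').1]
    have h2 : c • y = (1 - (1 + c) / 2) • (-y) + ((1 + c) / 2) • y := by
      rw [smul_neg, ← neg_smul, ← add_smul]
      congr 1
      ring
    show c • y ∈ V
    rw [h2]
    exact h1
  set L : (Fin m → ℝ) ≃ₗ[ℝ] EuclideanSpace ℝ (Fin m) := (WithLp.linearEquiv 2 ℝ (Fin m → ℝ)).symm with hL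
  set N : Seminorm ℝ (Fin m → ℝ) := (gaugeSeminorm hbal hconv habs).comp L.toLinearMap with hN
  have hNx : ∀ x, N x = gauge V (L x) := by
    intro x
    rw [hN, Seminorm.comp_apply]
    rfl
  have hLx : ∀ x, ‖L x‖ ^ 2 = ∑ i, x i ^ 2 := by
    intro x
    rw [EuclideanSpace.norm_sq_eq]
    refine Finset.sum_congr rfl fun i _ => ?_
    rw [Real.norm_eq_abs, sq_abs]
    rfl
  have hl : ∀ x : Fin m → ℝ, R⁻¹ ^ 2 * ∑ i, x i ^ 2 ≤ N x ^ 2 := by
    intro x
    rw [← hLx, ← mul_pow, hNx]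
    refine pow_le_pow_left₀ (by positivity) ?_ 2
    have := le_gauge_of_subset_closedBall (x := L x) habs hR.le hsub
    rwa [div_eq_inv_mul] at this
  have hu : ∀ x : Fin m → ℝ, N x ^ 2 ≤ r⁻¹ ^ 2 * ∑ i, x i ^ 2 := by
    intro x
    rw [← hLx, ← mul_pow, hNx]
    refine pow_le_pow_left₀ (gauge_nonneg _) ?_ 2
    have := mul_gauge_le_norm (x := L x) hball
    rwa [inv_mul_eq_div, le_div_iff₀' hr]
  obtain ⟨B, hdet, hpos, hF⟩ := hg m hm N R⁻¹ r⁻¹ (by positivity)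
    (inv_anti₀ hr hrR) hl hu
  have hratio : r⁻¹ / R⁻¹ = R / r := by field_simp
  rw [hratio] at hF
  refine ⟨L.conj (Matrix.toLin' B), ?_, ?_, ?_⟩
  · rw [LinearEquiv.conj_apply, LinearMap.comp_assoc, LinearMap.det_conj, LinearMap.det_toLin', hdet]
  · exact hpos
  · have hell : ((2 : ℝ) ^ m)⁻¹ * ∑ e : Fin m → Bool, gauge V (L.conj (Matrix.toLin' B) (svE e)) =
        ell N B := rfl
    rw [hell]
    set W : Set (EuclideanSpace ℝ (Fin m)) := (L.conj (Matrix.toLin' B)) ⁻¹' V with hW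
    set A : ℝ := ((2 : ℝ) ^ m)⁻¹ * ∑ e : Fin m → Bool, sSup ((fun x => ⟪x, svE e⟫) '' W) with hA
    refine le_of_forall_pos_le_add fun δ hδ => ?_
    set ε : ℝ := δ / ell N B with hε
    have hεp : 0 < ε := div_pos hδ hpos
    have h0W : (0 : EuclideanSpace ℝ (Fin m)) ∈ W := by
      rw [hW, Set.mem_preimage, map_zero]
      exact h0
    have hch : ∀ e : Fin m → Bool, ∃ x ∈ W, sSup ((fun x => ⟪x, svE e⟫) '' W) - ε < ⟪x, svE e⟫ := by
      intro e
      obtain ⟨y, hy, hlt⟩ := exists_lt_of_lt_csSup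
        (b := sSup ((fun x => ⟪x, svE e⟫) '' W) - ε) (Set.Nonempty.image _ ⟨0, h0W⟩) (by linarith)
      obtain ⟨x, hx, rfl⟩ := hy
      exact ⟨x, hx, hlt⟩
    choose F hFW hFs using hch
    have h1 := hF (fun e => L.symm (F e)) (fun e => by
      rw [hNx]
      exact gauge_le_one_of_mem (hFW e))
    have h2 : ∀ e, ∑ i, sg (e i) * (L.symm (F e)) i = ⟪F e, svE e⟫ := by
      intro e
      rw [PiLp.inner_apply]
      rfl
    simp_rw [h2] at h1
    have h2m : (0 : ℝ) < (2 : ℝ) ^ m := by positivity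
    have h3 : A - ε ≤ ((2 : ℝ) ^ m)⁻¹ * ∑ e : Fin m → Bool, ⟪F e, svE e⟫ := by
      have h4 : ∑ e : Fin m → Bool, (sSup ((fun x => ⟪x, svE e⟫) '' W) - ε) ≤
          ∑ e : Fin m → Bool, ⟪F e, svE e⟫ := Finset.sum_le_sum fun e _ => (hFs e).le
      rw [Finset.sum_sub_distrib] at h4
      have h5 : ∑ _e : Fin m → Bool, ε = (2 : ℝ) ^ m * ε := by simp
      rw [h5] at h4
      have h6 := mul_le_mul_of_nonneg_left h4 (inv_pos.mpr h2m).le
      rw [mul_sub, ← mul_assoc ((2 : ℝ) ^ m)⁻¹, inv_mul_cancel₀ h2m.ne', one_mul] at h6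
      exact h6
    have h7 : ell N B * ε = δ := by rw [hε]; field_simp
    calc ell N B * A = ell N B * (A - ε) + δ := by rw [mul_sub, h7]; ring
      _ ≤ ell N B * (((2 : ℝ) ^ m)⁻¹ * ∑ e : Fin m → Bool, ⟪F e, svE e⟫) + δ := by
          gcongr
      _ ≤ _ := by gcongr

end Crest.Agent.R152.WrmK
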